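/-
Row 253 (S0390, S0391: sharp isotropic constant, sharp entropy bound).  One-dimensional functions, the
numerical facts and the certificates.  FROZEN definitions (owner helper40).  Outline: `R253/Blueprint.lean`.
-/
import Crest.Agent.R203N.Mills

set_option autoImplicit false

namespace Crest.Agent.R253

open Crest.Agent.R203N

/-- `μ = λ - l = (log λ)'`, `λ = haz`. -/
noncomputable def mu (l : ℝ) : ℝ := haz l - l
/-- `T = -log (1 - Φ)`, `T' = λ`. -/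
noncomputable def Tf (l : ℝ) : ℝ := Real.log (haz l) + l ^ 2 / 2 + Real.log (2 * Real.pi) / 2
/-- `τ = T / λ`. -/
noncomputable def tau (l : ℝ) : ℝ := Tf l / haz l
/-- `τ'`. -/
noncomputable def tau1 (l : ℝ) : ℝ := 1 - tau l * mu l
/-- `τ''`. -/
noncomputable def tau2 (l : ℝ) : ℝ := tau l - haz l + l * tau1 l
/-- `τ'''`. -/
noncomputable def tau3 (l : ℝ) : ℝ := 2 * tau1 l + l * tau2 l - haz1 l
/-- `n = τ' + τ τ''`. -/
noncomputable def nf (l : ℝ) : ℝ := tau1 l + tau l * tau2 l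
/-- `n'`. -/
noncomputable def nf1 (l : ℝ) : ℝ := tau2 l + tau1 l * tau2 l + tau l * tau3 l
/-- `v = τ (1 + τ')`. -/
noncomputable def vf (l : ℝ) : ℝ := tau l * (1 + tau1 l)
/-- `v' = n + τ'²`. -/
noncomputable def vf1 (l : ℝ) : ℝ := nf l + tau1 l ^ 2
/-- `log λ`. -/
noncomputable def lh (l : ℝ) : ℝ := Real.log (haz l)
/-- The inverse function of `λ : ℝ → (0, ∞)`. -/
noncomputable def ell (s : ℝ) : ℝ := Function.invFun haz s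
/-- A bounded increasing function with `gf' ≤ μ`. -/
noncomputable def gf (l : ℝ) : ℝ := Real.arctan l / 3
/-- The gain `ς(d)` of the kernel inequality, `d` a difference of values of `log λ`. -/
noncomputable def sg (d : ℝ) : ℝ := d ^ 2 / 12 + d ^ 4 / 360

/-- Numerical facts (true suprema: `0.08670, 0.09240, 0.03945, 0.09148, 0.16041, 0.65728`). -/
structure NF : Prop where
  t1_pos : ∀ l, 0 < tau1 l
  t1_le : ∀ l, tau1 l ≤ 1 / 2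
  t2_nonneg : ∀ l, 0 ≤ tau2 l
  t2_le : ∀ l, tau2 l ≤ 88 / 1000
  c1 : ∀ l, tau2 l ≤ 94 / 1000 * mu l
  c2 : ∀ l, |tau3 l| ≤ 41 / 1000 * mu l
  c3 : ∀ l, |nf1 l| ≤ 93 / 1000 * mu l
  c6 : ∀ l, tau2 l ^ 2 ≤ (165 / 1000) ^ 2 * (mu l ^ 2 * tau1 l)
  c7 : ∀ l, tau2 l ^ 2 ≤ (67 / 100) ^ 2 * (mu l ^ 2 * tau1 l ^ 3)

/-- The margin required from the certificates. -/
noncomputable def mg (s : ℝ) : ℝ := min ((s - 1) ^ 2) 1 / 1000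

/-- The weights of the bound for `A - x`. -/
structure Wt where
  r0 : ℝ
  r2 : ℝ
  r2' : ℝ
  r3 : ℝ
  r4 : ℝ
  h1 : ℝ
  h2 : ℝ
  h3 : ℝ
  p0 : 0 < r0
  p2 : 0 < r2
  p2' : 0 < r2'
  p3 : 0 < r3
  p4 : 0 < r4
  q1 : 0 < h1
  q2 : 0 < h2
  q3 : 0 < h3
  sum1 : r0 + r3 + r2 + h1 + h2 ≤ 1
  sum2 : r4 + r2' + h1 + h3 ≤ 1

/-- The coefficient of `b₁`. -/
noncomputable def Wt.e1 (w : Wt) : ℝ := (1 / w.h1 + 1 / w.h3) / 16
/-- The coefficient of `b₀`. -/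
noncomputable def Wt.e0 (w : Wt) : ℝ := (1 / w.h2 - 5 / (3 * w.h1)) / 16
/-- The coefficient of `s p²`. -/
noncomputable def Wt.ep (w : Wt) : ℝ := (88 / 1000) ^ 2 / 4 * (1 / w.r2 + 1 / w.r2')

/-- Certificate of type `P` (used for `s ≤ 4`). -/
def CertP (s : ℝ) : Prop := ∃ (w : Wt) (M η G Y0 Y1 c0 c1 cG β g : ℝ),
  0 < M ∧ 0 < η ∧ 0 < G ∧ 0 < Y0 ∧ 0 < Y1 ∧
  M / w.r4 + max (1 - M) 0 * (1 + 1 / η) ≤ 11 ∧ M * s / w.r3 ≤ 26 ∧ M * s * w.ep + G ≤ 1 / 10 ∧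
  Y1 ≤ 795 / 1000 - M * w.e1 - max (1 - M) 0 * (1 + η) / 4 ∧
  Y0 ≤ c1 - g - 795 / 1000 - M * w.e0
    + 2 * (795 / 1000 - M * w.e1 - max (1 - M) 0 * (1 + η) / 4 - Y1) ∧
  ∀ l, mg s ≤ (1 - M) * (1 + (s - 1) * nf l) + Real.log M - s * ((1 - M) * nf l - cG) ^ 2 / (4 * G)
    - ((1 - M) * vf l - c0 - c1 * l) ^ 2 / (4 * Y0) + β * l + g * (l ^ 2 - s)
    - (1 - M) ^ 2 * s / (256 * Y1) - (1 - M) ^ 2 * s / 20 - M * (s - 1) ^ 2 * tau2 l ^ 2 / w.r0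

/-- The condition under which the gradient terms are absorbed. -/
def Abs (cp a z : ℝ) : Prop :=
  0 ≤ a ∧ 0 ≤ z ∧ ∀ t, 0 ≤ t → t ≤ 1 / 2 → 0 ≤ 2 * cp - a * t ∧ (cp - a * t) ^ 2 ≤ z * (2 * cp - a * t)

/-- Certificate of type `R` (used for `3 ≤ s ≤ 18`). -/
def CertR (s : ℝ) : Prop := ∃ (w : Wt) (M G Y0 om cp z lam c0 cG β : ℝ),
  0 < M ∧ 0 < G ∧ 0 < Y0 ∧ 0 < om ∧ Abs cp (1 - M + cp ^ 2 / om) z ∧ z ≤ 38 / 100 ∧
  1 - M + cp ^ 2 / om + M / w.r4 ≤ 11 ∧ M * s / w.r3 ≤ 26 ∧ M * s * w.ep + G ≤ 1 / 10 ∧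
  om + M * w.e1 ≤ 795 / 1000 ∧ Y0 ≤ 795 / 1000 - 2 * M * w.e1 - M * w.e0 ∧
  ∀ l, mg s ≤ (1 - M) * (2 * Tf l - tau l ^ 2) - 2 * cp * (l * tau l) + Real.log M
    - s * (lam * tau1 l - cG) ^ 2 / (4 * G) - ((lam - 2 * cp) * tau l - c0) ^ 2 / (4 * Y0) + β * l
    - lam * (l * tau l - s * tau1 l) - lam ^ 2 * s / (4 * (68 / 10))
    - M * (s - 1) ^ 2 * tau2 l ^ 2 / w.r0

/-- Certificate of type `T` (used for `s ≥ 18`, with `lam, cG` proportional to `1/√s`). -/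
def CertT (s : ℝ) : Prop := ∃ (M om cp z lam c0 cG β : ℝ),
  0 < M ∧ 0 < om ∧ Abs cp (1 + cp ^ 2 / om) z ∧ z ≤ 38 / 100 ∧ 1 + cp ^ 2 / om ≤ 11 ∧
  om ≤ 795 / 1000 ∧
  ∀ l, mg s ≤ (2 * Tf l - tau l ^ 2) - 2 * cp * (l * tau l) + Real.log M
    - s * (lam * tau1 l - cG) ^ 2 / (4 * (1 / 10))
    - ((lam - 2 * cp) * tau l - c0) ^ 2 / (4 * (795 / 1000)) + β * l
    - lam * (l * tau l - s * tau1 l) - lam ^ 2 * s / (4 * (68 / 10)) - M * haz l ^ 2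

/-- All the numerical input of the proof. -/
structure Num : Prop where
  nf : NF
  cert : ∀ s, 0 ≤ s → CertP s ∨ CertR s ∨ CertT s

end Crest.Agent.R253
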