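/-
Row 253 (S0390, S0391).  FROZEN definitions (owner helper40).  Outline: `R253/Blueprint.lean`.
-/
import Crest.Agent.R253.Fun
import Crest.Agent.R203N.Defs

set_option autoImplicit false

namespace Crest.Agent.R253

open MeasureTheory ProbabilityTheory Matrix Crest.Agent.R203N

variable {ι : Type} [Fintype ι] [DecidableEq ι]

/-! ### Matrices -/

/-- `f1 = f'` is locally Lipschitz. -/
structure C2 (f f1 : ℝ → ℝ) : Prop where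
  hd : ∀ x, HasDerivAt f (f1 x) x
  lip : ∀ R : ℝ, ∃ K : ℝ, ∀ a b, |a| ≤ R → |b| ≤ R → |f1 a - f1 b| ≤ K * |a - b|

/-- Symmetric matrix with spectrum in `[a, b]`. -/
def Sp (a b : ℝ) (A : Matrix ι ι ℝ) : Prop :=
  A.IsSymm ∧ ∀ x : ι → ℝ, a * (x ⬝ᵥ x) ≤ x ⬝ᵥ A *ᵥ x ∧ x ⬝ᵥ A *ᵥ x ≤ b * (x ⬝ᵥ x)

open Classical in
/-- Schur multiplier with kernel `k` in an eigenbasis of `A` (`0` if `A` is not symmetric). -/
noncomputable def sch (k : ℝ → ℝ → ℝ) (A X : Matrix ι ι ℝ) : Matrix ι ι ℝ :=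
  if h : ∃ x : Matrix ι ι ℝ × (ι → ℝ), Orth x.1 ∧ A = Dg x.1 x.2 then
    h.choose.1 * (Matrix.of fun i j =>
      k (h.choose.2 i) (h.choose.2 j) * (h.choose.1ᵀ * X * h.choose.1) i j) * h.choose.1ᵀ else 0

/-- The derivative of `fm f` at `A` in the direction `X` (Daleckii-Krein). -/
noncomputable def Df (f f1 : ℝ → ℝ) (A X : Matrix ι ι ℝ) : Matrix ι ι ℝ := sch (dd f f1) A X

/-- The commutator `[f(A), X]`. -/
noncomputable def cm (f : ℝ → ℝ) (A X : Matrix ι ι ℝ) : Matrix ι ι ℝ := fm f A * X - X * fm f A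

/-- `∑ ς(log λ(a_i) - log λ(a_j)) X_ij²` in an eigenbasis of `A`. -/
noncomputable def sur (A X : Matrix ι ι ℝ) : ℝ :=
  hs (cm lh A X) / 12 + hs (cm lh A (cm lh A X)) / 360

/-- With `H = λ(A)`, `W = w(A)`, `t_k = ∂_k H`:
`∑ W_kl tr (H⁻¹ t_k H⁻¹ t_l) + ∑ (H⁻¹)_kl tr (∂_k W t_l)`. -/
noncomputable def Kq (w w1 : ℝ → ℝ) (A : Matrix ι ι ℝ) (X : ι → Matrix ι ι ℝ) : ℝ :=
  (∑ k, ∑ l, fm w A k l *
      (fm mills A * Df haz haz1 A (X k) * fm mills A * Df haz haz1 A (X l)).trace)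
    + ∑ k, ∑ l, fm mills A k l * (Df w w1 A (X k) * Df haz haz1 A (X l)).trace

noncomputable def kA1 (A X : Matrix ι ι ℝ) : Matrix ι ι ℝ := Df tau tau1 A X - fm tau1 A * X
noncomputable def kA4 (A X : Matrix ι ι ℝ) : Matrix ι ι ℝ := Df tau tau1 A X - X * fm tau1 A
noncomputable def kA2 (A X : Matrix ι ι ℝ) : Matrix ι ι ℝ := Df tau1 tau2 A X - fm tau2 A * X
noncomputable def kA3 (A X : Matrix ι ι ℝ) : Matrix ι ι ℝ :=
  Df vf vf1 A X - X * fm nf A + fm (fun l => tau1 l ^ 2) A * X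
    - (2 : ℝ) • (fm tau1 A * Df tau tau1 A X)
noncomputable def kA6 (A X : Matrix ι ι ℝ) : Matrix ι ι ℝ :=
  fm (fun l => (Real.sqrt (tau1 l))⁻¹) A * kA1 A X

/-! ### Square integrable fields -/

/-- Matrix field with entries in `L²`. -/
def LM (M : (ι → ℝ) → Matrix ι ι ℝ) : Prop := ∀ i j, L2 fun z => M z i j
/-- Vector field with entries in `L²`. -/
def LV (v : (ι → ℝ) → ι → ℝ) : Prop := ∀ i, L2 fun z => v z i
/-- Bounded measurable matrix field. -/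
def BM (M : (ι → ℝ) → Matrix ι ι ℝ) : Prop :=
  (∀ i j, Measurable fun z => M z i j) ∧ ∃ C : ℝ, ∀ z i j, |M z i j| ≤ C
/-- Scalar product of vector fields. -/
noncomputable def ip (u v : (ι → ℝ) → ι → ℝ) : ℝ := ∫ z, u z ⬝ᵥ v z ∂γ ι

/-- The field `T = ∇Ψ`, `DT = λ(L)`, `X_k = ∂_k L`, with the constraint coming from log-concavity. -/
structure Fld (ι : Type) [Fintype ι] [DecidableEq ι] where
  T : (ι → ℝ) → ι → ℝ
  L : (ι → ℝ) → Matrix ι ι ℝ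
  X : ι → (ι → ℝ) → Matrix ι ι ℝ
  R : ℝ
  mT : ∀ i, Measurable fun z => T z i
  mL : ∀ i j, Measurable fun z => L z i j
  mX : ∀ k i j, Measurable fun z => X k z i j
  sL : ∀ z, Sp (-R) R (L z)
  sX : ∀ k z, (X k z).IsSymm
  wT : ∀ i, WG (fun z => T z i) (fun j z => fm haz (L z) i j)
  chain : ∀ f f1, C2 f f1 → ∀ i j,
    WG (fun z => fm f (L z) i j) (fun k z => Df f f1 (L z) (X k z) i j)
  con : ∀ w w1, C2 w w1 → (∀ l, 0 < w l) →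
    ∫ z, Kq w w1 (L z) (fun k => X k z) ∂γ ι ≤ ∫ z, (fm w (L z)).trace ∂γ ι

namespace Fld

variable (F : Fld ι)

/-- The position condition `E L = 0`. -/
def Cen : Prop := ∀ i j, ∫ z, F.L z i j ∂γ ι = 0
/-- `D_k = E ∂_k L`. -/
noncomputable def D (k : ι) : Matrix ι ι ℝ := Matrix.of fun i j => ∫ z, F.X k z i j ∂γ ι
/-- `S = ∑ D_k²`. -/
noncomputable def S : Matrix ι ι ℝ := Sq F.D
/-- `E = L - B`. -/
noncomputable def E (z : ι → ℝ) : Matrix ι ι ℝ := F.L z - Bz F.D z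
/-- `Y_k = ∂_k E`. -/
noncomputable def Y (k : ι) (z : ι → ℝ) : Matrix ι ι ℝ := F.X k z - F.D k
/-- `∂_k τ(L)`. -/
noncomputable def dt (k : ι) (z : ι → ℝ) : Matrix ι ι ℝ := Df tau tau1 (F.L z) (F.X k z)
/-- The covariance matrix of `T`. -/
noncomputable def cov : Matrix ι ι ℝ := Matrix.of fun i j =>
  ∫ z, (F.T z i - ∫ y, F.T y i ∂γ ι) * (F.T z j - ∫ y, F.T y j ∂γ ι) ∂γ ι
/-- `β² = |∇L|² - |L|²`. -/
noncomputable def be : ℝ := (∑ k, ∫ z, hs (F.X k z) ∂γ ι) - ∫ z, hs (F.L z) ∂γ ι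
noncomputable def Sur : ℝ := ∑ k, ∫ z, sur (F.L z) (F.X k z) ∂γ ι
noncomputable def cmm : ℝ := ∑ k, ∫ z, hs (cm gf (F.L z) (F.X k z)) ∂γ ι
/-- The defect in the inequality. -/
noncomputable def defect : ℝ := F.be / 1000 + F.cmm / 1000 + (fm mg F.S).trace
/-- Twice the entropy deficit. -/
noncomputable def gap : ℝ := 2 * (∫ z, (fm lh (F.L z)).trace ∂γ ι)
  + dim ι * (Real.log (2 * Real.pi) - 1) - Real.log F.cov.det

/-! #### Quantities attached to a direction `e` -/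

variable (e : ι → ℝ)

/-- The vector field `u(L) e`. -/
noncomputable def fv (u : ℝ → ℝ) (z : ι → ℝ) : ι → ℝ := fm u (F.L z) *ᵥ e
/-- Integral against the spectral measure. -/
noncomputable def I (u : ℝ → ℝ) : ℝ := ∫ z, e ⬝ᵥ fm u (F.L z) *ᵥ e ∂γ ι
noncomputable def Ee (z : ι → ℝ) : ι → ℝ := F.E z *ᵥ e
noncomputable def Xe (k : ι) (z : ι → ℝ) : ι → ℝ := F.X k z *ᵥ e
noncomputable def Ye (k : ι) (z : ι → ℝ) : ι → ℝ := F.Y k z *ᵥ e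
noncomputable def te (k : ι) (z : ι → ℝ) : ι → ℝ := F.dt k z *ᵥ e
noncomputable def Ge (z : ι → ℝ) : ι → ℝ := ∑ k, F.Y k z *ᵥ (F.D k *ᵥ e)
noncomputable def G2 (z : ι → ℝ) : ι → ℝ := ∑ k, kA2 (F.L z) (F.X k z) *ᵥ (F.D k *ᵥ e)
/-- The share of the direction `e` in `∑ |K(L, X_k)|²`. -/
noncomputable def sh (K : Matrix ι ι ℝ → Matrix ι ι ℝ → Matrix ι ι ℝ) : ℝ :=
  ∑ k, ip (fun z => K (F.L z) (F.X k z) *ᵥ e) (fun z => K (F.L z) (F.X k z) *ᵥ e)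
noncomputable def b0 : ℝ := ip (F.Ee e) (F.Ee e)
noncomputable def b1 : ℝ := ∑ k, ip (F.Ye e k) (F.Ye e k)
noncomputable def p2 (s : ℝ) : ℝ := ip (F.Ge e) (F.Ge e) / s
noncomputable def Q2 (s : ℝ) : ℝ := ip (F.G2 e) (F.G2 e) / s
noncomputable def N : ℝ := ∑ k, ip (F.te e k) (F.te e k)
noncomputable def x : ℝ := F.I e (fun l => 2 * Tf l - tau l ^ 2) - F.N e
noncomputable def A : ℝ := e ⬝ᵥ F.cov *ᵥ e
noncomputable def Xc : ℝ := ∑ k, ip (F.Xe e k) (F.te e k)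

/-- `e` is a unit eigenvector of `S` with eigenvalue `s`. -/
def Eig (s : ℝ) : Prop := e ⬝ᵥ e = 1 ∧ F.S *ᵥ e = s • e

end Fld

/-- The real numbers attached to one direction and the relations between them. -/
structure Dir where
  I : (ℝ → ℝ) → ℝ
  s : ℝ
  b0 : ℝ
  b1 : ℝ
  p2 : ℝ
  Q1 : ℝ
  Q2 : ℝ
  Q3 : ℝ
  Q4 : ℝ
  Q6 : ℝ
  N : ℝ
  x : ℝ
  A : ℝ
  Xc : ℝ
  Ev : ℝ
  Et : ℝ
  Gn : ℝ
  Gt : ℝ
  I_add : ∀ u w, Continuous u → Continuous w → I (fun l => u l + w l) = I u + I w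
  I_smul : ∀ (c : ℝ) u, I (fun l => c * u l) = c * I u
  I_nonneg : ∀ u, (∀ l, 0 ≤ u l) → 0 ≤ I u
  I_one : I (fun _ => 1) = 1
  I_id : I (fun l => l) = 0
  I_sq : I (fun l => l ^ 2) = s + b0
  s0 : 0 ≤ s
  b00 : 0 ≤ b0
  b01 : 2 * b0 ≤ b1
  p20 : 0 ≤ p2
  Q10 : 0 ≤ Q1
  Q20 : 0 ≤ Q2
  Q30 : 0 ≤ Q3
  Q40 : 0 ≤ Q4
  Q60 : 0 ≤ Q6
  A0 : 0 < A
  hx : x = I (fun l => 2 * Tf l - tau l ^ 2) - N
  hEv : ∀ y t c0 c1 : ℝ,
    2 * y * (t * Ev - c1 * b0) ≤ y ^ 2 * b0 + I (fun l => (t * vf l - c0 - c1 * l) ^ 2)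
  hEt : ∀ y t c0 : ℝ, 2 * y * (t * Et) ≤ y ^ 2 * b0 + I (fun l => (t * tau l - c0) ^ 2)
  hGn : ∀ y t c : ℝ, 2 * y * (t * Gn) ≤ y ^ 2 * p2 + s * I (fun l => (t * nf l - c) ^ 2)
  hGt : ∀ y t c : ℝ, 2 * y * (t * Gt) ≤ y ^ 2 * p2 + s * I (fun l => (t * tau1 l - c) ^ 2)
  hP : ∃ e3 eY R2 : ℝ, x - 1 = (s - 1) * I nf + Ev + Gn + e3 - eY - R2 ∧
    (∀ t : ℝ, 2 * t * e3 ≤ t ^ 2 * s + Q3) ∧ (∀ t : ℝ, 2 * t * eY ≤ t ^ 2 * s / 64 + b1) ∧ 0 ≤ R2 ∧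
    ∀ η : ℝ, 0 < η → R2 ≤ (1 + η) * b1 / 4 + (1 + 1 / η) * Q1
  hS : ∃ e4 : ℝ, I (fun l => l * tau l) - s * I tau1 = Et + Gt + e4 ∧
    ∀ t : ℝ, 2 * t * e4 ≤ t ^ 2 * s + Q4
  hU : ∀ t : ℝ, 2 * t * (Xc - I (fun l => l * tau l) - Et) ≤ (b1 - 2 * b0) + t ^ 2 * N
  hK : ∀ cp a z : ℝ, Abs cp a z → -(a * Q1 + z * Q6) ≤ 2 * cp * Xc - a * N
  hxi : ∀ w : Wt, A ≤ x + (s - 1) ^ 2 * I (fun l => tau2 l ^ 2) / w.r0 + s * Q2 / w.r3
    + w.ep * (s * p2) + Q1 / w.r4 + w.e1 * b1 + w.e0 * b0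
  htriv : A ≤ I (fun l => haz l ^ 2)

/-- What one direction contributes. -/
noncomputable def Dir.tot (d : Dir) : ℝ := 795 / 1000 * (d.b1 - d.b0) + d.p2 / 10 + 11 * d.Q1
  + 26 * d.Q2 + 5 * d.Q3 + 68 / 10 * d.Q4 + 38 / 100 * d.Q6 + d.x - 1 - Real.log d.A

/-! ### Strongly convex smooth potentials, Brenier maps, difference quotients -/

/-- `a ≤ V'' ≤ b`, `G = ∇V`. -/
structure SC (a b : ℝ) (V : (ι → ℝ) → ℝ) (G : (ι → ℝ) → ι → ℝ) : Prop where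
  lo : ∀ x y, V x + G x ⬝ᵥ (y - x) + a / 2 * ((y - x) ⬝ᵥ (y - x)) ≤ V y
  hi : ∀ x y, V y ≤ V x + G x ⬝ᵥ (y - x) + b / 2 * ((y - x) ⬝ᵥ (y - x))

/-- The measure `exp (-V) dx`. -/
noncomputable def muV (V : (ι → ℝ) → ℝ) : Measure (ι → ℝ) :=
  (volume : Measure (ι → ℝ)).withDensity fun x => ENNReal.ofReal (Real.exp (-V x))

/-- A regular log-concave probability density `exp (-V)`. -/
structure Reg (α β : ℝ) (V : (ι → ℝ) → ℝ) (G : (ι → ℝ) → ι → ℝ) : Prop where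
  pos : 0 < α
  le : α ≤ β
  sc : SC α β V G
  one : ∫ x, Real.exp (-V x) = 1

/-- `T` is a Brenier map from the Gaussian measure to `exp (-V) dx` with `a ≤ DT ≤ b`. -/
structure Br (a b : ℝ) (V : (ι → ℝ) → ℝ) (T : (ι → ℝ) → ι → ℝ) : Prop where
  pos : 0 < a
  le : a ≤ b
  pot : ∃ Ψ, SC a b Ψ T
  push : Measure.map T (γ ι) = muV V

open Classical in
/-- The Jacobian matrix of `T` (`a • 1` where `T` is not differentiable). -/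
noncomputable def jac (a : ℝ) (T : (ι → ℝ) → ι → ℝ) (z : ι → ℝ) : Matrix ι ι ℝ :=
  if DifferentiableAt ℝ T z then Matrix.of fun i j => fderiv ℝ T z (Pi.single j 1) i else a • 1

/-- Difference quotient. -/
noncomputable def dq (u : (ι → ℝ) → ℝ) (g : ι → ℝ) (δ : ℝ) (z : ι → ℝ) : ℝ :=
  (u (z + δ • g) - u z) / δ

/-- A bounded function with difference quotients bounded in `L²` and weak gradient `r`. -/
structure DQ (u : (ι → ℝ) → ℝ) (r : ι → (ι → ℝ) → ℝ) : Prop where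
  meas : Measurable u
  bdd : ∃ C : ℝ, ∀ z, |u z| ≤ C
  wg : WG u r
  bound : ∀ g : ι → ℝ, ∃ C : ℝ, ∀ δ : ℝ, δ ≠ 0 → ∫ z, dq u g δ z ^ 2 ∂γ ι ≤ C

/-- The convexity gap of `-log det`. -/
noncomputable def qd (H H' : Matrix ι ι ℝ) : ℝ :=
  Real.log H.det + (H⁻¹ * (H' - H)).trace - Real.log H'.det

/-- The second difference of `T`. -/
noncomputable def d2 (T : (ι → ℝ) → ι → ℝ) (h z : ι → ℝ) : ι → ℝ :=
  T (z + h) + T (z - h) - (2 : ℝ) • T z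

end Crest.Agent.R253
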