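/-
Row 253 (S0390, S0391), file Fun1.  Calculus of the one-dimensional functions.
Definitions: R253/Fun.lean, R253/Defs.lean.  Outline: R253/Blueprint.lean.  Keep the statements unchanged.
-/
import Crest.Agent.R253.Defs

set_option autoImplicit false

namespace Crest.Agent.R253

open MeasureTheory ProbabilityTheory Matrix Filter Topology Crest.Agent.R203N

theorem mu_pos (l : ℝ) : 0 < mu l := haz_sub_pos l

theorem mu_anti : Antitone mu := Mills_sub_anti

theorem hasDerivAt_mu (l : ℝ) : HasDerivAt mu (haz1 l - 1) l := (hasDerivAt_haz l).sub (hasDerivAt_id l)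

theorem hasDerivAt_lh (l : ℝ) : HasDerivAt lh (mu l) l := hasDerivAt_loghaz l

theorem hasDerivAt_Tf (l : ℝ) : HasDerivAt Tf (haz l) l := by
  have h := ((hasDerivAt_loghaz l).add ((hasDerivAt_pow 2 l).div_const 2)).add_const
    (Real.log (2 * Real.pi) / 2)
  exact h.congr_deriv (by norm_num)

/-- `Mills_haz_eq`. -/
theorem exp_neg_Tf (l : ℝ) : Real.exp (-Tf l) = Mills_Q l / Real.sqrt (2 * Real.pi) := by
  have h1 : Real.exp (Real.log (2 * Real.pi) / 2) = Real.sqrt (2 * Real.pi) := by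
    rw [Real.sqrt_eq_rpow, Real.rpow_def_of_pos (by positivity)]; congr 1; ring
  have h2 := Mills_e_mul l
  have h3 := Mills_Q_pos l
  have h4 := Mills_e_pos l
  rw [Real.exp_neg, Tf, Real.exp_add, Real.exp_add, Real.exp_log (haz_pos l), h1, Mills_haz_eq,
    div_mul_eq_mul_div, mul_comm (Mills_e l), h2]
  field_simp

/-- `Mills_Q_add`, `Mills_Q_pos`. -/
theorem Tf_pos (l : ℝ) : 0 < Tf l := by
  have h := exp_neg_Tf l
  have h1 := Mills_Q_add l
  have h2 := Mills_Q_pos (-l)
  have h3 := Mills_Q_pos l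
  have h4 : Real.exp (-Tf l) < 1 := by
    rw [h, div_lt_one (by linarith)]; linarith
  exact neg_lt_zero.1 (Real.exp_lt_one_iff.1 h4)

theorem tau_pos (l : ℝ) : 0 < tau l := div_pos (Tf_pos l) (haz_pos l)

theorem haz_mul_tau (l : ℝ) : haz l * tau l = Tf l := mul_div_cancel₀ _ (haz_pos l).ne'

theorem mills_mul_haz (l : ℝ) : mills l * haz l = 1 := mul_inv_cancel₀ (mills_pos l).ne'

theorem hasDerivAt_tau (l : ℝ) : HasDerivAt tau (tau1 l) l := by
  have h0 := (haz_pos l).ne'
  refine ((hasDerivAt_Tf l).div (hasDerivAt_haz l) h0).congr_deriv ?_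
  simp only [tau1, tau, mu, haz1]
  field_simp

theorem hasDerivAt_tau1 (l : ℝ) : HasDerivAt tau1 (tau2 l) l := by
  refine (((hasDerivAt_tau l).mul (hasDerivAt_mu l)).const_sub 1).congr_deriv ?_
  simp only [tau2, tau1, mu, haz1]
  ring

theorem hasDerivAt_tau2 (l : ℝ) : HasDerivAt tau2 (tau3 l) l := by
  refine (((hasDerivAt_tau l).sub (hasDerivAt_haz l)).add ((hasDerivAt_id' l).mul (hasDerivAt_tau1 l))).congr_deriv ?_
  simp only [tau3]
  ring

theorem hasDerivAt_nf (l : ℝ) : HasDerivAt nf (nf1 l) l := by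
  refine ((hasDerivAt_tau1 l).add ((hasDerivAt_tau l).mul (hasDerivAt_tau2 l))).congr_deriv ?_
  simp only [nf1]
  ring

theorem hasDerivAt_vf (l : ℝ) : HasDerivAt vf (vf1 l) l := by
  refine ((hasDerivAt_tau l).mul ((hasDerivAt_tau1 l).const_add 1)).congr_deriv ?_
  simp only [vf1, nf]
  ring

@[fun_prop] theorem continuous_haz' : Continuous haz := continuous_haz
@[fun_prop] theorem continuous_mills : Continuous mills :=
  continuous_iff_continuousAt.2 fun l => (hasDerivAt_mills l).continuousAt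
@[fun_prop] theorem continuous_mu : Continuous mu :=
  continuous_iff_continuousAt.2 fun l => (hasDerivAt_mu l).continuousAt
@[fun_prop] theorem continuous_lh : Continuous lh :=
  continuous_iff_continuousAt.2 fun l => (hasDerivAt_lh l).continuousAt
@[fun_prop] theorem continuous_Tf : Continuous Tf :=
  continuous_iff_continuousAt.2 fun l => (hasDerivAt_Tf l).continuousAt
@[fun_prop] theorem continuous_tau : Continuous tau :=
  continuous_iff_continuousAt.2 fun l => (hasDerivAt_tau l).continuousAt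
@[fun_prop] theorem continuous_tau1 : Continuous tau1 :=
  continuous_iff_continuousAt.2 fun l => (hasDerivAt_tau1 l).continuousAt
@[fun_prop] theorem continuous_tau2 : Continuous tau2 :=
  continuous_iff_continuousAt.2 fun l => (hasDerivAt_tau2 l).continuousAt
@[fun_prop] theorem continuous_tau3 : Continuous tau3 := by
  have := continuous_haz1
  unfold tau3; fun_prop
@[fun_prop] theorem continuous_nf : Continuous nf := by unfold nf; fun_prop
@[fun_prop] theorem continuous_nf1 : Continuous nf1 := by unfold nf1; fun_prop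
@[fun_prop] theorem continuous_vf : Continuous vf := by unfold vf; fun_prop
@[fun_prop] theorem continuous_vf1 : Continuous vf1 := by unfold vf1; fun_prop
@[fun_prop] theorem continuous_gf : Continuous gf := Real.continuous_arctan.div_const 3
@[fun_prop] theorem continuous_mg : Continuous mg := by unfold mg; fun_prop

theorem lh_eq (l : ℝ) : lh l = Tf l - l ^ 2 / 2 - Real.log (2 * Real.pi) / 2 := by
  unfold lh Tf; ring

theorem mul_vf_sub (l : ℝ) : l * vf l - nf l = 2 * Tf l - tau l ^ 2 - 1 := by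
  rw [← haz_mul_tau]
  simp only [vf, nf, tau2, tau1, mu]
  ring

theorem haz_sub_tau (l : ℝ) : haz l - tau l - l * tau1 l = -tau2 l := by
  unfold tau2; ring

/-- Mean value inequality with a bound of `f2` on `[-R, R]`. -/
theorem C2.of_deriv {f f1 f2 : ℝ → ℝ} (hd : ∀ x, HasDerivAt f (f1 x) x)
    (hd1 : ∀ x, HasDerivAt f1 (f2 x) x) (hc : Continuous f2) : C2 f f1 := by
  refine ⟨hd, fun R => ?_⟩
  obtain ⟨K, hK⟩ := (isCompact_Icc (a := -R) (b := R)).exists_bound_of_continuousOn hc.continuousOn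
  refine ⟨K, fun a b ha hb => ?_⟩
  exact (convex_Icc (-R) R).norm_image_sub_le_of_norm_hasDerivWithin_le
    (fun x _ => (hd1 x).hasDerivWithinAt) hK (abs_le.1 hb) (abs_le.1 ha)

theorem C2.cont {f f1 : ℝ → ℝ} (h : C2 f f1) : Continuous f ∧ Continuous f1 := by
  refine ⟨continuous_iff_continuousAt.2 fun x => (h.hd x).continuousAt,
    continuous_iff_continuousAt.2 fun x => ?_⟩
  obtain ⟨K, hK⟩ := h.lip (|x| + 1)
  rw [ContinuousAt, tendsto_iff_dist_tendsto_zero]
  have h1 : Tendsto (fun y => K * |y - x|) (𝓝 x) (𝓝 0) := by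
    have : Continuous fun y => K * |y - x| := by fun_prop
    simpa using this.tendsto x
  refine squeeze_zero' (Eventually.of_forall fun _ => dist_nonneg) ?_ h1
  filter_upwards [(continuous_abs.tendsto x).eventually (eventually_le_nhds (lt_add_one |x|))] with y hy
  exact hK y x hy (by linarith)

theorem C2_id : C2 (fun l => l) (fun _ => 1) :=
  .of_deriv hasDerivAt_id' (fun x => hasDerivAt_const x 1) continuous_const
theorem C2_haz : C2 haz haz1 := .of_deriv hasDerivAt_haz hasDerivAt_haz1 continuous_haz2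
theorem C2_tau : C2 tau tau1 := .of_deriv hasDerivAt_tau hasDerivAt_tau1 continuous_tau2
theorem C2_tau1 : C2 tau1 tau2 := .of_deriv hasDerivAt_tau1 hasDerivAt_tau2 continuous_tau3
theorem C2_vf : C2 vf vf1 :=
  .of_deriv hasDerivAt_vf (fun l => (hasDerivAt_nf l).add ((hasDerivAt_tau1 l).pow 2)) (by fun_prop)
theorem C2_sq : C2 (fun l => tau l ^ 2 / 2) (fun l => tau l * tau1 l) :=
  .of_deriv (fun l => (((hasDerivAt_tau l).pow 2).div_const 2).congr_deriv (by norm_num; ring))
    (fun l => (hasDerivAt_tau l).mul (hasDerivAt_tau1 l)) (by fun_prop)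

/-! ### Second part: the inverse of the hazard rate, and `gf` -/

theorem strictMono_haz : StrictMono haz :=
  strictMono_of_deriv_pos fun l => by rw [(hasDerivAt_haz l).deriv]; exact haz1_pos l

/-- `haz l > l`, `haz → 0` at `-∞` (`Mills_mul_haz_lim` or `Mills_haz_le`), intermediate values. -/
theorem haz_ell {s : ℝ} (hs : 0 < s) : haz (ell s) = s := by
  have h := Mills_mul_haz_lim (g := fun _ => 1) (fun l hl => by rw [abs_one]; linarith)
  simp only [one_mul] at h
  obtain ⟨l0, h0⟩ := (h.eventually (gt_mem_nhds hs)).exists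
  have h1 : s ≤ haz s := by linarith [haz_sub_pos s]
  exact Function.invFun_eq (intermediate_value_univ l0 s continuous_haz ⟨h0.le, h1⟩)

theorem ell_haz (l : ℝ) : ell (haz l) = l := Function.leftInverse_invFun strictMono_haz.injective l

theorem ell_mono : MonotoneOn ell (Set.Ioi 0) := by
  intro s hs t ht hst
  rw [← strictMono_haz.le_iff_le, haz_ell hs, haz_ell ht]
  exact hst

theorem Fun1b_lip {f f1 : ℝ → ℝ} {K : ℝ} (hd : ∀ x, HasDerivAt f (f1 x) x) (hb : ∀ x, |f1 x| ≤ K)
    (x y : ℝ) : |f x - f y| ≤ K * |x - y| :=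
  (convex_univ (𝕜 := ℝ) (E := ℝ)).norm_image_sub_le_of_norm_hasDerivWithin_le (f := f) (f' := f1)
    (fun z _ => (hd z).hasDerivWithinAt) (fun z _ => hb z) (Set.mem_univ y) (Set.mem_univ x)

theorem Fun1b_haz1_mono : Monotone haz1 :=
  monotone_of_deriv_nonneg (fun l => (hasDerivAt_haz1 l).differentiableAt)
    fun l => by rw [(hasDerivAt_haz1 l).deriv]; exact haz2_nonneg l

theorem Fun1b_ell_lip {a s t : ℝ} (ha : 0 < a) (hs : a ≤ s) (ht : a ≤ t) :
    |ell s - ell t| ≤ (haz1 (ell a))⁻¹ * |s - t| := by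
  wlog hst : t ≤ s generalizing s t
  · rw [abs_sub_comm, abs_sub_comm s]; exact this ht hs (le_of_not_ge hst)
  have hs0 : 0 < s := ha.trans_le hs
  have ht0 : 0 < t := ha.trans_le ht
  have h1 : ell t ≤ ell s := ell_mono ht0 hs0 hst
  have h2 : ell a ≤ ell t := ell_mono ha ht0 ht
  have h := (convex_Ici (ell a)).mul_sub_le_image_sub_of_le_deriv (f := haz) (C := haz1 (ell a))
    continuous_haz.continuousOn (fun l _ => (hasDerivAt_haz l).differentiableAt.differentiableWithinAt)
    (fun l hl => by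
      rw [(hasDerivAt_haz l).deriv]; exact Fun1b_haz1_mono (interior_subset hl))
    (ell t) h2 (ell s) (h2.trans h1) h1
  rw [haz_ell hs0, haz_ell ht0] at h
  rw [abs_of_nonneg (sub_nonneg.2 h1), abs_of_nonneg (sub_nonneg.2 hst), inv_mul_eq_div,
    le_div_iff₀ (haz1_pos _)]
  linarith

theorem Fun1b_ell_deriv {s : ℝ} (hs : 0 < s) : HasDerivAt ell (haz1 (ell s))⁻¹ s := by
  refine HasDerivAt.of_local_left_inverse ?_ (hasDerivAt_haz _) (haz1_pos _).ne' ?_
  · have hl : LipschitzOnWith (Real.toNNReal (haz1 (ell (s / 2)))⁻¹) ell (Set.Ici (s / 2)) := by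
      refine LipschitzOnWith.of_dist_le' fun x hx y hy => ?_
      exact Fun1b_ell_lip (by linarith) hx hy
    exact hl.continuousOn.continuousAt (Ici_mem_nhds (by linarith))
  · filter_upwards [Ioi_mem_nhds hs] with y hy using haz_ell hy

/-- `g1 = (1 / haz1 ∘ ell) ∘ clamp`, `g s = ell a + ∫_a^s g1`; `ell` has derivative `1 / haz1 (ell s)` on
`(0,∞)` (`HasDerivAt.of_local_left_inverse` or `HasStrictDerivAt.localInverse`), and `1 / haz1` is `C¹`.
`g1` is bounded and Lipschitz. -/
theorem exists_ell_ext {a b : ℝ} (ha : 0 < a) (hab : a ≤ b) : ∃ (g g1 : ℝ → ℝ) (K : ℝ), C2 g g1 ∧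
    (∀ x y, |g x - g y| ≤ K * |x - y|) ∧ ∀ s, a ≤ s → s ≤ b → g s = ell s := by
  set m := haz1 (ell a) with hm
  have m0 : 0 < m := haz1_pos _
  let cl : ℝ → ℝ := fun s => max a (min s b)
  have c1 : ∀ s, a ≤ cl s := fun s => le_max_left _ _
  have c2 : ∀ s, cl s ≤ b := fun s => max_le hab (min_le_right _ _)
  have c3 : ∀ s t, |cl s - cl t| ≤ |s - t| := fun s t => by
    refine (abs_max_sub_max_le_max _ _ _ _).trans (max_le (by simp) ?_)
    refine (abs_min_sub_min_le_max _ _ _ _).trans (max_le le_rfl (by simp))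
  have c4 : ∀ s, a ≤ s → s ≤ b → cl s = s := fun s h1 h2 => by
    simp only [cl, min_eq_left h2, max_eq_right h1]
  have e1 : ∀ s, ell a ≤ ell (cl s) := fun s => ell_mono ha (ha.trans_le (c1 s)) (c1 s)
  have e2 : ∀ s, ell (cl s) ≤ ell b := fun s => ell_mono (ha.trans_le (c1 s)) (ha.trans_le hab) (c2 s)
  have e3 : ∀ s, m ≤ haz1 (ell (cl s)) := fun s => Fun1b_haz1_mono (e1 s)
  obtain ⟨K, hK⟩ := C2_haz.lip (max |ell a| |ell b|)
  have e4 : ∀ s, |ell (cl s)| ≤ max |ell a| |ell b| := fun s => abs_le_max_abs_abs (e1 s) (e2 s)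
  let g1 : ℝ → ℝ := fun s => (haz1 (ell (cl s)))⁻¹
  have g1lip : ∀ s t, |g1 s - g1 t| ≤ (m⁻¹ * m⁻¹ * |K| * m⁻¹) * |s - t| := by
    intro s t
    have p1 := haz1_pos (ell (cl s))
    have p2 := haz1_pos (ell (cl t))
    have e : g1 s - g1 t = (haz1 (ell (cl s)))⁻¹ * (haz1 (ell (cl t)))⁻¹ *
        (haz1 (ell (cl t)) - haz1 (ell (cl s))) := by
      simp only [g1]; field_simp
    have i1 : (haz1 (ell (cl s)))⁻¹ ≤ m⁻¹ := inv_anti₀ m0 (e3 s)
    have i2 : (haz1 (ell (cl t)))⁻¹ ≤ m⁻¹ := inv_anti₀ m0 (e3 t)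
    have i3 : |haz1 (ell (cl t)) - haz1 (ell (cl s))| ≤ |K| * (m⁻¹ * |s - t|) := by
      refine (hK _ _ (e4 t) (e4 s)).trans ?_
      refine (mul_le_mul_of_nonneg_right (le_abs_self K) (abs_nonneg _)).trans ?_
      refine mul_le_mul_of_nonneg_left ?_ (abs_nonneg _)
      refine (Fun1b_ell_lip ha (c1 t) (c1 s)).trans ?_
      refine mul_le_mul_of_nonneg_left ?_ (by positivity)
      rw [abs_sub_comm s]; exact c3 t s
    rw [e, abs_mul, abs_mul, abs_of_pos (inv_pos.2 p1), abs_of_pos (inv_pos.2 p2)]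
    calc _ ≤ m⁻¹ * m⁻¹ * (|K| * (m⁻¹ * |s - t|)) := by gcongr
      _ = _ := by ring
  have g1c : Continuous g1 :=
    (LipschitzWith.of_dist_le' (f := g1) (K := m⁻¹ * m⁻¹ * |K| * m⁻¹) g1lip).continuous
  have hd : ∀ x, HasDerivAt (fun s => ell a + ∫ t in a..s, g1 t) (g1 x) x := fun x =>
    (g1c.integral_hasStrictDerivAt a x).hasDerivAt.const_add _
  refine ⟨fun s => ell a + ∫ t in a..s, g1 t, g1, m⁻¹, ⟨hd, fun _ => ⟨_, fun s t _ _ => g1lip s t⟩⟩,
    Fun1b_lip hd fun x => ?_, fun s h1 h2 => ?_⟩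
  · rw [abs_of_pos (inv_pos.2 (haz1_pos _))]; exact inv_anti₀ m0 (e3 x)
  · have : ∫ t in a..s, g1 t = ell s - ell a := by
      refine intervalIntegral.integral_eq_sub_of_hasDerivAt (fun x hx => ?_) (g1c.intervalIntegrable _ _)
      rw [Set.uIcc_of_le h1] at hx
      simp only [g1, c4 x hx.1 (hx.2.trans h2)]
      exact Fun1b_ell_deriv (ha.trans_le hx.1)
    simp only [this]; ring

/-- With `l = ell s`: `haz l (1 - l)` is bounded above; `l + 1 ≤ C haz l` (trivial for `l ≤ -1`, else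
`l < haz l`, `haz (-1) ≤ haz l`). -/
theorem ell_bounds : ∃ C : ℝ, 0 < C ∧ ∀ s, 0 < s → 1 - C * s⁻¹ ≤ ell s ∧ ell s ≤ -1 + C * s := by
  have q := Mills_Q_pos 1
  have h1 := haz_pos (-1)
  refine ⟨2 / Mills_Q 1 + (1 + (haz (-1))⁻¹), by positivity, fun s hs => ?_⟩
  have hl := haz_ell hs
  set l := ell s
  have p1 : 0 < 2 / Mills_Q 1 := by positivity
  have p2 : 0 < (haz (-1))⁻¹ := by positivity
  constructor
  · have key : (1 - l) * s ≤ 2 / Mills_Q 1 := by
      rcases le_total l 1 with h | h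
      · have := Mills_haz_le h
        rw [hl] at this
        refine (mul_le_mul_of_nonneg_left this (by linarith)).trans ?_
        rw [← mul_div_assoc]
        refine div_le_div_of_nonneg_right ?_ q.le
        have e : Mills_e l = (Real.exp (l ^ 2 / 2))⁻¹ := by
          rw [← Real.exp_neg, Mills_e]; congr 1; ring
        rw [e, ← div_eq_mul_inv, div_le_iff₀ (Real.exp_pos _)]
        have := Real.add_one_le_exp (l ^ 2 / 2)
        nlinarith [sq_nonneg (l + 1)]
      · have : (1 - l) * s ≤ 0 := mul_nonpos_of_nonpos_of_nonneg (by linarith) hs.le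
        linarith
    have : 1 - l ≤ (2 / Mills_Q 1 + (1 + (haz (-1))⁻¹)) * s⁻¹ := by
      rw [← div_eq_mul_inv, le_div_iff₀ hs]; linarith
    linarith
  · rcases le_total l (-1) with h | h
    · have : 0 ≤ (2 / Mills_Q 1 + (1 + (haz (-1))⁻¹)) * s := by positivity
      linarith
    · have a1 : haz (-1) ≤ s := hl ▸ Mills_haz_mono h
      have a2 : l < s := by have := haz_sub_pos l; rw [hl] at this; linarith
      have a3 : 1 ≤ (haz (-1))⁻¹ * s := by rw [inv_mul_eq_div, le_div_iff₀ h1]; linarith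
      have a4 : 0 ≤ 2 / Mills_Q 1 * s := by positivity
      nlinarith

theorem Fun1b_mu_ge {l : ℝ} (hl : 0 < l) : l / (l ^ 2 + 2) ≤ mu l := by
  have h := inv_anti₀ (mills_pos l) (Mills_upper hl)
  rw [inv_div] at h
  have e : (l ^ 3 + 3 * l) / (l ^ 2 + 2) = l + l / (l ^ 2 + 2) := by field_simp; ring
  unfold mu haz
  linarith

/-- `mu l ≥ mu 1 ≥ 1/3` for `l ≤ 1`, and `mu l ≥ l/(l²+2)` for `l > 0` (`Mills_upper`). -/
theorem mu_ge (l : ℝ) : 1 / (3 * (1 + l ^ 2)) ≤ mu l := by
  rcases le_total l 1 with h | h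
  · have h1 := Fun1b_mu_ge one_pos
    have h2 := mu_anti h
    have h3 : 1 / (3 * (1 + l ^ 2)) ≤ 1 / 3 :=
      one_div_le_one_div_of_le (by norm_num) (by nlinarith [sq_nonneg l])
    norm_num at h1
    linarith
  · refine le_trans ?_ (Fun1b_mu_ge (by linarith))
    rw [div_le_div_iff₀ (by positivity) (by positivity)]
    nlinarith [mul_nonneg (sub_nonneg.2 h) (sq_nonneg l)]

theorem Fun1b_gf_deriv (l : ℝ) : HasDerivAt gf (1 / (3 * (1 + l ^ 2))) l := by
  have := (Real.hasDerivAt_arctan l).div_const 3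
  have e : 1 / (3 * (1 + l ^ 2)) = 1 / (1 + l ^ 2) / 3 := by rw [div_div, mul_comm]
  rw [e]; exact this

/-- `lh - gf` and `gf` are monotone. -/
theorem abs_gf_sub_le (a b : ℝ) : |gf a - gf b| ≤ |lh a - lh b| := by
  wlog hab : b ≤ a generalizing a b
  · rw [abs_sub_comm, abs_sub_comm (lh a)]; exact this b a (le_of_not_ge hab)
  have h1 : Monotone gf := monotone_of_deriv_nonneg (fun l => (Fun1b_gf_deriv l).differentiableAt)
    fun l => by rw [(Fun1b_gf_deriv l).deriv]; positivity
  have hd : ∀ l, HasDerivAt (fun l => lh l - gf l) (mu l - 1 / (3 * (1 + l ^ 2))) l := fun l =>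
    (hasDerivAt_lh l).sub (Fun1b_gf_deriv l)
  have h2 : Monotone fun l => lh l - gf l := monotone_of_deriv_nonneg (fun l => (hd l).differentiableAt)
    fun l => by rw [(hd l).deriv]; linarith [mu_ge l]
  have a1 := h1 hab
  have a2 := h2 hab
  simp only at a2
  rw [abs_of_nonneg (sub_nonneg.2 a1)]
  exact le_trans (by linarith) (le_abs_self _)

theorem gf_lip (a b : ℝ) : |gf a - gf b| ≤ 1 * |a - b| := by
  refine Fun1b_lip Fun1b_gf_deriv (fun x => ?_) a b
  rw [abs_of_pos (by positivity), div_le_one (by positivity)]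
  nlinarith [sq_nonneg x]

theorem abs_gf_le (a : ℝ) : |gf a| ≤ 1 := by
  have h1 := Real.arctan_lt_pi_div_two a
  have h2 := Real.neg_pi_div_two_lt_arctan a
  have h3 := Real.pi_le_four
  unfold gf
  rw [abs_le]; constructor <;> linarith

theorem gf_injective : Function.Injective gf := by
  intro a b h
  apply Real.arctan_injective
  unfold gf at h
  linarith

theorem haz_lip (a b : ℝ) : |haz a - haz b| ≤ 1 * |a - b| := by
  refine Fun1b_lip hasDerivAt_haz (fun x => ?_) a b
  rw [abs_of_pos (haz1_pos x)]; exact haz1_le_one x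

end Crest.Agent.R253
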