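/-
Row 253 (S0390, S0391), file Herm.  Hermite series tools.
Definitions: R253/Fun.lean, R253/Defs.lean.  Outline: R253/Blueprint.lean.  Keep the statements unchanged.
-/
import Crest.Agent.R253.Defs
import Crest.Agent.R203N.Herm4

set_option autoImplicit false

namespace Crest.Agent.R253

open MeasureTheory ProbabilityTheory Matrix Filter Topology Crest.Agent.R203N

variable {ι : Type} [Fintype ι] [DecidableEq ι]

/-- Riesz-Fischer.  Use the Hilbert basis built in the proof of `parseval` (copy it), or show that the partial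
sums `∑ c α / fac α • He α` are summable in `Lp ℝ 2 (γ ι)` (orthogonal family); take a measurable
representative. -/
theorem riesz_fischer {c : (ι → ℕ) → ℝ} (hc : Summable fun α => c α ^ 2 / fac α) :
    ∃ f : (ι → ℝ) → ℝ, Measurable f ∧ L2 f ∧ ∀ α, co f α = c α := by
  have hL : ∀ α : ι → ℕ, L2 fun z => (Real.sqrt (fac α))⁻¹ * He α z :=
    fun α => (L2_He α).const_mul _
  set v : (ι → ℕ) → Lp ℝ 2 (γ ι) := fun α => (hL α).toLp _ with hv
  have hin : ∀ (u : Lp ℝ 2 (γ ι)) (α : ι → ℕ),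
      inner ℝ (v α) u = (Real.sqrt (fac α))⁻¹ * co u α := by
    intro u α
    rw [MeasureTheory.L2.inner_def, co, ← integral_const_mul]
    refine integral_congr_ae ?_
    filter_upwards [(hL α).coeFn_toLp] with z hz
    rw [hv]
    simp only [hz, RCLike.inner_apply, conj_trivial]
    ring
  have hs : ∀ α : ι → ℕ, 0 < Real.sqrt (fac α) := fun α => Real.sqrt_pos.2 (fac_pos α)
  have hss : ∀ α : ι → ℕ, Real.sqrt (fac α) * Real.sqrt (fac α) = fac α :=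
    fun α => Real.mul_self_sqrt (fac_pos α).le
  have hon : Orthonormal ℝ v := by
    rw [orthonormal_iff_ite]
    intro α β
    rw [hin, hv]
    simp only
    rw [co_congr (hL β).coeFn_toLp, co]
    simp only [mul_assoc]
    rw [integral_const_mul, He_orth]
    by_cases hab : α = β
    · subst hab
      rw [if_pos rfl, if_pos rfl, ← hss α, Real.sqrt_mul_self (hs α).le]
      field_simp [(hs α).ne']
    · rw [if_neg hab, if_neg (Ne.symm hab)]
      simp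
  have hsp : (Submodule.span ℝ (Set.range v))ᗮ = ⊥ := by
    rw [Submodule.eq_bot_iff]
    intro u hu
    rw [Submodule.mem_orthogonal] at hu
    refine Lp.ext ((eq_zero_of_co (Lp.memLp u) fun α => ?_).trans (Lp.coeFn_zero _ _ _).symm)
    have := hu (v α) (Submodule.subset_span ⟨α, rfl⟩)
    rw [hin] at this
    exact (mul_eq_zero.1 this).resolve_left (inv_ne_zero (hs α).ne')
  have ha : Memℓp (fun α : ι → ℕ => (Real.sqrt (fac α))⁻¹ * c α) 2 := by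
    refine memℓp_gen (hc.congr fun α => ?_)
    rw [ENNReal.toReal_ofNat, Real.rpow_two, Real.norm_eq_abs, sq_abs, mul_pow, inv_pow,
      Real.sq_sqrt (fac_pos α).le, div_eq_inv_mul]
  set b := HilbertBasis.mkOfOrthogonalEqBot hon hsp with hb
  refine ⟨b.repr.symm ⟨_, ha⟩, (Lp.stronglyMeasurable _).measurable, Lp.memLp _, fun α => ?_⟩
  have h1 := b.repr_apply_apply (b.repr.symm ⟨_, ha⟩) α
  rw [LinearIsometryEquiv.apply_symm_apply, show b α = v α by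
    rw [hb, HilbertBasis.coe_mkOfOrthogonalEqBot], hin] at h1
  exact (mul_left_cancel₀ (inv_ne_zero (hs α).ne') h1).symm

theorem ae_eq_of_co {f g : (ι → ℝ) → ℝ} (hf : L2 f) (hg : L2 g) (h : ∀ α, co f α = co g α) :
    f =ᵐ[γ ι] g := by
  have h1 : L2 fun z => f z - g z := hf.sub hg
  filter_upwards [eq_zero_of_co h1 fun α => by rw [Herm3_co_sub hf hg, h, sub_self]] with z hz
  exact sub_eq_zero.1 hz

theorem WG_unique {u : (ι → ℝ) → ℝ} {g g' : ι → (ι → ℝ) → ℝ} (h : WG u g) (h' : WG u g') (j : ι) :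
    g j =ᵐ[γ ι] g' j := by
  exact ae_eq_of_co (h.g2 j) (h'.g2 j) fun α => by rw [← h.eq, ← h'.eq]

theorem WG_sym {u : (ι → ℝ) → ℝ} {g : ι → (ι → ℝ) → ℝ} {h : ι → ι → (ι → ℝ) → ℝ} (hu : WG u g)
    (hg : ∀ j, WG (g j) (h j)) (j k : ι) : h j k =ᵐ[γ ι] h k j := by
  exact ae_eq_of_co ((hg j).g2 k) ((hg k).g2 j) fun α => by
    rw [← (hg j).eq, ← (hg k).eq, ← hu.eq, ← hu.eq, add_right_comm]

/-- `parseval` for `g j, g' j`, `hasSum_shift`, `fac_add_single`. -/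
theorem hasSum_grad {u w : (ι → ℝ) → ℝ} {g g' : ι → (ι → ℝ) → ℝ} (hu : WG u g) (hw : WG w g') :
    HasSum (fun α : ι → ℕ => (dg α : ℝ) * (co u α * co w α / fac α))
      (∑ j, ∫ z, g j z * g' j z ∂γ ι) := by
  have hj : ∀ j, HasSum (fun β : ι → ℕ => (β j : ℝ) * (co u β * co w β / fac β))
      (∫ z, g j z * g' j z ∂γ ι) := by
    intro j
    refine (hasSum_shift (F := fun β : ι → ℕ => (β j : ℝ) * (co u β * co w β / fac β)) j
      fun β hβ => by simp [hβ]).1 ?_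
    refine (congrArg (fun F => HasSum F _) (funext fun α => ?_)).mp (parseval (hu.g2 j) (hw.g2 j))
    have hf := fac_pos α
    rw [hu.eq, hw.eq, fac_add_single]
    simp only [Pi.add_apply, Pi.single_eq_same]
    push_cast
    field_simp
  refine (congrArg (fun F => HasSum F _) (funext fun β => ?_)).mp
    (hasSum_sum (s := Finset.univ) fun j _ => hj j)
  rw [← Finset.sum_mul, ← Nat.cast_sum]
  rfl

theorem herma_le (α : ι → ℕ) (j : ι) : (α j : ℝ) ≤ dg α := by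
  exact_mod_cast Finset.single_le_sum (f := α) (fun _ _ => Nat.zero_le _) (Finset.mem_univ j)

/-- `φ = (N+1)⁻¹ h`: `co φ α = co h α/(|α|+1)`, `co (ψ j) α = co φ (α + e_j)`. -/
theorem exists_resolvent {h : (ι → ℝ) → ℝ} (hh : L2 h) :
    ∃ (φ : (ι → ℝ) → ℝ) (ψ : ι → (ι → ℝ) → ℝ), WG φ ψ ∧ TT h h = ∫ z, h z * φ z ∂γ ι ∧
      ∀ (w : (ι → ℝ) → ℝ) (g : ι → (ι → ℝ) → ℝ), WG w g →
        (∫ z, φ z * w z ∂γ ι) + ∑ j, ∫ z, ψ j z * g j z ∂γ ι = ∫ z, h z * w z ∂γ ι := by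
  have hS := (Herm3_hasSum_sq hh).summable
  have hd : ∀ α : ι → ℕ, (0 : ℝ) ≤ dg α := fun α => Nat.cast_nonneg _
  obtain ⟨φ, -, hφ, cφ⟩ := riesz_fischer (c := fun α => co h α / ((dg α : ℝ) + 1))
    (hS.of_nonneg_of_le (fun α => div_nonneg (sq_nonneg _) (fac_pos α).le) fun α => by
      have := hd α
      rw [div_pow]
      exact div_le_div_of_nonneg_right (div_le_self (sq_nonneg _) (by nlinarith)) (fac_pos α).le)
  have hψ : ∀ j : ι, ∃ f : (ι → ℝ) → ℝ, Measurable f ∧ L2 f ∧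
      ∀ α, co f α = co φ (α + Pi.single j 1) := fun j => by
    refine riesz_fischer ((hS.comp_injective (add_left_injective (Pi.single j 1))).of_nonneg_of_le
      (fun α => div_nonneg (sq_nonneg _) (fac_pos α).le) fun α => ?_)
    have h1 := hd α
    have h2 := herma_le α j
    have h3 := fac_pos α
    have h4 : (0 : ℝ) ≤ α j := Nat.cast_nonneg _
    simp only [Function.comp_apply]
    rw [cφ, fac_add_single, dg_add_single, div_pow, div_div]
    push_cast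
    refine div_le_div_of_nonneg_left (sq_nonneg _) (by positivity) ?_
    exact mul_le_mul_of_nonneg_right (by nlinarith) h3.le
  choose ψ _ hψ cψ using hψ
  have W : WG φ ψ := ⟨hφ, hψ, fun α j => (cψ j α).symm⟩
  refine ⟨φ, ψ, W, ?_, fun w g hw => ?_⟩
  · rw [← (parseval hh hφ).tsum_eq, TT]
    refine tsum_congr fun α => ?_
    rw [cφ, ← mul_div_assoc, div_div]
  · refine ((parseval hφ hw.u2).add (hasSum_grad W hw)).unique ?_
    refine (congrArg (fun F => HasSum F _) (funext fun α => ?_)).mp (parseval hh hw.u2)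
    have h1 := hd α
    have h3 := fac_pos α
    rw [cφ]
    field_simp
    ring

theorem TT_bounds {f : (ι → ℝ) → ℝ} (hf : L2 f) :
    (∫ z, f z ∂γ ι) ^ 2 ≤ TT f f ∧ TT f f ≤ ∫ z, f z ^ 2 ∂γ ι := by
  have hT := Herm3_hasSum_TT hf
  have hd : ∀ α : ι → ℕ, (0 : ℝ) ≤ dg α := fun α => Nat.cast_nonneg _
  refine ⟨?_, hasSum_le (fun α => div_le_self (Herm3_a_nonneg f α) (by linarith [hd α])) hT
    (Herm3_hasSum_sq hf)⟩
  have h := le_hasSum hT 0 fun α _ => div_nonneg (Herm3_a_nonneg f α) (by linarith [hd α])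
  rwa [co_zero, Herm3_fac_zero, Herm3_dg_zero, Nat.cast_zero, zero_add, div_one, div_one] at h

theorem poincare {u : (ι → ℝ) → ℝ} {g : ι → (ι → ℝ) → ℝ} (hu : WG u g) :
    (∫ z, u z ^ 2 ∂γ ι) - (∫ z, u z ∂γ ι) ^ 2 ≤ ∑ j, ∫ z, g j z ^ 2 ∂γ ι := by
  have h0 : HasSum (fun α : ι → ℕ => if α = 0 then (∫ z, u z ∂γ ι) ^ 2 else 0)
      ((∫ z, u z ∂γ ι) ^ 2) := hasSum_ite_eq 0 _
  have hG := hasSum_grad hu hu
  simp only [← sq] at hG
  refine hasSum_le (fun α => ?_) ((Herm3_hasSum_sq hu.u2).sub h0) hG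
  have ha := Herm3_a_nonneg u α
  split_ifs with hα
  · rw [hα, co_zero, Herm3_fac_zero, Herm3_dg_zero]
    simp
  · have h1 : (1 : ℝ) ≤ dg α := by
      exact_mod_cast Nat.one_le_iff_ne_zero.2 fun hd => hα (dg_eq_zero.1 hd)
    rw [sub_zero]
    exact le_mul_of_one_le_left ha h1

/-! ### Second part -/

theorem hermb_sq {f : (ι → ℝ) → ℝ} (hf : L2 f) :
    HasSum (fun α : ι → ℕ => co f α * co f α / fac α) (∫ z, f z ^ 2 ∂γ ι) := by
  simpa only [sq] using parseval hf hf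

theorem hermb_gsq {u : (ι → ℝ) → ℝ} {g : ι → (ι → ℝ) → ℝ} (hu : WG u g) :
    HasSum (fun α : ι → ℕ => (dg α : ℝ) * (co u α * co u α / fac α)) (∑ j, ∫ z, g j z ^ 2 ∂γ ι) := by
  simpa only [sq] using hasSum_grad hu hu

theorem hermb_le {a b p F : ℝ} (hF : 0 < F) (hp : 0 ≤ p) (h : b - a = p / F) : a ≤ b := by
  rw [← sub_nonneg, h]
  exact div_nonneg hp hF.le

/-- The coefficients of order `0` and `1` vanish. -/
theorem co_low {E : (ι → ℝ) → ℝ} {Y : ι → (ι → ℝ) → ℝ} (hE : WG E Y) (h0 : ∫ z, E z ∂γ ι = 0)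
    (h1 : ∀ k, ∫ z, Y k z ∂γ ι = 0) {α : ι → ℕ} (hα : dg α < 2) : co E α = 0 := by
  rcases (by omega : dg α = 0 ∨ dg α = 1) with h | h
  · rw [dg_eq_zero.1 h, co_zero, h0]
  · obtain ⟨k, rfl⟩ := dg_eq_one.1 h
    have := hE.eq 0 k
    rw [zero_add, co_zero, h1] at this
    exact this

theorem gap2 {E : (ι → ℝ) → ℝ} {Y : ι → (ι → ℝ) → ℝ} (hE : WG E Y) (h0 : ∫ z, E z ∂γ ι = 0)
    (h1 : ∀ k, ∫ z, Y k z ∂γ ι = 0) :
    2 * ∫ z, E z ^ 2 ∂γ ι ≤ ∑ k, ∫ z, Y k z ^ 2 ∂γ ι := by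
  refine hasSum_le (fun α => ?_) ((hermb_sq hE.u2).mul_left 2) (hermb_gsq hE)
  by_cases hα : dg α < 2
  · simp [co_low hE h0 h1 hα]
  · have hn : (2 : ℝ) ≤ dg α := by exact_mod_cast not_lt.1 hα
    exact mul_le_mul_of_nonneg_right hn (div_nonneg (mul_self_nonneg _) (fac_pos α).le)

/-- Termwise `2 t (n-2) x y ≤ (n-2) x² + t² n y²` for `n ≥ 2`. -/
theorem cs2 {E u : (ι → ℝ) → ℝ} {Y g : ι → (ι → ℝ) → ℝ} (hE : WG E Y) (h0 : ∫ z, E z ∂γ ι = 0)
    (h1 : ∀ k, ∫ z, Y k z ∂γ ι = 0) (hu : WG u g) (t : ℝ) :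
    2 * t * ((∑ k, ∫ z, Y k z * g k z ∂γ ι) - 2 * ∫ z, E z * u z ∂γ ι) ≤
      ((∑ k, ∫ z, Y k z ^ 2 ∂γ ι) - 2 * ∫ z, E z ^ 2 ∂γ ι) + t ^ 2 * ∑ k, ∫ z, g k z ^ 2 ∂γ ι := by
  refine hasSum_le (fun α => ?_)
    (((hasSum_grad hE hu).sub ((parseval hE.u2 hu.u2).mul_left 2)).mul_left (2 * t))
    (((hermb_gsq hE).sub ((hermb_sq hE.u2).mul_left 2)).add ((hermb_gsq hu).mul_left (t ^ 2)))
  by_cases hα : dg α < 2
  · rw [co_low hE h0 h1 hα]
    exact hermb_le (fac_pos α) (p := t ^ 2 * dg α * co u α ^ 2) (by positivity) (by ring)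
  · have hn : (0 : ℝ) ≤ dg α - 2 := sub_nonneg.2 (by exact_mod_cast not_lt.1 hα)
    exact hermb_le (fac_pos α)
      (p := ((dg α : ℝ) - 2) * (co E α - t * co u α) ^ 2 + 2 * (t * co u α) ^ 2) (by positivity) (by ring)

/-- Termwise `2 t (1-n) x y ≤ t² (n - 5/3) x² + (n+1) y²` for `n ≥ 2`, as `(n-1)² ≤ (n - 5/3)(n+1)`. -/
theorem cs1 {E u : (ι → ℝ) → ℝ} {Y g : ι → (ι → ℝ) → ℝ} (hE : WG E Y) (h0 : ∫ z, E z ∂γ ι = 0)
    (h1 : ∀ k, ∫ z, Y k z ∂γ ι = 0) (hu : WG u g) (t : ℝ) :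
    2 * t * ((∫ z, E z * u z ∂γ ι) - ∑ k, ∫ z, Y k z * g k z ∂γ ι) ≤
      t ^ 2 * ((∑ k, ∫ z, Y k z ^ 2 ∂γ ι) - 5 / 3 * ∫ z, E z ^ 2 ∂γ ι)
        + ((∫ z, u z ^ 2 ∂γ ι) + ∑ k, ∫ z, g k z ^ 2 ∂γ ι) := by
  refine hasSum_le (fun α => ?_)
    (((parseval hE.u2 hu.u2).sub (hasSum_grad hE hu)).mul_left (2 * t))
    ((((hermb_gsq hE).sub ((hermb_sq hE.u2).mul_left (5 / 3))).mul_left (t ^ 2)).add
      ((hermb_sq hu.u2).add (hermb_gsq hu)))
  by_cases hα : dg α < 2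
  · rw [co_low hE h0 h1 hα]
    exact hermb_le (fac_pos α) (p := (1 + dg α) * co u α ^ 2) (by positivity) (by ring)
  · have hn : (0 : ℝ) ≤ dg α - 2 := sub_nonneg.2 (by exact_mod_cast not_lt.1 hα)
    have hm : (0 : ℝ) < dg α + 1 := by positivity
    refine hermb_le (fac_pos α)
      (p := ((((dg α : ℝ) + 1) * co u α + ((dg α : ℝ) - 1) * (t * co E α)) ^ 2
        + 4 / 3 * ((dg α : ℝ) - 2) * (t * co E α) ^ 2) / ((dg α : ℝ) + 1)) (by positivity) ?_
    have hF := (fac_pos α).ne'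
    field_simp
    ring

theorem mean0_pair {G u : (ι → ℝ) → ℝ} {g : ι → (ι → ℝ) → ℝ} (hG : L2 G) (h0 : ∫ z, G z ∂γ ι = 0)
    (hu : WG u g) (t : ℝ) : 2 * t * ∫ z, G z * u z ∂γ ι ≤
      t ^ 2 * (∫ z, G z ^ 2 ∂γ ι) + ∑ k, ∫ z, g k z ^ 2 ∂γ ι := by
  refine hasSum_le (fun α => ?_) ((parseval hG hu.u2).mul_left (2 * t))
    (((hermb_sq hG).mul_left (t ^ 2)).add (hermb_gsq hu))
  by_cases hα : dg α = 0
  · rw [hα, dg_eq_zero.1 hα, co_zero, h0]
    simp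
  · have hn : (0 : ℝ) ≤ dg α - 1 := sub_nonneg.2 (by exact_mod_cast Nat.one_le_iff_ne_zero.2 hα)
    exact hermb_le (fac_pos α)
      (p := (t * co G α - co u α) ^ 2 + ((dg α : ℝ) - 1) * co u α ^ 2) (by positivity) (by ring)

theorem hermb_two {u : (ι → ℝ) → ℝ} {g : ι → (ι → ℝ) → ℝ} {h : ι → ι → (ι → ℝ) → ℝ} (hu : WG u g)
    (hg : ∀ j, WG (g j) (h j)) :
    HasSum (fun α : ι → ℕ => (dg α : ℝ) * (((dg α : ℝ) - 1) * (co u α * co u α / fac α)))
      (∑ j, ∑ k, ∫ z, h j k z ^ 2 ∂γ ι) := by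
  have h1 : ∀ j, HasSum (fun α : ι → ℕ => (α j : ℝ) * (((dg α : ℝ) - 1) * (co u α * co u α / fac α)))
      (∑ k, ∫ z, h j k z ^ 2 ∂γ ι) := fun j => by
    refine (hasSum_shift j fun β hβ => by simp [hβ]).1 ?_
    convert hermb_gsq (hg j) using 2 with α
    have hF := (fac_pos α).ne'
    have hm : (α j : ℝ) + 1 ≠ 0 := by positivity
    rw [hu.eq, fac_add_single, dg_add_single]
    simp only [Pi.add_apply, Pi.single_eq_same]
    push_cast
    field_simp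
    ring
  convert hasSum_sum (s := Finset.univ) fun j _ => h1 j using 2 with α
  rw [← Finset.sum_mul, dg]
  push_cast
  rfl

/-- Interpolation: termwise `2 t n ≤ 1 + t² n²`, and `∑ n² c² = ∑ n(n-1) c² + ∑ n c²` is
`∑_j (|∇ g_j|² + |g_j|²)`. -/
theorem interp {u : (ι → ℝ) → ℝ} {g : ι → (ι → ℝ) → ℝ} {h : ι → ι → (ι → ℝ) → ℝ} (hu : WG u g)
    (hg : ∀ j, WG (g j) (h j)) (t : ℝ) :
    2 * t * ∑ j, ∫ z, g j z ^ 2 ∂γ ι ≤ (∫ z, u z ^ 2 ∂γ ι) +
      t ^ 2 * ((∑ j, ∑ k, ∫ z, h j k z ^ 2 ∂γ ι) + ∑ j, ∫ z, g j z ^ 2 ∂γ ι) := by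
  refine hasSum_le (fun α => ?_) ((hermb_gsq hu).mul_left (2 * t))
    ((hermb_sq hu.u2).add (((hermb_two hu hg).add (hermb_gsq hu)).mul_left (t ^ 2)))
  exact hermb_le (fac_pos α) (p := ((1 - t * dg α) * co u α) ^ 2) (by positivity) (by ring)

/-- An identity tested with Hermite polynomials extends to all functions with a weak gradient
(`parseval`, `hasSum_shift`). -/
theorem WG_test {A : ι → (ι → ℝ) → ℝ} {B : (ι → ℝ) → ℝ} (hA : ∀ i, L2 (A i)) (hB : L2 B)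
    (h : ∀ α : ι → ℕ, (∑ i, (α i : ℝ) * co (A i) (α - Pi.single i 1)) + co B α = 0)
    {ρ : (ι → ℝ) → ℝ} {r : ι → (ι → ℝ) → ℝ} (hρ : WG ρ r) :
    (∑ i, ∫ z, r i z * A i z ∂γ ι) + ∫ z, ρ z * B z ∂γ ι = 0 := by
  have H : ∀ i, HasSum (fun β : ι → ℕ => co ρ β * ((β i : ℝ) * co (A i) (β - Pi.single i 1)) / fac β)
      (∫ z, r i z * A i z ∂γ ι) := fun i => by
    refine (hasSum_shift i fun β hβ => by simp [hβ]).1 ?_
    have e : ∀ α : ι → ℕ, co ρ (α + Pi.single i 1) * (((α + Pi.single i 1 : ι → ℕ) i : ℝ) *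
        co (A i) (α + Pi.single i 1 - Pi.single i 1)) / fac (α + Pi.single i 1) =
        co (r i) α * co (A i) α / fac α := fun α => by
      have := (fac_pos α).ne'
      rw [hρ.eq, add_tsub_cancel_right, fac_add_single, Pi.add_apply, Pi.single_eq_same]
      push_cast
      field_simp
    simp only [e]
    exact parseval (hρ.g2 i) (hA i)
  have := (hasSum_sum fun i (_ : i ∈ Finset.univ) => H i).add (parseval hρ.u2 hB)
  simp only [← Finset.sum_div, ← Finset.mul_sum, ← add_div, ← mul_add, h, mul_zero, zero_div] at this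
  exact this.unique hasSum_zero

theorem hermc_abs {I : Type} {a b F : I → ℝ} {X Y Z t : ℝ} (hF : ∀ i, 0 < F i)
    (H1 : HasSum (fun i => a i * b i / F i) X) (H2 : HasSum (fun i => a i * a i / F i) Y)
    (H3 : HasSum (fun i => b i * b i / F i) Z) (ht : 0 < t) : |X| ≤ t * Y + Z / t := by
  have key : ∀ a b F : ℝ, 0 < F → a * b / F ≤ t * (a * a / F) + b * b / F / t := fun a b F hF => by
    rw [← sub_nonneg]
    have : t * (a * a / F) + b * b / F / t - a * b / F =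
        ((t * a - b / 2) ^ 2 + 3 / 4 * b ^ 2) / (F * t) := by field_simp; ring
    rw [this]; positivity
  have H := (H2.mul_left t).add (H3.div_const t)
  refine abs_le'.2 ⟨hasSum_le (fun i => key _ _ _ (hF i)) H1 H, hasSum_le (fun i => ?_) H1.neg H⟩
  have := key (-a i) (b i) _ (hF i)
  rwa [neg_mul_neg, neg_mul, neg_div] at this

theorem hermc_tail {u p : (ι → ℝ) → ℝ} (hu : L2 u) (hp : L2 p) {t : ℝ} (ht : 0 < t)
    (s : Finset (ι → ℕ)) :
    |(∫ z, u z * p z ∂γ ι) - ∑ α ∈ s, co u α * co p α / fac α| ≤ t * (∫ z, u z ^ 2 ∂γ ι) +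
      ((∫ z, p z * p z ∂γ ι) - ∑ α ∈ s, co p α * co p α / fac α) / t := by
  have h0 : 0 ≤ ∑ α ∈ s, co u α * co u α / fac α :=
    Finset.sum_nonneg fun α _ => div_nonneg (mul_self_nonneg _) (fac_pos α).le
  refine (hermc_abs (I := {x // x ∉ s}) (a := fun α => co u α.1) (b := fun α => co p α.1)
    (F := fun α => fac α.1) (fun α => fac_pos α.1)
    (s.hasSum_iff_compl.1 (parseval hu hp)) (s.hasSum_iff_compl.1 (parseval hu hu))
    (s.hasSum_iff_compl.1 (parseval hp hp)) ht).trans (add_le_add ?_ le_rfl)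
  simp only [sq]
  exact mul_le_mul_of_nonneg_left (sub_le_self _ h0) ht.le

/-- Weak convergence from a uniform `L²` bound and the convergence of the coefficients (approximate `p` by a
finite Hermite sum using `parseval`, or Tannery's theorem after cutting the series). -/
theorem tendsto_of_co {κ : Type} {l : Filter κ} {f : κ → (ι → ℝ) → ℝ} {g : (ι → ℝ) → ℝ} {C : ℝ}
    (hf : ∀ᶠ k in l, L2 (f k) ∧ ∫ z, f k z ^ 2 ∂γ ι ≤ C) (hg : L2 g)
    (h : ∀ α, Tendsto (fun k => co (f k) α) l (𝓝 (co g α))) {p : (ι → ℝ) → ℝ} (hp : L2 p) :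
    Tendsto (fun k => ∫ z, f k z * p z ∂γ ι) l (𝓝 (∫ z, g z * p z ∂γ ι)) := by
  refine Metric.tendsto_nhds.2 fun ε hε => ?_
  obtain ⟨D, hD, h1, h2⟩ : ∃ D : ℝ, 0 < D ∧ C ≤ D ∧ ∫ z, g z ^ 2 ∂γ ι ≤ D :=
    ⟨|C| + |∫ z, g z ^ 2 ∂γ ι| + 1, by positivity,
      by linarith [le_abs_self C, abs_nonneg (∫ z, g z ^ 2 ∂γ ι)],
      by linarith [abs_nonneg C, le_abs_self (∫ z, g z ^ 2 ∂γ ι)]⟩
  have ht : 0 < ε / (8 * D) := by positivity
  have e : ε / (8 * D) * D = ε / 8 := by field_simp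
  obtain ⟨s, hs⟩ := (Tendsto.eventually (parseval hp hp) (lt_mem_nhds
    (sub_lt_self _ (show 0 < ε / 8 * (ε / (8 * D)) by positivity)))).exists
  have hs' : ((∫ z, p z * p z ∂γ ι) - ∑ α ∈ s, co p α * co p α / fac α) / (ε / (8 * D)) ≤ ε / 8 := by
    rw [div_le_iff₀ ht]; linarith
  have T := tendsto_finsetSum s fun α _ => ((h α).mul_const (co p α)).div_const (fac α)
  filter_upwards [hf, Metric.tendsto_nhds.1 T _ (half_pos hε)] with k hk hk'
  have a1 := abs_le.1 (hermc_tail hk.1 hp ht s)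
  have a2 := abs_le.1 (hermc_tail hg hp ht s)
  have b1 := mul_le_mul_of_nonneg_left (hk.2.trans h1) ht.le
  have b2 := mul_le_mul_of_nonneg_left h2 ht.le
  rw [Real.dist_eq, abs_lt] at hk' ⊢
  constructor <;> linarith [a1.1, a1.2, a2.1, a2.2, hk'.1, hk'.2]

end Crest.Agent.R253
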