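/-
Row 253 (S0390, S0391), file Mat.  Matrix tools: Schur multipliers, spectral bounds, determinants.
Definitions: R253/Fun.lean, R253/Defs.lean.  Outline: R253/Blueprint.lean.  Keep the statements unchanged.
-/
import Crest.Agent.R253.Fun1
import Crest.Agent.R203N.Mat3

set_option autoImplicit false

namespace Crest.Agent.R253

open MeasureTheory ProbabilityTheory Matrix Filter Topology Crest.Agent.R203N

variable {ι : Type} [Fintype ι] [DecidableEq ι]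

theorem Mata_key (k : ℝ → ℝ → ℝ) {O U : Matrix ι ι ℝ} (hO : Orth O) (hU : Orth U) {a b : ι → ℝ}
    (e : Dg O a = Dg U b) (X : Matrix ι ι ℝ) (i j : ι) :
    (Oᵀ * (U * (Matrix.of fun p q => k (b p) (b q) * (Uᵀ * X * U) p q) * Uᵀ) * O) i j
      = k (a i) (a j) * (Oᵀ * X * O) i j := by
  have h1 : Uᵀ * O * Matrix.diagonal a = Matrix.diagonal b * (Uᵀ * O) := by
    rw [← Mat2_right U hO a, e, Mat2_left hU O b]
  have h2 : ∀ p i, (Uᵀ * O) p i ≠ 0 → b p = a i := by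
    intro p i h
    have := congrFun (congrFun h1 p) i
    rw [Matrix.mul_diagonal, Matrix.diagonal_mul] at this
    have h3 : (Uᵀ * O) p i * (a i - b p) = 0 := by linarith
    rcases mul_eq_zero.1 h3 with h4 | h4
    · exact absurd h4 h
    · linarith
  have h3 : ∀ M : Matrix ι ι ℝ, Oᵀ * (U * M * Uᵀ) * O = (Uᵀ * O)ᵀ * M * (Uᵀ * O) := by
    intro M
    simp only [Matrix.transpose_mul, Matrix.transpose_transpose, Matrix.mul_assoc]
  have h4 : Oᵀ * X * O = (Uᵀ * O)ᵀ * (Uᵀ * X * U) * (Uᵀ * O) := by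
    rw [← h3, eq_conj hU X]
  rw [h3, h4]
  generalize Uᵀ * X * U = Y
  generalize Uᵀ * O = W at h2
  simp only [Matrix.mul_apply, Matrix.transpose_apply, Matrix.of_apply, Finset.mul_sum,
    Finset.sum_mul]
  refine Finset.sum_congr rfl fun q _ => Finset.sum_congr rfl fun p _ => ?_
  by_cases hp : W p i = 0
  · simp [hp]
  by_cases hq : W q j = 0
  · simp [hq]
  rw [h2 p i hp, h2 q j hq]
  ring

theorem Mata_sch_add (k : ℝ → ℝ → ℝ) (A X Y : Matrix ι ι ℝ) :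
    sch k A (X + Y) = sch k A X + sch k A Y := by
  unfold sch
  split_ifs with h
  · rw [← Matrix.add_mul, ← Matrix.mul_add]
    congr 2
    ext i j
    simp only [Matrix.of_apply, Matrix.add_apply, Matrix.mul_add, Matrix.add_mul]
    ring
  · simp

theorem Mata_sch_smul (k : ℝ → ℝ → ℝ) (A X : Matrix ι ι ℝ) (c : ℝ) :
    sch k A (c • X) = c • sch k A X := by
  unfold sch
  split_ifs with h
  · rw [← Matrix.smul_mul, ← Matrix.mul_smul]
    congr 2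
    ext i j
    simp only [Matrix.of_apply, Matrix.smul_apply, Matrix.mul_smul, Matrix.smul_mul, smul_eq_mul]
    ring
  · simp

/-- Independence of the diagonalisation: if `Dg O a = Dg U b`, `W = Uᵀ O`, then `W_pi (b_p - a_i) = 0`
(compare `Mat1_indep`). -/
theorem conj_sch (k : ℝ → ℝ → ℝ) {O : Matrix ι ι ℝ} (hO : Orth O) (a : ι → ℝ) (X : Matrix ι ι ℝ)
    (i j : ι) : (Oᵀ * sch k (Dg O a) X * O) i j = k (a i) (a j) * (Oᵀ * X * O) i j := by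
  have h : ∃ x : Matrix ι ι ℝ × (ι → ℝ), Orth x.1 ∧ Dg O a = Dg x.1 x.2 := ⟨(O, a), hO, rfl⟩
  unfold sch
  rw [dif_pos h]
  exact Mata_key k hO h.choose_spec.1 h.choose_spec.2 X i j

theorem conj_Df (f f1 : ℝ → ℝ) {O : Matrix ι ι ℝ} (hO : Orth O) (a : ι → ℝ) (X : Matrix ι ι ℝ)
    (i j : ι) : (Oᵀ * Df f f1 (Dg O a) X * O) i j = dd f f1 (a i) (a j) * (Oᵀ * X * O) i j :=
  conj_sch _ hO a X i j

theorem conj_fm_mul (u : ℝ → ℝ) {O : Matrix ι ι ℝ} (hO : Orth O) (a : ι → ℝ) (X : Matrix ι ι ℝ)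
    (i j : ι) : (Oᵀ * (fm u (Dg O a) * X) * O) i j = u (a i) * (Oᵀ * X * O) i j := by
  rw [conj_mul hO, fm_Dg u hO, conj_Dg hO, Matrix.diagonal_mul]

theorem conj_mul_fm (u : ℝ → ℝ) {O : Matrix ι ι ℝ} (hO : Orth O) (a : ι → ℝ) (X : Matrix ι ι ℝ)
    (i j : ι) : (Oᵀ * (X * fm u (Dg O a)) * O) i j = (Oᵀ * X * O) i j * u (a j) := by
  rw [conj_mul hO, fm_Dg u hO, conj_Dg hO, Matrix.mul_diagonal]

theorem conj_cm (u : ℝ → ℝ) {O : Matrix ι ι ℝ} (hO : Orth O) (a : ι → ℝ) (X : Matrix ι ι ℝ)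
    (i j : ι) : (Oᵀ * cm u (Dg O a) X * O) i j = (u (a i) - u (a j)) * (Oᵀ * X * O) i j := by
  unfold cm
  rw [Matrix.mul_sub, Matrix.sub_mul, Matrix.sub_apply, conj_fm_mul u hO, conj_mul_fm u hO]
  ring

theorem sur_eq {O : Matrix ι ι ℝ} (hO : Orth O) (a : ι → ℝ) (X : Matrix ι ι ℝ) :
    sur (Dg O a) X = ∑ i, ∑ j, sg (lh (a i) - lh (a j)) * (Oᵀ * X * O) i j ^ 2 := by
  unfold sur
  rw [← hs_conj hO (cm lh (Dg O a) X), ← hs_conj hO (cm lh (Dg O a) (cm lh (Dg O a) X))]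
  unfold hs
  simp only [conj_cm lh hO, Finset.sum_div, ← Finset.sum_add_distrib]
  refine Finset.sum_congr rfl fun i _ => Finset.sum_congr rfl fun j _ => ?_
  unfold sg
  ring

theorem conj_inj {O X Y : Matrix ι ι ℝ} (hO : Orth O) (h : Oᵀ * X * O = Oᵀ * Y * O) : X = Y := by
  rw [← eq_conj hO X, h, eq_conj hO Y]

theorem Df_symm (f f1 : ℝ → ℝ) (A : Matrix ι ι ℝ) {X : Matrix ι ι ℝ} (hX : X.IsSymm) :
    (Df f f1 A X).IsSymm := by
  by_cases hA : A.IsSymm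
  · obtain ⟨O, a, hO, rfl⟩ := exists_Dg hA
    have h1 : (Oᵀ * Df f f1 (Dg O a) X * O).IsSymm := by
      refine Matrix.IsSymm.ext fun i j => ?_
      rw [conj_Df f f1 hO, conj_Df f f1 hO, Mat3_dd_comm f f1 (a j) (a i),
        (conj_symm hX O).apply i j]
    have h2 := conj_symm h1 Oᵀ
    rwa [Matrix.transpose_transpose, eq_conj hO] at h2
  · have h : ¬ ∃ x : Matrix ι ι ℝ × (ι → ℝ), Orth x.1 ∧ A = Dg x.1 x.2 := by
      rintro ⟨x, -, hx⟩
      exact hA (hx ▸ Dg_symm _ _)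
    unfold Df sch
    rw [dif_neg h]
    exact Matrix.isSymm_zero

theorem Df_id {A : Matrix ι ι ℝ} (hA : A.IsSymm) (X : Matrix ι ι ℝ) :
    Df (fun l => l) (fun _ => 1) A X = X := by
  obtain ⟨O, a, hO, rfl⟩ := exists_Dg hA
  refine conj_inj hO ?_
  ext i j
  rw [conj_Df _ _ hO]
  have : dd (fun l => l) (fun _ => 1) (a i) (a j) = 1 := by
    unfold dd
    split_ifs with h
    · rfl
    · exact div_self (sub_ne_zero.2 (Ne.symm h))
  rw [this, one_mul]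

theorem Df_add (f f1 : ℝ → ℝ) (A X Y : Matrix ι ι ℝ) :
    Df f f1 A (X + Y) = Df f f1 A X + Df f f1 A Y := by
  exact Mata_sch_add _ A X Y

theorem Df_smul (f f1 : ℝ → ℝ) (A X : Matrix ι ι ℝ) (c : ℝ) :
    Df f f1 A (c • X) = c • Df f f1 A X := by
  exact Mata_sch_smul _ A X c

theorem Df_sum {κ : Type} (s : Finset κ) (f f1 : ℝ → ℝ) (A : Matrix ι ι ℝ) (X : κ → Matrix ι ι ℝ) :
    Df f f1 A (∑ k ∈ s, X k) = ∑ k ∈ s, Df f f1 A (X k) := by
  classical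
  induction s using Finset.induction_on with
  | empty =>
    have := Df_smul f f1 A 0 0
    simpa using this
  | insert k s hk ih => rw [Finset.sum_insert hk, Finset.sum_insert hk, Df_add, ih]

theorem Sp.eig {a b : ℝ} {O : Matrix ι ι ℝ} (hO : Orth O) {d : ι → ℝ} (h : Sp a b (Dg O d)) (i : ι) :
    a ≤ d i ∧ d i ≤ b := by
  have h1 := h.2 fun c => O c i
  rw [Dg_mulVec_col hO, dotProduct_smul, hO.col_dot i i, Matrix.one_apply_eq] at h1
  simpa using h1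

theorem Sp_Dg {a b : ℝ} {O : Matrix ι ι ℝ} (hO : Orth O) {d : ι → ℝ} (h : ∀ i, a ≤ d i ∧ d i ≤ b) :
    Sp a b (Dg O d) := by
  refine ⟨Dg_symm O d, fun x => ?_⟩
  rw [quad_Dg, ← hO.dot_self x, Finset.mul_sum, Finset.mul_sum]
  exact ⟨Finset.sum_le_sum fun i _ => mul_le_mul_of_nonneg_right (h i).1 (sq_nonneg _),
    Finset.sum_le_sum fun i _ => mul_le_mul_of_nonneg_right (h i).2 (sq_nonneg _)⟩

theorem Sp.mono {a b a' b' : ℝ} {A : Matrix ι ι ℝ} (h : Sp a b A) (ha : a' ≤ a) (hb : b ≤ b') :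
    Sp a' b' A := by
  refine ⟨h.1, fun x => ?_⟩
  have hx : 0 ≤ x ⬝ᵥ x := Finset.sum_nonneg fun i _ => mul_self_nonneg _
  exact ⟨(mul_le_mul_of_nonneg_right ha hx).trans (h.2 x).1, (h.2 x).2.trans (mul_le_mul_of_nonneg_right hb hx)⟩

theorem Sp_smul_one {a b c : ℝ} (ha : a ≤ c) (hb : c ≤ b) : Sp a b (c • (1 : Matrix ι ι ℝ)) := by
  rw [← Dg_const orth_one]
  exact Sp_Dg orth_one fun _ => ⟨ha, hb⟩

theorem Sp.hs_le {R : ℝ} {A : Matrix ι ι ℝ} (h : Sp (-R) R A) : hs A ≤ dim ι * R ^ 2 := by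
  obtain ⟨O, d, hO, rfl⟩ := exists_Dg h.1
  rw [hs_Dg hO]
  refine (Finset.sum_le_sum fun i _ => sq_le_sq' (h.eig hO i).1 (h.eig hO i).2).trans_eq ?_
  rw [Finset.sum_const, Finset.card_univ, nsmul_eq_mul]

theorem Sp.abs_le {R : ℝ} {A : Matrix ι ι ℝ} (h : Sp (-R) R A) (i j : ι) : |A i j| ≤ R := by
  have h1 := h.2 (Pi.single i 1 + Pi.single j 1)
  have h2 := h.2 (Pi.single i 1 - Pi.single j 1)
  have h3 : A j i = A i j := h.1.apply i j
  have h4 : (Pi.single j 1 : ι → ℝ) i = (Pi.single i 1 : ι → ℝ) j := by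
    simp only [Pi.single_apply, eq_comm]
  simp only [mulVec_add, mulVec_sub, add_dotProduct, sub_dotProduct, dotProduct_add, dotProduct_sub,
    single_dotProduct, mulVec_single_one, col_apply, one_mul, Pi.single_eq_same, h3, h4] at h1 h2
  exact _root_.abs_le.2 ⟨by linarith [h1.1, h2.2], by linarith [h1.2, h2.1]⟩

theorem Sp_of_hs {R : ℝ} {A : Matrix ι ι ℝ} (hA : A.IsSymm) (hR : 0 ≤ R) (h : hs A ≤ R ^ 2) :
    Sp (-R) R A := by
  obtain ⟨O, d, hO, rfl⟩ := exists_Dg hA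
  rw [hs_Dg hO] at h
  exact Sp_Dg hO fun i => abs_le_of_sq_le_sq' ((Finset.single_le_sum (f := fun i => d i ^ 2)
    (fun _ _ => sq_nonneg _) (Finset.mem_univ i)).trans h) hR

theorem Sp.fm {a b c d : ℝ} {A : Matrix ι ι ℝ} (h : Sp a b A) {f : ℝ → ℝ}
    (hf : ∀ x, a ≤ x → x ≤ b → c ≤ f x ∧ f x ≤ d) : Sp c d (fm f A) := by
  obtain ⟨O, e, hO, rfl⟩ := exists_Dg h.1
  rw [fm_Dg f hO]
  exact Sp_Dg hO fun i => hf _ (h.eig hO i).1 (h.eig hO i).2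

theorem Sp.fm_congr {a b : ℝ} {A : Matrix ι ι ℝ} (h : Sp a b A) {f g : ℝ → ℝ}
    (hf : ∀ x, a ≤ x → x ≤ b → f x = g x) : R203N.fm f A = R203N.fm g A := by
  obtain ⟨O, e, hO, rfl⟩ := exists_Dg h.1
  rw [fm_Dg f hO, fm_Dg g hO]
  exact congrArg _ (funext fun i => hf _ (h.eig hO i).1 (h.eig hO i).2)

theorem Sp.quad_fm_le {a b : ℝ} {A : Matrix ι ι ℝ} (h : Sp a b A) {f g : ℝ → ℝ}
    (hf : ∀ x, a ≤ x → x ≤ b → f x ≤ g x) (v : ι → ℝ) :
    v ⬝ᵥ R203N.fm f A *ᵥ v ≤ v ⬝ᵥ R203N.fm g A *ᵥ v := by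
  obtain ⟨O, e, hO, rfl⟩ := exists_Dg h.1
  rw [fm_Dg f hO, fm_Dg g hO, quad_Dg, quad_Dg]
  exact Finset.sum_le_sum fun i _ =>
    mul_le_mul_of_nonneg_right (hf _ (h.eig hO i).1 (h.eig hO i).2) (sq_nonneg _)

theorem fm_fm (f g : ℝ → ℝ) {A : Matrix ι ι ℝ} (hA : A.IsSymm) :
    fm f (fm g A) = fm (fun x => f (g x)) A := by
  obtain ⟨O, e, hO, rfl⟩ := exists_Dg hA
  rw [fm_Dg g hO, fm_Dg f hO, fm_Dg _ hO]

theorem Sp.inv_eq {a b : ℝ} {H : Matrix ι ι ℝ} (h : Sp a b H) (ha : 0 < a) :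
    H⁻¹ = R203N.fm (fun x => x⁻¹) H := by
  obtain ⟨O, e, hO, rfl⟩ := exists_Dg h.1
  refine Matrix.inv_eq_right_inv ?_
  rw [fm_Dg _ hO, Dg_mul hO, ← one_smul ℝ (1 : Matrix ι ι ℝ), ← Dg_const hO]
  exact congrArg _ (funext fun i => mul_inv_cancel₀ (ha.trans_le (h.eig hO i).1).ne')

theorem Sp.inv {a b : ℝ} {H : Matrix ι ι ℝ} (h : Sp a b H) (ha : 0 < a) : Sp b⁻¹ a⁻¹ H⁻¹ := by
  rw [h.inv_eq ha]
  exact h.fm fun x h1 h2 => ⟨inv_anti₀ (ha.trans_le h1) h2, inv_anti₀ ha h1⟩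

theorem Sp.det_pos {a b : ℝ} {H : Matrix ι ι ℝ} (h : Sp a b H) (ha : 0 < a) : 0 < H.det := by
  obtain ⟨O, e, hO, rfl⟩ := exists_Dg h.1
  rw [det_Dg hO]
  exact Finset.prod_pos fun i _ => ha.trans_le (h.eig hO i).1

theorem Sp.log_det {a b : ℝ} {H : Matrix ι ι ℝ} (h : Sp a b H) (ha : 0 < a) :
    Real.log H.det = (R203N.fm Real.log H).trace := by
  obtain ⟨O, e, hO, rfl⟩ := exists_Dg h.1
  rw [det_Dg hO, fm_Dg _ hO, trace_Dg hO, Real.log_prod fun i _ => (ha.trans_le (h.eig hO i).1).ne']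

/-- `|u(A) v|² = ⟨v, u²(A) v⟩`. -/
theorem fm_dot_fm (u w : ℝ → ℝ) (A : Matrix ι ι ℝ) (v : ι → ℝ) :
    (fm u A *ᵥ v) ⬝ᵥ (fm w A *ᵥ v) = v ⬝ᵥ fm (fun l => u l * w l) A *ᵥ v := by
  have h : (fm u A)ᵀ = fm u A := fm_symm u A
  rw [fm_mul, ← mulVec_mulVec, dotProduct_mulVec v, ← mulVec_transpose, h]

theorem fm_dot_le {u : ℝ → ℝ} {c : ℝ} (hu : ∀ l, |u l| ≤ c) (A : Matrix ι ι ℝ) (v : ι → ℝ) :
    (fm u A *ᵥ v) ⬝ᵥ (fm u A *ᵥ v) ≤ c ^ 2 * (v ⬝ᵥ v) := by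
  rw [fm_dot_fm]
  by_cases hA : A.IsSymm
  · obtain ⟨O, e, hO, rfl⟩ := exists_Dg hA
    rw [fm_Dg _ hO, quad_Dg, ← hO.dot_self v, Finset.mul_sum]
    refine Finset.sum_le_sum fun i _ => mul_le_mul_of_nonneg_right ?_ (sq_nonneg _)
    rw [← sq]
    exact sq_le_sq' (abs_le.1 (hu _)).1 (abs_le.1 (hu _)).2
  · rw [Mat1_fm_zero _ hA, zero_mulVec, dotProduct_zero]
    exact mul_nonneg (sq_nonneg _) (Finset.sum_nonneg fun i _ => mul_self_nonneg _)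

theorem dot_symm {A : Matrix ι ι ℝ} (hA : A.IsSymm) (v w : ι → ℝ) :
    v ⬝ᵥ A *ᵥ w = (A *ᵥ v) ⬝ᵥ w := by
  have h : Aᵀ = A := hA
  rw [dotProduct_mulVec, ← mulVec_transpose, h]

theorem hs_eq_sum_col {O : Matrix ι ι ℝ} (hO : Orth O) (M : Matrix ι ι ℝ) :
    hs M = ∑ i, (M *ᵥ fun a => O a i) ⬝ᵥ (M *ᵥ fun a => O a i) := by
  rw [← Mat2_hs_two orth_one hO M, transpose_one, Matrix.one_mul, hs, Finset.sum_comm]
  simp only [Matrix.mul_apply, dotProduct, mulVec, sq]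

/-! ### Second part -/

/-- Replace `f1` by `f1 ∘ clamp` and `f` by `f 0 + ∫₀ˣ f1 ∘ clamp`. -/
theorem C2.exists_global {f f1 : ℝ → ℝ} (h : C2 f f1) (R : ℝ) : ∃ (g g1 : ℝ → ℝ) (K : ℝ),
    (∀ x, HasDerivAt g (g1 x) x) ∧ (∀ a b, |g1 a - g1 b| ≤ K * |a - b|) ∧
    (∀ a b, |g a - g b| ≤ K * |a - b|) ∧ ∀ x, -R ≤ x → x ≤ R → g x = f x ∧ g1 x = f1 x := by
  obtain ⟨K, hK⟩ := h.lip |R|
  have hR : 0 ≤ |R| := abs_nonneg R
  set c : ℝ → ℝ := fun x => max (-|R|) (min x |R|) with hc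
  have c1 : ∀ x, |c x| ≤ |R| := fun x =>
    abs_le.2 ⟨le_max_left _ _, max_le (by linarith) (min_le_right _ _)⟩
  have c2 : ∀ x y, |c x - c y| ≤ |x - y| := fun x y => by
    refine (abs_max_sub_max_le_max _ _ _ _).trans (max_le (by simp) ?_)
    refine (abs_min_sub_min_le_max _ _ _ _).trans (max_le le_rfl (by simp))
  have c3 : ∀ x, |x| ≤ |R| → c x = x := fun x hx => by
    obtain ⟨h1, h2⟩ := abs_le.1 hx
    simp only [hc]
    rw [min_eq_left h2, max_eq_right h1]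
  have l1 : ∀ a b, |f1 (c a) - f1 (c b)| ≤ |K| * |a - b| := fun a b =>
    (hK _ _ (c1 a) (c1 b)).trans (mul_le_mul (le_abs_self K) (c2 a b) (abs_nonneg _) (abs_nonneg _))
  have hcont : Continuous fun x => f1 (c x) := Mat3_cont l1
  have b1 : ∀ x, |f1 (c x)| ≤ |f1 0| + |K| * |R| := fun x => by
    have h1 := hK (c x) 0 (c1 x) (by simp)
    have h2 : K * |c x - 0| ≤ |K| * |R| :=
      mul_le_mul (le_abs_self K) (by simpa using c1 x) (abs_nonneg _) (abs_nonneg _)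
    have h3 := abs_sub_abs_le_abs_sub (f1 (c x)) (f1 0)
    linarith
  have hd : ∀ x, HasDerivAt (fun x => f 0 + ∫ t in (0 : ℝ)..x, f1 (c t)) (f1 (c x)) x := fun x =>
    ((hcont.integral_hasStrictDerivAt 0 x).hasDerivAt).const_add _
  have hK0 : 0 ≤ |K| := abs_nonneg K
  have hB0 : 0 ≤ |f1 0| + |K| * |R| := by positivity
  refine ⟨fun x => f 0 + ∫ t in (0 : ℝ)..x, f1 (c t), fun x => f1 (c x), |K| + (|f1 0| + |K| * |R|), hd,
    fun a b => ?_, fun a b => ?_, fun x h1 h2 => ?_⟩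
  · exact (l1 a b).trans (mul_le_mul_of_nonneg_right (by linarith) (abs_nonneg _))
  · have := Convex.norm_image_sub_le_of_norm_hasDerivWithin_le (s := Set.univ) (C := |f1 0| + |K| * |R|)
      (fun x _ => (hd x).hasDerivWithinAt) (fun x _ => b1 x) convex_univ (Set.mem_univ b) (Set.mem_univ a)
    exact this.trans (mul_le_mul_of_nonneg_right (by linarith) (abs_nonneg _))
  · have hx : |x| ≤ |R| := (abs_le.2 ⟨h1, h2⟩).trans (le_abs_self R)
    refine ⟨?_, by simp only [c3 x hx]⟩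
    have : ∫ t in (0 : ℝ)..x, f1 (c t) = f x - f 0 := by
      refine intervalIntegral.integral_eq_sub_of_hasDerivAt (fun t ht => ?_) (hcont.intervalIntegrable _ _)
      have ht' : |t| ≤ |R| := by
        have := Set.abs_sub_left_of_mem_uIcc ht
        simp only [sub_zero] at this
        exact this.trans hx
      rw [c3 t ht']
      exact h.hd t
    simp only [this]
    ring

theorem Matc_dd_congr {f f1 g g1 : ℝ → ℝ} {R : ℝ}
    (e : ∀ x, -R ≤ x → x ≤ R → g x = f x ∧ g1 x = f1 x) {a b : ℝ} (ha : -R ≤ a ∧ a ≤ R)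
    (hb : -R ≤ b ∧ b ≤ R) : dd g g1 a b = dd f f1 a b := by
  unfold dd
  rw [(e a ha.1 ha.2).1, (e a ha.1 ha.2).2, (e b hb.1 hb.2).1]

theorem Matc_Df_congr {f f1 g g1 : ℝ → ℝ} {R : ℝ}
    (e : ∀ x, -R ≤ x → x ≤ R → g x = f x ∧ g1 x = f1 x) {A : Matrix ι ι ℝ} (hA : Sp (-R) R A)
    (X : Matrix ι ι ℝ) : Df g g1 A X = Df f f1 A X := by
  obtain ⟨O, a, hO, rfl⟩ := exists_Dg hA.1
  refine conj_inj hO ?_
  ext i j
  rw [conj_Df _ _ hO, conj_Df _ _ hO, Matc_dd_congr e (hA.eig hO i) (hA.eig hO j)]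

theorem Matc_taylor {g g1 : ℝ → ℝ} {K : ℝ} (hd : ∀ x, HasDerivAt g (g1 x) x)
    (hK : ∀ a b, |g1 a - g1 b| ≤ K * |a - b|) {A H : Matrix ι ι ℝ} (hA : A.IsSymm) (hH : H.IsSymm) :
    hs (fm g (A + H) - fm g A - Df g g1 A H) ≤ dim ι * K ^ 2 * hs H ^ 2 := by
  obtain ⟨O, a, hO, rfl⟩ := exists_Dg hA
  refine le_trans (le_of_eq ?_) (fm_taylor hd hK hO a hH)
  rw [← hs_conj hO, Matrix.mul_sub, Matrix.sub_mul]
  congr 2
  ext i j
  rw [conj_Df _ _ hO, Matrix.of_apply]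

theorem Matc_dd_le {g g1 : ℝ → ℝ} {K : ℝ} (hd : ∀ x, HasDerivAt g (g1 x) x)
    (hK : ∀ a b, |g a - g b| ≤ K * |a - b|) (a b : ℝ) : |dd g g1 a b| ≤ K := by
  have hK0 : 0 ≤ K := Mat3_nonneg hK
  unfold dd
  split_ifs with hab
  · have := (hd a).le_of_lip' hK0 (Filter.Eventually.of_forall fun x => hK x a)
    simpa using this
  · have hne : b - a ≠ 0 := sub_ne_zero.2 (Ne.symm hab)
    rw [abs_div, div_le_iff₀ (abs_pos.2 hne)]
    exact hK b a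

theorem Matc_hs_smul (c : ℝ) (X : Matrix ι ι ℝ) : hs (c • X) = c ^ 2 * hs X := by
  simp only [hs, Matrix.smul_apply, smul_eq_mul, mul_pow, Finset.mul_sum]

/-- `fm_taylor` for the global extension. -/
theorem C2.taylor {f f1 : ℝ → ℝ} (h : C2 f f1) (R : ℝ) : ∃ K : ℝ, ∀ A B : Matrix ι ι ℝ,
    Sp (-R) R A → Sp (-R) R B → hs (fm f B - fm f A - Df f f1 A (B - A)) ≤ K * hs (B - A) ^ 2 := by
  obtain ⟨g, g1, K, hd, hK, -, e⟩ := h.exists_global R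
  refine ⟨dim ι * K ^ 2, fun A B hA hB => ?_⟩
  have := Matc_taylor hd hK hA.1 (hB.1.sub hA.1)
  rwa [add_sub_cancel, Matc_Df_congr e hA, hA.fm_congr fun x h1 h2 => (e x h1 h2).1,
    hB.fm_congr fun x h1 h2 => (e x h1 h2).1] at this

theorem C2.hs_Df_le {f f1 : ℝ → ℝ} (h : C2 f f1) (R : ℝ) : ∃ K : ℝ, ∀ A X : Matrix ι ι ℝ,
    Sp (-R) R A → hs (Df f f1 A X) ≤ K * hs X := by
  obtain ⟨g, g1, K, hd, -, hK, e⟩ := h.exists_global R
  refine ⟨K ^ 2, fun A X hA => ?_⟩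
  rw [← Matc_Df_congr e hA]
  obtain ⟨O, a, hO, rfl⟩ := exists_Dg hA.1
  rw [← hs_conj hO, ← hs_conj hO X]
  unfold hs
  rw [Finset.mul_sum]
  refine Finset.sum_le_sum fun i _ => ?_
  rw [Finset.mul_sum]
  refine Finset.sum_le_sum fun j _ => ?_
  rw [conj_Df _ _ hO, mul_pow]
  refine mul_le_mul_of_nonneg_right ?_ (sq_nonneg _)
  exact sq_le_sq' (abs_le.1 (Matc_dd_le hd hK _ _)).1 (abs_le.1 (Matc_dd_le hd hK _ _)).2

theorem exists_fm_bound {u : ℝ → ℝ} (hu : Continuous u) (R : ℝ) : ∃ C : ℝ, ∀ A : Matrix ι ι ℝ,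
    Sp (-R) R A → ∀ i j, |fm u A i j| ≤ C := by
  obtain ⟨C, hC⟩ := (isCompact_Icc (a := -R) (b := R)).exists_bound_of_continuousOn hu.continuousOn
  refine ⟨C, fun A hA i j => ?_⟩
  exact (hA.fm fun x h1 h2 => abs_le.1 (hC x ⟨h1, h2⟩)).abs_le i j

/-- With the global extension `g`: `Df f f1 A X = lim (n+1) (g(A + X/(n+1)) - g(A))` (`fm_taylor`),
`measurable_fm`, `measurable_of_tendsto_metrizable`. -/
theorem C2.measurable_Df {Ω : Type} [MeasurableSpace Ω] {f f1 : ℝ → ℝ} (h : C2 f f1) {R : ℝ}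
    {A X : Ω → Matrix ι ι ℝ} (hA : ∀ i j, Measurable fun ω => A ω i j) (sA : ∀ ω, Sp (-R) R (A ω))
    (hX : ∀ i j, Measurable fun ω => X ω i j) (sX : ∀ ω, (X ω).IsSymm) (i j : ι) :
    Measurable fun ω => Df f f1 (A ω) (X ω) i j := by
  obtain ⟨g, g1, K, hd, hK, hK', e⟩ := h.exists_global R
  have hg : Continuous g := Mat3_cont hK'
  have e1 : (fun ω => Df f f1 (A ω) (X ω) i j) = fun ω => Df g g1 (A ω) (X ω) i j := by
    funext ω
    rw [Matc_Df_congr e (sA ω)]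
  rw [e1]
  refine measurable_of_tendsto_metrizable (f := fun (n : ℕ) ω => ((n : ℝ) + 1) *
    (fm g (A ω + ((n : ℝ) + 1)⁻¹ • X ω) i j - fm g (A ω) i j)) (fun n => ?_) ?_
  · refine Measurable.const_mul (Measurable.sub ?_ (measurable_fm hg hA (fun ω => (sA ω).1) i j)) _
    refine measurable_fm hg (fun i j => ?_) (fun ω => (sA ω).1.add ((sX ω).smul _)) i j
    simp only [Matrix.add_apply, Matrix.smul_apply, smul_eq_mul]
    exact (hA i j).add ((hX i j).const_mul _)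
  · rw [tendsto_pi_nhds]
    intro ω
    rw [tendsto_iff_norm_sub_tendsto_zero]
    set C : ℝ := Real.sqrt (dim ι * K ^ 2 * hs (X ω) ^ 2) with hC
    have hlim : Tendsto (fun n : ℕ => C * (1 / ((n : ℝ) + 1))) atTop (𝓝 0) := by
      simpa using tendsto_one_div_add_atTop_nhds_zero_nat.const_mul C
    refine squeeze_zero (fun n => norm_nonneg _) (fun n => ?_) hlim
    have hn : (0 : ℝ) < (n : ℝ) + 1 := by positivity
    have h1 := (sq_le_hs _ i j).trans (Matc_taylor hd hK (sA ω).1 ((sX ω).smul ((n : ℝ) + 1)⁻¹))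
    rw [Df_smul, Matc_hs_smul] at h1
    have h2 := Real.abs_le_sqrt h1
    have h3 : Real.sqrt (dim ι * K ^ 2 * (((n : ℝ) + 1)⁻¹ ^ 2 * hs (X ω)) ^ 2)
        = C * ((n : ℝ) + 1)⁻¹ ^ 2 := by
      rw [show dim ι * K ^ 2 * (((n : ℝ) + 1)⁻¹ ^ 2 * hs (X ω)) ^ 2
          = dim ι * K ^ 2 * hs (X ω) ^ 2 * (((n : ℝ) + 1)⁻¹ ^ 2) ^ 2 by ring,
        Real.sqrt_mul' _ (sq_nonneg _), Real.sqrt_sq (sq_nonneg _)]
    rw [h3] at h2
    simp only [Matrix.sub_apply, Matrix.smul_apply, smul_eq_mul] at h2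
    rw [Real.norm_eq_abs]
    have e2 : ((n : ℝ) + 1) * (fm g (A ω + ((n : ℝ) + 1)⁻¹ • X ω) i j - fm g (A ω) i j)
        - Df g g1 (A ω) (X ω) i j = ((n : ℝ) + 1) * (fm g (A ω + ((n : ℝ) + 1)⁻¹ • X ω) i j - fm g (A ω) i j
        - ((n : ℝ) + 1)⁻¹ * Df g g1 (A ω) (X ω) i j) := by
      field_simp
    rw [e2, abs_mul, abs_of_pos hn]
    refine (mul_le_mul_of_nonneg_left h2 hn.le).trans (le_of_eq ?_)
    field_simp

/-- Hadamard's inequality: with `C = Dg U c`, `c > 0`, the diagonal entries are doubly stochastic averages of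
the `c_j`; `log` is concave on `(0,∞)`. -/
theorem hadamard {C O : Matrix ι ι ℝ} (hC : C.IsSymm) (hpos : ∀ x : ι → ℝ, x ≠ 0 → 0 < x ⬝ᵥ C *ᵥ x)
    (hO : Orth O) : Real.log C.det ≤ ∑ i, Real.log ((fun a => O a i) ⬝ᵥ C *ᵥ fun a => O a i) := by
  obtain ⟨U, c, hU, rfl⟩ := exists_Dg hC
  have hW := Mat2_orth hO hU
  have hc : ∀ j, 0 < c j := by
    intro j
    have e1 := hU.col_dot j j
    rw [one_apply_eq] at e1
    have e2 : (fun b => U b j) ⬝ᵥ Dg U c *ᵥ (fun b => U b j) = c j := by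
      rw [Dg_mulVec_col hU, dotProduct_smul, e1, smul_eq_mul, mul_one]
    rw [← e2]
    refine hpos _ fun h0 => ?_
    rw [h0, dotProduct_zero] at e1
    exact zero_ne_one e1
  have e : ∀ i, (Oᵀ * Dg U c * O) i i = ∑ j, (Oᵀ * U) i j ^ 2 • c j := by
    intro i
    have : Oᵀ * Dg U c * O = Oᵀ * U * Matrix.diagonal c * (Oᵀ * U)ᵀ := by
      simp only [Dg, transpose_mul, transpose_transpose, Matrix.mul_assoc]
    rw [this, Matrix.mul_apply]
    refine Finset.sum_congr rfl fun j _ => ?_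
    rw [mul_diagonal, transpose_apply, smul_eq_mul]
    ring
  rw [det_Dg hU, Real.log_prod fun j _ => (hc j).ne']
  calc ∑ j, Real.log (c j) = ∑ j, ∑ i, (Oᵀ * U) i j ^ 2 • Real.log (c j) := by
        refine Finset.sum_congr rfl fun j _ => ?_
        rw [← Finset.sum_smul, Mat2_col hW, one_smul]
    _ = ∑ i, ∑ j, (Oᵀ * U) i j ^ 2 • Real.log (c j) := Finset.sum_comm
    _ ≤ _ := by
        refine Finset.sum_le_sum fun i _ => ?_
        rw [← conj_apply, e]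
        exact strictConcaveOn_log_Ioi.concaveOn.le_map_sum (fun j _ => sq_nonneg _) (Mat2_row hW i)
          fun j _ => hc j

/-- Bessel's inequality for an orthogonal family with squared norms `s i`. -/
theorem matd_bessel {κ : Type} [Fintype κ] (W : ι → κ → ℝ) (s : ι → ℝ)
    (hW : ∀ i j, W i ⬝ᵥ W j = Matrix.diagonal s i j) (ρ : κ → ℝ) :
    ∑ i, (ρ ⬝ᵥ W i) ^ 2 / s i ≤ ρ ⬝ᵥ ρ := by
  set c : ι → ℝ := fun i => (ρ ⬝ᵥ W i) / s i with hc
  set u : κ → ℝ := ∑ i, c i • W i with hu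
  have h0 : 0 ≤ (ρ - u) ⬝ᵥ (ρ - u) := Finset.sum_nonneg fun k _ => mul_self_nonneg _
  have e1 : ρ ⬝ᵥ u = ∑ i, (ρ ⬝ᵥ W i) ^ 2 / s i := by
    rw [hu, dotProduct_sum]
    refine Finset.sum_congr rfl fun i _ => ?_
    rw [dotProduct_smul, smul_eq_mul, hc]
    ring
  have e2 : u ⬝ᵥ u = ∑ i, (ρ ⬝ᵥ W i) ^ 2 / s i := by
    rw [hu, sum_dotProduct]
    refine Finset.sum_congr rfl fun i _ => ?_
    rw [dotProduct_sum, Finset.sum_eq_single i]
    · rw [smul_dotProduct, dotProduct_smul, hW, diagonal_apply_eq, smul_eq_mul, smul_eq_mul, hc]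
      by_cases h : s i = 0
      · simp [h]
      · field_simp
    · intro j _ hj
      rw [smul_dotProduct, dotProduct_smul, hW, diagonal_apply_ne _ (Ne.symm hj)]
      simp
    · intro h
      exact absurd (Finset.mem_univ i) h
  rw [sub_dotProduct, dotProduct_sub, dotProduct_sub, dotProduct_comm u ρ, e1, e2] at h0
  linarith

/-- The vectors `w_i = (D_k o_i)_k / √s_i` of `ℝ^(ι×ι)` are orthonormal (or zero); Bessel's inequality for each
row of `(M_k)_k`.  (Directly: for a row `ρ`, `0 ≤ |ρ - ∑ c_i W_i|²`, `W_i = (D_k o_i)_k`, `c_i = ⟨ρ,W_i⟩/s_i`.) -/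
theorem isometry_bound {D : ι → Matrix ι ι ℝ} (hD : ∀ k, (D k).IsSymm) {O : Matrix ι ι ℝ} (hO : Orth O)
    {s : ι → ℝ} (hS : Sq D = Dg O s) (M : ι → Matrix ι ι ℝ) :
    ∑ i, ((∑ k, M k *ᵥ (D k *ᵥ fun a => O a i)) ⬝ᵥ (∑ k, M k *ᵥ (D k *ᵥ fun a => O a i))) / s i
      ≤ ∑ k, hs (M k) := by
  set W : ι → ι × ι → ℝ := fun i p => (D p.1 *ᵥ fun a => O a i) p.2 with hWd
  have hW : ∀ i j, W i ⬝ᵥ W j = Matrix.diagonal s i j := by
    intro i j
    rw [← conj_Dg hO s, ← hS, conj_apply, Sq, sum_mulVec, dotProduct_sum, dotProduct,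
      Fintype.sum_prod_type]
    refine Finset.sum_congr rfl fun k _ => ?_
    have h' : (D k)ᵀ = D k := hD k
    rw [← mulVec_mulVec, dotProduct_mulVec, ← mulVec_transpose, h']
    rfl
  have key : ∀ a : ι, ∑ i, ((fun p : ι × ι => M p.1 a p.2) ⬝ᵥ W i) ^ 2 / s i
      ≤ ∑ k, ∑ b, M k a b ^ 2 := by
    intro a
    refine (matd_bessel W s hW fun p : ι × ι => M p.1 a p.2).trans (le_of_eq ?_)
    rw [dotProduct, Fintype.sum_prod_type]
    exact Finset.sum_congr rfl fun k _ => Finset.sum_congr rfl fun b _ => (sq _).symm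
  have e : ∀ i a, (∑ k, M k *ᵥ (D k *ᵥ fun a => O a i)) a
      = (fun p : ι × ι => M p.1 a p.2) ⬝ᵥ W i := by
    intro i a
    rw [Finset.sum_apply, dotProduct, Fintype.sum_prod_type]
    rfl
  calc _ = ∑ i, ∑ a, ((fun p : ι × ι => M p.1 a p.2) ⬝ᵥ W i) ^ 2 / s i := by
        refine Finset.sum_congr rfl fun i _ => ?_
        rw [dotProduct, Finset.sum_div]
        refine Finset.sum_congr rfl fun a _ => ?_
        rw [e, sq]
    _ = ∑ a, ∑ i, ((fun p : ι × ι => M p.1 a p.2) ⬝ᵥ W i) ^ 2 / s i := Finset.sum_comm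
    _ ≤ ∑ a, ∑ k, ∑ b, M k a b ^ 2 := Finset.sum_le_sum fun a _ => key a
    _ = ∑ k, hs (M k) := by rw [Finset.sum_comm]; rfl

/-! ### Third part: determinants -/

theorem mate_sim {a b : ℝ} {P Z : Matrix ι ι ℝ} (hP : Sp a b P) (ha : 0 ≤ a) (hZ : Z.IsSymm) :
    ∃ (Q : Matrix ι ι ℝ) (y : ι → ℝ), Q * Qᵀ = P ∧ Qᵀ * Z * Q = diagonal y ∧ ∀ i,
      a ≤ ((fun k => Q k i) ⬝ᵥ fun k => Q k i) ∧ ((fun k => Q k i) ⬝ᵥ fun k => Q k i) ≤ b ∧
        y i = (fun k => Q k i) ⬝ᵥ Z *ᵥ fun k => Q k i := by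
  have h1 : R203N.fm Real.sqrt P * R203N.fm Real.sqrt P = P := by
    rw [← fm_mul, hP.fm_congr (g := fun x => x) fun x hx _ => Real.mul_self_sqrt (ha.trans hx), fm_id hP.1]
  have h2 : (R203N.fm Real.sqrt P)ᵀ = R203N.fm Real.sqrt P := fm_symm _ P
  generalize R203N.fm Real.sqrt P = S at h1 h2
  obtain ⟨U, y, hU, h3⟩ := exists_Dg (conj_symm hZ S)
  have h4 : (S * U)ᵀ * Z * (S * U) = diagonal y := by
    rw [← conj_Dg hU, ← h3, transpose_mul]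
    simp only [Matrix.mul_assoc]
  refine ⟨S * U, y, ?_, h4, fun i => ?_⟩
  · rw [transpose_mul, Matrix.mul_assoc, ← Matrix.mul_assoc U, hU.mul_transpose, Matrix.one_mul, h2, h1]
  · have h5 : ((S * U)ᵀ * (1 : Matrix ι ι ℝ) * (S * U)) i i = (Uᵀ * P * U) i i := by
      rw [transpose_mul, h2, ← h1]
      simp only [Matrix.mul_assoc, Matrix.one_mul]
    have h6 := hP.2 fun k => U k i
    rw [conj_apply, conj_apply, one_mulVec] at h5
    rw [hU.col_dot, one_apply_eq, mul_one, mul_one, ← h5] at h6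
    exact ⟨h6.1, h6.2, by rw [← conj_apply, h4, diagonal_apply_eq]⟩

theorem mate_facts {Q P Z : Matrix ι ι ℝ} {y : ι → ℝ} (h1 : Q * Qᵀ = P) (h2 : Qᵀ * Z * Q = diagonal y) :
    P.det * Z.det = ∏ i, y i ∧ (P * Z).trace = ∑ i, y i ∧ (Z * P * Z * P).trace = ∑ i, y i ^ 2 := by
  refine ⟨?_, ?_, ?_⟩
  · rw [← det_diagonal, ← h2, ← h1, det_mul, det_mul, det_mul]
    ring
  · rw [← trace_diagonal, ← h2, ← h1, trace_mul_comm _ Q, Matrix.mul_assoc]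
  · simp only [sq]
    rw [← trace_diagonal, ← diagonal_mul_diagonal, ← h2, ← h1, Matrix.mul_assoc Qᵀ, Matrix.mul_assoc Qᵀ,
      trace_mul_comm Qᵀ]
    simp only [Matrix.mul_assoc]

/-- `det (P H) ≤ exp (tr (P H) - m)`: conjugate with `P^(1/2) = fm √ P`, `log x ≤ x - 1`. -/
theorem log_det_mul_le {a b c d : ℝ} {P H : Matrix ι ι ℝ} (hP : Sp a b P) (ha : 0 < a) (hH : Sp c d H)
    (hc : 0 < c) : Real.log P.det + Real.log H.det ≤ (P * H).trace - dim ι := by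
  obtain ⟨Q, y, h1, h2, h3⟩ := mate_sim hP ha.le hH.1
  obtain ⟨e1, e2, -⟩ := mate_facts h1 h2
  have hy : ∀ i, 0 < y i := fun i =>
    (mul_pos hc (ha.trans_le (h3 i).1)).trans_le ((h3 i).2.2 ▸ (hH.2 _).1)
  rw [← Real.log_mul (hP.det_pos ha).ne' (hH.det_pos hc).ne', e1, e2,
    Real.log_prod fun i _ => (hy i).ne']
  refine (Finset.sum_le_sum fun i _ => Real.log_le_sub_one_of_pos (hy i)).trans_eq ?_
  simp

theorem mate_log {x r : ℝ} (h0 : 0 < x) (h : x ≤ r) (h1 : 1 ≤ r) :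
    1 / (2 * r ^ 2) * (x - 1) ^ 2 ≤ x - 1 - Real.log x := by
  rcases le_total x 1 with h2 | h2
  · have h3 := Real.le_log_one_add_of_nonneg (sub_nonneg.2 ((one_le_inv₀ h0).2 h2))
    rw [add_sub_cancel, Real.log_inv] at h3
    calc _ ≤ 1 / (x + 1) * (x - 1) ^ 2 := by gcongr; nlinarith
      _ = x - 1 + 2 * (x⁻¹ - 1) / (x⁻¹ - 1 + 2) := by field_simp; ring
      _ ≤ _ := by linarith
  · have h3 := Real.self_le_sinh_iff.2 (Real.log_nonneg h2)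
    rw [Real.sinh_log h0] at h3
    calc _ ≤ 1 / (2 * x) * (x - 1) ^ 2 := by gcongr; nlinarith
      _ = x - 1 - (x - x⁻¹) / 2 := by field_simp; ring
      _ ≤ _ := by linarith

/-- `qd = ∑ (λ_i - 1 - log λ_i)`, `λ` the eigenvalues of `H^(-1/2) H' H^(-1/2)`, `0 < λ ≤ b/a`;
`λ - 1 - log λ ≥ (λ-1)²/(2 (b/a)²)` and `∑ (λ_i - 1)² = tr (H⁻¹ Δ H⁻¹ Δ) ≥ hs Δ / b²`. -/
theorem qd_lower {a b : ℝ} (ha : 0 < a) (hab : a ≤ b) {H H' : Matrix ι ι ℝ} (hH : Sp a b H)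
    (hH' : Sp a b H') : a ^ 2 / (2 * b ^ 4) * hs (H' - H) ≤ qd H H' := by
  have hb := ha.trans_le hab
  have hdet := hH.det_pos ha
  have hu : IsUnit H.det := hdet.ne'.isUnit
  have hI := hH.inv ha
  obtain ⟨Q, y, h1, h2, h3⟩ := mate_sim hI (inv_pos.2 hb).le hH'.1
  have h4 : Qᵀ * (H' - H) * Q = diagonal fun i => y i - 1 := by
    have : Qᵀ * H * Q = 1 := mul_eq_one_comm.1 (by rw [← Matrix.mul_assoc, h1, nonsing_inv_mul _ hu])
    rw [Matrix.mul_sub, Matrix.sub_mul, h2, this, ← diagonal_one, diagonal_sub]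
  obtain ⟨e1, -, -⟩ := mate_facts h1 h2
  obtain ⟨-, e2, e3⟩ := mate_facts h1 h4
  have hy : ∀ i, 0 < y i ∧ y i ≤ b / a := fun i =>
    ⟨(mul_pos ha ((inv_pos.2 hb).trans_le (h3 i).1)).trans_le ((h3 i).2.2 ▸ (hH'.2 _).1),
      ((h3 i).2.2 ▸ (hH'.2 _).2).trans (mul_le_mul_of_nonneg_left (h3 i).2.1 hb.le)⟩
  have e4 : Real.log H'.det = Real.log H.det + ∑ i, Real.log (y i) := by
    rw [← Real.log_prod fun i _ => (hy i).1.ne', ← e1, det_nonsing_inv, Ring.inverse_eq_inv',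
      Real.log_mul (inv_ne_zero hdet.ne') (hH'.det_pos ha).ne', Real.log_inv]
    ring
  have e5 : b⁻¹ ^ 2 * hs (H' - H) ≤ ∑ i, (y i - 1) ^ 2 := by
    obtain ⟨O, d, hO, hd⟩ := exists_Dg hI.1
    have hs' := conj_symm (hH'.1.sub hH.1) O
    rw [← e3, Matrix.mul_assoc, trace_mul_conj hO, conj_mul hO, hd, conj_Dg hO, ← hs_conj hO, hs,
      Finset.mul_sum]
    refine Finset.sum_le_sum fun i _ => ?_
    rw [Finset.mul_sum]
    refine Finset.sum_le_sum fun j _ => ?_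
    have a1 := ((hd ▸ hI).eig hO i).1
    have a2 := ((hd ▸ hI).eig hO j).1
    rw [mul_diagonal, mul_diagonal, hs'.apply i j]
    have := mul_le_mul a1 a2 (inv_pos.2 hb).le ((inv_pos.2 hb).le.trans a1)
    nlinarith [mul_le_mul_of_nonneg_right this (sq_nonneg ((Oᵀ * (H' - H) * O) i j))]
  rw [qd, e2, e4, add_sub_add_left_eq_sub, ← Finset.sum_sub_distrib]
  calc _ = 1 / (2 * (b / a) ^ 2) * (b⁻¹ ^ 2 * hs (H' - H)) := by field_simp
    _ ≤ 1 / (2 * (b / a) ^ 2) * ∑ i, (y i - 1) ^ 2 := by gcongr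
    _ ≤ _ := by
      rw [Finset.mul_sum]
      exact Finset.sum_le_sum fun i _ => mate_log (hy i).1 (hy i).2 ((one_le_div ha).2 hab)

/-- `log_det_mul_le` with `P = H⁻¹ - ε Z` and `H'`; `det P det H = det (1 - ε Y)`, `Y = H^(1/2) Z H^(1/2)`,
`log (1 - y) + y ≥ -y²/2 - |y|³` for `|y| ≤ 1/2`, `tr Y = tr (Z H)`, `tr Y² = tr (Z H Z H)`. -/
theorem qd_legendre {a b R : ℝ} (ha : 0 < a) (hab : a ≤ b) : ∃ C ε₀ : ℝ, 0 < ε₀ ∧
    ∀ (H H' Z : Matrix ι ι ℝ) (ε : ℝ), Sp a b H → Sp a b H' → Sp (-R) R Z → |ε| ≤ ε₀ →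
      ε * (Z * (H' - H)).trace - ε ^ 2 / 2 * (Z * H * Z * H).trace - C * |ε| ^ 3 ≤ qd H H' := by
  have hb := ha.trans_le hab
  refine ⟨dim ι * (2 * (|R| * b) ^ 3), 1 / (2 * (|R| * b + 1)), by positivity,
    fun H H' Z ε hH hH' hZ hε => ?_⟩
  have hε' : |ε| * (|R| * b) ≤ 1 / 2 := by
    rw [le_div_iff₀ (by positivity)] at hε
    nlinarith [abs_nonneg ε]
  have hq : ∀ x : ι → ℝ, |x ⬝ᵥ Z *ᵥ x| ≤ |R| * (x ⬝ᵥ x) := fun x => by
    have := mul_le_mul_of_nonneg_right (le_abs_self R) (dotProduct_self_star_nonneg x)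
    rw [star_trivial] at this
    exact abs_le.2 ⟨by linarith [(hZ.2 x).1], by linarith [(hZ.2 x).2]⟩
  have hdet := hH.det_pos ha
  have hu : IsUnit H.det := hdet.ne'.isUnit
  have hI := hH.inv ha
  have hP : Sp (b⁻¹ / 2) (a⁻¹ + b⁻¹ / 2) (H⁻¹ - ε • Z) := ⟨hI.1.sub (hZ.1.smul ε), fun x => by
    have a0 : 0 ≤ x ⬝ᵥ x := by simpa using dotProduct_self_star_nonneg x
    have a1 : |ε| * |R| ≤ b⁻¹ / 2 := by
      rw [div_eq_inv_mul, ← div_eq_mul_inv, le_div_iff₀ hb]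
      linarith
    have a2 : |ε * (x ⬝ᵥ Z *ᵥ x)| ≤ b⁻¹ / 2 * (x ⬝ᵥ x) := by
      rw [abs_mul]
      exact (mul_le_mul_of_nonneg_left (hq x) (abs_nonneg ε)).trans
        (by rw [← mul_assoc]; exact mul_le_mul_of_nonneg_right a1 a0)
    rw [sub_mulVec, dotProduct_sub, smul_mulVec, dotProduct_smul, smul_eq_mul]
    constructor <;> linarith [(hI.2 x).1, (hI.2 x).2, (abs_le.1 a2).1, (abs_le.1 a2).2]⟩
  have h0 := log_det_mul_le hP (by positivity) hH' ha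
  obtain ⟨Q, y, h1, h2, h3⟩ := mate_sim hH ha.le hZ.1
  have h4 : Qᵀ * (H⁻¹ - ε • Z) * Q = diagonal fun i => 1 - ε * y i := by
    have : Qᵀ * H⁻¹ * Q = 1 := mul_eq_one_comm.1 (by rw [← Matrix.mul_assoc, h1, mul_nonsing_inv _ hu])
    rw [Matrix.mul_sub, Matrix.sub_mul, this, Matrix.mul_smul, Matrix.smul_mul, h2, ← diagonal_one,
      ← diagonal_smul, diagonal_sub]
    rfl
  obtain ⟨e1, -, -⟩ := mate_facts h1 h4
  obtain ⟨-, e2, e3⟩ := mate_facts h1 h2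
  have hy : ∀ i, |ε * y i| ≤ |ε| * (|R| * b) := fun i => by
    rw [abs_mul, (h3 i).2.2]
    exact mul_le_mul_of_nonneg_left ((hq _).trans
      (mul_le_mul_of_nonneg_left (h3 i).2.1 (abs_nonneg R))) (abs_nonneg ε)
  have e4 : Real.log H.det + Real.log (H⁻¹ - ε • Z).det = ∑ i, Real.log (1 - ε * y i) := by
    rw [← Real.log_mul hdet.ne' (hP.det_pos (by positivity)).ne', e1, Real.log_prod fun i _ =>
      (show 0 < 1 - ε * y i by linarith [le_abs_self (ε * y i), hy i]).ne']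
  have e5 : ∑ i, (-(ε * y i) - ε ^ 2 / 2 * y i ^ 2 - 2 * (|R| * b) ^ 3 * |ε| ^ 3) ≤
      ∑ i, Real.log (1 - ε * y i) := Finset.sum_le_sum fun i _ => by
    have a1 := (hy i).trans hε'
    have a2 := (abs_le.1 (Real.abs_log_sub_add_sum_range_le (x := ε * y i) (by linarith) 2)).1
    have a3 : |ε * y i| ^ (2 + 1) / (1 - |ε * y i|) ≤ (|ε| * (|R| * b)) ^ 3 / (1 / 2) := by
      gcongr
      · exact hy i
      · linarith
    simp only [Finset.sum_range_succ, Finset.sum_range_zero] at a2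
    norm_num at a2 a3
    linarith
  rw [Finset.sum_sub_distrib, Finset.sum_sub_distrib, Finset.sum_neg_distrib, ← Finset.mul_sum,
    ← Finset.mul_sum, ← e2, ← e3, ← e4, Finset.sum_const, Finset.card_univ, nsmul_eq_mul] at e5
  rw [Matrix.sub_mul, Matrix.smul_mul, trace_sub, trace_smul, smul_eq_mul] at h0
  rw [qd, Matrix.mul_sub, Matrix.mul_sub, trace_sub, trace_sub, nonsing_inv_mul _ hu, trace_one,
    trace_mul_comm Z H]
  linarith

end Crest.Agent.R253
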