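/-
Row 253 (S0390, S0391), file Core0.  Square integrable fields and the basic facts about a field.
Definitions: R253/Fun.lean, R253/Defs.lean.  Outline: R253/Blueprint.lean.  Keep the statements unchanged.
-/
import Crest.Agent.R253.Mat
import Crest.Agent.R253.Herm

set_option autoImplicit false
set_option linter.unusedSectionVars false

namespace Crest.Agent.R253

open MeasureTheory ProbabilityTheory Matrix Filter Topology Crest.Agent.R203N

variable {ι : Type} [Fintype ι] [DecidableEq ι]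

section tools

variable {M M' : (ι → ℝ) → Matrix ι ι ℝ} {u u' v v' : (ι → ℝ) → ι → ℝ}

theorem Core0a_sum {κ : Type} (s : Finset κ) {f : κ → (ι → ℝ) → ℝ} (hf : ∀ k ∈ s, L2 (f k)) :
    L2 fun z => ∑ k ∈ s, f k z := memLp_finsetSum s hf

theorem Core0a_mul {f g : (ι → ℝ) → ℝ} {C : ℝ} (hf : Measurable f) (hC : ∀ z, |f z| ≤ C) (hg : L2 g) :
    L2 fun z => f z * g z :=
  hg.of_le_mul (c := C) (hf.aestronglyMeasurable.mul hg.1) (Eventually.of_forall fun z => by
    rw [norm_mul]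
    exact mul_le_mul_of_nonneg_right (hC z) (norm_nonneg _))

theorem LM.add (h : LM M) (h' : LM M') : LM fun z => M z + M' z := by
  exact fun i j => (h i j).add (h' i j)
theorem LM.sub (h : LM M) (h' : LM M') : LM fun z => M z - M' z := by
  exact fun i j => (h i j).sub (h' i j)
theorem LM.smul (h : LM M) (c : ℝ) : LM fun z => c • M z := by
  exact fun i j => (h i j).const_mul c
theorem LM_const (C : Matrix ι ι ℝ) : LM fun _ => C := by
  exact fun i j => memLp_const _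
theorem BM.lm (h : BM M) : LM M := by
  obtain ⟨hm, C, hC⟩ := h
  exact fun i j => MemLp.of_bound (hm i j).aestronglyMeasurable C (Eventually.of_forall fun z => hC z i j)
theorem BM_const (C : Matrix ι ι ℝ) : BM fun _ => C := by
  refine ⟨fun i j => measurable_const, ∑ i, ∑ j, |C i j|, fun _ i j => ?_⟩
  exact (Finset.single_le_sum (f := fun j => |C i j|) (fun _ _ => abs_nonneg _) (Finset.mem_univ j)).trans
    (Finset.single_le_sum (f := fun i => ∑ j, |C i j|)
      (fun _ _ => Finset.sum_nonneg fun _ _ => abs_nonneg _) (Finset.mem_univ i))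
theorem BM.mul (h : BM M) (h' : BM M') : BM fun z => M z * M' z := by
  obtain ⟨hm, C, hC⟩ := h
  obtain ⟨hm', C', hC'⟩ := h'
  refine ⟨fun i j => ?_, ∑ _k : ι, C * C', fun z i j => ?_⟩
  · simp only [Matrix.mul_apply]
    exact Finset.measurable_sum _ fun k _ => (hm i k).mul (hm' k j)
  · simp only [Matrix.mul_apply]
    refine (Finset.abs_sum_le_sum_abs _ _).trans (Finset.sum_le_sum fun k _ => ?_)
    rw [abs_mul]
    exact mul_le_mul (hC z i k) (hC' z k j) (abs_nonneg _) ((abs_nonneg _).trans (hC z i k))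
theorem BM.mul_LM (h : BM M) (h' : LM M') : LM fun z => M z * M' z := by
  obtain ⟨hm, C, hC⟩ := h
  intro i j
  simp only [Matrix.mul_apply]
  exact Core0a_sum _ fun k _ => Core0a_mul (hm i k) (fun z => hC z i k) (h' k j)
theorem LM.mul_BM (h : LM M) (h' : BM M') : LM fun z => M z * M' z := by
  obtain ⟨hm, C, hC⟩ := h'
  intro i j
  simp only [Matrix.mul_apply, fun z k => mul_comm (M z i k) (M' z k j)]
  exact Core0a_sum _ fun k _ => Core0a_mul (hm k j) (fun z => hC z k j) (h i k)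
theorem LM.mulVec (h : LM M) (e : ι → ℝ) : LV fun z => M z *ᵥ e := by
  exact fun i => Core0a_sum _ fun k _ => (h i k).mul_const (e k)
theorem BM.mulVec (h : BM M) (hv : LV v) : LV fun z => M z *ᵥ v z := by
  obtain ⟨hm, C, hC⟩ := h
  exact fun i => Core0a_sum _ fun k _ => Core0a_mul (hm i k) (fun z => hC z i k) (hv k)
theorem LV.add (h : LV u) (h' : LV v) : LV fun z => u z + v z := by
  exact fun i => (h i).add (h' i)
theorem LV.sub (h : LV u) (h' : LV v) : LV fun z => u z - v z := by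
  exact fun i => (h i).sub (h' i)
theorem LV.smul (h : LV u) (c : ℝ) : LV fun z => c • u z := by
  exact fun i => (h i).const_mul c
theorem LV_const (e : ι → ℝ) : LV fun _ => e := by
  exact fun i => memLp_const _
theorem LV.sum {κ : Type} (s : Finset κ) {w : κ → (ι → ℝ) → ι → ℝ} (h : ∀ k ∈ s, LV (w k)) :
    LV fun z => ∑ k ∈ s, w k z := by
  intro i
  simp only [Finset.sum_apply]
  exact Core0a_sum s fun k hk => h k hk i
theorem LV.int_dot (h : LV u) (h' : LV v) : Integrable (fun z => u z ⬝ᵥ v z) (γ ι) := by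
  exact (dot_int h h').1
theorem ip_eq_sum (h : LV u) (h' : LV v) : ip u v = ∑ i, ∫ z, u z i * v z i ∂γ ι := by
  exact (dot_int h h').2
theorem ip_self_eq_sum (h : LV u) : ip u u = ∑ i, ∫ z, u z i ^ 2 ∂γ ι := by
  simp only [ip_eq_sum h h, sq]
theorem ip_comm (u v : (ι → ℝ) → ι → ℝ) : ip u v = ip v u := by
  simp only [ip, fun z => dotProduct_comm (u z) (v z)]
theorem ip_nonneg (u : (ι → ℝ) → ι → ℝ) : 0 ≤ ip u u := by
  exact integral_nonneg fun z => Finset.sum_nonneg fun i _ => mul_self_nonneg _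
theorem ip_congr (h : ∀ᵐ z ∂γ ι, u z ⬝ᵥ v z = u' z ⬝ᵥ v' z) : ip u v = ip u' v' := by
  exact integral_congr_ae h
theorem ip_add_left (h : LV u) (h' : LV u') (hv : LV v) :
    ip (fun z => u z + u' z) v = ip u v + ip u' v := by
  simp only [ip, add_dotProduct]
  exact integral_add (h.int_dot hv) (h'.int_dot hv)
theorem ip_sub_left (h : LV u) (h' : LV u') (hv : LV v) :
    ip (fun z => u z - u' z) v = ip u v - ip u' v := by
  simp only [ip, sub_dotProduct]
  exact integral_sub (h.int_dot hv) (h'.int_dot hv)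
theorem ip_smul_left (c : ℝ) (u v : (ι → ℝ) → ι → ℝ) : ip (fun z => c • u z) v = c * ip u v := by
  simp only [ip, smul_dotProduct, smul_eq_mul]
  exact integral_const_mul _ _
theorem ip_sum_left {κ : Type} (s : Finset κ) {w : κ → (ι → ℝ) → ι → ℝ} (h : ∀ k ∈ s, LV (w k))
    (hv : LV v) : ip (fun z => ∑ k ∈ s, w k z) v = ∑ k ∈ s, ip (w k) v := by
  simp only [ip, sum_dotProduct]
  exact integral_finsetSum s fun k hk => (h k hk).int_dot hv
theorem ip_add_right (h : LV u) (hv : LV v) (hv' : LV v') :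
    ip u (fun z => v z + v' z) = ip u v + ip u v' := by
  simp only [ip, dotProduct_add]
  exact integral_add (h.int_dot hv) (h.int_dot hv')
theorem ip_sub_right (h : LV u) (hv : LV v) (hv' : LV v') :
    ip u (fun z => v z - v' z) = ip u v - ip u v' := by
  simp only [ip, dotProduct_sub]
  exact integral_sub (h.int_dot hv) (h.int_dot hv')
theorem ip_smul_right (c : ℝ) (u v : (ι → ℝ) → ι → ℝ) : ip u (fun z => c • v z) = c * ip u v := by
  simp only [ip, dotProduct_smul, smul_eq_mul]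
  exact integral_const_mul _ _
theorem ip_amgm (h : LV u) (h' : LV v) (t : ℝ) : 2 * t * ip u v ≤ t ^ 2 * ip u u + ip v v := by
  have h0 := ip_nonneg fun z => t • u z - v z
  rw [ip_sub_left (h.smul t) h' ((h.smul t).sub h'), ip_sub_right (h.smul t) (h.smul t) h',
    ip_sub_right h' (h.smul t) h', ip_smul_left, ip_smul_left, ip_smul_right, ip_smul_right,
    ip_comm v u] at h0
  linarith
theorem ip_mono (h : LV u) (h' : LV v) {c : ℝ} (hc : ∀ z, u z ⬝ᵥ u z ≤ c * (v z ⬝ᵥ v z)) :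
    ip u u ≤ c * ip v v := by
  unfold ip
  rw [← integral_const_mul]
  exact integral_mono (h.int_dot h) ((h'.int_dot h').const_mul c) hc
theorem ip_const (e e' : ι → ℝ) : ip (fun _ => e) (fun _ => e') = e ⬝ᵥ e' := by
  simp [ip]
theorem ip_const_of_mean (h : LV u) (h0 : ∀ i, ∫ z, u z i ∂γ ι = 0) (e : ι → ℝ) :
    ip u (fun _ => e) = 0 := by
  rw [ip_eq_sum h (LV_const e)]
  refine Finset.sum_eq_zero fun i _ => ?_
  rw [integral_mul_const, h0, zero_mul]
theorem int_hs_eq (h : LM M) {O : Matrix ι ι ℝ} (hO : Orth O) : ∫ z, hs (M z) ∂γ ι =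
    ∑ i, ip (fun z => M z *ᵥ fun a => O a i) (fun z => M z *ᵥ fun a => O a i) := by
  unfold ip
  rw [← integral_finsetSum _ fun i _ => (h.mulVec _).int_dot (h.mulVec _)]
  refine integral_congr_ae (Eventually.of_forall fun z => ?_)
  have h1 : hs (M z * O) = hs (M z) := by
    have e : ∀ A : Matrix ι ι ℝ, hs A = (A * Aᵀ).trace := fun A => by
      simp only [hs, Matrix.trace, Matrix.diag, Matrix.mul_apply, Matrix.transpose_apply, sq]
    rw [e, e, Matrix.transpose_mul, Matrix.mul_assoc, ← Matrix.mul_assoc O, hO.mul_transpose,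
      Matrix.one_mul]
  show hs (M z) = _
  rw [← h1, hs, Finset.sum_comm]
  simp only [dotProduct, Matrix.mulVec, Matrix.mul_apply, sq]

/-- Weak gradients of the components of `M e`. -/
theorem WG_vec {N : ι → (ι → ℝ) → Matrix ι ι ℝ}
    (h : ∀ i j, WG (fun z => M z i j) (fun k z => N k z i j)) (e : ι → ℝ) (i : ι) :
    WG (fun z => (M z *ᵥ e) i) (fun k z => (N k z *ᵥ e) i) := by
  simp only [Matrix.mulVec, dotProduct, fun x j => mul_comm x (e j)]
  exact WG.sum Finset.univ fun j _ => (h i j).const_mul (e j)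

end tools

/-! ### Second part: the field -/

namespace Fld

variable (F : Fld ι)

theorem Core0b_Bz (D : ι → Matrix ι ι ℝ) (z : ι → ℝ) (i j : ι) :
    Bz D z i j = ((Matrix.of fun _ k => D k i j : Matrix ι ι ℝ) *ᵥ z) i := by
  simp only [Bz, Matrix.sum_apply, Matrix.smul_apply, smul_eq_mul, mulVec, dotProduct, of_apply,
    mul_comm]

theorem Core0b_bdd {M : (ι → ℝ) → Matrix ι ι ℝ} (h : BM M) (k l : ι) {f : (ι → ℝ) → ℝ}
    (hf : Integrable f (γ ι)) : Integrable (fun z => M z k l * f z) (γ ι) := by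
  obtain ⟨hm, C, hC⟩ := h
  exact hf.bdd_mul (c := C) (hm k l).aestronglyMeasurable (ae_of_all _ fun z => hC z k l)

theorem BM_fm {u : ℝ → ℝ} (hu : Continuous u) : BM fun z => fm u (F.L z) :=
  ⟨measurable_fm hu F.mL fun z => (F.sL z).1, by
    obtain ⟨C, hC⟩ := exists_fm_bound (ι := ι) hu F.R
    exact ⟨C, fun z => hC _ (F.sL z)⟩⟩
theorem BM_L : BM F.L := ⟨F.mL, F.R, fun z => (F.sL z).abs_le⟩
/-- `chain` for the identity (`C2_id`, `fm_id`, `Df_id`). -/
theorem WG_L (i j : ι) : WG (fun z => F.L z i j) (fun k z => F.X k z i j) := by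
  have h := F.chain _ _ C2_id i j
  refine h.congr (ae_of_all _ fun z => ?_) fun k => ae_of_all _ fun z => ?_
  · simp only [fm_id (F.sL z).1]
  · simp only [Df_id (F.sL z).1]
theorem LM_X (k : ι) : LM (F.X k) := fun i j => (F.WG_L i j).g2 k
theorem LM_Df {f f1 : ℝ → ℝ} (h : C2 f f1) (k : ι) : LM fun z => Df f f1 (F.L z) (F.X k z) :=
  fun i j => (F.chain f f1 h i j).g2 k
theorem D_symm (k : ι) : (F.D k).IsSymm := by
  ext i j
  simp only [D, transpose_apply, of_apply]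
  exact integral_congr_ae (ae_of_all _ fun z => (F.sX k z).apply i j)
theorem S_symm : F.S.IsSymm := Sq_symm F.D_symm
theorem LM_Y (k : ι) : LM (F.Y k) := (F.LM_X k).sub (LM_const _)
theorem LM_E : LM F.E := F.BM_L.lm.sub (L2_Bz F.D)
theorem Y_symm (k : ι) (z : ι → ℝ) : (F.Y k z).IsSymm := (F.sX k z).sub (F.D_symm k)
theorem E_symm (z : ι → ℝ) : (F.E z).IsSymm := (F.sL z).1.sub (Bz_symm F.D_symm z)
theorem int_Y (k i j : ι) : ∫ z, F.Y k z i j ∂γ ι = 0 := by
  simp only [Y, Matrix.sub_apply]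
  rw [integral_sub (F.LM_X k i j).int (integrable_const _)]
  simp [D]
theorem int_E (h0 : F.Cen) (i j : ι) : ∫ z, F.E z i j ∂γ ι = 0 := by
  simp only [E, Matrix.sub_apply]
  rw [integral_sub (F.BM_L.lm i j).int (L2_Bz F.D i j).int, h0 i j]
  simp only [Core0b_Bz F.D _ i j, int_mulVec, sub_zero]
theorem WG_E (i j : ι) : WG (fun z => F.E z i j) (fun k z => F.Y k z i j) := by
  have h := (F.WG_L i j).sub (WG_mulVec (Matrix.of fun _ k => F.D k i j) i)
  refine h.congr (ae_of_all _ fun z => ?_) fun k => ae_of_all _ fun z => ?_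
  · simp only [E, Matrix.sub_apply, Core0b_Bz F.D _ i j]
  · simp only [Y, Matrix.sub_apply, of_apply]
theorem LM_kA1 (k : ι) : LM fun z => kA1 (F.L z) (F.X k z) :=
  (F.LM_Df C2_tau k).sub ((F.BM_fm C2_tau.cont.2).mul_LM (F.LM_X k))
theorem LM_kA2 (k : ι) : LM fun z => kA2 (F.L z) (F.X k z) :=
  (F.LM_Df C2_tau1 k).sub ((F.BM_fm C2_tau1.cont.2).mul_LM (F.LM_X k))
theorem LM_kA3 (k : ι) : LM fun z => kA3 (F.L z) (F.X k z) :=
  (((F.LM_Df C2_vf k).sub ((F.LM_X k).mul_BM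
    (F.BM_fm (continuous_iff_continuousAt.2 fun l => (hasDerivAt_nf l).continuousAt)))).add
    ((F.BM_fm (C2_tau.cont.2.pow 2)).mul_LM (F.LM_X k))).sub
    (((F.BM_fm C2_tau.cont.2).mul_LM (F.LM_Df C2_tau k)).smul 2)
theorem LM_kA4 (k : ι) : LM fun z => kA4 (F.L z) (F.X k z) :=
  (F.LM_Df C2_tau k).sub ((F.LM_X k).mul_BM (F.BM_fm C2_tau.cont.2))
theorem LM_kA6 (h : NF) (k : ι) : LM fun z => kA6 (F.L z) (F.X k z) :=
  (F.BM_fm (C2_tau.cont.2.sqrt.inv₀ fun l => (Real.sqrt_pos.2 (h.t1_pos l)).ne')).mul_LM (F.LM_kA1 k)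
theorem Core0b_cm {u : ℝ → ℝ} (hu : Continuous u) {M : (ι → ℝ) → Matrix ι ι ℝ} (hM : LM M) :
    LM fun z => cm u (F.L z) (M z) :=
  ((F.BM_fm hu).mul_LM hM).sub (hM.mul_BM (F.BM_fm hu))
theorem LM_cm {u : ℝ → ℝ} (hu : Continuous u) (k : ι) : LM fun z => cm u (F.L z) (F.X k z) :=
  Core0b_cm F hu (F.LM_X k)
theorem int_sur (k : ι) : Integrable (fun z => sur (F.L z) (F.X k z)) (γ ι) := by
  have hc : Continuous lh := continuous_iff_continuousAt.2 fun l => (hasDerivAt_lh l).continuousAt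
  exact ((hs_int (F.LM_cm hc k)).1.div_const 12).add
    ((hs_int (Core0b_cm F hc (F.LM_cm hc k))).1.div_const 360)
theorem int_Kq {w w1 : ℝ → ℝ} (h : C2 w w1) :
    Integrable (fun z => Kq w w1 (F.L z) fun k => F.X k z) (γ ι) := by
  have hc : Continuous mills :=
    continuous_iff_continuousAt.2 fun l => (hasDerivAt_mills l).continuousAt
  have hm := F.BM_fm hc
  refine Integrable.add ?_ ?_
  · refine integrable_finsetSum _ fun k _ => integrable_finsetSum _ fun l _ => ?_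
    exact Core0b_bdd (F.BM_fm h.cont.1) k l
      (trace_mul_int ((hm.mul_LM (F.LM_Df C2_haz k)).mul_BM hm) (F.LM_Df C2_haz l)).1
  · refine integrable_finsetSum _ fun k _ => integrable_finsetSum _ fun l _ => ?_
    exact Core0b_bdd hm k l (trace_mul_int (F.LM_Df h k) (F.LM_Df C2_haz l)).1
/-- `WG_sym` for `wT` and `chain haz`. -/
theorem ae_sym3 : ∀ᵐ z ∂γ ι, ∀ i j k,
    Df haz haz1 (F.L z) (F.X k z) i j = Df haz haz1 (F.L z) (F.X j z) i k := by
  simp only [ae_all_iff]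
  intro i j k
  exact WG_sym (F.wT i) (fun j => F.chain _ _ C2_haz i j) j k

variable (e : ι → ℝ)

theorem LV_fv {u : ℝ → ℝ} (hu : Continuous u) : LV (F.fv e u) := (F.BM_fm hu).lm.mulVec e
theorem LV_Ee : LV (F.Ee e) := F.LM_E.mulVec e
theorem LV_Xe (k : ι) : LV (F.Xe e k) := (F.LM_X k).mulVec e
theorem LV_Ye (k : ι) : LV (F.Ye e k) := (F.LM_Y k).mulVec e
theorem LV_te (k : ι) : LV (F.te e k) := (F.LM_Df C2_tau k).mulVec e
theorem LV_Ge : LV (F.Ge e) := LV.sum _ fun k _ => (F.LM_Y k).mulVec _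
theorem LV_G2 : LV (F.G2 e) := LV.sum _ fun k _ => (F.LM_kA2 k).mulVec _
theorem c0c_int {M : (ι → ℝ) → Matrix ι ι ℝ} (h : LM M) (h0 : ∀ i j, ∫ z, M z i j ∂γ ι = 0)
    (v : ι → ℝ) (i : ι) : ∫ z, (M z *ᵥ v) i ∂γ ι = 0 := by
  simp only [Matrix.mulVec, dotProduct]
  rw [integral_finsetSum _ fun j _ => (L2.int (h i j)).mul_const _]
  simp only [integral_mul_const, h0, zero_mul, Finset.sum_const_zero]

theorem int_Ge (i : ι) : ∫ z, F.Ge e z i ∂γ ι = 0 := by
  simp only [Ge, Finset.sum_apply]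
  rw [integral_finsetSum _ fun k _ => L2.int ((F.LM_Y k).mulVec _ i)]
  exact Finset.sum_eq_zero fun k _ => c0c_int (F.LM_Y k) (F.int_Y k) _ i
theorem int_Ee (h0 : F.Cen) (i : ι) : ∫ z, F.Ee e z i ∂γ ι = 0 := c0c_int F.LM_E (F.int_E h0) e i
theorem int_Ye (k i : ι) : ∫ z, F.Ye e k z i ∂γ ι = 0 := c0c_int (F.LM_Y k) (F.int_Y k) e i
theorem WG_Ee (i : ι) : WG (fun z => F.Ee e z i) (fun k z => F.Ye e k z i) := WG_vec F.WG_E e i
theorem WG_fv {f f1 : ℝ → ℝ} (h : C2 f f1) (i : ι) :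
    WG (fun z => F.fv e f z i) (fun k z => (Df f f1 (F.L z) (F.X k z) *ᵥ e) i) :=
  WG_vec (F.chain f f1 h) e i
theorem ip_fv (u w : ℝ → ℝ) : ip (F.fv e u) (F.fv e w) = F.I e fun l => u l * w l := by
  simp only [ip, fv, I, fm_dot_fm]
theorem c0c_I (u : ℝ → ℝ) : F.I e u = ip (fun _ => e) (F.fv e u) := rfl

theorem I_add {u w : ℝ → ℝ} (hu : Continuous u) (hw : Continuous w) :
    F.I e (fun l => u l + w l) = F.I e u + F.I e w := by
  rw [F.c0c_I e u, F.c0c_I e w, ← ip_add_right (LV_const e) (F.LV_fv e hu) (F.LV_fv e hw)]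
  simp only [ip, fv, I, fm_add, add_mulVec]
theorem I_sub {u w : ℝ → ℝ} (hu : Continuous u) (hw : Continuous w) :
    F.I e (fun l => u l - w l) = F.I e u - F.I e w := by
  rw [F.c0c_I e u, F.c0c_I e w, ← ip_sub_right (LV_const e) (F.LV_fv e hu) (F.LV_fv e hw)]
  simp only [ip, fv, I, fm_sub, sub_mulVec]
theorem I_smul (c : ℝ) (u : ℝ → ℝ) : F.I e (fun l => c * u l) = c * F.I e u := by
  rw [F.c0c_I e u, ← ip_smul_right]
  simp only [ip, fv, I, fm_smul, smul_mulVec]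
theorem I_nonneg {u : ℝ → ℝ} (h : ∀ l, 0 ≤ u l) : 0 ≤ F.I e u := by
  refine integral_nonneg fun z => ?_
  have := quad_fm_le (f := fun _ => 0) h (F.L z) e
  rwa [fm_const (F.sL z).1, zero_smul, zero_mulVec, dotProduct_zero] at this
theorem I_const (c : ℝ) : F.I e (fun _ => c) = c * (e ⬝ᵥ e) := by
  simp [I, fun z => fm_const (F.sL z).1 c, smul_mulVec]
theorem I_id (h0 : F.Cen) : F.I e (fun l => l) = 0 := by
  rw [c0c_I, ip_comm]
  refine ip_const_of_mean (F.LV_fv e (u := fun l => l) continuous_id) (fun i => ?_) e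
  simp only [fv, fun z => fm_id (F.sL z).1]
  exact c0c_int F.BM_L.lm h0 e i
theorem sum_De_dot : ∑ k, (F.D k *ᵥ e) ⬝ᵥ (F.D k *ᵥ e) = e ⬝ᵥ F.S *ᵥ e := by
  simp only [S, Sq, sum_mulVec, dotProduct_sum, ← mulVec_mulVec, fun k => dot_symm (F.D_symm k) e]
theorem sum_DDe : ∑ k, F.D k *ᵥ (F.D k *ᵥ e) = F.S *ᵥ e := by
  simp only [S, Sq, sum_mulVec, mulVec_mulVec]
theorem c0c_const {v : (ι → ℝ) → ι → ℝ} (hv : LV v) (c : ι → ℝ) :
    ip (fun _ => c) v = ∑ i, c i * ∫ z, v z i ∂γ ι := by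
  simp only [ip, dotProduct]
  rw [integral_finsetSum _ fun i _ => (L2.int (hv i)).const_mul _]
  simp only [integral_const_mul]

/-- Stein's identity (`WG.int_mul_coord`). -/
theorem ip_Be {w : (ι → ℝ) → ι → ℝ} {g : ι → (ι → ℝ) → ι → ℝ}
    (h : ∀ i, WG (fun z => w z i) (fun k z => g k z i)) :
    ip (fun z => Bz F.D z *ᵥ e) w = ∑ k, ip (fun _ => F.D k *ᵥ e) (g k) := by
  have h1 : ∀ z, (Bz F.D z *ᵥ e) ⬝ᵥ w z = ∑ k, ∑ i, (F.D k *ᵥ e) i * (w z i * z k) := fun z => by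
    simp only [Bz, sum_mulVec, sum_dotProduct, smul_mulVec, smul_dotProduct, smul_eq_mul]
    refine Finset.sum_congr rfl fun k _ => ?_
    rw [dotProduct, Finset.mul_sum]
    exact Finset.sum_congr rfl fun i _ => by ring
  have h2 : ∀ k i, Integrable (fun z => (F.D k *ᵥ e) i * (w z i * z k)) (γ ι) := fun k i =>
    (L2.mul_int (h i).u2 (L2_coord k)).const_mul _
  simp only [fun k => c0c_const (v := g k) (fun i => (h i).g2 k)]
  simp only [ip, h1]
  rw [integral_finsetSum _ fun k _ => integrable_finsetSum _ fun i _ => h2 k i]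
  refine Finset.sum_congr rfl fun k _ => ?_
  rw [integral_finsetSum _ fun i _ => h2 k i]
  refine Finset.sum_congr rfl fun i _ => ?_
  rw [integral_const_mul, (h i).int_mul_coord k]
theorem ip_Be_Ee : ip (fun z => Bz F.D z *ᵥ e) (F.Ee e) = 0 := by
  rw [F.ip_Be e (F.WG_Ee e)]
  refine Finset.sum_eq_zero fun k _ => ?_
  rw [ip_comm]
  exact ip_const_of_mean (F.LV_Ye e k) (F.int_Ye e k) _
theorem fv_id (z : ι → ℝ) : F.fv e (fun l => l) z = Bz F.D z *ᵥ e + F.Ee e z := by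
  rw [fv, fm_id (F.sL z).1, Ee, E, sub_mulVec, add_sub_cancel]
theorem LV_Be : LV fun z => Bz F.D z *ᵥ e := LM.mulVec (fun i j => L2_Bz F.D i j) e
/-- `E⟨L e, w⟩ = ∑ E⟨D_k e, ∂_k w⟩ + E⟨E e, w⟩` for `w = f(L) e`. -/
theorem I_mul {f f1 : ℝ → ℝ} (h : C2 f f1) : F.I e (fun l => l * f l) =
    (∑ k, ip (fun _ => F.D k *ᵥ e) fun z => Df f f1 (F.L z) (F.X k z) *ᵥ e)
      + ip (F.Ee e) (F.fv e f) := by
  rw [← F.ip_fv e (fun l => l) f, funext (F.fv_id e),
    ip_add_left (F.LV_Be e) (F.LV_Ee e) (F.LV_fv e h.cont.1), F.ip_Be e (F.WG_fv e h)]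
/-- `∑ ⟨D_k e, X_k w⟩ = ⟨S e + G, w⟩`. -/
theorem sum_ip_DX {u : ℝ → ℝ} (hu : Continuous u) {s : ℝ} (he : F.Eig e s) :
    ∑ k, ip (fun _ => F.D k *ᵥ e) (fun z => (F.X k z * fm u (F.L z)) *ᵥ e) =
      s * F.I e u + ip (F.Ge e) (F.fv e u) := by
  have h1 : ∀ k, ip (fun _ => F.D k *ᵥ e) (fun z => (F.X k z * fm u (F.L z)) *ᵥ e) =
      ip (fun z => F.X k z *ᵥ (F.D k *ᵥ e)) (F.fv e u) := fun k => by
    simp only [ip, fv, ← mulVec_mulVec, fun z => dot_symm (F.sX k z) (F.D k *ᵥ e)]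
  have h2 : (fun z => ∑ k, F.X k z *ᵥ (F.D k *ᵥ e)) = fun z => s • e + F.Ge e z := by
    funext z
    rw [← he.2, ← F.sum_DDe e, Ge, ← Finset.sum_add_distrib]
    refine Finset.sum_congr rfl fun k _ => ?_
    rw [Y, sub_mulVec, add_sub_cancel]
  simp only [h1]
  rw [← ip_sum_left _ (fun k _ => (F.LM_X k).mulVec _) (F.LV_fv e hu), h2,
    ip_add_left (LV_const _) (F.LV_Ge e) (F.LV_fv e hu), ip_smul_left s (fun _ => e), c0c_I]

end Fld

end Crest.Agent.R253
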