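/-
Row 253 (S0390, S0391), file DQ.  Difference quotients and the chain rule.
Definitions: R253/Fun.lean, R253/Defs.lean.  Outline: R253/Blueprint.lean.  Keep the statements unchanged.
-/
import Crest.Agent.R253.Herm
import Crest.Agent.R253.Mat
import Crest.Agent.R203N.Stein

set_option autoImplicit false

namespace Crest.Agent.R253

open MeasureTheory ProbabilityTheory Matrix Filter Topology Crest.Agent.R203N

variable {ι : Type} [Fintype ι] [DecidableEq ι]

theorem L2_dq {u : (ι → ℝ) → ℝ} (hu : Measurable u) {C : ℝ} (hC : ∀ z, |u z| ≤ C) (g : ι → ℝ) (δ : ℝ) :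
    L2 (dq u g δ) := by
  refine L2_of_growth (Measurable.aestronglyMeasurable ?_) (2 * C / |δ|) 0 fun z => ?_
  · exact ((hu.comp (measurable_add_const _)).sub hu).div_const δ
  · rw [pow_zero, mul_one, dq, abs_div]
    refine div_le_div_of_nonneg_right ((abs_sub _ _).trans ?_) (abs_nonneg _)
    linarith [hC (z + δ • g), hC z]

theorem dqa_fderiv (α : ι → ℕ) (z g : ι → ℝ) : fderiv ℝ (fun z => He α z * Stein_rho z) z g =
    -∑ k, g k * (He (α + Pi.single k 1) z * Stein_rho z) := by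
  have hd : ∀ j, fderiv ℝ (fun z => He α z * Stein_rho z) z (Pi.single j 1) =
      -(He (α + Pi.single j 1) z * Stein_rho z) := fun j => by
    rw [fderiv_fun_mul ((contDiff_He α).differentiable one_ne_zero z)
      (Stein_rho_sm.differentiable one_ne_zero z)]
    simp only [_root_.add_apply, _root_.smul_apply, smul_eq_mul,
      Stein_fderiv_rho, fderiv_He, He_add_single]
    ring
  conv_lhs => rw [pi_eq_sum_univ' g]
  rw [map_sum, ← Finset.sum_neg_distrib]
  refine Finset.sum_congr rfl fun k _ => ?_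
  rw [map_smul, hd, smul_eq_mul, mul_neg]

omit [DecidableEq ι] in
theorem dqa_rho_le (z g : ι → ℝ) {δ : ℝ} (hδ : |δ| ≤ 1) :
    Stein_rho (z - δ • g) ≤ Real.exp |∑ i, g i * z i| * Stein_rho z := by
  rw [Stein_rho, Stein_rho, ← Real.exp_add, Real.exp_le_exp]
  have e : (z - δ • g) ⬝ᵥ (z - δ • g) = z ⬝ᵥ z - 2 * (δ * ∑ i, g i * z i) + (δ • g) ⬝ᵥ (δ • g) := by
    simp only [dotProduct, Finset.mul_sum, ← Finset.sum_sub_distrib, ← Finset.sum_add_distrib, Pi.sub_apply,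
      Pi.smul_apply, smul_eq_mul]
    exact Finset.sum_congr rfl fun i _ => by ring
  have h1 : 0 ≤ (δ • g) ⬝ᵥ (δ • g) := Finset.sum_nonneg fun i _ => mul_self_nonneg _
  have h2 : δ * ∑ i, g i * z i ≤ |∑ i, g i * z i| :=
    (le_abs_self _).trans (by rw [abs_mul]; exact mul_le_of_le_one_left (abs_nonneg _) hδ)
  rw [e]
  linarith

theorem dqa_bound (α : ι → ℕ) (g : ι → ℝ) : ∃ b : (ι → ℝ) → ℝ, Integrable b ∧
    ∀ z (δ : ℝ), |δ| ≤ 1 → |He α (z - δ • g) * Stein_rho (z - δ • g)| ≤ b z := by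
  obtain ⟨C, hC⟩ := He_growth α
  have h1 : L2 fun z : ι → ℝ => |C| * (1 + ‖g‖) ^ dg α * (1 + ‖z‖) ^ dg α :=
    L2_of_growth (Continuous.aestronglyMeasurable (by fun_prop)) (|C| * (1 + ‖g‖) ^ dg α) (dg α) fun z =>
      (abs_of_nonneg (by positivity)).le
  refine ⟨_, Stein_integrable (h1.mul_int (Herm2_L2_exp g)), fun z δ hδ => ?_⟩
  have h0 : 0 ≤ Stein_rho (z - δ • g) := (Real.exp_pos _).le
  rw [abs_mul, abs_of_nonneg h0, mul_assoc _ (Real.exp _)]
  refine mul_le_mul ((hC _).trans ?_) (dqa_rho_le z g hδ) h0 (by positivity)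
  have h2 : ‖z - δ • g‖ ≤ ‖z‖ + ‖g‖ := (norm_sub_le _ _).trans (by
    rw [norm_smul]
    exact add_le_add le_rfl (mul_le_of_le_one_left (norm_nonneg _) hδ))
  rw [mul_assoc, ← mul_pow]
  refine mul_le_mul (le_abs_self _) (pow_le_pow_left₀ (by positivity) ?_ _) (by positivity) (abs_nonneg _)
  nlinarith [norm_nonneg z, norm_nonneg g, mul_nonneg (norm_nonneg z) (norm_nonneg g)]

theorem dqa_deriv {u : (ι → ℝ) → ℝ} (hu : Measurable u) {C : ℝ} (hC : ∀ z, |u z| ≤ C) (g : ι → ℝ)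
    (p : ι → ℕ) : HasDerivAt (fun δ : ℝ => ∫ z, u z * (He p (z - δ • g) * Stein_rho (z - δ • g)))
      (∑ k, g k * co u (p + Pi.single k 1)) 0 := by
  have hu2 : L2 u := L2_of_growth hu.aestronglyMeasurable C 0 fun z => by simpa using hC z
  have hs : ∀ α : ι → ℕ, ContDiff ℝ 1 fun z : ι → ℝ => He α z * Stein_rho z := fun α =>
    (contDiff_He α).mul Stein_rho_sm
  have hi : ∀ α : ι → ℕ, Integrable fun z => u z * (He α z * Stein_rho z) := fun α => by
    simpa only [mul_assoc] using Stein_integrable (hu2.mul_int (L2_He α))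
  choose b hb hb' using fun k : ι => dqa_bound (p + Pi.single k 1) g
  have key := hasDerivAt_integral_of_dominated_loc_of_deriv_le (μ := (volume : Measure (ι → ℝ)))
    (F := fun (δ : ℝ) z => u z * (He p (z - δ • g) * Stein_rho (z - δ • g)))
    (F' := fun (δ : ℝ) z => u z * ∑ k, g k * (He (p + Pi.single k 1) (z - δ • g) * Stein_rho (z - δ • g)))
    (x₀ := 0) (s := Metric.closedBall 0 1) (bound := fun z => C * ∑ k, |g k| * b k z)
    (Metric.closedBall_mem_nhds 0 one_pos)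
    (Eventually.of_forall fun δ => hu.aestronglyMeasurable.mul
      ((hs p).continuous.comp (continuous_sub_right _)).aestronglyMeasurable)
    (by simpa using hi p)
    (hu.aestronglyMeasurable.mul (Continuous.aestronglyMeasurable (continuous_finsetSum _ fun k _ =>
      continuous_const.mul ((hs (p + Pi.single k 1)).continuous.comp (continuous_sub_right ((0 : ℝ) • g))))))
    (Eventually.of_forall fun z δ hδ => by
      rw [mem_closedBall_zero_iff, Real.norm_eq_abs] at hδ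
      rw [Real.norm_eq_abs, abs_mul]
      refine mul_le_mul (hC z) ((Finset.abs_sum_le_sum_abs _ _).trans (Finset.sum_le_sum fun k _ => ?_))
        (abs_nonneg _) ((abs_nonneg _).trans (hC z))
      rw [abs_mul]
      exact mul_le_mul_of_nonneg_left (hb' k z δ hδ) (abs_nonneg _))
    ((integrable_finsetSum _ fun k _ => (hb k).const_mul _).const_mul _)
    (Eventually.of_forall fun z δ _ => by
      have h1 : HasDerivAt (fun δ : ℝ => z - δ • g) (-g) δ := by
        simpa using ((hasDerivAt_id δ).smul_const g).const_sub z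
      have h2 := ((hs p).differentiable one_ne_zero (z - δ • g)).hasFDerivAt.comp_hasDerivAt δ h1
      rw [map_neg, dqa_fderiv, neg_neg] at h2
      exact h2.const_mul (u z))
  refine key.2.congr_deriv ?_
  simp only [zero_smul, sub_zero, Finset.mul_sum]
  rw [integral_finsetSum _ fun k _ => by
    simpa only [mul_left_comm (u _) (g k)] using (hi (p + Pi.single k 1)).const_mul (g k)]
  refine Finset.sum_congr rfl fun k _ => ?_
  simp only [mul_left_comm (u _) (g k), integral_const_mul, co, Stein_int, mul_assoc]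

/-- `∫ u (z + δ g) He(z) ρ(z) dz = ∫ u z (He ρ)(z - δ g) dz` (`Stein_int`); differentiate in `δ` at `0` under the
integral (`hasDerivAt_integral_of_dominated_loc_of_deriv_le`), `∂_k (He_p ρ) = -He_(p+e_k) ρ`. -/
theorem dq_co {u : (ι → ℝ) → ℝ} (hu : Measurable u) {C : ℝ} (hC : ∀ z, |u z| ≤ C) (g : ι → ℝ)
    (p : ι → ℕ) : Tendsto (fun δ : ℝ => co (dq u g δ) p) (𝓝[≠] 0)
      (𝓝 (∑ k, g k * co u (p + Pi.single k 1))) := by
  refine (hasDerivAt_iff_tendsto_slope_zero.1 (dqa_deriv hu hC g p)).congr fun δ => ?_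
  have hu2 : ∀ a : ι → ℝ, L2 fun z => u (z + a) := fun a =>
    L2_of_growth (hu.comp (measurable_add_const _)).aestronglyMeasurable C 0 fun z => by simpa using hC _
  have e : ∀ a : ι → ℝ, ∫ z, u z * (He p (z - a) * Stein_rho (z - a)) = co (fun z => u (z + a)) p := fun a => by
    rw [← integral_add_right_eq_self _ a, co, Stein_int]
    simp only [add_sub_cancel_right, mul_assoc]
  simp only [e, zero_add, smul_eq_mul]
  rw [← Herm3_co_sub (hu2 _) (hu2 _), ← co_smul]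
  congr 1
  funext z
  rw [dq, zero_smul, add_zero, div_eq_inv_mul]

/-- Bessel (finite partial sums of `parseval`), `dq_co`, `riesz_fischer`. -/
theorem exists_DQ {u : (ι → ℝ) → ℝ} (hu : Measurable u) {C : ℝ} (hC : ∀ z, |u z| ≤ C)
    (hb : ∀ g : ι → ℝ, ∃ C : ℝ, ∀ δ : ℝ, δ ≠ 0 → ∫ z, dq u g δ z ^ 2 ∂γ ι ≤ C) {c : ℝ}
    (hc : ∀ k (δ : ℝ), δ ≠ 0 → ∫ z, dq u (Pi.single k 1) δ z ^ 2 ∂γ ι ≤ c) :
    ∃ r : ι → (ι → ℝ) → ℝ, (∀ k, Measurable (r k)) ∧ DQ u r ∧ ∀ k, ∫ z, r k z ^ 2 ∂γ ι ≤ c := by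
  have hu2 : L2 u := L2_of_growth hu.aestronglyMeasurable C 0 fun z => by simpa using hC z
  have h1 : ∀ k (s : Finset (ι → ℕ)), ∑ α ∈ s, co u (α + Pi.single k 1) ^ 2 / fac α ≤ c := fun k s => by
    have ht : ∀ α : ι → ℕ, Tendsto (fun δ : ℝ => co (dq u (Pi.single k 1) δ) α) (𝓝[≠] 0)
        (𝓝 (co u (α + Pi.single k 1))) := fun α => by
      have := dq_co hu hC (Pi.single k 1) α
      rwa [Finset.sum_eq_single k (fun j _ hj => by simp [hj]) (by simp), Pi.single_eq_same, one_mul] at this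
    refine le_of_tendsto (tendsto_finsetSum s fun α _ => ((ht α).pow 2).div_const (fac α)) ?_
    filter_upwards [self_mem_nhdsWithin] with δ hδ
    exact (sum_le_hasSum s (fun α _ => Herm3_a_nonneg _ α) (Herm3_hasSum_sq (L2_dq hu hC _ δ))).trans (hc k δ hδ)
  have h2 : ∀ k, ∃ f : (ι → ℝ) → ℝ, Measurable f ∧ L2 f ∧ ∀ α, co f α = co u (α + Pi.single k 1) := fun k =>
    riesz_fischer (summable_of_sum_le (fun α => div_nonneg (sq_nonneg _) (fac_pos α).le) (h1 k))
  choose r hr hr2 hr3 using h2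
  refine ⟨r, hr, ⟨hu, ⟨C, hC⟩, ⟨hu2, hr2, fun α j => (hr3 j α).symm⟩, hb⟩, fun k => ?_⟩
  refine hasSum_le_of_sum_le (Herm3_hasSum_sq (hr2 k)) fun s => ?_
  simpa only [hr3] using h1 k s

/-- `tendsto_of_co`. -/
theorem DQ.tendsto {u : (ι → ℝ) → ℝ} {r : ι → (ι → ℝ) → ℝ} (h : DQ u r) (g : ι → ℝ)
    {p : (ι → ℝ) → ℝ} (hp : L2 p) : Tendsto (fun δ : ℝ => ∫ z, dq u g δ z * p z ∂γ ι) (𝓝[≠] 0)
      (𝓝 (∫ z, (∑ k, g k * r k z) * p z ∂γ ι)) := by
  obtain ⟨C, hC⟩ := h.bdd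
  obtain ⟨B, hB⟩ := h.bound g
  have h2 : ∀ k, L2 fun z => g k * r k z := fun k => (h.wg.g2 k).const_mul _
  refine tendsto_of_co (C := B) ?_ (Herm4_L2_sum _ fun k _ => h2 k) (fun α => ?_) hp
  · filter_upwards [self_mem_nhdsWithin] with δ hδ
    exact ⟨L2_dq h.meas hC g δ, hB δ hδ⟩
  · rw [co_sum _ fun k _ => h2 k]
    simpa only [co_smul, h.wg.eq] using dq_co h.meas hC g α

/-- A Lipschitz function of finitely many `DQ` functions. -/
theorem DQ_of_lip {κ : Type} [Fintype κ] {F : κ → (ι → ℝ) → ℝ} {R : κ → ι → (ι → ℝ) → ℝ}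
    (hF : ∀ a, DQ (F a) (R a)) {U : (ι → ℝ) → ℝ} (hU : Measurable U) {K : ℝ}
    (hK : ∀ z z', (U z' - U z) ^ 2 ≤ K * ∑ a, (F a z' - F a z) ^ 2) : ∃ r, DQ U r := by
  choose C hC using fun a => (hF a).bdd
  have hK' : ∀ z z', (U z' - U z) ^ 2 ≤ |K| * ∑ a, (F a z' - F a z) ^ 2 := fun z z' =>
    (hK z z').trans (mul_le_mul_of_nonneg_right (le_abs_self K) (Finset.sum_nonneg fun a _ => sq_nonneg _))
  have hUb : ∀ z, |U z| ≤ |U 0| + Real.sqrt (|K| * ∑ a, (2 * C a) ^ 2) := fun z => by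
    have h1 : |U z - U 0| ≤ Real.sqrt (|K| * ∑ a, (2 * C a) ^ 2) := by
      refine Real.abs_le_sqrt ((hK' 0 z).trans (mul_le_mul_of_nonneg_left
        (Finset.sum_le_sum fun a _ => ?_) (abs_nonneg K)))
      have h2 := abs_le.1 (hC a z)
      have h3 := abs_le.1 (hC a 0)
      exact sq_le_sq' (by linarith [h2.1, h3.2]) (by linarith [h2.2, h3.1])
    linarith [abs_sub_abs_le_abs_sub (U z) (U 0)]
  have hb : ∀ g : ι → ℝ, ∃ B : ℝ, ∀ δ : ℝ, δ ≠ 0 → ∫ z, dq U g δ z ^ 2 ∂γ ι ≤ B := fun g => by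
    choose B hB using fun a => (hF a).bound g
    refine ⟨|K| * ∑ a, B a, fun δ hδ => ?_⟩
    have hi : ∀ a, Integrable (fun z => dq (F a) g δ z ^ 2) (γ ι) := fun a =>
      (L2_dq (hF a).meas (hC a) g δ).sq_int
    calc ∫ z, dq U g δ z ^ 2 ∂γ ι ≤ ∫ z, |K| * ∑ a, dq (F a) g δ z ^ 2 ∂γ ι := by
          refine integral_mono (L2_dq hU hUb g δ).sq_int
            ((integrable_finsetSum _ fun a _ => hi a).const_mul _) fun z => ?_
          simp only [dq, div_pow, ← Finset.sum_div, ← mul_div_assoc]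
          exact div_le_div_of_nonneg_right (hK' _ _) (sq_nonneg _)
      _ = |K| * ∑ a, ∫ z, dq (F a) g δ z ^ 2 ∂γ ι := by
          rw [integral_const_mul, integral_finsetSum _ fun a _ => hi a]
      _ ≤ _ := mul_le_mul_of_nonneg_left (Finset.sum_le_sum fun a _ => hB a δ hδ) (abs_nonneg K)
  choose B hB using hb
  obtain ⟨r, -, hr, -⟩ := exists_DQ hU hUb (fun g => ⟨B g, hB g⟩) (c := ∑ k, |B (Pi.single k 1)|) fun k δ hδ =>
    ((hB _ δ hδ).trans (le_abs_self _)).trans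
      (Finset.single_le_sum (f := fun k => |B (Pi.single k 1)|) (fun _ _ => abs_nonneg _) (Finset.mem_univ k))
  exact ⟨r, hr⟩

/-! ### Second part -/

omit [DecidableEq ι] in
theorem dqb_L2 {c f : (ι → ℝ) → ℝ} (hc : Measurable c) {K : ℝ} (hK : ∀ z, |c z| ≤ K) (hf : L2 f) :
    L2 fun z => c z * f z :=
  MemLp.of_le_mul (c := K) hf (hc.aestronglyMeasurable.mul hf.1) (Eventually.of_forall fun z => by
    rw [norm_mul]
    exact mul_le_mul_of_nonneg_right (hK z) (norm_nonneg _))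

theorem dqb_lip {κ : Type} [Fintype κ] {F : κ → (ι → ℝ) → ℝ} {R : κ → ι → (ι → ℝ) → ℝ}
    (hF : ∀ a, DQ (F a) (R a)) {U : (ι → ℝ) → ℝ} (hU : Measurable U) {c : κ → (ι → ℝ) → ℝ}
    {K : ℝ} (hK : 0 ≤ K) (hcK : ∀ a z, |c a z| ≤ K)
    (hT : ∀ z z', |U z' - U z - ∑ a, c a z * (F a z' - F a z)| ≤ K * ∑ a, (F a z' - F a z) ^ 2) :
    ∃ r, DQ U r := by
  choose C hC using fun a => (hF a).bdd
  have hC0 : ∀ a, 0 ≤ C a := fun a => (abs_nonneg _).trans (hC a 0)
  set D := 2 * ∑ a, C a with hD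
  have hD0 : 0 ≤ D := mul_nonneg zero_le_two (Finset.sum_nonneg fun a _ => hC0 a)
  refine DQ_of_lip hF hU (K := (K * (D + 1)) ^ 2 * Fintype.card κ) fun z z' => ?_
  have h1 : ∀ a, |F a z' - F a z| ≤ D := fun a => by
    have := Finset.single_le_sum (f := C) (fun a _ => hC0 a) (Finset.mem_univ a)
    have := abs_sub (F a z') (F a z)
    linarith [hC a z, hC a z']
  have h2 : ∑ a, (F a z' - F a z) ^ 2 ≤ D * ∑ a, |F a z' - F a z| := by
    rw [Finset.mul_sum]
    refine Finset.sum_le_sum fun a _ => ?_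
    rw [← sq_abs, sq]
    exact mul_le_mul_of_nonneg_right (h1 a) (abs_nonneg _)
  have h3 : |∑ a, c a z * (F a z' - F a z)| ≤ K * ∑ a, |F a z' - F a z| := by
    rw [Finset.mul_sum]
    refine (Finset.abs_sum_le_sum_abs _ _).trans (Finset.sum_le_sum fun a _ => ?_)
    rw [abs_mul]
    exact mul_le_mul_of_nonneg_right (hcK a z) (abs_nonneg _)
  have h4 : |U z' - U z| ≤ K * (D + 1) * ∑ a, |F a z' - F a z| := by
    have h5 := abs_add_le (U z' - U z - ∑ a, c a z * (F a z' - F a z)) (∑ a, c a z * (F a z' - F a z))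
    rw [sub_add_cancel] at h5
    have h6 := mul_le_mul_of_nonneg_left h2 hK
    linarith [hT z z']
  have h5 := pow_le_pow_left₀ (abs_nonneg _) h4 2
  have h6 := sq_sum_le_card_mul_sum_sq (s := Finset.univ) (f := fun a => |F a z' - F a z|)
  simp only [sq_abs, Finset.card_univ] at h5 h6
  rw [mul_pow] at h5
  rw [mul_assoc]
  exact h5.trans (mul_le_mul_of_nonneg_left h6 (sq_nonneg _))

/-- `e_δ = dq U - ∑ c_a dq F_a` satisfies `|e_δ| ≤ K |δ| ∑ (dq F_a)²` and `|e_δ| ≤ K' ∑ |dq F_a|`, so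
`∫ |e_δ He_p| ≤ M K |δ| C + |e_δ|₂ |He_p 1_{|He_p| > M}|₂ → 0`.  Compare the limits given by `dq_co` and
`DQ.tendsto` (with `p = c_a He_p`). -/
theorem DQ.chain {κ : Type} [Fintype κ] {F : κ → (ι → ℝ) → ℝ} {R : κ → ι → (ι → ℝ) → ℝ}
    (hF : ∀ a, DQ (F a) (R a)) {U : (ι → ℝ) → ℝ} (hU : Measurable U) {c : κ → (ι → ℝ) → ℝ}
    (hc : ∀ a, Measurable (c a)) {K : ℝ} (hcK : ∀ a z, |c a z| ≤ K)
    (hT : ∀ z z', |U z' - U z - ∑ a, c a z * (F a z' - F a z)| ≤ K * ∑ a, (F a z' - F a z) ^ 2) :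
    DQ U fun k z => ∑ a, c a z * R a k z := by
  replace hcK : ∀ a z, |c a z| ≤ |K| := fun a z => (hcK a z).trans (le_abs_self K)
  replace hT : ∀ z z', |U z' - U z - ∑ a, c a z * (F a z' - F a z)| ≤ |K| * ∑ a, (F a z' - F a z) ^ 2 :=
    fun z z' => (hT z z').trans (mul_le_mul_of_nonneg_right (le_abs_self K) (by positivity))
  obtain ⟨r, hr⟩ := dqb_lip hF hU (abs_nonneg K) hcK hT
  refine ⟨hU, hr.bdd, hr.wg.congr EventuallyEq.rfl fun k => ?_, hr.bound⟩
  have hL : ∀ a, L2 fun z => c a z * R a k z := fun a => dqb_L2 (hc a) (hcK a) ((hF a).wg.g2 k)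
  refine Integrable.ae_eq_of_forall_setIntegral_eq _ _ (hr.wg.g2 k).int
    (integrable_finsetSum _ fun a _ => (hL a).int) fun s hs _ => ?_
  set p : (ι → ℝ) → ℝ := s.indicator 1 with hp
  have pm : Measurable p := measurable_const.indicator hs
  have pb : ∀ z, |p z| ≤ 1 := fun z => by
    by_cases h : z ∈ s <;> simp [hp, h]
  have p2 : L2 p := MemLp.of_bound pm.aestronglyMeasurable 1 (Eventually.of_forall pb)
  have e1 : ∀ u : (ι → ℝ) → ℝ, ∫ z in s, u z ∂γ ι = ∫ z, u z * p z ∂γ ι := fun u => by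
    rw [← integral_indicator hs]
    refine integral_congr_ae (Eventually.of_forall fun z => ?_)
    by_cases h : z ∈ s <;> simp [hp, h]
  have e2 : ∀ (u : ι → (ι → ℝ) → ℝ) (z : ι → ℝ), ∑ j, (Pi.single k 1 : ι → ℝ) j * u j z = u k z := fun u z => by
    simp [Pi.single_apply]
  have T1 := hr.tendsto (Pi.single k 1) p2
  have T2 := tendsto_finsetSum Finset.univ fun a _ =>
    (hF a).tendsto (Pi.single k 1) (dqb_L2 (hc a) (hcK a) p2)
  simp only [e2] at T1 T2
  choose C hC using fun a => (hF a).bound (Pi.single k 1)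
  have L1 : ∀ a δ, L2 (dq (F a) (Pi.single k 1) δ) := fun a δ =>
    (hF a).bdd.elim fun _ h => L2_dq (hF a).meas h _ δ
  have L0 : ∀ δ, L2 (dq U (Pi.single k 1) δ) := fun δ => hr.bdd.elim fun _ h => L2_dq hU h _ δ
  have T3 : Tendsto (fun δ : ℝ => (∫ z, dq U (Pi.single k 1) δ z * p z ∂γ ι) -
      ∑ a, ∫ z, dq (F a) (Pi.single k 1) δ z * (c a z * p z) ∂γ ι) (𝓝[≠] 0) (𝓝 0) := by
    refine squeeze_zero_norm' (a := fun δ : ℝ => |δ| * (|K| * ∑ a, C a)) ?_ ?_
    · filter_upwards [self_mem_nhdsWithin] with δ hδ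
      have hδ0 : δ ≠ 0 := hδ
      have i1 : ∀ a, Integrable (fun z => dq (F a) (Pi.single k 1) δ z * (c a z * p z)) (γ ι) := fun a =>
        (L1 a δ).mul_int (dqb_L2 (hc a) (hcK a) p2)
      rw [← integral_finsetSum _ fun a _ => i1 a, ← integral_sub ((L0 δ).mul_int p2)
        (integrable_finsetSum _ fun a _ => i1 a)]
      refine (norm_integral_le_of_norm_le (g := fun z => |δ| * (|K| * ∑ a, dq (F a) (Pi.single k 1) δ z ^ 2))
        (((integrable_finsetSum _ fun a _ => (L1 a δ).sq_int).const_mul _).const_mul _)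
        (Eventually.of_forall fun z => ?_)).trans ?_
      · have h1 := hT z (z + δ • Pi.single k 1)
        have e3 : dq U (Pi.single k 1) δ z * p z - ∑ a, dq (F a) (Pi.single k 1) δ z * (c a z * p z) =
            (U (z + δ • Pi.single k 1) - U z - ∑ a, c a z * (F a (z + δ • Pi.single k 1) - F a z)) / δ * p z := by
          simp only [dq, sub_div, Finset.sum_div, sub_mul, Finset.sum_mul]
          congr 1
          exact Finset.sum_congr rfl fun a _ => by ring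
        have e4 : |δ| * (|K| * ∑ a, dq (F a) (Pi.single k 1) δ z ^ 2) =
            |K| * (∑ a, (F a (z + δ • Pi.single k 1) - F a z) ^ 2) / |δ| := by
          simp only [dq, div_pow, ← Finset.sum_div]
          rw [← sq_abs δ]
          field_simp
        rw [e3, e4, Real.norm_eq_abs, abs_mul, abs_div]
        exact (mul_le_of_le_one_right (by positivity) (pb z)).trans
          (div_le_div_of_nonneg_right h1 (abs_nonneg _))
      · rw [integral_const_mul, integral_const_mul, integral_finsetSum _ fun a _ => (L1 a δ).sq_int]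
        gcongr with a
        exact hC a δ hδ0
    · have : Tendsto (fun δ : ℝ => |δ| * (|K| * ∑ a, C a)) (𝓝 0) (𝓝 (|0| * (|K| * ∑ a, C a))) :=
        (continuous_abs.mul continuous_const).tendsto 0
      simpa using this.mono_left nhdsWithin_le_nhds
  have h := sub_eq_zero.1 (tendsto_nhds_unique (T1.sub T2) T3)
  rw [e1, e1, h, ← integral_finsetSum _ fun a _ => ((hF a).wg.g2 k).mul_int (dqb_L2 (hc a) (hcK a) p2)]
  refine integral_congr_ae (Eventually.of_forall fun z => ?_)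
  simp only [Finset.sum_mul]
  exact Finset.sum_congr rfl fun a _ => by ring

/-- the symmetrised matrix units -/
noncomputable def dqbS (q : ι × ι) : Matrix ι ι ℝ :=
  (1 / 2 : ℝ) • (Matrix.single q.1 q.2 1 + Matrix.single q.2 q.1 1)

omit [Fintype ι] in
theorem dqbS_symm (q : ι × ι) : (dqbS q).IsSymm := by
  unfold dqbS Matrix.IsSymm
  rw [Matrix.transpose_smul, Matrix.transpose_add, Matrix.transpose_single, Matrix.transpose_single, add_comm]

theorem dqb_sum {Y : Matrix ι ι ℝ} (hY : Y.IsSymm) : ∑ q : ι × ι, Y q.1 q.2 • dqbS q = Y := by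
  ext i j
  simp only [dqbS, Matrix.sum_apply, Matrix.smul_apply, Matrix.add_apply, Matrix.single_apply, smul_eq_mul,
    mul_add, Finset.sum_add_distrib]
  rw [Finset.sum_eq_single (i, j), Finset.sum_eq_single (j, i)]
  · simp only [and_self, if_true]
    rw [hY.apply i j]
    ring
  · rintro ⟨a, b⟩ - h
    rw [if_neg fun h' => h (Prod.ext h'.2 h'.1)]
    simp
  · simp
  · rintro ⟨a, b⟩ - h
    rw [if_neg fun h' => h (Prod.ext h'.1 h'.2)]
    simp
  · simp

theorem dqb_Df (f f1 : ℝ → ℝ) (A : Matrix ι ι ℝ) {Y : Matrix ι ι ℝ} (hY : Y.IsSymm) (i j : ι) :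
    ∑ q : ι × ι, Df f f1 A (dqbS q) i j * Y q.1 q.2 = Df f f1 A Y i j := by
  conv_rhs => rw [← dqb_sum hY, Df_sum]
  simp only [Df_smul, Matrix.sum_apply, Matrix.smul_apply, smul_eq_mul, mul_comm]

/-- `DQ.chain` with `κ = ι × ι`, `c (a,b) z = Df f f1 (A z) ((E_ab + E_ba)/2) i j` (`C2.measurable_Df`,
`C2.hs_Df_le`, `C2.taylor`, `Df_sum`, `Df_smul`). -/
theorem DQ.fm {A : (ι → ℝ) → Matrix ι ι ℝ} {X : ι → (ι → ℝ) → Matrix ι ι ℝ} {R : ℝ}
    (hA : ∀ i j, DQ (fun z => A z i j) fun k z => X k z i j) (sA : ∀ z, Sp (-R) R (A z))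
    (sX : ∀ k z, (X k z).IsSymm) {f f1 : ℝ → ℝ} (hf : C2 f f1) (i j : ι) :
    DQ (fun z => R203N.fm f (A z) i j) fun k z => Df f f1 (A z) (X k z) i j := by
  obtain ⟨K1, h1⟩ := hf.taylor (ι := ι) R
  obtain ⟨K2, h2⟩ := hf.hs_Df_le (ι := ι) R
  have hS : 0 ≤ ∑ q : ι × ι, hs (dqbS q) := Finset.sum_nonneg fun q _ => hs_nonneg _
  have b1 : ∀ (q : ι × ι) z, |Df f f1 (A z) (dqbS q) i j| ≤ 1 + |K1| + |K2| * ∑ q : ι × ι, hs (dqbS q) := by
    intro q z
    have h3 := (sq_le_hs _ i j).trans (h2 _ (dqbS q) (sA z))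
    have h4 := Finset.single_le_sum (f := fun q : ι × ι => hs (dqbS q)) (fun q _ => hs_nonneg _) (Finset.mem_univ q)
    have h5 := mul_le_mul (le_abs_self K2) h4 (hs_nonneg _) (abs_nonneg _)
    rw [← sq_abs] at h3
    nlinarith [abs_nonneg K1, sq_nonneg (|Df f f1 (A z) (dqbS q) i j| - 1)]
  have b2 : ∀ z z', |R203N.fm f (A z') i j - R203N.fm f (A z) i j -
      ∑ q : ι × ι, Df f f1 (A z) (dqbS q) i j * (A z' q.1 q.2 - A z q.1 q.2)| ≤
      (1 + |K1| + |K2| * ∑ q : ι × ι, hs (dqbS q)) * ∑ q : ι × ι, (A z' q.1 q.2 - A z q.1 q.2) ^ 2 := by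
    intro z z'
    have h3 := (sq_le_hs _ i j).trans (h1 _ _ (sA z) (sA z'))
    have h4 := dqb_Df f f1 (A z) ((sA z').1.sub (sA z).1) i j
    have h5 : ∑ q : ι × ι, (A z' q.1 q.2 - A z q.1 q.2) ^ 2 = hs (A z' - A z) := by
      rw [hs, Fintype.sum_prod_type]
      rfl
    simp only [Matrix.sub_apply] at h3 h4
    rw [h4, h5]
    have h6 := hs_nonneg (A z' - A z)
    have h7 : 0 ≤ |K2| * ∑ q : ι × ι, hs (dqbS q) := mul_nonneg (abs_nonneg _) hS
    refine abs_le_of_sq_le_sq (h3.trans ?_) (mul_nonneg (by linarith [abs_nonneg K1]) h6)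
    rw [mul_pow]
    refine mul_le_mul_of_nonneg_right ?_ (sq_nonneg _)
    nlinarith [abs_nonneg K1, le_abs_self K1]
  have m1 : Measurable fun z => R203N.fm f (A z) i j :=
    measurable_fm hf.cont.1 (fun i j => (hA i j).meas) (fun z => (sA z).1) i j
  have m2 : ∀ q : ι × ι, Measurable fun z => Df f f1 (A z) (dqbS q) i j := fun q =>
    hf.measurable_Df (X := fun _ => dqbS q) (fun i j => (hA i j).meas) sA (fun _ _ => measurable_const)
      (fun _ => dqbS_symm q) i j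
  have := DQ.chain (κ := ι × ι) (F := fun q z => A z q.1 q.2) (R := fun q k z => X k z q.1 q.2)
    (fun q => hA q.1 q.2) m1 (c := fun q z => Df f f1 (A z) (dqbS q) i j) m2 b1 b2
  simpa only [dqb_Df f f1 _ (sX _ _)] using this

/-! ### Third part -/

/-- The hat function. -/
noncomputable def dqc_hat (t : ℝ) : ℝ := max 0 (1 - |t|)

theorem dqc_hat_mem (t : ℝ) : 0 ≤ dqc_hat t ∧ dqc_hat t ≤ 1 :=
  ⟨le_max_left _ _, max_le zero_le_one (by linarith [abs_nonneg t])⟩

theorem dqc_hat_lip (s t : ℝ) : |dqc_hat s - dqc_hat t| ≤ |s - t| := by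
  unfold dqc_hat
  rw [max_comm 0, max_comm 0]
  refine (abs_max_sub_max_le_abs _ _ _).trans ?_
  rw [show 1 - |s| - (1 - |t|) = |t| - |s| by ring, abs_sub_comm s t]
  exact abs_abs_sub_abs_le_abs_sub t s

theorem dqc_hat_zero {t : ℝ} (h : 1 ≤ |t|) : dqc_hat t = 0 := max_eq_left (by linarith)

theorem dqc_hat_sum (N : ℤ) {t : ℝ} (ht : |t| + 1 ≤ N) (c d : ℝ) :
    ∑ k ∈ Finset.Icc (-N) N, dqc_hat (t - k) * (c + d * k) = c + d * t := by
  have h1 := Int.floor_le t
  have h2 := Int.lt_floor_add_one t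
  have h3 := le_abs_self t
  have h4 := neg_abs_le t
  have m1 : ⌊t⌋ ∈ Finset.Icc (-N) N := by
    rw [Finset.mem_Icc]
    constructor
    · exact_mod_cast (show (-(N : ℝ)) ≤ (⌊t⌋ : ℝ) by linarith)
    · exact_mod_cast (show (⌊t⌋ : ℝ) ≤ N by linarith)
  have m2 : ⌊t⌋ + 1 ∈ Finset.Icc (-N) N := by
    rw [Finset.mem_Icc]
    constructor
    · exact_mod_cast (show (-(N : ℝ)) ≤ (⌊t⌋ : ℝ) + 1 by linarith)
    · exact_mod_cast (show (⌊t⌋ : ℝ) + 1 ≤ N by linarith)
  rw [Finset.sum_eq_add_of_mem _ _ m1 m2 (by omega)]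
  · have e1 : dqc_hat (t - (⌊t⌋ : ℤ)) = 1 - (t - ⌊t⌋) := by
      unfold dqc_hat
      rw [abs_of_nonneg (by linarith), max_eq_right (by linarith)]
    have e2 : dqc_hat (t - ((⌊t⌋ + 1 : ℤ) : ℝ)) = t - ⌊t⌋ := by
      unfold dqc_hat
      push_cast
      rw [abs_of_nonpos (by linarith), max_eq_right (by linarith)]
      ring
    rw [e1, e2]
    push_cast
    ring
  · rintro k - ⟨k1, k2⟩
    rw [dqc_hat_zero, zero_mul]
    rcases lt_or_gt_of_ne k1 with h | h
    · have : (k : ℝ) + 1 ≤ ⌊t⌋ := by exact_mod_cast h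
      exact le_trans (by linarith) (le_abs_self _)
    · have : (⌊t⌋ : ℝ) + 2 ≤ k := by exact_mod_cast (show ⌊t⌋ + 2 ≤ k by omega)
      exact le_trans (by linarith) (neg_le_abs _)

theorem dqc_rep {E : Type} [Fintype E] [DecidableEq E] (N : ℤ) {t : E → ℝ} (ht : ∀ e, |t e| + 1 ≤ N) (e₀ : E) :
    ∑ β : E → Finset.Icc (-N) N, (∏ e, dqc_hat (t e - (β e : ℤ))) * ((β e₀ : ℤ) : ℝ) = t e₀ := by
  have h := Finset.prod_univ_sum (fun _ : E => (Finset.univ : Finset (Finset.Icc (-N) N)))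
    (fun e k => dqc_hat (t e - (k : ℤ)) * (if e = e₀ then ((k : ℤ) : ℝ) else 1))
  rw [Fintype.piFinset_univ] at h
  simp only [Finset.prod_mul_distrib, Finset.prod_ite_eq', Finset.mem_univ, if_true] at h
  rw [← h]
  have e1 : ∀ e, ∑ k : Finset.Icc (-N) N, dqc_hat (t e - (k : ℤ)) * (if e = e₀ then ((k : ℤ) : ℝ) else 1) =
      if e = e₀ then t e else 1 := by
    intro e
    rw [Finset.sum_coe_sort (Finset.Icc (-N) N)
      (fun k : ℤ => dqc_hat (t e - k) * (if e = e₀ then (k : ℝ) else 1))]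
    split_ifs
    · simpa using dqc_hat_sum N (ht e) 0 1
    · simpa using dqc_hat_sum N (ht e) 1 0
  simp only [e1, Finset.prod_ite_eq', Finset.mem_univ, if_true]

theorem dqc_prod {E : Type} (s : Finset E) {u v : E → ℝ} (hu : ∀ e, 0 ≤ u e ∧ u e ≤ 1)
    (hv : ∀ e, 0 ≤ v e ∧ v e ≤ 1) : |∏ e ∈ s, u e - ∏ e ∈ s, v e| ≤ ∑ e ∈ s, |u e - v e| := by
  classical
  induction s using Finset.induction_on with
  | empty => simp
  | insert k s hk ih =>
    rw [Finset.prod_insert hk, Finset.prod_insert hk, Finset.sum_insert hk]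
    have h0 : 0 ≤ ∏ e ∈ s, u e := Finset.prod_nonneg fun e _ => (hu e).1
    have h1 : ∏ e ∈ s, u e ≤ 1 := Finset.prod_le_one (fun e _ => (hu e).1) fun e _ => (hu e).2
    rw [show u k * ∏ e ∈ s, u e - v k * ∏ e ∈ s, v e =
      (u k - v k) * ∏ e ∈ s, u e + v k * (∏ e ∈ s, u e - ∏ e ∈ s, v e) by ring]
    refine (abs_add_le _ _).trans (add_le_add ?_ ?_)
    · rw [abs_mul, abs_of_nonneg h0]
      exact mul_le_of_le_one_right (abs_nonneg _) h1
    · rw [abs_mul, abs_of_nonneg (hv k).1]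
      exact (mul_le_of_le_one_left (abs_nonneg _) (hv k).2).trans ih

theorem dqc_fac (B : Matrix ι ι ℝ) : ∃ g : ι → ι → ℝ, B.IsSymm → (∀ x, 0 ≤ x ⬝ᵥ B *ᵥ x) →
    ∀ i j, ∑ k, g k i * g k j = B i j := by
  by_cases hB : B.IsSymm
  · obtain ⟨O, d, hO, rfl⟩ := exists_Dg hB
    refine ⟨fun k i => O i k * Real.sqrt (d k), fun _ h i j => ?_⟩
    have hd : ∀ k, 0 ≤ d k := by
      intro k
      have h1 := h fun c => O c k
      rw [Dg_mulVec_col hO, dotProduct_smul, hO.col_dot k k, Matrix.one_apply_eq] at h1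
      simpa using h1
    rw [Dg, Matrix.mul_apply]
    refine Finset.sum_congr rfl fun k _ => ?_
    rw [Matrix.mul_diagonal, Matrix.transpose_apply]
    have := Real.mul_self_sqrt (hd k)
    linear_combination (O i k * O j k) * this
  · exact ⟨0, fun h => absurd h hB⟩

theorem dqc_psd {a b η : ℝ} {W B : Matrix ι ι ℝ} (hW : Sp a b W) (hη : 0 ≤ η)
    (ha : η * Fintype.card ι ≤ a) (h : ∀ i j, |B i j - W i j| ≤ η) (x : ι → ℝ) : 0 ≤ x ⬝ᵥ B *ᵥ x := by
  have h1 := (hW.2 x).1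
  have h2 : (∑ i, |x i|) ^ 2 ≤ Fintype.card ι * (x ⬝ᵥ x) := by
    have := sq_sum_le_card_mul_sum_sq (s := Finset.univ) (f := fun i => |x i|)
    simpa only [sq_abs, Finset.card_univ, dotProduct, sq, abs_mul_abs_self] using this
  have h3 : x ⬝ᵥ W *ᵥ x - η * (∑ i, |x i|) ^ 2 ≤ x ⬝ᵥ B *ᵥ x := by
    rw [sq, Finset.sum_mul_sum]
    simp only [dotProduct, mulVec, Finset.mul_sum, ← Finset.sum_sub_distrib]
    refine Finset.sum_le_sum fun i _ => Finset.sum_le_sum fun j _ => ?_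
    have h4 : |x i * ((B i j - W i j) * x j)| ≤ η * (|x i| * |x j|) := by
      rw [abs_mul, abs_mul]
      nlinarith [mul_le_mul_of_nonneg_right (h i j) (mul_nonneg (abs_nonneg (x i)) (abs_nonneg (x j)))]
    nlinarith [neg_abs_le (x i * ((B i j - W i j) * x j))]
  have hx : 0 ≤ x ⬝ᵥ x := Finset.sum_nonneg fun i _ => mul_self_nonneg _
  nlinarith [mul_le_mul_of_nonneg_left h2 hη, mul_le_mul_of_nonneg_right ha hx]

/-- Cover the compact set `{W | Sp a b W}` by finitely many balls of radius `η = a/(4 (m+1))` (entrywise sup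
distance) around points `W_β` of the set; `χ_β = max (2η - dist) 0 / ∑`.  On the support of `χ_β`,
`W = (W_β - (a/2) 1) + ((a/2) 1 + Δ)`; the first matrix is `∑ d_i o_i o_iᵀ` with `d_i ≥ 0`, the second is
`∑_i (a/2 + Δ_ii - ∑_{j≠i} |Δ_ij|) e_i e_iᵀ + (1/2) ∑_{i≠j} (Δ_ij⁺ (e_i+e_j)(e_i+e_j)ᵀ + Δ_ij⁻ (e_i-e_j)(e_i-e_j)ᵀ)`. -/
theorem exists_partition {a b : ℝ} (ha : 0 < a) : ∃ (κ : Type) (_ : Fintype κ) (g : κ → ι → ℝ)
    (ρ : κ → Matrix ι ι ℝ → ℝ) (K : ℝ), (∀ n, ContinuousOn (ρ n) {W | Sp a b W}) ∧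
    (∀ n W W', Sp a b W → Sp a b W' → (ρ n W' - ρ n W) ^ 2 ≤ K * hs (W' - W)) ∧
    (∀ n W, Sp a b W → 0 ≤ ρ n W) ∧
    ∀ W, Sp a b W → ∀ i j, ∑ n, ρ n W * (g n i * g n j) = W i j := by
  obtain ⟨η, hη, hηa⟩ : ∃ η : ℝ, 0 < η ∧ η * Fintype.card ι ≤ a := by
    refine ⟨a / (Fintype.card ι + 1), by positivity, ?_⟩
    rw [div_mul_eq_mul_div, div_le_iff₀ (by positivity)]
    nlinarith
  obtain ⟨N, hN⟩ : ∃ N : ℤ, |b| / η + 1 ≤ N := ⟨_, Int.le_ceil _⟩
  choose g hg using dqc_fac (ι := ι)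
  let B : (ι × ι → Finset.Icc (-N) N) → Matrix ι ι ℝ := fun β =>
    Matrix.of fun i j => η * (((β (i, j) : ℤ) : ℝ) + ((β (j, i) : ℤ) : ℝ)) / 2
  let χ : (ι × ι → Finset.Icc (-N) N) → Matrix ι ι ℝ → ℝ := fun β W =>
    ∏ e : ι × ι, dqc_hat (W e.1 e.2 / η - (β e : ℤ))
  refine ⟨(ι × ι → Finset.Icc (-N) N) × ι, inferInstance, fun n => g (B n.1) n.2, fun n => χ n.1,
    Fintype.card (ι × ι) / η ^ 2, fun n => Continuous.continuousOn ?_, fun n W W' _ _ => ?_,
    fun n W _ => Finset.prod_nonneg fun e _ => (dqc_hat_mem _).1, fun W hW i j => ?_⟩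
  · refine continuous_finsetProd _ fun e _ => ?_
    unfold dqc_hat
    fun_prop
  · have h1 : |χ n.1 W' - χ n.1 W| ≤ ∑ e : ι × ι, |(W' e.1 e.2 - W e.1 e.2) / η| := by
      refine (dqc_prod _ (fun e => dqc_hat_mem _) (fun e => dqc_hat_mem _)).trans
        (Finset.sum_le_sum fun e _ => (dqc_hat_lip _ _).trans_eq ?_)
      congr 1
      ring
    have h2 := sq_sum_le_card_mul_sum_sq (s := Finset.univ)
      (f := fun e : ι × ι => |(W' e.1 e.2 - W e.1 e.2) / η|)
    refine (sq_abs _).symm.trans_le ((pow_le_pow_left₀ (abs_nonneg _) h1 2).trans (h2.trans_eq ?_))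
    simp only [sq_abs, div_pow, hs, Matrix.sub_apply, Finset.card_univ, Fintype.sum_prod_type,
      ← Finset.sum_div]
    ring
  · have hWb : ∀ e : ι × ι, |W e.1 e.2 / η| + 1 ≤ N := by
      intro e
      have := (hW.mono (show -|b| ≤ a by linarith [abs_nonneg b]) (le_abs_self b)).abs_le e.1 e.2
      rw [abs_div, abs_of_pos hη]
      linarith [div_le_div_of_nonneg_right this hη.le]
    have e1 : ∀ β, ∑ k, χ β W * (g (B β) k i * g (B β) k j) = χ β W * B β i j := by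
      intro β
      by_cases h0 : χ β W = 0
      · simp [h0]
      rw [← Finset.mul_sum, hg (B β) ?_ (dqc_psd hW hη.le hηa fun p q => ?_)]
      · ext p q
        simp only [B, Matrix.transpose_apply, Matrix.of_apply]
        ring
      · have h1 : ∀ e : ι × ι, |W e.1 e.2 / η - (β e : ℤ)| ≤ 1 := fun e => by
          by_contra hc
          exact h0 (Finset.prod_eq_zero (Finset.mem_univ e) (dqc_hat_zero (le_of_lt (not_le.1 hc))))
        have h2 := abs_le.1 (h1 (p, q))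
        have h3 := abs_le.1 (h1 (q, p))
        have h4 : W q p = W p q := hW.1.apply p q
        simp only [h4] at h2 h3
        have e : B β p q - W p q = -(η / 2) * ((W p q / η - (β (p, q) : ℤ)) + (W p q / η - (β (q, p) : ℤ))) := by
          simp only [B, Matrix.of_apply]
          field_simp
          ring
        rw [e, abs_le]
        constructor <;> nlinarith [h2.1, h2.2, h3.1, h3.2]
    rw [Fintype.sum_prod_type]
    simp only [e1]
    have r1 := dqc_rep N (t := fun e : ι × ι => W e.1 e.2 / η) hWb (i, j)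
    have r2 := dqc_rep N (t := fun e : ι × ι => W e.1 e.2 / η) hWb (j, i)
    have h4 : W j i = W i j := hW.1.apply i j
    calc ∑ β, χ β W * B β i j
        = η / 2 * (∑ β, χ β W * ((β (i, j) : ℤ) : ℝ) + ∑ β, χ β W * ((β (j, i) : ℤ) : ℝ)) := by
          rw [← Finset.sum_add_distrib, Finset.mul_sum]
          refine Finset.sum_congr rfl fun β _ => ?_
          simp only [B, Matrix.of_apply]
          ring
      _ = W i j := by
          simp only [χ]
          rw [r1, r2, h4]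
          field_simp
          ring

end Crest.Agent.R253
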