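/-
Row 253 (S0390, S0391), file SC.  The class `SC` of strongly convex smooth potentials.
Definitions: R253/Fun.lean, R253/Defs.lean.  Outline: R253/Blueprint.lean.  Keep the statements unchanged.
-/
import Crest.Agent.R253.Defs
import Crest.Agent.R203N.Gauss
import Crest.Agent.R203N.Proj2

set_option autoImplicit false

namespace Crest.Agent.R253

open MeasureTheory ProbabilityTheory Matrix Filter Topology Crest.Agent.R203N

variable {ι : Type} [Fintype ι] [DecidableEq ι]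
variable {a b a' b' : ℝ} {V V' : (ι → ℝ) → ℝ} {G G' : (ι → ℝ) → ι → ℝ}

theorem SC.mono (h : SC a b V G) (ha : a' ≤ a) (hb : b ≤ b') : SC a' b' V G := by
  refine ⟨fun x y => ?_, fun x y => ?_⟩
  · have h1 := h.lo x y
    have h2 := mul_le_mul_of_nonneg_right ha (Proj1_dot_self_nonneg (y - x))
    linarith
  · have h1 := h.hi x y
    have h2 := mul_le_mul_of_nonneg_right hb (Proj1_dot_self_nonneg (y - x))
    linarith

theorem SC.add (h : SC a b V G) (h' : SC a' b' V' G') :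
    SC (a + a') (b + b') (fun x => V x + V' x) (fun x => G x + G' x) := by
  refine ⟨fun x y => ?_, fun x y => ?_⟩
  · have h1 := h.lo x y
    have h2 := h'.lo x y
    rw [add_dotProduct]
    linarith
  · have h1 := h.hi x y
    have h2 := h'.hi x y
    rw [add_dotProduct]
    linarith

theorem SC.const_mul (h : SC a b V G) {c : ℝ} (hc : 0 ≤ c) :
    SC (c * a) (c * b) (fun x => c * V x) (fun x => c • G x) := by
  refine ⟨fun x y => ?_, fun x y => ?_⟩
  · have h1 := mul_le_mul_of_nonneg_left (h.lo x y) hc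
    rw [smul_dotProduct, smul_eq_mul]
    linarith
  · have h1 := mul_le_mul_of_nonneg_left (h.hi x y) hc
    rw [smul_dotProduct, smul_eq_mul]
    linarith

theorem SC.add_const (h : SC a b V G) (c : ℝ) : SC a b (fun x => V x + c) G := by
  refine ⟨fun x y => ?_, fun x y => ?_⟩
  · have h1 := h.lo x y
    linarith
  · have h1 := h.hi x y
    linarith

theorem SC_quad (c : ℝ) : SC c c (fun x : ι → ℝ => c / 2 * (x ⬝ᵥ x)) (fun x => c • x) := by
  have e : ∀ x y : ι → ℝ, c / 2 * (x ⬝ᵥ x) + (c • x) ⬝ᵥ (y - x) + c / 2 * ((y - x) ⬝ᵥ (y - x))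
      = c / 2 * (y ⬝ᵥ y) := fun x y => by
    simp only [smul_dotProduct, smul_eq_mul, dotProduct_sub, sub_dotProduct, dotProduct_comm y x]
    ring
  exact ⟨fun x y => (e x y).le, fun x y => (e x y).ge⟩

theorem SC.comp_smul (h : SC a b V G) (c : ℝ) :
    SC (c ^ 2 * a) (c ^ 2 * b) (fun x => V (c • x)) (fun x => c • G (c • x)) := by
  refine ⟨fun x y => ?_, fun x y => ?_⟩
  · have h1 := h.lo (c • x) (c • y)
    rw [← smul_sub] at h1
    simp only [smul_dotProduct, dotProduct_smul, smul_eq_mul] at h1 ⊢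
    linarith
  · have h1 := h.hi (c • x) (c • y)
    rw [← smul_sub] at h1
    simp only [smul_dotProduct, dotProduct_smul, smul_eq_mul] at h1 ⊢
    linarith

theorem SC.comp_mulVec (h : SC a b V G) (ha : 0 ≤ a) (hb : 0 ≤ b) {M : Matrix ι ι ℝ} {c d : ℝ}
    (hM : ∀ x : ι → ℝ, c * (x ⬝ᵥ x) ≤ (M *ᵥ x) ⬝ᵥ (M *ᵥ x) ∧ (M *ᵥ x) ⬝ᵥ (M *ᵥ x) ≤ d * (x ⬝ᵥ x)) :
    SC (a * c) (b * d) (fun x => V (M *ᵥ x)) (fun x => Mᵀ *ᵥ G (M *ᵥ x)) := by
  have e : ∀ p v : ι → ℝ, (Mᵀ *ᵥ p) ⬝ᵥ v = p ⬝ᵥ M *ᵥ v := fun p v => by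
    rw [Matrix.mulVec_transpose, Matrix.dotProduct_mulVec]
  refine ⟨fun x y => ?_, fun x y => ?_⟩
  · have h1 := h.lo (M *ᵥ x) (M *ᵥ y)
    rw [← Matrix.mulVec_sub] at h1
    have h2 := mul_le_mul_of_nonneg_left (hM (y - x)).1 ha
    rw [e]
    linarith
  · have h1 := h.hi (M *ᵥ x) (M *ᵥ y)
    rw [← Matrix.mulVec_sub] at h1
    have h2 := mul_le_mul_of_nonneg_left (hM (y - x)).2 hb
    rw [e]
    linarith

theorem SC.hasFDerivAt (h : SC a b V G) (x : ι → ℝ) : HasFDerivAt V (Proj2_T (G x)) x := by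
  refine HasFDerivAt.of_isLittleO (Asymptotics.IsBigO.trans_isLittleO ?_
    (Asymptotics.isLittleO_pow_sub_sub x one_lt_two))
  refine Asymptotics.IsBigO.of_bound ((|a| + |b|) * dim ι) (Eventually.of_forall fun y => ?_)
  have h1 := h.lo x y
  have h2 := h.hi x y
  have h3 := Proj2_dot_le (y - x)
  have h4 := Proj1_dot_self_nonneg (y - x)
  have h5 := mul_le_mul_of_nonneg_left h3 (add_nonneg (abs_nonneg a) (abs_nonneg b))
  have h6 := mul_le_mul_of_nonneg_right (neg_abs_le a) h4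
  have h7 := mul_le_mul_of_nonneg_right (le_abs_self b) h4
  have h8 := mul_nonneg (abs_nonneg a) h4
  have h9 := mul_nonneg (abs_nonneg b) h4
  rw [Proj2_T_apply, Real.norm_eq_abs, Real.norm_of_nonneg (by positivity), abs_le]
  constructor <;> linarith

theorem SC.continuous (h : SC a b V G) : Continuous V := by
  exact continuous_iff_continuousAt.2 fun x => (h.hasFDerivAt x).continuousAt

theorem SC.mono_grad (h : SC a b V G) (x y : ι → ℝ) :
    a * ((x - y) ⬝ᵥ (x - y)) ≤ (G x - G y) ⬝ᵥ (x - y) ∧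
      (G x - G y) ⬝ᵥ (x - y) ≤ b * ((x - y) ⬝ᵥ (x - y)) := by
  have h1 := h.lo x y
  have h2 := h.lo y x
  have h3 := h.hi x y
  have h4 := h.hi y x
  rw [← neg_sub x y, neg_dotProduct_neg, dotProduct_neg] at h1 h3
  rw [sub_dotProduct (G x)]
  constructor <;> linarith

theorem SCa_co (h : SC a b V G) (ha : 0 ≤ a) (hb : 0 < b) (x y : ι → ℝ) :
    V x + G x ⬝ᵥ (y - x) + b⁻¹ / 2 * ((G y - G x) ⬝ᵥ (G y - G x)) ≤ V y := by
  have h1 := h.lo x (y - b⁻¹ • (G y - G x))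
  have h2 := h.hi y (y - b⁻¹ • (G y - G x))
  have h3 := mul_nonneg ha (Proj1_dot_self_nonneg (y - b⁻¹ • (G y - G x) - x))
  have e1 : G x ⬝ᵥ (y - b⁻¹ • (G y - G x) - x) = G x ⬝ᵥ (y - x) - b⁻¹ * (G x ⬝ᵥ (G y - G x)) := by
    rw [sub_right_comm, dotProduct_sub (G x) (y - x), dotProduct_smul, smul_eq_mul]
  rw [e1] at h1
  rw [sub_sub_cancel_left, neg_dotProduct_neg, dotProduct_neg, dotProduct_smul, dotProduct_smul,
    smul_dotProduct, smul_eq_mul, smul_eq_mul, smul_eq_mul] at h2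
  have e2 : b / 2 * (b⁻¹ * (b⁻¹ * ((G y - G x) ⬝ᵥ (G y - G x))))
      = b⁻¹ / 2 * ((G y - G x) ⬝ᵥ (G y - G x)) := by
    field_simp
  have e3 : b⁻¹ * ((G y - G x) ⬝ᵥ (G y - G x))
      = b⁻¹ * (G y ⬝ᵥ (G y - G x)) - b⁻¹ * (G x ⬝ᵥ (G y - G x)) := by
    rw [sub_dotProduct (G y), mul_sub]
  rw [e2] at h2
  linarith

/-- Co-coercivity: `φ = V - ⟨G x, ·⟩` is minimal at `x`, and `φ (y - (G y - G x)/b) ≤ φ y - |G y - G x|²/(2b)`;
so `|G x - G y|² ≤ b ⟨G x - G y, x - y⟩ ≤ b² |x-y|²`. -/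
theorem SC.lip (h : SC a b V G) (ha : 0 ≤ a) (hb : 0 < b) (x y : ι → ℝ) :
    (G x - G y) ⬝ᵥ (G x - G y) ≤ b ^ 2 * ((x - y) ⬝ᵥ (x - y)) := by
  have h1 := SCa_co h ha hb x y
  have h2 := SCa_co h ha hb y x
  have h3 := (h.mono_grad x y).2
  rw [← neg_sub (G x) (G y), neg_dotProduct_neg, ← neg_sub x y, dotProduct_neg] at h1
  have h4 : b⁻¹ * ((G x - G y) ⬝ᵥ (G x - G y)) ≤ b * ((x - y) ⬝ᵥ (x - y)) := by
    rw [sub_dotProduct (G x) (G y) (x - y)] at h3
    linarith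
  have h5 := mul_le_mul_of_nonneg_left h4 hb.le
  rw [← mul_assoc, mul_inv_cancel₀ hb.ne', one_mul] at h5
  linarith

theorem SC.lipschitz (h : SC a b V G) (ha : 0 ≤ a) (hb : 0 < b) :
    LipschitzWith ⟨dim ι * b, by positivity⟩ G := by
  refine LipschitzWith.of_dist_le_mul fun x y => ?_
  rw [dist_eq_norm, dist_eq_norm]
  have h1 := (Proj1_norm_sq_le (G x - G y)).trans ((h.lip ha hb x y).trans
    (mul_le_mul_of_nonneg_left (Proj2_dot_le (x - y)) (sq_nonneg b)))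
  have h2 : dim ι ≤ dim ι ^ 2 := by
    unfold dim
    exact_mod_cast Nat.le_self_pow two_ne_zero _
  refine abs_le_of_sq_le_sq' (h1.trans ?_) (by positivity) |>.2
  have h3 := mul_le_mul_of_nonneg_right h2 (mul_nonneg (sq_nonneg b) (sq_nonneg ‖x - y‖))
  change _ ≤ (dim ι * b * ‖x - y‖) ^ 2
  linarith

theorem SC.continuous_grad (h : SC a b V G) (ha : 0 ≤ a) (hb : 0 < b) : Continuous G := by
  exact (h.lipschitz ha hb).continuous

/-- Minimise the coercive continuous function `V - ⟨x, ·⟩`. -/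
theorem SC.exists_inverse (h : SC a b V G) (ha : 0 < a) :
    ∃ (S : (ι → ℝ) → ι → ℝ) (K : NNReal), LipschitzWith K S ∧ (∀ z, S (G z) = z) ∧ (∀ x, G (S x) = x) ∧
      ∀ x y, a ^ 2 * ((S x - S y) ⬝ᵥ (S x - S y)) ≤ (x - y) ⬝ᵥ (x - y) := by
  have inj : ∀ u v, a ^ 2 * ((u - v) ⬝ᵥ (u - v)) ≤ (G u - G v) ⬝ᵥ (G u - G v) := fun u v => by
    have h1 := mul_le_mul_of_nonneg_left (h.mono_grad u v).1 ha.le
    have h2 := Proj1_two_dot (G u - G v) (a • (u - v))
    simp only [dotProduct_smul, smul_dotProduct, smul_eq_mul] at h2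
    linarith
  have sur : ∀ x, ∃ z, G z = x := fun x => by
    have hc : Continuous fun z => V z - Proj2_T x z := h.continuous.sub (Proj2_T x).continuous
    obtain ⟨z, hz⟩ := hc.exists_forall_le' 0 (by
      filter_upwards [(tendsto_norm_cocompact_atTop (E := ι → ℝ)).eventually_ge_atTop
        (2 * (dim ι * ‖x - G 0‖) / a)] with z hz
      have h1 := h.lo 0 z
      have h2 := Proj1_dot_le (x - G 0) z
      have h3 := mul_le_mul_of_nonneg_left (Proj1_norm_sq_le z) ha.le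
      have h4 := mul_le_mul_of_nonneg_right ((div_le_iff₀ ha).1 hz) (norm_nonneg z)
      simp only [sub_zero, Proj2_T_apply, dotProduct_zero, sub_dotProduct] at h1 h2 ⊢
      linarith)
    have hm : IsLocalMin (fun z => V z - Proj2_T x z) z := Eventually.of_forall hz
    have h0 := hm.hasFDerivAt_eq_zero ((h.hasFDerivAt z).sub (Proj2_T x).hasFDerivAt)
    have h1 := congrArg (fun L => L (G z - x)) h0
    simp only [_root_.sub_apply, Proj2_T_apply, _root_.zero_apply] at h1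
    exact ⟨z, Proj1_eq_of_dot (by rw [sub_dotProduct, h1])⟩
  choose S hS using sur
  have est : ∀ x y, a ^ 2 * ((S x - S y) ⬝ᵥ (S x - S y)) ≤ (x - y) ⬝ᵥ (x - y) := fun x y => by
    simpa only [hS] using inj (S x) (S y)
  refine ⟨S, ⟨(dim ι + 1) / a, by positivity⟩, LipschitzWith.of_dist_le_mul fun x y => ?_,
    fun z => Proj1_eq_of_dot ?_, hS, est⟩
  · change dist (S x) (S y) ≤ (dim ι + 1) / a * dist x y
    rw [dist_eq_norm, dist_eq_norm, div_mul_eq_mul_div, le_div_iff₀ ha]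
    refine abs_le_of_sq_le_sq' ?_ (by positivity) |>.2
    have h1 := mul_le_mul_of_nonneg_left (Proj1_norm_sq_le (S x - S y)) (sq_nonneg a)
    have h2 := Proj2_dot_le (x - y)
    have h3 : 0 ≤ (dim ι ^ 2 + dim ι + 1) * ‖x - y‖ ^ 2 := by positivity
    linarith [est x y]
  · have h1 := inj (S (G z)) z
    rw [hS, sub_self, dotProduct_zero] at h1
    exact nonpos_of_mul_nonpos_right h1 (pow_pos ha 2) 

/-- Growth bounds that only depend on `b` and on bounds at the origin. -/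
theorem SC_growth (b C₀ : ℝ) (hb : 0 < b) : ∃ C : ℝ, 0 ≤ C ∧ ∀ (a : ℝ) (V : (ι → ℝ) → ℝ)
    (G : (ι → ℝ) → ι → ℝ), SC a b V G → 0 ≤ a → |V 0| ≤ C₀ → (∀ i, |G 0 i| ≤ C₀) →
      ∀ x, |V x| ≤ C * (1 + ‖x‖) ^ 2 ∧ ∀ i, |G x i| ≤ C * (1 + ‖x‖) := by
  refine ⟨|C₀| + dim ι * |C₀| + dim ι * b, by positivity, fun a V G h ha h0 h1 x => ?_⟩
  have hC : 0 ≤ C₀ := (abs_nonneg _).trans h0
  rw [abs_of_nonneg hC]
  have hG : ‖G 0‖ ≤ C₀ := (pi_norm_le_iff_of_nonneg hC).2 h1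
  have hx := norm_nonneg x
  have hd : 0 ≤ dim ι := Nat.cast_nonneg _
  have p1 := mul_nonneg hd hC
  have p2 := mul_nonneg hd hb.le
  refine ⟨?_, fun i => ?_⟩
  · have l := h.lo 0 x
    have u := h.hi 0 x
    have e1 := Proj1_dot_le (G 0) x
    have e2 := Proj1_dot_le (-G 0) x
    have e3 := mul_le_mul_of_nonneg_left (mul_le_mul_of_nonneg_right hG hx) hd
    have e4 := mul_le_mul_of_nonneg_left (Proj2_dot_le x) hb.le
    have e5 := mul_nonneg ha (Proj1_dot_self_nonneg x)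
    rw [neg_dotProduct, norm_neg] at e2
    rw [sub_zero] at l u
    have e6 := abs_le.1 h0
    have q1 := mul_nonneg hC hx
    have q2 := mul_nonneg p1 hx
    have q3 := mul_nonneg p2 hx
    have q4 := mul_nonneg q1 hx
    have q5 := mul_nonneg q2 hx
    have q6 := mul_nonneg q3 hx
    exact abs_le.2 ⟨by linarith, by linarith⟩
  · have l : dist (G x) (G 0) ≤ dim ι * b * dist x 0 := (h.lipschitz ha hb).dist_le_mul x 0
    simp only [dist_eq_norm, sub_zero] at l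
    have e1 : |G x i - G 0 i| ≤ ‖G x - G 0‖ := norm_le_pi_norm (G x - G 0) i
    have e2 := abs_sub_abs_le_abs_sub (G x i) (G 0 i)
    linarith [h1 i, mul_nonneg hC hx, mul_nonneg p1 hx]

theorem SC.mid (h : SC a b V G) (x y : ι → ℝ) :
    V ((1 / 2 : ℝ) • (x + y)) ≤ (V x + V y) / 2 - a / 8 * ((x - y) ⬝ᵥ (x - y)) ∧
      (V x + V y) / 2 - b / 8 * ((x - y) ⬝ᵥ (x - y)) ≤ V ((1 / 2 : ℝ) • (x + y)) := by
  have e1 : x - (1 / 2 : ℝ) • (x + y) = (1 / 2 : ℝ) • (x - y) := by module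
  have e2 : y - (1 / 2 : ℝ) • (x + y) = (-(1 / 2) : ℝ) • (x - y) := by module
  have l1 := h.lo ((1 / 2 : ℝ) • (x + y)) x
  have l2 := h.lo ((1 / 2 : ℝ) • (x + y)) y
  have u1 := h.hi ((1 / 2 : ℝ) • (x + y)) x
  have u2 := h.hi ((1 / 2 : ℝ) • (x + y)) y
  simp only [e1, e2, dotProduct_smul, smul_dotProduct, smul_eq_mul] at l1 l2 u1 u2
  constructor <;> linarith

theorem integrable_gauss {c : ℝ} (hc : 0 < c) (R : ℝ) (k : ℕ) :
    Integrable fun x : ι → ℝ => (1 + ‖x‖) ^ k * Real.exp (R * ‖x‖ - c * (x ⬝ᵥ x)) := by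
  have h0 : Integrable fun x : ι → ℝ => ∏ i, Real.exp (-(c / 2) * x i ^ 2) :=
    Integrable.fintype_prod (f := fun _ t => Real.exp (-(c / 2) * t ^ 2))
      fun _ => integrable_exp_neg_mul_sq (half_pos hc)
  refine (h0.const_mul (Real.exp ((k + R) ^ 2 / (2 * c)))).mono' (Continuous.aestronglyMeasurable (by fun_prop))
    (Eventually.of_forall fun x => ?_)
  have h1 : (1 + ‖x‖) ^ k ≤ Real.exp (k * ‖x‖) := by
    rw [Real.exp_nat_mul]
    exact pow_le_pow_left₀ (by positivity) (by linarith [Real.add_one_le_exp ‖x‖]) k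
  rw [Real.norm_of_nonneg (by positivity), ← Real.exp_sum, ← Real.exp_add]
  refine (mul_le_mul_of_nonneg_right h1 (Real.exp_pos _).le).trans ?_
  rw [← Real.exp_add, Real.exp_le_exp, ← Finset.mul_sum]
  have h2 : ∑ i, x i ^ 2 = x ⬝ᵥ x := by simp only [dotProduct, sq]
  have h3 := mul_le_mul_of_nonneg_left (Proj1_norm_sq_le x) hc.le
  have h4 : (k + R) * ‖x‖ - c / 2 * ‖x‖ ^ 2 ≤ (k + R) ^ 2 / (2 * c) := by
    rw [le_div_iff₀ (by positivity)]
    nlinarith [sq_nonneg (k + R - c * ‖x‖)]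
  rw [h2]
  linarith

/-- `exp (θ x - V x) ≤ C exp (-(a/4) |x|²)`, and a polynomial times a Gaussian is integrable
(`integrable_norm_pow`, `γ_eq_withDensity` and scaling, or `GaussianFourier`). -/
theorem SC.integrable (h : SC a b V G) (ha : 0 < a) (θ : ι → ℝ) {f : (ι → ℝ) → ℝ}
    (hf : AEStronglyMeasurable f volume) {C : ℝ} {k : ℕ} (hC : ∀ x, |f x| ≤ C * (1 + ‖x‖) ^ k) :
    Integrable fun x => f x * Real.exp (θ ⬝ᵥ x - V x) := by
  have hV := h.continuous
  refine ((integrable_gauss (half_pos ha) (dim ι * ‖θ - G 0‖) k).const_mul (C * Real.exp (-V 0))).mono'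
    (hf.mul (Continuous.aestronglyMeasurable (by fun_prop))) (Eventually.of_forall fun x => ?_)
  have h1 := h.lo 0 x
  have h2 := Proj1_dot_le (θ - G 0) x
  rw [sub_zero] at h1
  rw [sub_dotProduct] at h2
  rw [norm_mul, Real.norm_of_nonneg (Real.exp_pos _).le, mul_mul_mul_comm, ← Real.exp_add]
  exact mul_le_mul (hC x) (Real.exp_le_exp.2 (by linarith)) (Real.exp_pos _).le ((abs_nonneg _).trans (hC x))

/-! ### Second part -/

theorem scc_line {g : ℝ → ℝ} (hc : Continuous g) (h : ∀ s t, g ((s + t) / 2) ≤ (g s + g t) / 2)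
    (h0 : g 0 ≤ 0) (h1 : g 1 ≤ 0) {t : ℝ} (ht : t ∈ Set.Icc (0 : ℝ) 1) : g t ≤ 0 := by
  obtain ⟨u, hu, hmax⟩ := isCompact_Icc.exists_isMaxOn ⟨t, ht⟩ hc.continuousOn
  have hM : ∀ s ∈ Set.Icc (0 : ℝ) 1, g s ≤ g u := fun s hs => hmax hs
  refine (hM t ht).trans ?_
  rcases le_total u (1 / 2) with hu2 | hu2
  · have e := h 0 (2 * u)
    rw [show (0 + 2 * u) / 2 = u by ring] at e
    have := hM (2 * u) ⟨by linarith [hu.1], by linarith⟩
    linarith
  · have e := h (2 * u - 1) 1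
    rw [show (2 * u - 1 + 1) / 2 = u by ring] at e
    have := hM (2 * u - 1) ⟨by linarith, by linarith [hu.2]⟩
    linarith

/-- A continuous midpoint convex function is convex (for `x, y` consider the set where
`t ↦ f (x + t(y-x)) - linear interpolation` attains a positive maximum on `[0,1]`, and its smallest point). -/
theorem convexOn_of_mid {f : (ι → ℝ) → ℝ} (hc : Continuous f)
    (h : ∀ x y, f ((1 / 2 : ℝ) • (x + y)) ≤ (f x + f y) / 2) : ConvexOn ℝ Set.univ f := by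
  refine ⟨convex_univ, fun x _ y _ s t hs ht hst => ?_⟩
  have key := scc_line (g := fun u => f ((1 - u) • x + u • y) - ((1 - u) * f x + u * f y))
    (by fun_prop) (fun u v => by
      have e := h ((1 - u) • x + u • y) ((1 - v) • x + v • y)
      have e' : (1 / 2 : ℝ) • ((1 - u) • x + u • y + ((1 - v) • x + v • y)) =
          (1 - (u + v) / 2) • x + ((u + v) / 2) • y := by
        funext i
        simp only [Pi.smul_apply, Pi.add_apply, smul_eq_mul]
        ring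
      rw [e'] at e
      linarith) (by simp) (by simp) (t := t) ⟨ht, by linarith⟩
  have e : s = 1 - t := by linarith
  simp only [smul_eq_mul, e]
  linarith

/-- Separate `(x, f x)` from the open convex strict epigraph (`geometric_hahn_banach_point_open`). -/
theorem exists_subgradient {f : (ι → ℝ) → ℝ} (hc : Continuous f) (h : ConvexOn ℝ Set.univ f)
    (x : ι → ℝ) : ∃ p : ι → ℝ, ∀ y, f x + p ⬝ᵥ (y - x) ≤ f y := by
  have hS : Convex ℝ {z : (ι → ℝ) × ℝ | f z.1 < z.2} := by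
    simpa using h.convex_strict_epigraph
  have hO : IsOpen {z : (ι → ℝ) × ℝ | f z.1 < z.2} := isOpen_lt (by fun_prop) (by fun_prop)
  obtain ⟨L, hL⟩ := geometric_hahn_banach_point_open (x := (x, f x)) hS hO (by simp)
  have hsplit : ∀ (y : ι → ℝ) (r : ℝ), L (y, r) = (fun i => L (Pi.single i 1, 0)) ⬝ᵥ y + r * L (0, 1) := by
    intro y r
    have e : ((y, r) : (ι → ℝ) × ℝ) = ∑ i, y i • ((Pi.single i 1, 0) : (ι → ℝ) × ℝ) + r • ((0, 1) : (ι → ℝ) × ℝ) := by
      ext j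
      · simp [Prod.fst_sum, Finset.sum_apply, Pi.single_apply]
      · simp [Prod.snd_sum]
    rw [e, map_add, map_sum, map_smul, dotProduct]
    simp only [map_smul, smul_eq_mul, mul_comm]
  set q : ι → ℝ := fun i => L (Pi.single i 1, 0) with hq
  set c : ℝ := L (0, 1) with hc'
  have hc0 : 0 < c := by
    have := hL (x, f x + 1) (by simp)
    rw [hsplit, hsplit] at this
    linarith
  refine ⟨(-c⁻¹) • q, fun y => ?_⟩
  have key : q ⬝ᵥ x + f x * c ≤ q ⬝ᵥ y + f y * c := by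
    refine le_of_forall_pos_le_add fun ε hε => ?_
    have := hL (y, f y + ε / c) (by simpa using div_pos hε hc0)
    rw [hsplit, hsplit, add_mul, div_mul_cancel₀ _ hc0.ne'] at this
    linarith
  rw [smul_dotProduct, dotProduct_sub, smul_eq_mul]
  have e : f x + -c⁻¹ * (q ⬝ᵥ y - q ⬝ᵥ x) - f y = (q ⬝ᵥ x + f x * c - (q ⬝ᵥ y + f y * c)) / c := by
    field_simp
    ring
  have : (q ⬝ᵥ x + f x * c - (q ⬝ᵥ y + f y * c)) / c ≤ 0 := div_nonpos_of_nonpos_of_nonneg (by linarith) hc0.le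
  linarith

theorem scc_mid (x y : ι → ℝ) : ((1 / 2 : ℝ) • (x + y)) ⬝ᵥ ((1 / 2 : ℝ) • (x + y)) =
    (x ⬝ᵥ x + y ⬝ᵥ y) / 2 - (x - y) ⬝ᵥ (x - y) / 4 := by
  simp only [smul_dotProduct, dotProduct_smul, add_dotProduct, dotProduct_add, sub_dotProduct, dotProduct_sub,
    smul_eq_mul, dotProduct_comm y x]
  ring

theorem scc_sq (x y : ι → ℝ) : y ⬝ᵥ y = x ⬝ᵥ x + 2 * (x ⬝ᵥ (y - x)) + (y - x) ⬝ᵥ (y - x) := by
  simp only [sub_dotProduct, dotProduct_sub, dotProduct_comm y x]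
  ring

/-- Subgradients `p` of `V - a|x|²/2` and `q` of `b|x|²/2 - V`; then `p + a x = b x - q`. -/
theorem SC_of_mid (hc : Continuous V)
    (lo : ∀ x y, V ((1 / 2 : ℝ) • (x + y)) ≤ (V x + V y) / 2 - a / 8 * ((x - y) ⬝ᵥ (x - y)))
    (hi : ∀ x y, (V x + V y) / 2 - b / 8 * ((x - y) ⬝ᵥ (x - y)) ≤ V ((1 / 2 : ℝ) • (x + y))) :
    ∃ G, SC a b V G := by
  have hq : Continuous fun x : ι → ℝ => x ⬝ᵥ x := continuous_id.dotProduct continuous_id
  have c1 : Continuous fun x : ι → ℝ => V x - a / 2 * (x ⬝ᵥ x) := hc.sub (continuous_const.mul hq)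
  have c2 : Continuous fun x : ι → ℝ => b / 2 * (x ⬝ᵥ x) - V x := (continuous_const.mul hq).sub hc
  choose p hp using exists_subgradient c1 (convexOn_of_mid c1 fun x y => by
    rw [scc_mid]; linarith [lo x y])
  choose q hq using exists_subgradient c2 (convexOn_of_mid c2 fun x y => by
    rw [scc_mid]; linarith [hi x y])
  have h1 : ∀ x y, V x + (p x + a • x) ⬝ᵥ (y - x) + a / 2 * ((y - x) ⬝ᵥ (y - x)) ≤ V y := by
    intro x y
    have := hp x y
    rw [scc_sq x y] at this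
    rw [add_dotProduct, smul_dotProduct, smul_eq_mul]
    linarith
  have h2 : ∀ x y, V y ≤ V x + (b • x - q x) ⬝ᵥ (y - x) + b / 2 * ((y - x) ⬝ᵥ (y - x)) := by
    intro x y
    have := hq x y
    rw [scc_sq x y] at this
    rw [sub_dotProduct, smul_dotProduct, smul_eq_mul]
    linarith
  refine ⟨fun x => p x + a • x, h1, fun x y => ?_⟩
  suffices e : p x + a • x = b • x - q x by rw [e]; exact h2 x y
  set d : ι → ℝ := p x + a • x - (b • x - q x) with hd
  have ht : 0 < (|b - a| + 1)⁻¹ := by positivity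
  have e1 := h1 x (x + (|b - a| + 1)⁻¹ • d)
  have e2 := h2 x (x + (|b - a| + 1)⁻¹ • d)
  have e3 : d ⬝ᵥ d = (p x + a • x) ⬝ᵥ d - (b • x - q x) ⬝ᵥ d := by rw [← sub_dotProduct]
  simp only [add_sub_cancel_left, dotProduct_smul, smul_dotProduct (|b - a| + 1)⁻¹, smul_eq_mul] at e1 e2
  have hd0 : 0 ≤ d ⬝ᵥ d := Finset.sum_nonneg fun i _ => mul_self_nonneg _
  have e4 : (|b - a| + 1)⁻¹ * (b - a) ≤ 1 := by
    rw [inv_mul_le_iff₀ (by positivity)]
    linarith [le_abs_self (b - a)]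
  have e5 : (|b - a| + 1)⁻¹ * (d ⬝ᵥ d) ≤ (|b - a| + 1)⁻¹ * ((|b - a| + 1)⁻¹ * (b - a) * (d ⬝ᵥ d) / 2) := by
    rw [e3] at *
    nlinarith
  have e6 := le_of_mul_le_mul_left e5 ht
  have e7 : d ⬝ᵥ d = 0 := by nlinarith
  exact sub_eq_zero.1 (dotProduct_self_eq_zero.1 e7)

theorem SCd_extract {X Y : Type} [MetricSpace X] [TopologicalSpace.SeparableSpace X] [Nonempty X]
    [NormedAddCommGroup Y] [ProperSpace Y] {F : ℕ → X → Y} (hb : ∀ x, ∃ R : ℝ, ∀ n, dist (F n x) 0 ≤ R)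
    (he : ∀ x, ∃ ω : X → ℝ, Tendsto ω (𝓝 x) (𝓝 0) ∧ ∀ n y, dist (F n x) (F n y) ≤ ω y) :
    ∃ (φ : ℕ → ℕ) (f : X → Y), StrictMono φ ∧ ∀ x, Tendsto (fun n => F (φ n) x) atTop (𝓝 (f x)) := by
  choose R hR using hb
  set d := TopologicalSpace.denseSeq X
  have hd : DenseRange d := TopologicalSpace.denseRange_denseSeq X
  obtain ⟨g, -, φ, hφ, hg⟩ := (isCompact_univ_pi fun k => isCompact_closedBall (0 : Y) (R (d k))).tendsto_subseq
    (x := fun n k => F n (d k)) fun n k _ => hR (d k) n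
  have hc : ∀ x, CauchySeq fun n => F (φ n) x := fun x => by
    obtain ⟨ω, h0, hω⟩ := he x
    refine Metric.cauchySeq_iff.2 fun ε hε => ?_
    obtain ⟨k, hk⟩ := hd.mem_nhds (h0.eventually (gt_mem_nhds (show 0 < ε / 3 by positivity)))
    obtain ⟨N, hN⟩ := Metric.cauchySeq_iff.1 (tendsto_pi_nhds.1 hg k).cauchySeq (ε / 3) (by positivity)
    refine ⟨N, fun m hm n hn => ?_⟩
    have h1 : dist (F (φ m) (d k)) (F (φ n) (d k)) < ε / 3 := hN m hm n hn
    have h2 : ω (d k) < ε / 3 := hk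
    have h3 := dist_triangle4_right (F (φ m) x) (F (φ n) x) (F (φ m) (d k)) (F (φ n) (d k))
    linarith [hω (φ m) (d k), hω (φ n) (d k)]
  choose f hf using fun x => cauchySeq_tendsto_of_complete (hc x)
  exact ⟨φ, f, hφ, hf⟩

/-- Extract a subsequence converging on a countable dense set (compact metrizable product of intervals,
`SC_growth`); equi-Lipschitz (on bounded sets) functions then converge everywhere (Cauchy sequences). -/
theorem SC_compact {V : ℕ → (ι → ℝ) → ℝ} {G : ℕ → (ι → ℝ) → ι → ℝ} (h : ∀ n, SC a b (V n) (G n))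
    (ha : 0 ≤ a) (hb : 0 < b) {C : ℝ} (h0 : ∀ n, |V n 0| ≤ C) (h1 : ∀ n i, |G n 0 i| ≤ C) :
    ∃ (φ : ℕ → ℕ) (W : (ι → ℝ) → ℝ) (H : (ι → ℝ) → ι → ℝ), StrictMono φ ∧ SC a b W H ∧
      (∀ x, Tendsto (fun n => V (φ n) x) atTop (𝓝 (W x))) ∧
      ∀ x, Tendsto (fun n => G (φ n) x) atTop (𝓝 (H x)) := by
  obtain ⟨D, hD0, hD⟩ := SC_growth (ι := ι) b C hb
  have hg := fun n => hD a (V n) (G n) (h n) ha (h0 n) (h1 n)
  have he : ∀ x : ι → ℝ, ∃ ω : (ι → ℝ) → ℝ, Tendsto ω (𝓝 x) (𝓝 0) ∧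
      ∀ n y, dist (V n x, G n x) (V n y, G n y) ≤ ω y := fun x => by
    refine ⟨fun y => max ((∑ i, D * (1 + ‖x‖) * |y i - x i|) + b / 2 * ((y - x) ⬝ᵥ (y - x)))
      (dim ι * b * dist x y), ?_, fun n y => ?_⟩
    · have hc : Continuous fun y : ι → ℝ => max ((∑ i, D * (1 + ‖x‖) * |y i - x i|) +
          b / 2 * ((y - x) ⬝ᵥ (y - x))) (dim ι * b * dist x y) := by fun_prop
      simpa using hc.tendsto x
    rw [Prod.dist_eq]
    refine max_le_max ?_ (((h n).lipschitz ha hb).dist_le_mul x y)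
    have e1 : |G n x ⬝ᵥ (y - x)| ≤ ∑ i, D * (1 + ‖x‖) * |y i - x i| :=
      (Finset.abs_sum_le_sum_abs _ _).trans (Finset.sum_le_sum fun i _ => by
        rw [abs_mul]
        exact mul_le_mul_of_nonneg_right ((hg n x).2 i) (abs_nonneg _))
    have e2 : 0 ≤ (y - x) ⬝ᵥ (y - x) := Finset.sum_nonneg fun i _ => mul_self_nonneg _
    have e3 := mul_nonneg (div_nonneg ha two_pos.le) e2
    have e4 := mul_nonneg (div_nonneg hb.le two_pos.le) e2
    have e5 := abs_le.1 e1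
    rw [Real.dist_eq]
    exact abs_le.2 ⟨by linarith [(h n).hi x y], by linarith [(h n).lo x y]⟩
  obtain ⟨φ, f, hφ, hf⟩ := SCd_extract (F := fun n x => (V n x, G n x))
    (fun x => ⟨max (D * (1 + ‖x‖) ^ 2) (D * (1 + ‖x‖)), fun n => by
      rw [dist_zero_right, Prod.norm_def]
      exact max_le_max (hg n x).1 ((pi_norm_le_iff_of_nonneg (by positivity)).2 (hg n x).2)⟩) he
  have hV : ∀ x, Tendsto (fun n => V (φ n) x) atTop (𝓝 (f x).1) := fun x => (hf x).fst_nhds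
  have hG : ∀ x, Tendsto (fun n => G (φ n) x) atTop (𝓝 (f x).2) := fun x => (hf x).snd_nhds
  have hl : ∀ (c : ℝ) x y, Tendsto (fun n => V (φ n) x + G (φ n) x ⬝ᵥ (y - x) + c) atTop
      (𝓝 ((f x).1 + (f x).2 ⬝ᵥ (y - x) + c)) := fun c x y =>
    ((hV x).add (((continuous_id.dotProduct continuous_const).tendsto _).comp (hG x))).add_const c
  exact ⟨φ, fun x => (f x).1, fun x => (f x).2, hφ,
    ⟨fun x y => le_of_tendsto_of_tendsto' (hl _ x y) (hV y) fun n => (h _).lo x y,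
      fun x y => le_of_tendsto_of_tendsto' (hV y) (hl _ x y) fun n => (h _).hi x y⟩, hV, hG⟩

/-- Characteristic functions (`Measure.ext_of_charFunDual`): `cos (L x)`, `sin (L x)` are bounded and
Lipschitz. -/
theorem ext_of_lip {μ ν : Measure (ι → ℝ)} [IsFiniteMeasure μ] [IsFiniteMeasure ν]
    (h : ∀ (φ : (ι → ℝ) → ℝ) (K : NNReal), LipschitzWith K φ → (∀ x, |φ x| ≤ 1) →
      ∫ x, φ x ∂μ = ∫ x, φ x ∂ν) : μ = ν := by
  have key : ∀ F : Set (ι → ℝ), IsClosed F → μ F = ν F := fun F hF => by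
    have hp : ∀ n : ℕ, (0 : ℝ) < 1 / ((n : ℝ) + 1) := fun n => by positivity
    have h1 := tendsto_integral_thickenedIndicator_of_isClosed μ hF hp tendsto_one_div_add_atTop_nhds_zero_nat
    have h2 := tendsto_integral_thickenedIndicator_of_isClosed ν hF hp tendsto_one_div_add_atTop_nhds_zero_nat
    refine (measureReal_eq_measureReal_iff (measure_ne_top _ _) (measure_ne_top _ _)).1
      (tendsto_nhds_unique (h1.congr fun n => ?_) h2)
    refine h _ _ (NNReal.isometry_coe.lipschitz.comp (lipschitzWith_thickenedIndicator (hp n) F)) fun x => ?_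
    rw [NNReal.abs_eq]
    exact_mod_cast thickenedIndicator_le_one (hp n) F x
  refine ext_of_generate_finite _ ?_ isPiSystem_isClosed key (key _ isClosed_univ)
  rw [BorelSpace.measurable_eq (α := ι → ℝ), borel_eq_generateFrom_isClosed]

end Crest.Agent.R253
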