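/-
Row 253 (S0390, S0391), file LL.  Logarithmic Laplace transforms.
Definitions: R253/Fun.lean, R253/Defs.lean.  Outline: R253/Blueprint.lean.  Keep the statements unchanged.
-/
import Crest.Agent.R253.SC
import Crest.Agent.Lib.PL.PrekopaLeindler

set_option autoImplicit false

namespace Crest.Agent.R253

open MeasureTheory ProbabilityTheory Matrix Filter Topology Crest.Agent.R203N

variable {ι : Type} [Fintype ι] [DecidableEq ι]

/-- Transfer `hasPL_pi` along `Fintype.equivFin`. -/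
theorem hasPL_iota : Lib.PL.HasPL (volume : Measure (ι → ℝ)) := by
  exact (Lib.PL.hasPL_pi _).of_measurePreserving
    (volume_measurePreserving_piCongrLeft (fun _ => ℝ) (Fintype.equivFin ι)).symm fun _ _ => rfl

/-- Real-valued form. -/
theorem PL_real {f g h : (ι → ℝ) → ℝ} (hf : Measurable f) (hg : Measurable g) (hh : Measurable h)
    (f0 : ∀ x, 0 ≤ f x) (g0 : ∀ x, 0 ≤ g x) (h0 : ∀ x, 0 ≤ h x) (fi : Integrable f) (gi : Integrable g)
    (hi : Integrable h) (H : ∀ x y, f x * g y ≤ h ((1 / 2 : ℝ) • (x + y)) ^ 2) :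
    (∫ x, f x) * (∫ x, g x) ≤ (∫ x, h x) ^ 2 := by
  have key := hasPL_iota _ _ _ hf.ennreal_ofReal hg.ennreal_ofReal hh.ennreal_ofReal fun x y => by
    rw [← ENNReal.ofReal_mul (f0 x), ← ENNReal.ofReal_pow (h0 _)]
    exact ENNReal.ofReal_le_ofReal (H x y)
  rwa [← ofReal_integral_eq_lintegral_ofReal fi (Eventually.of_forall f0),
    ← ofReal_integral_eq_lintegral_ofReal gi (Eventually.of_forall g0),
    ← ofReal_integral_eq_lintegral_ofReal hi (Eventually.of_forall h0),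
    ← ENNReal.ofReal_mul (integral_nonneg f0), ← ENNReal.ofReal_pow (integral_nonneg h0),
    ENNReal.ofReal_le_ofReal_iff (sq_nonneg _)] at key

/-- Cauchy-Schwarz. -/
theorem CS_real {f g h : (ι → ℝ) → ℝ} (f0 : ∀ x, 0 ≤ f x) (g0 : ∀ x, 0 ≤ g x) (h0 : ∀ x, 0 ≤ h x)
    (fi : Integrable f) (gi : Integrable g) (hi : Integrable h) (H : ∀ x, h x ^ 2 ≤ f x * g x) :
    (∫ x, h x) ^ 2 ≤ (∫ x, f x) * (∫ x, g x) := by
  have key : ∀ t : ℝ, 0 ≤ (∫ x, f x) * (t * t) + (-2 * ∫ x, h x) * t + ∫ x, g x := fun t => by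
    have h1 : ∫ x, 2 * t * h x ≤ ∫ x, (t ^ 2 * f x + g x) := by
      refine integral_mono (hi.const_mul _) ((fi.const_mul _).add gi) fun x => ?_
      refine (abs_le_of_sq_le_sq' ?_ (add_nonneg (mul_nonneg (sq_nonneg t) (f0 x)) (g0 x))).2
      nlinarith [mul_le_mul_of_nonneg_left (H x) (sq_nonneg t), sq_nonneg (t ^ 2 * f x - g x)]
    rw [integral_add (fi.const_mul _) gi, integral_const_mul, integral_const_mul] at h1
    linarith
  have := discrim_le_zero key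
  rw [discrim] at this
  linarith

/-- The logarithmic Laplace transform of `exp (-W)`. -/
noncomputable def LL (W : (ι → ℝ) → ℝ) (θ : ι → ℝ) : ℝ := Real.log (∫ x, Real.exp (θ ⬝ᵥ x - W x))

theorem int_exp_pos {k K : ℝ} {W : (ι → ℝ) → ℝ} {G : (ι → ℝ) → ι → ℝ} (h : SC k K W G) (hk : 0 < k)
    (θ : ι → ℝ) : Integrable (fun x => Real.exp (θ ⬝ᵥ x - W x)) ∧
      0 < ∫ x, Real.exp (θ ⬝ᵥ x - W x) := by
  have hi : Integrable fun x => Real.exp (θ ⬝ᵥ x - W x) := by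
    simpa only [one_mul] using h.integrable hk θ (f := fun _ => 1) aestronglyMeasurable_const (C := 1) (k := 0)
      fun x => by simp
  exact ⟨hi, integral_exp_pos hi⟩

/-- Dominated convergence (`integrable_gauss`). -/
theorem continuous_LL {k K : ℝ} {W : (ι → ℝ) → ℝ} {G : (ι → ℝ) → ι → ℝ} (h : SC k K W G) (hk : 0 < k) :
    Continuous (LL W) := by
  refine Continuous.log (continuous_iff_continuousAt.2 fun θ₀ => ?_) fun θ => (int_exp_pos h hk θ).2.ne'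
  refine continuousAt_of_dominated (Eventually.of_forall fun θ => (int_exp_pos h hk θ).1.aestronglyMeasurable) ?_
    ((integrable_gauss (half_pos hk) (dim ι * (‖θ₀ - G 0‖ + 1)) 0).const_mul (Real.exp (-W 0)))
    (Eventually.of_forall fun x => by fun_prop)
  have hc : ContinuousAt (fun θ => ‖θ - G 0‖) θ₀ := by fun_prop
  filter_upwards [hc.eventually_lt continuousAt_const (lt_add_one _)] with θ hθ
  refine Eventually.of_forall fun x => ?_
  rw [Real.norm_of_nonneg (Real.exp_pos _).le, pow_zero, one_mul, ← Real.exp_add, Real.exp_le_exp]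
  have h1 := h.lo 0 x
  have h2 : (θ - G 0) ⬝ᵥ x ≤ dim ι * (‖θ₀ - G 0‖ + 1) * ‖x‖ := by
    refine (Finset.sum_le_card_nsmul _ _ ((‖θ₀ - G 0‖ + 1) * ‖x‖) fun i _ => (le_abs_self _).trans ?_).trans_eq ?_
    · rw [abs_mul]
      exact mul_le_mul ((norm_le_pi_norm _ i).trans hθ.le) (norm_le_pi_norm x i) (abs_nonneg _) (by positivity)
    · rw [nsmul_eq_mul, Finset.card_univ, mul_assoc]
  rw [sub_dotProduct] at h2
  rw [sub_zero] at h1
  linarith

theorem LLb_log {A B C c : ℝ} (hA : 0 < A) (hB : 0 < B) (hC : 0 < C) :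
    (A * B ≤ (Real.exp c * C) ^ 2 → (Real.log A + Real.log B) / 2 - c ≤ Real.log C) ∧
      ((Real.exp c * C) ^ 2 ≤ A * B → Real.log C ≤ (Real.log A + Real.log B) / 2 - c) := by
  have e1 : Real.log (A * B) = Real.log A + Real.log B := Real.log_mul hA.ne' hB.ne'
  have e2 : Real.log ((Real.exp c * C) ^ 2) = 2 * (c + Real.log C) := by
    rw [Real.log_pow, Real.log_mul (Real.exp_pos c).ne' hC.ne', Real.log_exp]
    norm_num
  constructor
  · intro h
    have := Real.log_le_log (by positivity) h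
    linarith
  · intro h
    have := Real.log_le_log (by positivity) h
    linarith

theorem LLb_hi {k K : ℝ} {W : (ι → ℝ) → ℝ} {G : (ι → ℝ) → ι → ℝ} (h : SC k K W G) (hk : 0 < k)
    (θ φ : ι → ℝ) : (LL W θ + LL W φ) / 2 - k⁻¹ / 8 * ((θ - φ) ⬝ᵥ (θ - φ)) ≤
      LL W ((1 / 2 : ℝ) • (θ + φ)) := by
  obtain ⟨i1, p1⟩ := int_exp_pos h hk θ
  obtain ⟨i2, p2⟩ := int_exp_pos h hk φ
  obtain ⟨i3, p3⟩ := int_exp_pos h hk ((1 / 2 : ℝ) • (θ + φ))
  have hc := h.continuous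
  refine (LLb_log p1 p2 p3).1 ?_
  rw [← integral_const_mul (Real.exp _)]
  have hm : ∀ ψ : ι → ℝ, Measurable fun x => Real.exp (ψ ⬝ᵥ x - W x) := fun ψ =>
    Continuous.measurable (by fun_prop)
  refine PL_real (hm θ) (hm φ) ((hm _).const_mul _) (fun x => (Real.exp_pos _).le)
    (fun x => (Real.exp_pos _).le) (fun x => by positivity) i1 i2 (i3.const_mul _) fun x y => ?_
  rw [← Real.exp_add, ← Real.exp_add, ← Real.exp_nat_mul]
  refine Real.exp_le_exp.2 ?_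
  have h1 := (h.mid x y).1
  have h2 : 0 ≤ k⁻¹ * ((k • (x - y) - (θ - φ)) ⬝ᵥ (k • (x - y) - (θ - φ))) :=
    mul_nonneg (inv_nonneg.2 hk.le) (Finset.sum_nonneg fun i _ => mul_self_nonneg _)
  have h3 : k⁻¹ * ((k • (x - y) - (θ - φ)) ⬝ᵥ (k • (x - y) - (θ - φ))) =
      k * ((x - y) ⬝ᵥ (x - y)) - 2 * ((θ - φ) ⬝ᵥ (x - y)) + k⁻¹ * ((θ - φ) ⬝ᵥ (θ - φ)) := by
    generalize x - y = u
    generalize θ - φ = d
    simp only [sub_dotProduct, dotProduct_sub, smul_dotProduct, dotProduct_smul, smul_eq_mul,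
      dotProduct_comm u d]
    field_simp
    ring
  have h4 : ((1 / 2 : ℝ) • (θ + φ)) ⬝ᵥ ((1 / 2 : ℝ) • (x + y)) =
      (θ ⬝ᵥ x + φ ⬝ᵥ y) / 2 - ((θ - φ) ⬝ᵥ (x - y)) / 4 := by
    simp only [sub_dotProduct, dotProduct_sub, add_dotProduct, dotProduct_add, smul_dotProduct,
      dotProduct_smul, smul_eq_mul]
    ring
  rw [h4]
  push_cast
  linarith

theorem LLb_lo {k K : ℝ} {W : (ι → ℝ) → ℝ} {G : (ι → ℝ) → ι → ℝ} (h : SC k K W G) (hk : 0 < k)
    (hK : 0 < K) (θ φ : ι → ℝ) : LL W ((1 / 2 : ℝ) • (θ + φ)) ≤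
      (LL W θ + LL W φ) / 2 - K⁻¹ / 8 * ((θ - φ) ⬝ᵥ (θ - φ)) := by
  obtain ⟨i1, p1⟩ := int_exp_pos h hk θ
  obtain ⟨i2, p2⟩ := int_exp_pos h hk φ
  obtain ⟨i3, p3⟩ := int_exp_pos h hk ((1 / 2 : ℝ) • (θ + φ))
  refine (LLb_log p1 p2 p3).2 ?_
  set w : ι → ℝ := (K⁻¹ / 2) • (θ - φ) with hw
  rw [← integral_const_mul (Real.exp _), ← integral_add_right_eq_self (fun x => Real.exp (θ ⬝ᵥ x - W x)) w,
    ← integral_sub_right_eq_self (fun x => Real.exp (φ ⬝ᵥ x - W x)) w]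
  refine CS_real (fun x => (Real.exp_pos _).le) (fun x => (Real.exp_pos _).le)
    (fun x => by positivity) (i1.comp_add_right w) (i2.comp_sub_right w) (i3.const_mul _) fun z => ?_
  rw [← Real.exp_add, ← Real.exp_add, ← Real.exp_nat_mul]
  refine Real.exp_le_exp.2 ?_
  have h1 := (h.mid (z + w) (z - w)).2
  have e1 : (1 / 2 : ℝ) • (z + w + (z - w)) = z := by
    ext i
    simp only [Pi.smul_apply, Pi.add_apply, Pi.sub_apply, smul_eq_mul]
    ring
  have e2 : K / 8 * ((z + w - (z - w)) ⬝ᵥ (z + w - (z - w))) = K⁻¹ / 8 * ((θ - φ) ⬝ᵥ (θ - φ)) := by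
    have : z + w - (z - w) = K⁻¹ • (θ - φ) := by
      ext i
      simp only [hw, Pi.smul_apply, Pi.add_apply, Pi.sub_apply, smul_eq_mul]
      ring
    rw [this, smul_dotProduct, dotProduct_smul, smul_eq_mul, smul_eq_mul]
    field_simp
  have e3 : θ ⬝ᵥ (z + w) + φ ⬝ᵥ (z - w) =
      2 * (((1 / 2 : ℝ) • (θ + φ)) ⬝ᵥ z) + K⁻¹ / 2 * ((θ - φ) ⬝ᵥ (θ - φ)) := by
    have : (θ - φ) ⬝ᵥ w = K⁻¹ / 2 * ((θ - φ) ⬝ᵥ (θ - φ)) := by
      rw [hw, dotProduct_smul, smul_eq_mul]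
    rw [← this]
    simp only [sub_dotProduct, dotProduct_sub, add_dotProduct, dotProduct_add, smul_dotProduct,
      smul_eq_mul]
    ring
  rw [e1, e2] at h1
  push_cast
  linarith

/-- `SC_of_mid`.  Upper bound `1/k`: `PL_real` for `F_θ x = exp (θ x - W x - |θ|²/(2k))`.  Lower bound `1/K`:
substitute `x = y + θ/K`; `θ x - W x - |θ|²/(2K) = -K|y|²/2 + U (y + θ/K)` with `U = K|x|²/2 - W` midpoint convex,
`CS_real`. -/
theorem LL_SC {k K : ℝ} {W : (ι → ℝ) → ℝ} {G : (ι → ℝ) → ι → ℝ} (h : SC k K W G) (hk : 0 < k)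
    (hK : k ≤ K) : ∃ G', SC K⁻¹ k⁻¹ (LL W) G' :=
  SC_of_mid (continuous_LL h hk) (LLb_lo h hk (hk.trans_le hK)) (LLb_hi h hk)

end Crest.Agent.R253
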