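/-
Row 253 (S0390, S0391), file Sink.  The Schrödinger system (entropic optimal transport).
Definitions: R253/Fun.lean, R253/Defs.lean.  Outline: R253/Blueprint.lean.  Keep the statements unchanged.
-/
import Crest.Agent.R253.LL
import Crest.Agent.R203N.Stein

set_option autoImplicit false

namespace Crest.Agent.R253

open MeasureTheory ProbabilityTheory Matrix Filter Topology Crest.Agent.R203N

variable {ι : Type} [Fintype ι] [DecidableEq ι]

noncomputable def Ps (ε : ℝ) (V Φ : (ι → ℝ) → ℝ) (z : ι → ℝ) : ℝ :=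
  ε * Real.log (∫ x, Real.exp ((z ⬝ᵥ x - Φ x) / ε - V x))

noncomputable def Ph (ε : ℝ) (Ψ : (ι → ℝ) → ℝ) (x : ι → ℝ) : ℝ :=
  ε * Real.log (∫ z, Real.exp ((z ⬝ᵥ x - Ψ z) / ε) ∂γ ι)

noncomputable def cL (α : ℝ) : ℝ := α / (1 + α)
noncomputable def cU (β : ℝ) : ℝ := 1 + β
noncomputable def aa (β : ℝ) : ℝ := 1 / (1 + 2 * β)
noncomputable def bb (α : ℝ) : ℝ := (1 + α) / α

/-- The dual functional. -/
noncomputable def JJ (ε : ℝ) (V Φ : (ι → ℝ) → ℝ) : ℝ :=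
  (∫ x, Φ x * Real.exp (-V x)) + ∫ z, Ps ε V Φ z ∂γ ι

variable {α β ε : ℝ} {V Φ Ψ : (ι → ℝ) → ℝ} {G GΦ T : (ι → ℝ) → ι → ℝ}

theorem consts (hα : 0 < α) (hβ : α ≤ β) :
    0 < cL α ∧ cL α ≤ cU β ∧ 0 < aa β ∧ aa β ≤ bb α := by
  have hb : 0 < β := hα.trans_le hβ
  have h1 : cL α ≤ 1 := by unfold cL; rw [div_le_one (by positivity)]; linarith
  have h2 : aa β ≤ 1 := by unfold aa; rw [div_le_one (by positivity)]; linarith
  have h3 : 1 ≤ bb α := by unfold bb; rw [one_le_div hα]; linarith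
  refine ⟨by unfold cL; positivity, h1.trans (by unfold cU; linarith), by unfold aa; positivity, h2.trans h3⟩

theorem Sinka_LL (hε : 0 < ε) {k K : ℝ} {W : (ι → ℝ) → ℝ} (h : SC k K W G) (hk : 0 < k) (hK : k ≤ K) :
    ∃ T, SC (ε * K)⁻¹ (ε * k)⁻¹ (fun z => ε * LL W (ε⁻¹ • z)) T := by
  obtain ⟨G', h'⟩ := LL_SC h hk hK
  have e (t : ℝ) : ε * (ε⁻¹ ^ 2 * t⁻¹) = (ε * t)⁻¹ := by
    rw [mul_inv, sq, mul_assoc, ← mul_assoc, mul_inv_cancel₀ hε.ne', one_mul]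
  have h2 := (h'.comp_smul ε⁻¹).const_mul hε.le
  rw [e, e] at h2
  exact ⟨_, h2⟩

/-- `Ps z = ε LL W (ε⁻¹ z)`, `W = Φ/ε + V`; `LL_SC`, `SC.comp_smul`, `SC.const_mul`. -/
theorem Ps_SC (hV : Reg α β V G) (hε : 0 < ε) {c C : ℝ} (hΦ : SC c C Φ GΦ) (hc : 0 ≤ c) (hC : c ≤ C) :
    ∃ T, SC (C + ε * β)⁻¹ (c + ε * α)⁻¹ (Ps ε V Φ) T := by
  have hi : 0 ≤ ε⁻¹ := inv_nonneg.2 hε.le
  have e (s t : ℝ) : ε * (ε⁻¹ * s + t) = s + ε * t := by
    rw [mul_add, ← mul_assoc, mul_inv_cancel₀ hε.ne', one_mul]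
  have h := Sinka_LL hε ((hΦ.const_mul hi).add hV.sc)
    (add_pos_of_nonneg_of_pos (mul_nonneg hi hc) hV.pos)
    (add_le_add (mul_le_mul_of_nonneg_left hC hi) hV.le)
  rw [e, e] at h
  convert h using 3
  funext z
  simp only [Ps, LL, smul_dotProduct, smul_eq_mul]
  congr 3
  funext x
  congr 1
  ring

/-- `Stein_int` / `γ_eq_withDensity`: `W = Ψ/ε + |z|²/2 + const`. -/
theorem Ph_SC (hε : 0 < ε) {a b : ℝ} (hΨ : SC a b Ψ T) (ha : 0 ≤ a) (hab : a ≤ b) :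
    ∃ G', SC (b + ε)⁻¹ (a + ε)⁻¹ (Ph ε Ψ) G' := by
  have hi : 0 ≤ ε⁻¹ := inv_nonneg.2 hε.le
  have e (s : ℝ) : ε * (ε⁻¹ * s + 1) = s + ε := by
    rw [mul_add, ← mul_assoc, mul_inv_cancel₀ hε.ne', one_mul, mul_one]
  have h := Sinka_LL hε (((hΨ.const_mul hi).add (SC_quad 1)).add_const
      (dim ι / 2 * Real.log (2 * Real.pi)))
    (add_pos_of_nonneg_of_pos (mul_nonneg hi ha) one_pos)
    (add_le_add (mul_le_mul_of_nonneg_left hab hi) le_rfl)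
  rw [e, e] at h
  convert h using 3
  funext x
  simp only [Ph, LL, smul_dotProduct, smul_eq_mul, Stein_int, Stein_rho, ← Real.exp_add]
  congr 3
  funext z
  rw [dotProduct_comm z x]
  congr 1
  ring

theorem Ps_class (hV : Reg α β V G) (hε : 0 < ε) (hε1 : ε ≤ 1) (hΦ : SC (cL α) (cU β) Φ GΦ) :
    ∃ T, SC (aa β) (bb α) (Ps ε V Φ) T := by
  obtain ⟨h1, h2, h3, -⟩ := consts hV.pos hV.le
  have hα := hV.pos
  have hb : 0 < β := hα.trans_le hV.le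
  obtain ⟨T, hT⟩ := Ps_SC hV hε hΦ h1.le h2
  refine ⟨T, hT.mono ?_ ?_⟩
  · rw [aa, one_div]
    refine inv_anti₀ (by unfold cU; positivity) ?_
    unfold cU
    nlinarith
  · rw [bb, ← inv_div]
    exact inv_anti₀ h1 (le_add_of_nonneg_right (by positivity))

/-- `c (c + ε α) ≤ α` for `c = cL α` and `C (C + ε β) ≥ β` for `C = cU β`. -/
theorem Ph_class (hV : Reg α β V G) (hε : 0 < ε) (hε1 : ε ≤ 1) (hΦ : SC (cL α) (cU β) Φ GΦ) :
    ∃ G', SC (cL α) (cU β) (Ph ε (Ps ε V Φ)) G' := by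
  obtain ⟨h1, h2, h3, -⟩ := consts hV.pos hV.le
  have hα := hV.pos
  have hb : 0 < β := hα.trans_le hV.le
  have hp : 0 < cL α + ε * α := by positivity
  have hq : 0 < cU β + ε * β := by have := h1.trans_le h2; positivity
  obtain ⟨T, hT⟩ := Ps_SC hV hε hΦ h1.le h2
  obtain ⟨G', hG⟩ := Ph_SC hε hT (inv_nonneg.2 hq.le)
    (inv_anti₀ hp (add_le_add h2 (mul_le_mul_of_nonneg_left hV.le hε.le)))
  refine ⟨G', hG.mono ?_ ?_⟩
  · have e : cL α * (1 + α) = α := by unfold cL; field_simp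
    have h4 : cL α ≤ 1 := by nlinarith
    have h5 : cL α * (cL α + ε * α) ≤ α := by
      calc cL α * (cL α + ε * α) ≤ cL α * (1 + α) := by
            refine mul_le_mul_of_nonneg_left ?_ h1.le
            nlinarith
        _ = α := e
    rw [← one_div (_ + ε), le_div_iff₀ (by positivity), mul_add, ← div_eq_mul_inv, ← le_sub_iff_add_le,
      div_le_iff₀ hp]
    nlinarith
  · have h5 : β ≤ cU β * (cU β + ε * β) := by
      unfold cU
      nlinarith [mul_pos hε hb]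
    rw [← one_div (_ + ε), div_le_iff₀ (by positivity), mul_add, ← div_eq_mul_inv, ← sub_le_iff_le_add,
      le_div_iff₀ hq]
    nlinarith

theorem sinkb_intV (hV : Reg α β V G) (hε : 0 < ε) {c C : ℝ} (hΦ : SC c C Φ GΦ) (hc : 0 ≤ c) (z : ι → ℝ) :
    Integrable fun x => Real.exp ((z ⬝ᵥ x - Φ x) / ε - V x) := by
  have h := (int_exp_pos ((hΦ.const_mul (inv_pos.2 hε).le).add hV.sc)
    (add_pos_of_nonneg_of_pos (mul_nonneg (inv_pos.2 hε).le hc) hV.pos) (ε⁻¹ • z)).1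
  refine h.congr (ae_of_all _ fun x => ?_)
  simp only [smul_dotProduct, smul_eq_mul]
  congr 1
  ring

theorem sinkb_intγ (hε : 0 < ε) {a b : ℝ} (hΨ : SC a b Ψ T) (ha : 0 ≤ a) (x : ι → ℝ) :
    Integrable (fun z => Real.exp ((z ⬝ᵥ x - Ψ z) / ε)) (γ ι) := by
  have h := (int_exp_pos (((hΨ.const_mul (inv_pos.2 hε).le).add (SC_quad 1)).add_const
    (dim ι / 2 * Real.log (2 * Real.pi)))
    (add_pos_of_nonneg_of_pos (mul_nonneg (inv_pos.2 hε).le ha) one_pos) (ε⁻¹ • x)).1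
  rw [γ_eq_withDensity, integrable_withDensity_iff (by fun_prop) (ae_of_all _ fun _ => ENNReal.ofReal_lt_top)]
  refine h.congr (ae_of_all _ fun z => ?_)
  simp only [smul_dotProduct, smul_eq_mul, ENNReal.toReal_ofReal (Real.exp_pos _).le, ← Real.exp_add]
  congr 1
  rw [dotProduct_comm x z]
  ring

theorem sinkb_log {X : Type} [MeasurableSpace X] {μ : Measure X} [NeZero μ] (hε : 0 < ε) {f : X → ℝ}
    (hf : Integrable (fun x => Real.exp (f x)) μ) (s t : ℝ) :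
    ENNReal.ofReal (Real.exp ((ε * Real.log (∫ x, Real.exp (f x) ∂μ) - s) / ε) * Real.exp t) =
      ∫⁻ x, ENNReal.ofReal (Real.exp (f x - s / ε + t)) ∂μ := by
  have e : ∀ x, Real.exp (f x - s / ε + t) = Real.exp (f x) * Real.exp (-(s / ε) + t) := fun x => by
    rw [← Real.exp_add]; congr 1; ring
  simp only [e]
  rw [← ofReal_integral_eq_lintegral_ofReal (hf.mul_const _) (ae_of_all _ fun x => by positivity),
    integral_mul_const, sub_div, mul_div_cancel_left₀ _ hε.ne', sub_eq_add_neg, Real.exp_add,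
    Real.exp_log (integral_exp_pos hf), Real.exp_add, mul_assoc]

/-- Tonelli; `exp (Ps z/ε)` and `exp (Ph x/ε)` are the (positive, finite) inner integrals. -/
theorem fub (hV : Reg α β V G) (hε : 0 < ε) {c C a b : ℝ} (hΦ : SC c C Φ GΦ) (hc : 0 ≤ c)
    (hΨ : SC a b Ψ T) (ha : 0 ≤ a) :
    ∫⁻ z, ENNReal.ofReal (Real.exp ((Ps ε V Φ z - Ψ z) / ε)) ∂γ ι =
      ∫⁻ x, ENNReal.ofReal (Real.exp ((Ph ε Ψ x - Φ x) / ε) * Real.exp (-V x)) := by
  have h1 : ∀ z, ENNReal.ofReal (Real.exp ((Ps ε V Φ z - Ψ z) / ε)) =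
      ∫⁻ x, ENNReal.ofReal (Real.exp ((z ⬝ᵥ x - Φ x - Ψ z) / ε - V x)) := fun z => by
    have := sinkb_log hε (sinkb_intV hV hε hΦ hc z) (Ψ z) 0
    rw [Real.exp_zero, mul_one] at this
    rw [Ps, this]
    refine lintegral_congr fun x => ?_
    congr 2
    ring
  have h2 : ∀ x, ENNReal.ofReal (Real.exp ((Ph ε Ψ x - Φ x) / ε) * Real.exp (-V x)) =
      ∫⁻ z, ENNReal.ofReal (Real.exp ((z ⬝ᵥ x - Φ x - Ψ z) / ε - V x)) ∂γ ι := fun x => by
    rw [Ph, sinkb_log hε (sinkb_intγ hε hΨ ha x) (Φ x) (-V x)]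
    refine lintegral_congr fun z => ?_
    congr 2
    ring
  simp only [h1, h2]
  have c1 := hΦ.continuous
  have c2 := hΨ.continuous
  have c3 := hV.sc.continuous
  refine lintegral_lintegral_swap (Measurable.aemeasurable (Measurable.ennreal_ofReal (Continuous.measurable ?_)))
  fun_prop

theorem sinkb_gap {X : Type} [MeasurableSpace X] {μ : Measure X} {u ρ : X → ℝ} (h0 : ∀ x, 0 ≤ ρ x)
    (hρ : Integrable ρ μ) (h1 : ∫ x, ρ x ∂μ = 1) (hm : AEStronglyMeasurable (fun x => Real.exp (u x) * ρ x) μ)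
    (h2 : ∫⁻ x, ENNReal.ofReal (Real.exp (u x) * ρ x) ∂μ = 1) (hu : Integrable (fun x => u x * ρ x) μ) :
    ∫ x, u x * ρ x ∂μ ≤ 0 ∧ (0 ≤ ∫ x, u x * ρ x ∂μ → ∀ᵐ x ∂μ, u x * ρ x = 0) := by
  have hp : ∀ x, 0 ≤ Real.exp (u x) * ρ x := fun x => mul_nonneg (Real.exp_pos _).le (h0 x)
  have hi : Integrable (fun x => Real.exp (u x) * ρ x) μ :=
    ⟨hm, (hasFiniteIntegral_iff_ofReal (ae_of_all _ hp)).2 (by rw [h2]; exact ENNReal.one_lt_top)⟩
  have h3 : ∫ x, Real.exp (u x) * ρ x ∂μ = 1 := by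
    rw [integral_eq_lintegral_of_nonneg_ae (ae_of_all _ hp) hm, h2, ENNReal.toReal_one]
  have hn : ∀ x, 0 ≤ Real.exp (u x) * ρ x - ρ x - u x * ρ x := fun x => by
    nlinarith [Real.add_one_le_exp (u x), h0 x]
  have hj : Integrable (fun x => Real.exp (u x) * ρ x - ρ x) μ := hi.sub hρ
  have h4 : ∫ x, (Real.exp (u x) * ρ x - ρ x - u x * ρ x) ∂μ = -∫ x, u x * ρ x ∂μ := by
    rw [integral_sub hj hu, integral_sub hi hρ, h3, h1]
    ring
  have h5 : 0 ≤ ∫ x, (Real.exp (u x) * ρ x - ρ x - u x * ρ x) ∂μ := integral_nonneg hn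
  refine ⟨by linarith, fun h => ?_⟩
  have h6 := (integral_eq_zero_iff_of_nonneg (f := fun x => Real.exp (u x) * ρ x - ρ x - u x * ρ x) hn
    (hj.sub hu)).1 (by linarith)
  filter_upwards [h6] with x hx
  by_contra h7
  have h8 := Real.add_one_lt_exp (left_ne_zero_of_mul h7)
  have h9 := (h0 x).lt_of_ne' (right_ne_zero_of_mul h7)
  simp only [Pi.zero_apply] at hx
  nlinarith

theorem sinkb_growth {a b : ℝ} (h : SC a b Φ GΦ) (ha : 0 ≤ a) (hb : 0 < b) :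
    ∃ C : ℝ, ∀ x, |Φ x| ≤ C * (1 + ‖x‖) ^ 2 := by
  obtain ⟨C, -, hC⟩ := SC_growth (ι := ι) b (|Φ 0| + ‖GΦ 0‖) hb
  exact ⟨C, fun x => (hC a Φ GΦ h ha (le_add_of_nonneg_right (norm_nonneg _))
    (fun i => (norm_le_pi_norm (GΦ 0) i).trans (le_add_of_nonneg_left (abs_nonneg _))) x).1⟩

theorem sinkb_i1 (hV : Reg α β V G) {a b : ℝ} (h : SC a b Φ GΦ) (ha : 0 ≤ a) (hb : 0 < b) :
    Integrable fun x => Φ x * Real.exp (-V x) := by
  obtain ⟨C, hC⟩ := sinkb_growth h ha hb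
  simpa using hV.sc.integrable hV.pos 0 h.continuous.aestronglyMeasurable hC

theorem sinkb_i2 {a b : ℝ} (h : SC a b Φ GΦ) (ha : 0 ≤ a) (hb : 0 < b) : Integrable Φ (γ ι) := by
  obtain ⟨C, hC⟩ := sinkb_growth h ha hb
  exact (L2_of_growth h.continuous.aestronglyMeasurable C 2 hC).int

/-- With `Ψ = Ps Φ`, `Φ' = Ph Ψ`, `Ψ' = Ps Φ'`: `fub` gives `∫ exp ((Φ'-Φ)/ε) exp (-V) = 1` and
`∫ exp ((Ψ'-Ψ)/ε) dγ = 1`; `u ≤ exp u - 1` with equality only for `u = 0`; continuity. -/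
theorem JJ_step (hV : Reg α β V G) (hε : 0 < ε) (hε1 : ε ≤ 1) (hΦ : SC (cL α) (cU β) Φ GΦ) :
    JJ ε V (Ph ε (Ps ε V Φ)) ≤ JJ ε V Φ ∧
      (JJ ε V Φ ≤ JJ ε V (Ph ε (Ps ε V Φ)) → Ph ε (Ps ε V Φ) = Φ) := by
  obtain ⟨k1, k2, k3, k4⟩ := consts hV.pos hV.le
  obtain ⟨T, hΨ⟩ := Ps_class hV hε hε1 hΦ
  obtain ⟨G', hΦ'⟩ := Ph_class hV hε hε1 hΦ
  obtain ⟨T', hΨ'⟩ := Ps_class hV hε hε1 hΦ'
  have f1 := fub hV hε hΦ k1.le hΨ k3.le
  have f2 := fub hV hε hΦ' k1.le hΨ k3.le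
  set Ψ := Ps ε V Φ
  set Φ' := Ph ε Ψ
  have iV : Integrable fun x => Real.exp (-V x) := by simpa using (int_exp_pos hV.sc hV.pos 0).1
  have c1 := hΦ.continuous
  have c2 := hΦ'.continuous
  have c3 := hV.sc.continuous
  have c4 := hΨ.continuous
  have c5 := hΨ'.continuous
  have i1 := sinkb_i1 hV hΦ k1.le (k1.trans_le k2)
  have i2 := sinkb_i1 hV hΦ' k1.le (k1.trans_le k2)
  have i3 := sinkb_i2 hΨ k3.le (k3.trans_le k4)
  have i4 := sinkb_i2 hΨ' k3.le (k3.trans_le k4)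
  have e1 : (fun x => (Φ' x - Φ x) / ε * Real.exp (-V x)) =
      fun x => ε⁻¹ * (Φ' x * Real.exp (-V x) - Φ x * Real.exp (-V x)) := funext fun x => by ring
  have e2 : (fun z => (Ps ε V Φ' z - Ψ z) / ε * 1) = fun z => ε⁻¹ * (Ps ε V Φ' z - Ψ z) := funext fun x => by ring
  have g1 := sinkb_gap (μ := volume) (u := fun x => (Φ' x - Φ x) / ε) (ρ := fun x => Real.exp (-V x))
    (fun x => (Real.exp_pos _).le) iV hV.one (Continuous.aestronglyMeasurable (by fun_prop))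
    (by rw [← f1]; simp) (by rw [e1]; exact (i2.sub i1).const_mul _)
  have g2 := sinkb_gap (μ := γ ι) (u := fun z => (Ps ε V Φ' z - Ψ z) / ε) (ρ := fun _ => 1)
    (fun x => zero_le_one) (integrable_const _) (by simp) (Continuous.aestronglyMeasurable (by fun_prop))
    (by
      simp only [mul_one]
      rw [f2]
      simp only [sub_self, zero_div, Real.exp_zero, one_mul]
      rw [← ofReal_integral_eq_lintegral_ofReal iV (ae_of_all _ fun x => (Real.exp_pos _).le), hV.one,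
        ENNReal.ofReal_one])
    (by rw [e2]; exact (i4.sub i3).const_mul _)
  have hi := inv_pos.2 hε
  have a1 : ∫ x, (Φ' x - Φ x) / ε * Real.exp (-V x) =
      ε⁻¹ * ((∫ x, Φ' x * Real.exp (-V x)) - ∫ x, Φ x * Real.exp (-V x)) := by
    rw [e1, integral_const_mul, integral_sub i2 i1]
  have a2 : ∫ z, (Ps ε V Φ' z - Ψ z) / ε * 1 ∂γ ι = ε⁻¹ * ((∫ z, Ps ε V Φ' z ∂γ ι) - ∫ z, Ψ z ∂γ ι) := by
    rw [e2, integral_const_mul, integral_sub i4 i3]
  rw [a1] at g1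
  rw [a2] at g2
  have b1 := nonpos_of_mul_nonpos_right g1.1 hi
  have b2 := nonpos_of_mul_nonpos_right g2.1 hi
  unfold JJ
  refine ⟨by linarith, fun h => ?_⟩
  have h3 := g1.2 (mul_nonneg hi.le (by linarith))
  refine (Continuous.ae_eq_iff_eq volume c2 c1).1 ?_
  filter_upwards [h3] with x hx
  have := (mul_eq_zero.1 hx).resolve_right (Real.exp_pos _).ne'
  rw [div_eq_zero_iff, or_iff_left hε.ne'] at this
  linarith

/-! ### Second part -/

theorem SinkC_growth {a b : ℝ} (h : SC a b Φ GΦ) (ha : 0 ≤ a) (hb : 0 < b) :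
    ∃ C : ℝ, 0 ≤ C ∧ ∀ x, |Φ x| ≤ C * (1 + ‖x‖) ^ 2 := by
  obtain ⟨C, hC, H⟩ := SC_growth (ι := ι) b (max |Φ 0| ‖GΦ 0‖) hb
  exact ⟨C, hC, fun x => (H a Φ GΦ h ha (le_max_left _ _)
    (fun i => (norm_le_pi_norm (GΦ 0) i).trans (le_max_right _ _)) x).1⟩

/-- Functions of quadratic growth. -/
def SinkC_Q (f : (ι → ℝ) → ℝ) : Prop :=
  Continuous f ∧ ∃ C : ℝ, 0 ≤ C ∧ ∀ x, |f x| ≤ C * (1 + ‖x‖) ^ 2

theorem SinkC_Q_of {a b : ℝ} (h : SC a b Φ GΦ) (ha : 0 ≤ a) (hb : 0 < b) : SinkC_Q Φ :=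
  ⟨h.continuous, SinkC_growth h ha hb⟩

theorem SinkC_Q.add {f g : (ι → ℝ) → ℝ} (hf : SinkC_Q f) (hg : SinkC_Q g) :
    SinkC_Q fun x => f x + g x := by
  obtain ⟨c1, C1, p1, h1⟩ := hf
  obtain ⟨c2, C2, p2, h2⟩ := hg
  refine ⟨c1.add c2, C1 + C2, by positivity, fun x => ?_⟩
  have := abs_add_le (f x) (g x)
  have := h1 x
  have := h2 x
  nlinarith

theorem SinkC_Q.const_mul {f : (ι → ℝ) → ℝ} (hf : SinkC_Q f) (c : ℝ) :
    SinkC_Q fun x => c * f x := by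
  obtain ⟨c1, C1, p1, h1⟩ := hf
  refine ⟨continuous_const.mul c1, |c| * C1, by positivity, fun x => ?_⟩
  rw [abs_mul, mul_assoc]
  exact mul_le_mul_of_nonneg_left (h1 x) (abs_nonneg c)

theorem SinkC_Q.sub {f g : (ι → ℝ) → ℝ} (hf : SinkC_Q f) (hg : SinkC_Q g) :
    SinkC_Q fun x => f x - g x := by
  have := hf.add (hg.const_mul (-1))
  simpa [sub_eq_add_neg] using this

theorem SinkC_Q_const (c : ℝ) : SinkC_Q fun _ : ι → ℝ => c := by
  refine ⟨continuous_const, |c|, abs_nonneg c, fun x => ?_⟩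
  have h1 : (1 : ℝ) ≤ (1 + ‖x‖) ^ 2 := one_le_pow₀ (by linarith [norm_nonneg x])
  nlinarith [abs_nonneg c]

theorem SinkC_Q_coord (i : ι) : SinkC_Q fun x : ι → ℝ => x i := by
  refine ⟨continuous_apply i, 1, zero_le_one, fun x => ?_⟩
  have h1 : |x i| ≤ ‖x‖ := norm_le_pi_norm x i
  nlinarith [norm_nonneg x]

theorem SinkC_Q.shift {f : (ι → ℝ) → ℝ} (hf : SinkC_Q f) (u : ι → ℝ) :
    SinkC_Q fun x => f (x - u) := by
  obtain ⟨c1, C1, p1, h1⟩ := hf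
  refine ⟨c1.comp (continuous_id.sub continuous_const), C1 * (1 + ‖u‖) ^ 2, by positivity,
    fun x => (h1 (x - u)).trans ?_⟩
  rw [mul_assoc, ← mul_pow]
  have h2 : 1 + ‖x - u‖ ≤ (1 + ‖u‖) * (1 + ‖x‖) := by
    have := norm_sub_le x u
    nlinarith [norm_nonneg x, norm_nonneg u, mul_nonneg (norm_nonneg x) (norm_nonneg u)]
  exact mul_le_mul_of_nonneg_left (pow_le_pow_left₀ (by positivity) h2 2) p1

theorem SinkC_Q_sum {κ : Type} (s : Finset κ) {f : κ → (ι → ℝ) → ℝ} (hf : ∀ k, SinkC_Q (f k)) :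
    SinkC_Q fun x => ∑ k ∈ s, f k x := by
  classical
  induction s using Finset.induction_on with
  | empty => simpa using SinkC_Q_const (ι := ι) 0
  | insert a s ha ih =>
    simp only [Finset.sum_insert ha]
    exact (hf a).add ih

theorem SinkC_Q_dot (z : ι → ℝ) : SinkC_Q fun x : ι → ℝ => z ⬝ᵥ x :=
  SinkC_Q_sum Finset.univ fun i => (SinkC_Q_coord i).const_mul (z i)

theorem SinkC_Q_sq : SinkC_Q fun x : ι → ℝ => x ⬝ᵥ x := by
  have := (SinkC_Q_of (SC_quad (ι := ι) 2) (by norm_num) (by norm_num))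
  simpa using this

theorem SinkC_Q.intV {f : (ι → ℝ) → ℝ} (hf : SinkC_Q f) (hV : Reg α β V G) :
    Integrable fun x => f x * Real.exp (-V x) := by
  obtain ⟨c1, C1, -, h1⟩ := hf
  have := hV.sc.integrable hV.pos 0 c1.aestronglyMeasurable h1
  simpa using this

theorem SinkC_Q.intγ {f : (ι → ℝ) → ℝ} (hf : SinkC_Q f) : Integrable f (γ ι) := by
  obtain ⟨c1, C1, -, h1⟩ := hf
  exact ((integrable_norm_pow 2).const_mul C1).mono' c1.aestronglyMeasurable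
    (Eventually.of_forall h1)

theorem SinkC_QV (hV : Reg α β V G) : SinkC_Q V :=
  SinkC_Q_of hV.sc hV.pos.le (hV.pos.trans_le hV.le)

theorem SinkC_inner (hV : Reg α β V G) (hε : 0 < ε) {c C : ℝ} (hΦ : SC c C Φ GΦ) (hc : 0 ≤ c)
    (z : ι → ℝ) : Integrable (fun x => Real.exp ((z ⬝ᵥ x - Φ x) / ε - V x)) ∧
      0 < ∫ x, Real.exp ((z ⬝ᵥ x - Φ x) / ε - V x) := by
  have h1 := (hΦ.const_mul (inv_pos.mpr hε).le).add hV.sc
  have h2 : 0 < ε⁻¹ * c + α := by have := hV.pos; positivity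
  have h3 := int_exp_pos h1 h2 (ε⁻¹ • z)
  have e : (fun x => Real.exp ((z ⬝ᵥ x - Φ x) / ε - V x)) =
      fun x => Real.exp ((ε⁻¹ • z) ⬝ᵥ x - (ε⁻¹ * Φ x + V x)) := by
    funext x
    congr 1
    rw [smul_dotProduct, smul_eq_mul]
    field_simp
    ring
  rw [e]
  exact h3

theorem SinkC_Ps_int (hV : Reg α β V G) (hε : 0 < ε) (hε1 : ε ≤ 1) (hΦ : SC (cL α) (cU β) Φ GΦ) :
    Integrable (Ps ε V Φ) (γ ι) := by
  obtain ⟨T, hT⟩ := Ps_class hV hε hε1 hΦ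
  obtain ⟨-, -, h3, h4⟩ := consts hV.pos hV.le
  exact (SinkC_Q_of hT h3.le (h3.trans_le h4)).intγ

theorem JJ_add_const (hV : Reg α β V G) (hε : 0 < ε) (hε1 : ε ≤ 1) (hΦ : SC (cL α) (cU β) Φ GΦ)
    (c : ℝ) : JJ ε V (fun x => Φ x + c) = JJ ε V Φ := by
  obtain ⟨h1, h2, -, -⟩ := consts hV.pos hV.le
  have hP : ∀ z, Ps ε V (fun x => Φ x + c) z = Ps ε V Φ z - c := by
    intro z
    obtain ⟨-, hpos⟩ := SinkC_inner hV hε hΦ h1.le z
    unfold Ps
    have e : (fun x => Real.exp ((z ⬝ᵥ x - (Φ x + c)) / ε - V x)) =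
        fun x => Real.exp (-c / ε) * Real.exp ((z ⬝ᵥ x - Φ x) / ε - V x) := by
      funext x
      rw [← Real.exp_add]
      congr 1
      field_simp
      ring
    rw [e, integral_const_mul, Real.log_mul (Real.exp_pos _).ne' hpos.ne', Real.log_exp]
    field_simp
    ring
  have hQ := (SinkC_Q_of hΦ h1.le (h1.trans_le h2)).intV hV
  have hQ1 := (SinkC_Q_const (ι := ι) c).intV hV
  unfold JJ
  simp only [hP, add_mul]
  rw [integral_add hQ hQ1, integral_const_mul, hV.one,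
    integral_sub (SinkC_Ps_int hV hε hε1 hΦ) (integrable_const c)]
  simp

/-- Jensen's inequality after a shift: with `μ = exp (-V) dx`,
`Ps z ≥ ∫ (z (x-u) - Φ (x-u) - ε V (x-u) + ε V x) dμ` (use `log I ≥ ∫ F dμ` if `I = ∫ exp F dμ`). -/
theorem Ps_ge (hV : Reg α β V G) (hε : 0 < ε) {c C : ℝ} (hΦ : SC c C Φ GΦ) (hc : 0 ≤ c) (hC : 0 < C)
    (u z : ι → ℝ) : ∫ x, (z ⬝ᵥ (x - u) - Φ (x - u) - ε * V (x - u) + ε * V x) * Real.exp (-V x) ≤
      Ps ε V Φ z := by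
  obtain ⟨hint, hpos⟩ := SinkC_inner hV hε hΦ hc z
  set I := ∫ x, Real.exp ((z ⬝ᵥ x - Φ x) / ε - V x) with hI
  have hI' : ∫ x, Real.exp ((z ⬝ᵥ (x - u) - Φ (x - u)) / ε - V (x - u)) = I :=
    integral_sub_right_eq_self (fun x => Real.exp ((z ⬝ᵥ x - Φ x) / ε - V x)) u
  have hint' : Integrable fun x => Real.exp ((z ⬝ᵥ (x - u) - Φ (x - u)) / ε - V (x - u)) :=
    hint.comp_sub_right u
  have hQV := SinkC_QV hV
  have hQ : SinkC_Q fun x => z ⬝ᵥ (x - u) - Φ (x - u) - ε * V (x - u) + ε * V x :=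
    ((((SinkC_Q_dot z).shift u).sub ((SinkC_Q_of hΦ hc hC).shift u)).sub
      ((hQV.shift u).const_mul ε)).add (hQV.const_mul ε)
  have hF := hQ.intV hV
  have h1 := (SinkC_Q_const (ι := ι) (ε - ε * Real.log I)).intV hV
  have key : ∫ x, ((z ⬝ᵥ (x - u) - Φ (x - u) - ε * V (x - u) + ε * V x) * Real.exp (-V x)
      + (ε - ε * Real.log I) * Real.exp (-V x)) ≤
      ∫ x, ε / I * Real.exp ((z ⬝ᵥ (x - u) - Φ (x - u)) / ε - V (x - u)) := by
    refine integral_mono (hF.add h1) (hint'.const_mul _) fun x => ?_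
    set A := (z ⬝ᵥ (x - u) - Φ (x - u)) / ε - V (x - u) with hA
    have e1 : z ⬝ᵥ (x - u) - Φ (x - u) - ε * V (x - u) = ε * A := by
      rw [hA]; field_simp
    have e2 : Real.exp A = Real.exp (A + V x - Real.log I) * I * Real.exp (-V x) := by
      nth_rewrite 2 [← Real.exp_log hpos]
      rw [← Real.exp_add, ← Real.exp_add]
      congr 1
      ring
    have h3 := Real.add_one_le_exp (A + V x - Real.log I)
    simp only []
    rw [e1, e2]
    have e3 : ε / I * (Real.exp (A + V x - Real.log I) * I * Real.exp (-V x)) =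
        ε * Real.exp (A + V x - Real.log I) * Real.exp (-V x) := by
      field_simp
    rw [e3, ← add_mul]
    refine mul_le_mul_of_nonneg_right ?_ (Real.exp_pos _).le
    nlinarith
  rw [integral_add hF h1, integral_const_mul, integral_const_mul, hV.one, hI',
    div_mul_cancel₀ _ hpos.ne'] at key
  unfold Ps
  rw [← hI]
  linarith

theorem SinkC_lower (hV : Reg α β V G) (hε : 0 < ε) (hε1 : ε ≤ 1) (u : ι → ℝ) : ∃ K : ℝ,
    ∀ (Φ : (ι → ℝ) → ℝ) (GΦ : (ι → ℝ) → ι → ℝ), SC (cL α) (cU β) Φ GΦ →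
      GΦ 0 ⬝ᵥ u - K ≤ JJ ε V Φ := by
  obtain ⟨h1, h2, -, -⟩ := consts hV.pos hV.le
  have h2' : 0 < cU β := h1.trans_le h2
  have hQV := SinkC_QV hV
  have hK : SinkC_Q fun x : ι → ℝ => (cU β ^ 2 / 2) * ((x - u) ⬝ᵥ (x - u)) + (u ⬝ᵥ u) / 2
      + ε * V (x - u) - ε * V x :=
    ((((SinkC_Q_sq.shift u).const_mul _).add (SinkC_Q_const _)).add
      ((hQV.shift u).const_mul ε)).sub (hQV.const_mul ε)
  refine ⟨∫ x, ((cU β ^ 2 / 2) * ((x - u) ⬝ᵥ (x - u)) + (u ⬝ᵥ u) / 2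
      + ε * V (x - u) - ε * V x) * Real.exp (-V x), fun Φ GΦ hΦ => ?_⟩
  have hQΦ := SinkC_Q_of hΦ h1.le h2'
  have hR : SinkC_Q fun x => -1 * Φ (x - u) - ε * V (x - u) + ε * V x :=
    (((hQΦ.shift u).const_mul (-1)).sub ((hQV.shift u).const_mul ε)).add (hQV.const_mul ε)
  have hc : ∀ i, Integrable fun x : ι → ℝ => (x - u) i * Real.exp (-V x) := fun i =>
    ((SinkC_Q_coord i).shift u).intV hV
  -- the lower bound for `Ps`
  have hP : ∀ z, (∑ i, (∫ x, (x - u) i * Real.exp (-V x)) * z i) +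
      (∫ x, (-1 * Φ (x - u) - ε * V (x - u) + ε * V x) * Real.exp (-V x)) ≤ Ps ε V Φ z := by
    intro z
    refine le_trans (le_of_eq ?_) (Ps_ge hV hε hΦ h1.le h2' u z)
    simp only [← integral_mul_const]
    rw [← integral_finsetSum _ fun i _ => (hc i).mul_const (z i),
      ← integral_add (integrable_finsetSum _ fun i _ => (hc i).mul_const (z i)) (hR.intV hV)]
    congr 1
    funext x
    have : ∑ i, (x - u) i * Real.exp (-V x) * z i = (z ⬝ᵥ (x - u)) * Real.exp (-V x) := by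
      rw [dotProduct, Finset.sum_mul]
      exact Finset.sum_congr rfl fun i _ => by ring
    rw [this]
    ring
  have hz : ∀ i, Integrable (fun z : ι → ℝ => (∫ x, (x - u) i * Real.exp (-V x)) * z i) (γ ι) :=
    fun i => (SinkC_Q_coord i).intγ.const_mul _
  have hPi := integral_mono ((integrable_finsetSum _ fun i _ => hz i).add (integrable_const _))
    (SinkC_Ps_int hV hε hε1 hΦ) hP
  have e0 : ∫ z, ((∑ i, (∫ x, (x - u) i * Real.exp (-V x)) * z i) +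
      (∫ x, (-1 * Φ (x - u) - ε * V (x - u) + ε * V x) * Real.exp (-V x))) ∂γ ι =
      ∫ x, (-1 * Φ (x - u) - ε * V (x - u) + ε * V x) * Real.exp (-V x) := by
    rw [integral_add (integrable_finsetSum _ fun i _ => hz i) (integrable_const _),
      integral_finsetSum _ fun i _ => hz i]
    simp only [integral_const_mul, int_coord]
    simp
  have hPi' : ∫ x, (-1 * Φ (x - u) - ε * V (x - u) + ε * V x) * Real.exp (-V x) ≤
      ∫ z, Ps ε V Φ z ∂γ ι := by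
    rw [← e0]; exact hPi
  have h0 := (SinkC_Q_const (ι := ι) (GΦ 0 ⬝ᵥ u)).intV hV
  have key : ∫ x, ((GΦ 0 ⬝ᵥ u) * Real.exp (-V x) - ((cU β ^ 2 / 2) * ((x - u) ⬝ᵥ (x - u))
      + (u ⬝ᵥ u) / 2 + ε * V (x - u) - ε * V x) * Real.exp (-V x)) ≤
      ∫ x, (Φ x * Real.exp (-V x) +
        (-1 * Φ (x - u) - ε * V (x - u) + ε * V x) * Real.exp (-V x)) := by
    refine integral_mono (h0.sub (hK.intV hV)) ((hQΦ.intV hV).add (hR.intV hV)) fun x => ?_
    simp only []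
    rw [← sub_mul, ← add_mul]
    refine mul_le_mul_of_nonneg_right ?_ (Real.exp_pos _).le
    have a1 := hΦ.lo (x - u) x
    have a2 := hΦ.lip h1.le h2' (x - u) 0
    rw [sub_sub_cancel] at a1
    rw [sub_zero] at a2
    have a3 : 0 ≤ u ⬝ᵥ u := Finset.sum_nonneg fun i _ => mul_self_nonneg (u i)
    have a4 : 0 ≤ (GΦ (x - u) - GΦ 0 + u) ⬝ᵥ (GΦ (x - u) - GΦ 0 + u) :=
      Finset.sum_nonneg fun i _ => mul_self_nonneg _
    have a5 : (GΦ (x - u) - GΦ 0 + u) ⬝ᵥ (GΦ (x - u) - GΦ 0 + u) =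
        (GΦ (x - u) - GΦ 0) ⬝ᵥ (GΦ (x - u) - GΦ 0) + 2 * (GΦ (x - u) ⬝ᵥ u - GΦ 0 ⬝ᵥ u) + u ⬝ᵥ u := by
      rw [add_dotProduct, dotProduct_add, dotProduct_add, dotProduct_comm u (GΦ (x - u) - GΦ 0),
        sub_dotProduct (GΦ (x - u)) (GΦ 0) u]
      ring
    have a6 : 0 ≤ cL α / 2 * (u ⬝ᵥ u) := by positivity
    nlinarith
  rw [integral_sub h0 (hK.intV hV), integral_add (hQΦ.intV hV) (hR.intV hV), integral_const_mul,
    hV.one] at key
  unfold JJ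
  linarith

/-- `Ps_ge` with `u = ± e_i`, integrated over `γ` (`E z = 0`);
`Φ x - Φ (x-u) ≥ GΦ (x-u) u ≥ GΦ 0 u - cU |x-u|` (`SC.lip`). -/
theorem JJ_coercive (hV : Reg α β V G) (hε : 0 < ε) (hε1 : ε ≤ 1) : ∃ C : ℝ,
    ∀ (Φ : (ι → ℝ) → ℝ) (GΦ : (ι → ℝ) → ι → ℝ), SC (cL α) (cU β) Φ GΦ →
      -C ≤ JJ ε V Φ ∧ ∀ i, |GΦ 0 i| - C ≤ JJ ε V Φ := by
  choose K hK using SinkC_lower hV hε hε1
  have hs : 0 ≤ ∑ i, (|K (Pi.single i 1)| + |K (-Pi.single i 1)|) :=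
    Finset.sum_nonneg fun i _ => by positivity
  refine ⟨|K 0| + ∑ i, (|K (Pi.single i 1)| + |K (-Pi.single i 1)|), fun Φ GΦ hΦ => ⟨?_, fun i => ?_⟩⟩
  · have := hK 0 Φ GΦ hΦ
    rw [dotProduct_zero] at this
    have := le_abs_self (K 0)
    linarith
  · have a1 := hK (Pi.single i 1) Φ GΦ hΦ
    have a2 := hK (-Pi.single i 1) Φ GΦ hΦ
    rw [dotProduct_single, mul_one] at a1
    rw [dotProduct_neg, dotProduct_single, mul_one] at a2
    have a3 : |K (Pi.single i 1)| + |K (-Pi.single i 1)| ≤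
        ∑ i, (|K (Pi.single i 1)| + |K (-Pi.single i 1)|) :=
      Finset.single_le_sum (f := fun i => |K (Pi.single i 1)| + |K (-Pi.single i 1)|)
        (fun i _ => by positivity) (Finset.mem_univ i)
    have := le_abs_self (K (Pi.single i 1))
    have := le_abs_self (K (-Pi.single i 1))
    have := abs_nonneg (K (Pi.single i 1))
    have := abs_nonneg (K (-Pi.single i 1))
    have := abs_nonneg (K 0)
    rcases abs_cases (GΦ 0 i) with h | h <;> linarith [h.1]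

theorem sinkd_bdd {a b : ℝ} {Vn : ℕ → (ι → ℝ) → ℝ} {Gn : ℕ → (ι → ℝ) → ι → ℝ}
    (hn : ∀ n, SC a b (Vn n) (Gn n)) (ha : 0 ≤ a) (hb : 0 < b) {W : (ι → ℝ) → ℝ}
    (hlim : ∀ x, Tendsto (fun n => Vn n x) atTop (𝓝 (W x))) :
    ∃ C : ℝ, ∀ n x, |Vn n x| ≤ C * (1 + ‖x‖) ^ 2 := by
  have h : ∀ x, ∃ B : ℝ, ∀ n, |Vn n x| ≤ B := fun x => by
    obtain ⟨B, hB⟩ := (hlim x).abs.bddAbove_range
    exact ⟨B, fun n => hB ⟨n, rfl⟩⟩
  choose B hB using h
  have hB0 : ∀ x, 0 ≤ B x := fun x => (abs_nonneg _).trans (hB x 0)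
  have hs : 0 ≤ ∑ i, (B (Pi.single i 1) + B (-Pi.single i 1)) :=
    Finset.sum_nonneg fun i _ => add_nonneg (hB0 _) (hB0 _)
  obtain ⟨C, -, hC⟩ := SC_growth (ι := ι) b (B 0 + ∑ i, (B (Pi.single i 1) + B (-Pi.single i 1))) hb
  refine ⟨C, fun n x => (hC a _ _ (hn n) ha ((hB 0 n).trans (le_add_of_nonneg_right hs)) (fun i => ?_) x).1⟩
  have h1 := (hn n).lo 0 (Pi.single i 1)
  have h2 := (hn n).lo 0 (-Pi.single i 1)
  simp only [sub_zero, dotProduct_single, mul_one, dotProduct_neg, Pi.neg_apply, neg_neg,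
    Pi.single_eq_same] at h1 h2
  have h3 : B (Pi.single i 1) + B (-Pi.single i 1) ≤ ∑ i, (B (Pi.single i 1) + B (-Pi.single i 1)) :=
    Finset.single_le_sum (f := fun i => B (Pi.single i 1) + B (-Pi.single i 1))
      (fun i _ => add_nonneg (hB0 _) (hB0 _)) (Finset.mem_univ i)
  have h4 := abs_le.1 (hB 0 n)
  have h5 := abs_le.1 (hB (Pi.single i 1) n)
  have h6 := abs_le.1 (hB (-Pi.single i 1) n)
  have h7 := hB0 (Pi.single i 1)
  have h8 := hB0 (-Pi.single i 1)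
  rw [abs_le]
  constructor <;> linarith [h4.1, h4.2, h5.2, h6.2]

omit [DecidableEq ι] in
theorem sinkd_dot {u : ι → ℝ} {C : ℝ} (h : ∀ i, |u i| ≤ C) (x : ι → ℝ) : |u ⬝ᵥ x| ≤ dim ι * C * ‖x‖ := by
  refine (Finset.abs_sum_le_sum_abs _ _).trans ?_
  calc ∑ i, |u i * x i| ≤ ∑ _i : ι, C * ‖x‖ := Finset.sum_le_sum fun i _ => by
        rw [abs_mul]
        exact mul_le_mul (h i) (norm_le_pi_norm x i) (abs_nonneg _) ((abs_nonneg _).trans (h i))
    _ = _ := by simp [mul_assoc]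

theorem sinkd_Ps (hV : Reg α β V G) (hε : 0 < ε) {c c' : ℝ} (hc : 0 ≤ c) {Φn : ℕ → (ι → ℝ) → ℝ}
    {Gn : ℕ → (ι → ℝ) → ι → ℝ} (hn : ∀ n, SC c c' (Φn n) (Gn n)) {C : ℝ}
    (h0 : ∀ n, |Φn n 0| ≤ C) (h1 : ∀ n i, |Gn n 0 i| ≤ C)
    (hlim : ∀ x, Tendsto (fun n => Φn n x) atTop (𝓝 (Φ x))) (z : ι → ℝ) :
    Tendsto (fun n => Ps ε V (Φn n) z) atTop (𝓝 (Ps ε V Φ z)) := by
  have hcont : ∀ n, Continuous fun x => Real.exp ((z ⬝ᵥ x - Φn n x) / ε - V x) := fun n => by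
    have := (hn n).continuous
    have := hV.sc.continuous
    fun_prop
  have hi := (integrable_gauss (ι := ι) (c := α / 2) (half_pos hV.pos)
    ((dim ι * ‖z‖ + dim ι * C) / ε + dim ι * ‖G 0‖) 0).const_mul (Real.exp (C / ε - V 0))
  have hb : ∀ n x, ‖Real.exp ((z ⬝ᵥ x - Φn n x) / ε - V x)‖ ≤ Real.exp (C / ε - V 0) * ((1 + ‖x‖) ^ 0 *
      Real.exp (((dim ι * ‖z‖ + dim ι * C) / ε + dim ι * ‖G 0‖) * ‖x‖ - α / 2 * (x ⬝ᵥ x))) := fun n x => by
    rw [Real.norm_eq_abs, Real.abs_exp, pow_zero, one_mul, ← Real.exp_add, Real.exp_le_exp]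
    have a1 := (hn n).lo 0 x
    have a2 := hV.sc.lo 0 x
    rw [sub_zero] at a1 a2
    have a3 := (abs_le.1 (sinkd_dot (fun i => norm_le_pi_norm z i) x)).2
    have a4 := (abs_le.1 (sinkd_dot (h1 n) x)).1
    have a5 := (abs_le.1 (sinkd_dot (fun i => norm_le_pi_norm (G 0) i) x)).1
    have a6 : 0 ≤ c / 2 * (x ⬝ᵥ x) :=
      mul_nonneg (by linarith) (Finset.sum_nonneg fun i _ => mul_self_nonneg _)
    have a7 := (abs_le.1 (h0 n)).1
    have a8 : (z ⬝ᵥ x - Φn n x) / ε ≤ (C + (dim ι * ‖z‖ + dim ι * C) * ‖x‖) / ε :=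
      div_le_div_of_nonneg_right (by linarith) hε.le
    have a9 : (C + (dim ι * ‖z‖ + dim ι * C) * ‖x‖) / ε =
        C / ε + (dim ι * ‖z‖ + dim ι * C) / ε * ‖x‖ := by ring
    linarith
  have hl : ∀ x, Tendsto (fun n => Real.exp ((z ⬝ᵥ x - Φn n x) / ε - V x)) atTop
      (𝓝 (Real.exp ((z ⬝ᵥ x - Φ x) / ε - V x))) := fun x =>
    ((((hlim x).const_sub _).div_const ε).sub_const _).rexp
  have hI : Integrable fun x => Real.exp ((z ⬝ᵥ x - Φ x) / ε - V x) :=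
    hi.mono' (aestronglyMeasurable_of_tendsto_ae atTop (fun n => (hcont n).aestronglyMeasurable)
      (Eventually.of_forall hl)) (Eventually.of_forall fun x => le_of_tendsto' (hl x).norm fun n => hb n x)
  exact ((tendsto_integral_of_dominated_convergence _ (fun n => (hcont n).aestronglyMeasurable) hi
    (fun n => Eventually.of_forall (hb n)) (Eventually.of_forall hl)).log
      (integral_exp_pos hI).ne').const_mul ε

/-- Dominated convergence three times: `|Φ_n x| ≤ C (1+|x|)²` (`SC_growth`), `Φ_n x ≥ -C' (1 + |x|)`, and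
`|Ps Φ_n z| ≤ C'' (1+|z|)²` (below by `Ps_ge` with `u = 0`; above because
`∫ exp (R|x| - V x) dx ≤ C exp (C R²)`). -/
theorem JJ_tendsto (hV : Reg α β V G) (hε : 0 < ε) (hε1 : ε ≤ 1) {Φn : ℕ → (ι → ℝ) → ℝ}
    {Gn : ℕ → (ι → ℝ) → ι → ℝ} (hn : ∀ n, SC (cL α) (cU β) (Φn n) (Gn n)) {C : ℝ}
    (h0 : ∀ n, |Φn n 0| ≤ C) (h1 : ∀ n i, |Gn n 0 i| ≤ C)
    (hlim : ∀ x, Tendsto (fun n => Φn n x) atTop (𝓝 (Φ x))) :
    Tendsto (fun n => JJ ε V (Φn n)) atTop (𝓝 (JJ ε V Φ)) := by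
  obtain ⟨c1, c2, c3, c4⟩ := consts hV.pos hV.le
  refine Tendsto.add ?_ ?_
  · obtain ⟨B, hB⟩ := sinkd_bdd hn c1.le (c1.trans_le c2) hlim
    have hi := hV.sc.integrable hV.pos 0 (f := fun x => B * (1 + ‖x‖) ^ 2) (C := |B|) (k := 2)
      (Continuous.aestronglyMeasurable (by fun_prop)) fun x => by rw [abs_mul, abs_sq]
    simp only [zero_dotProduct, zero_sub] at hi
    refine tendsto_integral_of_dominated_convergence _ (fun n => Continuous.aestronglyMeasurable ?_) hi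
      (fun n => Eventually.of_forall fun x => ?_) (Eventually.of_forall fun x => (hlim x).mul_const _)
    · have := (hn n).continuous
      have := hV.sc.continuous
      fun_prop
    · rw [norm_mul, Real.norm_eq_abs, Real.norm_eq_abs, Real.abs_exp]
      exact mul_le_mul_of_nonneg_right (hB n x) (Real.exp_pos _).le
  · have hl := sinkd_Ps hV hε c1.le hn h0 h1 hlim
    choose Tn hT using fun n => Ps_class hV hε hε1 (hn n)
    obtain ⟨B, hB⟩ := sinkd_bdd hT c3.le (c3.trans_le c4) hl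
    exact tendsto_integral_of_dominated_convergence _ (fun n => (hT n).continuous.aestronglyMeasurable)
      ((integrable_norm_pow 2).const_mul B) (fun n => Eventually.of_forall (hB n)) (Eventually.of_forall hl)

/-- A minimising sequence (`exists_seq_tendsto_sInf`; the class contains `cL |x|²/2`), normalised by
`Φ_n 0 = 0`; `SC_compact`, `JJ_tendsto`, `Ph_class`, `JJ_step`. -/
theorem exists_fixed (hV : Reg α β V G) (hε : 0 < ε) (hε1 : ε ≤ 1) :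
    ∃ (Φ : (ι → ℝ) → ℝ) (GΦ : (ι → ℝ) → ι → ℝ), SC (cL α) (cU β) Φ GΦ ∧ Ph ε (Ps ε V Φ) = Φ := by
  obtain ⟨c1, c2, c3, c4⟩ := consts hV.pos hV.le
  obtain ⟨C, hC⟩ := JJ_coercive hV hε hε1
  set S : Set ℝ := {t | ∃ (Φ : (ι → ℝ) → ℝ) (GΦ : (ι → ℝ) → ι → ℝ), SC (cL α) (cU β) Φ GΦ ∧ JJ ε V Φ = t}
  have hne : S.Nonempty := ⟨_, _, _, (SC_quad (cL α)).mono le_rfl c2, rfl⟩
  have hbd : BddBelow S := ⟨-C, by
    rintro t ⟨Φ, GΦ, h, rfl⟩
    exact (hC Φ GΦ h).1⟩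
  obtain ⟨u, hu, hlim, hmem⟩ := exists_seq_tendsto_sInf hne hbd
  choose Φn Gn hn hJ using hmem
  have hn' := fun n => (hn n).add_const (-Φn n 0)
  have h0 : ∀ n, |Φn n 0 + -Φn n 0| ≤ max 0 (C + u 0) := fun n => by simp
  have h1 : ∀ n i, |Gn n 0 i| ≤ max 0 (C + u 0) := fun n i => by
    have a1 := (hC _ _ (hn n)).2 i
    have a2 := hu (Nat.zero_le n)
    rw [hJ] at a1
    exact le_max_of_le_right (by linarith)
  obtain ⟨φ, W, H, hφ, hW, hl, -⟩ := SC_compact hn' c1.le (c1.trans_le c2) h0 h1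
  have k1 := JJ_tendsto hV hε hε1 (fun n => hn' (φ n)) (fun n => h0 (φ n)) (fun n => h1 (φ n)) hl
  simp only [fun n => JJ_add_const hV hε hε1 (hn n), hJ] at k1
  have k2 := tendsto_nhds_unique k1 (hlim.comp hφ.tendsto_atTop)
  obtain ⟨G', hG'⟩ := Ph_class hV hε hε1 hW
  exact ⟨W, H, hW, (JJ_step hV hε hε1 hW).2 (k2.trans_le (csInf_le hbd ⟨_, _, hG', rfl⟩))⟩

end Crest.Agent.R253
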