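/-
Row 253 (S0390, S0391), file Bren.  Existence of the Brenier map with two-sided bounds.
Definitions: R253/Fun.lean, R253/Defs.lean.  Outline: R253/Blueprint.lean.  Keep the statements unchanged.
-/
import Crest.Agent.R253.Sink

set_option autoImplicit false

namespace Crest.Agent.R253

open MeasureTheory ProbabilityTheory Matrix Filter Topology Crest.Agent.R203N

variable {ι : Type} [Fintype ι] [DecidableEq ι]
variable {α β ε : ℝ} {V Φ : (ι → ℝ) → ℝ} {G GΦ T : (ι → ℝ) → ι → ℝ}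

theorem Reg.prob (hV : Reg α β V G) : IsProbabilityMeasure (muV V) := by
  have hi : Integrable fun x => Real.exp (-V x) := .of_integral_ne_zero (hV.one ▸ one_ne_zero)
  refine ⟨?_⟩
  rw [muV, withDensity_apply _ MeasurableSet.univ, Measure.restrict_univ,
    ← ofReal_integral_eq_lintegral_ofReal hi (Eventually.of_forall fun x => (Real.exp_pos _).le),
    hV.one, ENNReal.ofReal_one]

theorem int_muV (hV : Continuous V) (f : (ι → ℝ) → ℝ) :
    ∫ x, f x ∂muV V = ∫ x, f x * Real.exp (-V x) := by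
  rw [muV, integral_withDensity_eq_integral_toReal_smul (by fun_prop)
    (Eventually.of_forall fun x => ENNReal.ofReal_lt_top)]
  simp only [ENNReal.toReal_ofReal (Real.exp_pos _).le, smul_eq_mul, mul_comm]

theorem Reg.integrable (hV : Reg α β V G) {f : (ι → ℝ) → ℝ} (hf : AEStronglyMeasurable f volume)
    {C : ℝ} {k : ℕ} (hC : ∀ x, |f x| ≤ C * (1 + ‖x‖) ^ k) : Integrable f (muV V) := by
  have hc := hV.sc.continuous
  rw [muV, integrable_withDensity_iff_integrable_smul' (by fun_prop)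
    (Eventually.of_forall fun x => ENNReal.ofReal_lt_top)]
  simpa only [ENNReal.toReal_ofReal (Real.exp_pos _).le, smul_eq_mul, mul_comm, zero_dotProduct,
    zero_sub] using hV.sc.integrable hV.pos 0 hf hC

/-- The conditional density of `x` given `z`. -/
noncomputable def cd (ε : ℝ) (V Φ : (ι → ℝ) → ℝ) (z x : ι → ℝ) : ℝ :=
  Real.exp ((z ⬝ᵥ x - Φ x - Ps ε V Φ z) / ε - V x)
theorem brena_int (hV : Reg α β V G) (hε : 0 < ε) {c C : ℝ} (hΦ : SC c C Φ GΦ) (hc : 0 ≤ c) (z : ι → ℝ)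
    {f : (ι → ℝ) → ℝ} (hf : AEStronglyMeasurable f volume) {D : ℝ} {k : ℕ}
    (hD : ∀ x, |f x| ≤ D * (1 + ‖x‖) ^ k) :
    Integrable fun x => f x * Real.exp ((z ⬝ᵥ x - Φ x) / ε - V x) := by
  have hα := hV.pos
  refine (((hΦ.const_mul (inv_pos.2 hε).le).add hV.sc).integrable (by positivity) (ε⁻¹ • z) hf
    hD).congr (Eventually.of_forall fun x => ?_)
  simp only [smul_dotProduct, smul_eq_mul]
  congr 2
  ring

theorem brena_int1 (hV : Reg α β V G) (hε : 0 < ε) {c C : ℝ} (hΦ : SC c C Φ GΦ) (hc : 0 ≤ c)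
    (z : ι → ℝ) : Integrable fun x => Real.exp ((z ⬝ᵥ x - Φ x) / ε - V x) := by
  simpa using brena_int hV hε hΦ hc z (f := fun _ => 1) aestronglyMeasurable_const (D := 1) (k := 0)
    (by simp)

theorem brena_exp (hV : Reg α β V G) (hε : 0 < ε) {c C : ℝ} (hΦ : SC c C Φ GΦ) (hc : 0 ≤ c)
    (z : ι → ℝ) : ∫ x, Real.exp ((z ⬝ᵥ x - Φ x) / ε - V x) = Real.exp (Ps ε V Φ z / ε) := by
  rw [Ps, mul_div_cancel_left₀ _ hε.ne', Real.exp_log (integral_exp_pos (brena_int1 hV hε hΦ hc z))]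

theorem brena_cd (ε : ℝ) (V Φ : (ι → ℝ) → ℝ) (z x : ι → ℝ) : cd ε V Φ z x =
    Real.exp (-(Ps ε V Φ z / ε)) * Real.exp ((z ⬝ᵥ x - Φ x) / ε - V x) := by
  rw [cd, ← Real.exp_add]
  congr 1
  ring


theorem int_cd (hV : Reg α β V G) (hε : 0 < ε) {c C : ℝ} (hΦ : SC c C Φ GΦ) (hc : 0 ≤ c) (z : ι → ℝ) :
    ∫ x, cd ε V Φ z x = 1 := by
  simp only [brena_cd]
  rw [integral_const_mul, brena_exp hV hε hΦ hc, ← Real.exp_add, neg_add_cancel, Real.exp_zero]

theorem brena_mgf (hV : Reg α β V G) (hε : 0 < ε) {c C a b : ℝ} (hΦ : SC c C Φ GΦ) (hc : 0 ≤ c)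
    (hT : SC a b (Ps ε V Φ) T) (z : ι → ℝ) (i : ι) (σ : ℝ) :
    (Integrable fun x => Real.exp (σ * (x i - T z i)) * cd ε V Φ z x) ∧
      ∫ x, Real.exp (σ * (x i - T z i)) * cd ε V Φ z x ≤ Real.exp (b * ε * σ ^ 2 / 2) := by
  have e : (fun x => Real.exp (σ * (x i - T z i)) * cd ε V Φ z x) = fun x =>
      Real.exp (-(σ * T z i) - Ps ε V Φ z / ε) *
        Real.exp (((z + Pi.single i (ε * σ)) ⬝ᵥ x - Φ x) / ε - V x) := by
    funext x
    rw [cd, ← Real.exp_add, ← Real.exp_add, add_dotProduct, single_dotProduct]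
    congr 1
    field_simp
    ring
  rw [e]
  refine ⟨(brena_int1 hV hε hΦ hc _).const_mul _, ?_⟩
  rw [integral_const_mul, brena_exp hV hε hΦ hc, ← Real.exp_add, Real.exp_le_exp]
  have h := hT.hi z (z + Pi.single i (ε * σ))
  rw [add_sub_cancel_left, dotProduct_single, dotProduct_single, Pi.single_eq_same] at h
  have h2 := div_le_div_of_nonneg_right h hε.le
  have e2 : (Ps ε V Φ z + T z i * (ε * σ) + b / 2 * (ε * σ * (ε * σ))) / ε =
      Ps ε V Φ z / ε + σ * T z i + b * ε * σ ^ 2 / 2 := by field_simp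
  linarith

theorem brena_cosh (u : ℝ) : u ^ 2 ≤ Real.exp u + Real.exp (-u) - 2 := by
  have h1 : |u / 2| ≤ |Real.sinh (u / 2)| := by
    rw [Real.abs_sinh]
    exact Real.self_le_sinh_iff.2 (abs_nonneg _)
  have h2 := sq_le_sq.2 h1
  have h3 : Real.exp u = Real.exp (u / 2) ^ 2 := by rw [← Real.exp_nat_mul]; congr 1; ring
  have h4 : Real.exp (-u) = Real.exp (-(u / 2)) ^ 2 := by rw [← Real.exp_nat_mul]; congr 1; ring
  have h5 : Real.exp (u / 2) * Real.exp (-(u / 2)) = 1 := by rw [← Real.exp_add]; simp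
  rw [Real.sinh_eq] at h2
  nlinarith

/-- `∫ exp (η (x - T z)_i) cd = exp ((Ps (z + ε η e_i) - Ps z - ε η (T z)_i)/ε) ≤ exp (b ε η²/2)`;
`t²/2 ≤ cosh t - 1`, `η² = 1/(b ε)`, `exp (1/2) ≤ 2`. -/
theorem conc (hV : Reg α β V G) (hε : 0 < ε) {c C a b : ℝ} (hΦ : SC c C Φ GΦ) (hc : 0 ≤ c)
    (hT : SC a b (Ps ε V Φ) T) (hb : 0 < b) (z : ι → ℝ) (i : ι) :
    ∫ x, (x i - T z i) ^ 2 * cd ε V Φ z x ≤ 2 * b * ε := by
  have hbε : 0 < b * ε := mul_pos hb hε
  obtain ⟨η, hη⟩ : ∃ η : ℝ, b * ε * η ^ 2 = 1 :=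
    ⟨Real.sqrt (b * ε)⁻¹, by rw [Real.sq_sqrt (inv_pos.2 hbε).le, mul_inv_cancel₀ hbε.ne']⟩
  obtain ⟨i1, h1⟩ := brena_mgf hV hε hΦ hc hT z i η
  obtain ⟨i2, h2⟩ := brena_mgf hV hε hΦ hc hT z i (-η)
  have i0 : Integrable (cd ε V Φ z) := .of_integral_ne_zero (int_cd hV hε hΦ hc z ▸ one_ne_zero)
  have h3 : Real.exp (1 / 2) ≤ 2 := by
    have h4 : Real.exp (1 / 2) ^ 2 = Real.exp 1 := by rw [← Real.exp_nat_mul]; norm_num
    nlinarith [Real.exp_one_lt_three, Real.exp_pos (1 / 2)]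
  rw [hη] at h1
  rw [neg_sq, hη] at h2
  have i3 : Integrable fun x => Real.exp (η * (x i - T z i)) * cd ε V Φ z x +
      Real.exp (-η * (x i - T z i)) * cd ε V Φ z x := i1.add i2
  have i4 : Integrable fun x => Real.exp (η * (x i - T z i)) * cd ε V Φ z x +
      Real.exp (-η * (x i - T z i)) * cd ε V Φ z x - 2 * cd ε V Φ z x := i3.sub (i0.const_mul 2)
  refine (integral_mono_of_nonneg (Eventually.of_forall fun x => mul_nonneg (sq_nonneg _)
    (Real.exp_pos _).le) (i4.const_mul (b * ε)) (Eventually.of_forall fun x => ?_)).trans ?_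
  · have h5 := mul_le_mul_of_nonneg_left (mul_le_mul_of_nonneg_right (brena_cosh (η * (x i - T z i)))
      (show 0 ≤ cd ε V Φ z x from (Real.exp_pos _).le)) hbε.le
    have e : b * ε * ((η * (x i - T z i)) ^ 2 * cd ε V Φ z x) = (x i - T z i) ^ 2 * cd ε V Φ z x := by
      linear_combination (x i - T z i) ^ 2 * cd ε V Φ z x * hη
    rw [e, ← neg_mul η] at h5
    exact h5.trans_eq (by ring)
  · rw [integral_const_mul, integral_sub i3 (i0.const_mul 2), integral_add i1 i2, integral_const_mul,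
      int_cd hV hε hΦ hc z]
    nlinarith

theorem brena_gauss (hε : 0 < ε) {a b : ℝ} {Ψ : (ι → ℝ) → ℝ} (hΨ : SC a b Ψ T) (ha : 0 ≤ a)
    (x : ι → ℝ) : Integrable (fun z => Real.exp ((z ⬝ᵥ x - Ψ z) / ε)) (γ ι) := by
  have hc := hΨ.continuous
  refine ((Herm2_int_exp fun i => (x i - T 0 i) / ε).const_mul (Real.exp (-Ψ 0 / ε))).mono'
    (Continuous.aestronglyMeasurable (by fun_prop)) (Eventually.of_forall fun z => ?_)
  rw [Real.norm_of_nonneg (Real.exp_pos _).le, ← Real.exp_add, Real.exp_le_exp]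
  have h := hΨ.lo 0 z
  have h1 : 0 ≤ a / 2 * ((z - 0) ⬝ᵥ (z - 0)) :=
    mul_nonneg (by linarith) (Finset.sum_nonneg fun i _ => mul_self_nonneg _)
  have e : ∑ i, (x i - T 0 i) / ε * z i = (z ⬝ᵥ x - T 0 ⬝ᵥ (z - 0)) / ε := by
    rw [sub_zero, dotProduct, dotProduct, ← Finset.sum_sub_distrib, Finset.sum_div]
    exact Finset.sum_congr rfl fun i _ => by ring
  rw [e, ← add_div]
  exact div_le_div_of_nonneg_right (by linarith) hε.le

/-- At a fixed point `∫ cd z x dγ(z) = exp (-V x)`; Fubini (integrability by Tonelli). -/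
theorem marg (hV : Reg α β V G) (hε : 0 < ε) (hε1 : ε ≤ 1) (hΦ : SC (cL α) (cU β) Φ GΦ)
    (hfix : Ph ε (Ps ε V Φ) = Φ) {φ : (ι → ℝ) → ℝ} {K : NNReal} (hφ : LipschitzWith K φ) :
    Integrable (fun z => ∫ x, φ x * cd ε V Φ z x) (γ ι) ∧
      ∫ z, (∫ x, φ x * cd ε V Φ z x) ∂γ ι = ∫ x, φ x * Real.exp (-V x) := by
  obtain ⟨T, hT⟩ := Ps_class hV hε hε1 hΦ
  have ha := (consts hV.pos hV.le).2.2.1
  have e : ∀ x z, cd ε V Φ z x =
      Real.exp (-(Φ x / ε) - V x) * Real.exp ((z ⬝ᵥ x - Ps ε V Φ z) / ε) := fun x z => by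
    rw [cd, ← Real.exp_add]
    congr 1
    ring
  have i1 : ∀ x, Integrable (fun z => cd ε V Φ z x) (γ ι) := fun x => by
    simp only [e x]
    exact (brena_gauss hε hT ha.le x).const_mul _
  have h1 : ∀ x, ∫ z, cd ε V Φ z x ∂γ ι = Real.exp (-V x) := fun x => by
    have h := congrFun hfix x
    simp only [e x]
    rw [integral_const_mul, ← Real.exp_log (integral_exp_pos (brena_gauss hε hT ha.le x)),
      ← Real.exp_add]
    congr 1
    rw [Ph] at h
    rw [← h, mul_div_cancel_left₀ _ hε.ne']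
    ring
  have c1 := hφ.continuous
  have c2 := hΦ.continuous
  have c3 := hT.continuous
  have c4 := hV.sc.continuous
  have hφ1 : ∀ x, |(|φ x|)| ≤ (|φ 0| + K) * (1 + ‖x‖) ^ 1 := fun x => by
    have h := hφ.dist_le_mul x 0
    rw [Real.dist_eq, dist_zero_right] at h
    have h2 := abs_sub_abs_le_abs_sub (φ x) (φ 0)
    have h3 := mul_nonneg (abs_nonneg (φ 0)) (norm_nonneg x)
    have h4 := K.2
    rw [abs_abs, pow_one]
    simp only [NNReal.val_eq_coe] at h4
    nlinarith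
  have hI : Integrable (Function.uncurry fun z x => φ x * cd ε V Φ z x) ((γ ι).prod volume) := by
    refine (integrable_prod_iff' (Continuous.aestronglyMeasurable ?_)).2
      ⟨Eventually.of_forall fun x => (i1 x).const_mul (φ x), ?_⟩
    · unfold cd Function.uncurry
      fun_prop
    · refine (hV.sc.integrable hV.pos 0 c1.abs.aestronglyMeasurable hφ1).congr
        (Eventually.of_forall fun x => ?_)
      simp only [Function.uncurry_apply_pair, norm_mul, zero_dotProduct, zero_sub]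
      rw [integral_const_mul, ← h1 x, Real.norm_eq_abs]
      congr 2
      funext z
      exact (Real.norm_of_nonneg (Real.exp_pos _).le).symm
  refine ⟨hI.integral_prod_left, ?_⟩
  rw [integral_integral_swap hI]
  simp only [integral_const_mul, h1]

omit [DecidableEq ι] in
theorem BrenB_growth {φ : (ι → ℝ) → ℝ} {K : NNReal} (hφ : LipschitzWith K φ) (x : ι → ℝ) :
    |φ x| ≤ (|φ 0| + K) * (1 + ‖x‖) ^ 1 := by
  have h := hφ.dist_le_mul x 0
  rw [Real.dist_eq, dist_zero_right] at h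
  have h1 : |φ x| ≤ |φ x - φ 0| + |φ 0| := by simpa using abs_add_le (φ x - φ 0) (φ 0)
  have h2 := mul_nonneg (abs_nonneg (φ 0)) (norm_nonneg x)
  have h3 := K.2
  rw [pow_one]
  nlinarith

theorem BrenB_int {φ : (ι → ℝ) → ℝ} {K : NNReal} (hφ : LipschitzWith K φ) : Integrable φ (γ ι) :=
  (L2_of_growth hφ.continuous.aestronglyMeasurable _ _ (BrenB_growth hφ)).int

theorem BrenB_cd (hV : Reg α β V G) (hε : 0 < ε) {c C : ℝ} (hΦ : SC c C Φ GΦ) (hc : 0 ≤ c) (z : ι → ℝ)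
    {f : (ι → ℝ) → ℝ} (hf : Continuous f) {C' : ℝ} {k : ℕ} (hC : ∀ x, |f x| ≤ C' * (1 + ‖x‖) ^ k) :
    Integrable fun x => f x * cd ε V Φ z x := by
  have hW := (hΦ.const_mul (inv_pos.2 hε).le).add hV.sc
  have hp : 0 < ε⁻¹ * c + α := by have := hV.pos; positivity
  have := (hW.integrable hp (ε⁻¹ • z) hf.aestronglyMeasurable hC).const_mul (Real.exp (-Ps ε V Φ z / ε))
  refine this.congr (Eventually.of_forall fun x => ?_)
  simp only [cd]
  rw [mul_left_comm, ← Real.exp_add, smul_dotProduct, smul_eq_mul]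
  congr 2
  field_simp
  ring

theorem BrenB_pt (hV : Reg α β V G) (hε : 0 < ε) {c C a b : ℝ} (hΦ : SC c C Φ GΦ) (hc : 0 ≤ c)
    (hT : SC a b (Ps ε V Φ) T) (hb : 0 < b) {φ : (ι → ℝ) → ℝ} {K : NNReal} (hφ : LipschitzWith K φ)
    (z : ι → ℝ) : |(∫ x, φ x * cd ε V Φ z x) - φ (T z)| ≤ K * dim ι * Real.sqrt (2 * b * ε) := by
  set r := Real.sqrt (2 * b * ε) with hr
  have r0 : 0 < r := Real.sqrt_pos.2 (by positivity)
  have rr : r * r = 2 * b * ε := Real.mul_self_sqrt (by positivity)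
  have cp : ∀ x, 0 ≤ cd ε V Φ z x := fun x => (Real.exp_pos _).le
  have i0 : Integrable fun x => cd ε V Φ z x := by
    simpa using BrenB_cd hV hε hΦ hc z (f := fun _ => 1) continuous_const (C' := 1) (k := 0) (by simp)
  have i1 := BrenB_cd hV hε hΦ hc z hφ.continuous (BrenB_growth hφ)
  have i2 : ∀ i, Integrable fun x => (x i - T z i) ^ 2 * cd ε V Φ z x := fun i => by
    refine BrenB_cd hV hε hΦ hc z (by fun_prop) (C' := (1 + |T z i|) ^ 2) (k := 2) fun x => ?_
    rw [abs_pow, ← mul_pow]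
    refine pow_le_pow_left₀ (abs_nonneg _) ((abs_sub _ _).trans ?_) _
    have h1 : |x i| ≤ ‖x‖ := norm_le_pi_norm x i
    have h2 := mul_nonneg (abs_nonneg (T z i)) (norm_nonneg x)
    nlinarith
  have e : (∫ x, φ x * cd ε V Φ z x) - φ (T z) = ∫ x, (φ x - φ (T z)) * cd ε V Φ z x := by
    simp only [sub_mul]
    rw [integral_sub i1 (i0.const_mul _), integral_const_mul, int_cd hV hε hΦ hc, mul_one]
  have i3 : ∀ i, Integrable fun x => K / (2 * r) * ((x i - T z i) ^ 2 * cd ε V Φ z x) +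
      K * r / 2 * cd ε V Φ z x := fun i => ((i2 i).const_mul _).add (i0.const_mul _)
  rw [e, ← Real.norm_eq_abs]
  refine (norm_integral_le_of_norm_le (integrable_finsetSum Finset.univ fun i _ => i3 i)
    (Eventually.of_forall fun x => ?_)).trans ?_
  · rw [norm_mul, Real.norm_of_nonneg (cp x)]
    have h1 : ‖φ x - φ (T z)‖ ≤ K * ∑ i, |x i - T z i| := by
      have := hφ.norm_sub_le x (T z)
      refine this.trans (mul_le_mul_of_nonneg_left ?_ K.2)
      refine (pi_norm_le_iff_of_nonneg (Finset.sum_nonneg fun i _ => abs_nonneg _)).2 fun i => ?_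
      exact Finset.single_le_sum (f := fun i => |x i - T z i|) (fun i _ => abs_nonneg _) (Finset.mem_univ i)
    refine (mul_le_mul_of_nonneg_right h1 (cp x)).trans ?_
    rw [Finset.mul_sum, Finset.sum_mul]
    refine Finset.sum_le_sum fun i _ => ?_
    have h2 : |x i - T z i| ≤ (x i - T z i) ^ 2 / (2 * r) + r / 2 := by
      rw [← sq_abs, div_add' _ _ _ (by positivity), le_div_iff₀ (by positivity)]
      nlinarith [sq_nonneg (|x i - T z i| - r)]
    have := mul_le_mul_of_nonneg_right (mul_le_mul_of_nonneg_left h2 K.2) (cp x)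
    refine this.trans_eq ?_
    change (K : ℝ) * _ * _ = _
    ring
  · rw [integral_finsetSum _ fun i _ => i3 i]
    have : ∀ i : ι, ∫ x, (K / (2 * r) * ((x i - T z i) ^ 2 * cd ε V Φ z x) + K * r / 2 * cd ε V Φ z x) ≤
        K * r := fun i => by
      rw [integral_add ((i2 i).const_mul _) (i0.const_mul _), integral_const_mul, integral_const_mul,
        int_cd hV hε hΦ hc]
      have h := mul_le_mul_of_nonneg_left (conc hV hε hΦ hc hT hb z i) (show (0 : ℝ) ≤ K / (2 * r) by positivity)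
      have e : (K : ℝ) / (2 * r) * (2 * b * ε) = K * r / 2 := by rw [← rr]; field_simp
      linarith
    refine (Finset.sum_le_sum fun i _ => this i).trans_eq ?_
    simp only [Finset.sum_const, Finset.card_univ, nsmul_eq_mul]
    ring

/-- `|φ x - φ (T z)| ≤ K ∑ |x_i - (T z)_i|`, `|t| ≤ (t²/r + r)/2`. -/
theorem exists_approx (hV : Reg α β V G) (hε : 0 < ε) (hε1 : ε ≤ 1) :
    ∃ (Ψ : (ι → ℝ) → ℝ) (T : (ι → ℝ) → ι → ℝ), SC (aa β) (bb α) Ψ T ∧ Ψ 0 = 0 ∧
      ∀ (φ : (ι → ℝ) → ℝ) (K : NNReal), LipschitzWith K φ →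
        |(∫ x, φ x * Real.exp (-V x)) - ∫ z, φ (T z) ∂γ ι| ≤
          K * dim ι * Real.sqrt (2 * bb α * ε) := by
  obtain ⟨Φ, GΦ, hΦ, hfix⟩ := exists_fixed hV hε hε1
  obtain ⟨T, hT⟩ := Ps_class hV hε hε1 hΦ
  obtain ⟨c1, -, c3, c4⟩ := consts hV.pos hV.le
  refine ⟨_, T, hT.add_const (-Ps ε V Φ 0), by simp, fun φ K hφ => ?_⟩
  obtain ⟨m1, m2⟩ := marg hV hε hε1 hΦ hfix hφ
  have i1 : Integrable (fun z => φ (T z)) (γ ι) :=
    BrenB_int (hφ.comp (hT.lipschitz c3.le (c3.trans_le c4)))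
  rw [← m2, ← integral_sub m1 i1, ← Real.norm_eq_abs]
  refine (norm_integral_le_of_norm_le_const (Eventually.of_forall fun z =>
    BrenB_pt hV hε hΦ c1.le hT (c3.trans_le c4) hφ z)).trans_eq ?_
  simp

/-- `ε = 1/(n+1)`; `T_n 0` is bounded (test with the coordinates, `SC.lipschitz`); `SC_compact`, dominated
convergence, `ext_of_lip`. -/
theorem exists_Br (hV : Reg α β V G) : ∃ T, Br (aa β) (bb α) V T := by
  obtain ⟨-, -, c3, c4⟩ := consts hV.pos hV.le
  have hb := c3.trans_le c4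
  have hn : ∀ n : ℕ, (0 : ℝ) < 1 / ((n : ℝ) + 1) ∧ 1 / ((n : ℝ) + 1) ≤ 1 := fun n =>
    ⟨by positivity, by rw [div_le_one (by positivity)]; linarith [n.cast_nonneg (α := ℝ)]⟩
  choose Ψ T hT h0 hA using fun n : ℕ => exists_approx hV (hn n).1 (hn n).2
  set C : ℝ := ∑ i, |∫ x, x i * Real.exp (-V x)| + dim ι * Real.sqrt (2 * bb α)
    + dim ι * bb α * ∫ z, ‖z‖ ∂γ ι with hC
  have iN : Integrable (fun z : ι → ℝ => ‖z‖) (γ ι) := BrenB_int lipschitzWith_one_norm
  have N0 : 0 ≤ ∫ z, ‖z‖ ∂γ ι := integral_nonneg fun z => norm_nonneg z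
  have C0 : 0 ≤ C := by positivity
  have h1 : ∀ n i, |T n 0 i| ≤ C := by
    intro n i
    have hL := (hT n).lipschitz c3.le hb
    have a1 := hA n (fun x => x i) 1 (LipschitzWith.eval i)
    have a2 : Real.sqrt (2 * bb α * (1 / ((n : ℝ) + 1))) ≤ Real.sqrt (2 * bb α) :=
      Real.sqrt_le_sqrt (mul_le_of_le_one_right (by positivity) (hn n).2)
    have a3 : dim ι * Real.sqrt (2 * bb α * (1 / ((n : ℝ) + 1))) ≤ dim ι * Real.sqrt (2 * bb α) :=
      mul_le_mul_of_nonneg_left a2 (by positivity)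
    have a4 : |∫ x, x i * Real.exp (-V x)| ≤ ∑ i, |∫ x, x i * Real.exp (-V x)| :=
      Finset.single_le_sum (f := fun i => |∫ x, x i * Real.exp (-V x)|) (fun i _ => abs_nonneg _)
        (Finset.mem_univ i)
    have i1 : Integrable (fun z => T n z i) (γ ι) := BrenB_int ((LipschitzWith.eval i).comp hL)
    have a5 : |(∫ z, T n z i ∂γ ι) - T n 0 i| ≤ dim ι * bb α * ∫ z, ‖z‖ ∂γ ι := by
      have e : (∫ z, T n z i ∂γ ι) - T n 0 i = ∫ z, (T n z i - T n 0 i) ∂γ ι := by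
        rw [integral_sub i1 (integrable_const _)]; simp
      rw [e, ← integral_const_mul, ← Real.norm_eq_abs]
      refine norm_integral_le_of_norm_le (iN.const_mul _) (Eventually.of_forall fun z => ?_)
      have := hL.norm_sub_le z 0
      rw [sub_zero] at this
      exact (norm_le_pi_norm (T n z - T n 0) i).trans this
    simp only [NNReal.coe_one, one_mul] at a1
    rw [abs_le] at a1 a4 a5 ⊢
    constructor <;> linarith [a1.1, a1.2, a4.1, a4.2, a5.1, a5.2]
  obtain ⟨ρ, W, H, hρ, hW, -, hH⟩ := SC_compact hT c3.le hb (fun n => by rw [h0, abs_zero]; exact C0) h1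
  have cH := hW.continuous_grad c3.le hb
  have := hV.prob
  refine ⟨H, c3, c4, ⟨W, hW⟩, ext_of_lip fun φ K hφ hφ1 => ?_⟩
  rw [integral_map cH.aemeasurable hφ.continuous.aestronglyMeasurable, int_muV hV.sc.continuous]
  have t1 : Tendsto (fun n => ∫ z, φ (T (ρ n) z) ∂γ ι) atTop (𝓝 (∫ z, φ (H z) ∂γ ι)) :=
    tendsto_integral_of_dominated_convergence (fun _ => 1)
      (fun n => (hφ.continuous.comp ((hT _).continuous_grad c3.le hb)).aestronglyMeasurable)
      (integrable_const _) (fun n => Eventually.of_forall fun z => hφ1 _)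
      (Eventually.of_forall fun z => (hφ.continuous.tendsto _).comp (hH z))
  have t2 : Tendsto (fun n : ℕ => K * dim ι * Real.sqrt (2 * bb α * (1 / ((n : ℝ) + 1)))) atTop (𝓝 0) := by
    have := ((tendsto_one_div_add_atTop_nhds_zero_nat (𝕜 := ℝ)).const_mul (2 * bb α)).sqrt.const_mul
      (K * dim ι)
    simpa using this
  have t3 : Tendsto (fun n => ∫ z, φ (T n z) ∂γ ι) atTop (𝓝 (∫ x, φ x * Real.exp (-V x))) := by
    rw [tendsto_iff_norm_sub_tendsto_zero]
    refine squeeze_zero (fun n => norm_nonneg _) (fun n => ?_) t2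
    rw [Real.norm_eq_abs, abs_sub_comm]
    exact hA n φ K hφ
  exact tendsto_nhds_unique t1 (t3.comp hρ.tendsto_atTop)

end Crest.Agent.R253
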