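/-
Row 253 (S0390, S0391), file MA.  The Monge-Ampère equation.
Definitions: R253/Fun.lean, R253/Defs.lean.  Outline: R253/Blueprint.lean.  Keep the statements unchanged.
-/
import Crest.Agent.R253.Bren
import Crest.Agent.R253.Mat
import Crest.Agent.R203N.Stein

set_option autoImplicit false

namespace Crest.Agent.R253

open MeasureTheory ProbabilityTheory Matrix Filter Topology Crest.Agent.R203N

variable {ι : Type} [Fintype ι] [DecidableEq ι]
variable {α β a b : ℝ} {V : (ι → ℝ) → ℝ} {G T : (ι → ℝ) → ι → ℝ}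

theorem Br.lipschitz (h : Br a b V T) : ∃ K, LipschitzWith K T := by
  obtain ⟨Ψ, hΨ⟩ := h.pot
  exact ⟨_, hΨ.lipschitz h.pos.le (h.pos.trans_le h.le)⟩

theorem Br.measurable (h : Br a b V T) : Measurable T := by
  obtain ⟨K, hK⟩ := h.lipschitz
  exact hK.continuous.measurable

theorem measurable_jac (a : ℝ) (T : (ι → ℝ) → ι → ℝ) (i j : ι) :
    Measurable fun z => jac a T z i j := by
  classical
  have h : (fun z => jac a T z i j) = fun z => if DifferentiableAt ℝ T z then
      fderiv ℝ T z (Pi.single j 1) i else (a • (1 : Matrix ι ι ℝ)) i j := by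
    funext z
    unfold jac
    split_ifs <;> rfl
  rw [h]
  exact Measurable.ite (measurableSet_of_differentiableAt ℝ T)
    ((measurable_pi_apply i).comp (measurable_fderiv_apply_const ℝ T (Pi.single j 1))) measurable_const

theorem hasFDerivAt_jac {z : ι → ℝ} (hd : DifferentiableAt ℝ T z) :
    HasFDerivAt T (clm (jac a T z)) z := by
  have h : clm (jac a T z) = fderiv ℝ T z := by
    apply ContinuousLinearMap.coe_injective
    refine (Pi.basisFun ℝ ι).ext fun j => ?_
    funext i
    simp only [ContinuousLinearMap.coe_coe, clm_apply, Pi.basisFun_apply, Matrix.mulVec_single_one, jac,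
      if_pos hd]
    rfl
  rw [h]
  exact hd.hasFDerivAt

/-- Compare `dproj_symm`, `dproj_bounds` in `R203N/Proj2.lean`; `SC.hasFDerivAt`, `SC.mono_grad`. -/
theorem Br.Sp (h : Br a b V T) (z : ι → ℝ) : Sp a b (jac a T z) := by
  obtain ⟨Ψ, hΨ⟩ := h.pot
  by_cases hd : DifferentiableAt ℝ T z
  · have h0 := hasFDerivAt_jac (a := a) hd
    refine ⟨?_, fun x => ?_⟩
    · have h1 : HasFDerivAt (fun y => Proj2_T (T y)) ((Proj2_T (ι := ι)).comp (clm (jac a T z))) z :=
        (Proj2_T (ι := ι)).hasFDerivAt.comp z h0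
      ext i j
      have := second_derivative_symmetric hΨ.hasFDerivAt h1 (Pi.single i 1) (Pi.single j 1)
      simp only [ContinuousLinearMap.comp_apply, Proj2_T_apply, clm_apply, dotProduct_single_one,
        Matrix.mulVec_single_one] at this
      exact this
    · have h1 := (h0.hasLineDerivAt x).tendsto_slope_zero
      rw [clm_apply] at h1
      have h2 := ((continuous_const.dotProduct continuous_id :
        Continuous fun d : ι → ℝ => x ⬝ᵥ d).tendsto _).comp h1
      have h3 : ∀ᶠ t in 𝓝[≠] (0 : ℝ), a * (x ⬝ᵥ x) ≤ x ⬝ᵥ t⁻¹ • (T (z + t • x) - T z) ∧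
          x ⬝ᵥ t⁻¹ • (T (z + t • x) - T z) ≤ b * (x ⬝ᵥ x) := by
        filter_upwards [self_mem_nhdsWithin] with t ht
        have ht' : t ≠ 0 := ht
        have h4 := hΨ.mono_grad (z + t • x) z
        have h5 : 0 < t * t := mul_self_pos.2 ht'
        have e : (T (z + t • x) - T z) ⬝ᵥ t • x = t * t * (x ⬝ᵥ t⁻¹ • (T (z + t • x) - T z)) := by
          rw [dotProduct_smul, dotProduct_smul, dotProduct_comm x, smul_eq_mul, smul_eq_mul]
          field_simp
        rw [add_sub_cancel_left, e, dotProduct_smul, smul_dotProduct, smul_eq_mul, smul_eq_mul] at h4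
        constructor <;> nlinarith [h4.1, h4.2]
      exact ⟨ge_of_tendsto h2 (h3.mono fun t ht => ht.1), le_of_tendsto h2 (h3.mono fun t ht => ht.2)⟩
  · rw [jac, if_neg hd]
    exact Sp_smul_one le_rfl h.le

/-- Rademacher. -/
theorem Br.ae_diff (h : Br a b V T) :
    ∀ᵐ z ∂(volume : Measure (ι → ℝ)), HasFDerivAt T (clm (jac a T z)) z := by
  obtain ⟨K, hK⟩ := h.lipschitz
  exact hK.ae_differentiableAt.mono fun z hz => hasFDerivAt_jac hz

theorem Br.wg (h : Br a b V T) (i : ι) : WG (fun z => T z i) (fun j z => jac a T z i j) := by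
  obtain ⟨K, hK⟩ := h.lipschitz
  refine (WG_of_lipschitz ((LipschitzWith.eval i).comp hK)).congr EventuallyEq.rfl fun j => ?_
  filter_upwards [γ_ac.ae_le h.ae_diff] with z hz
  have h2 : HasFDerivAt (Function.eval i ∘ T)
      ((ContinuousLinearMap.proj i : (ι → ℝ) →L[ℝ] ℝ).comp (clm (jac a T z))) z :=
    (ContinuousLinearMap.proj i : (ι → ℝ) →L[ℝ] ℝ).hasFDerivAt.comp z hz
  rw [h2.fderiv]
  simp only [ContinuousLinearMap.comp_apply, clm_apply, ContinuousLinearMap.proj_apply,
    Matrix.mulVec_single_one]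
  rfl

theorem measurable_inv_jac (h : Br a b V T) (i j : ι) : Measurable fun z => (jac a T z)⁻¹ i j := by
  have h1 : Measurable fun z => (fun i j => jac a T z i j : ι → ι → ℝ) :=
    measurable_pi_lambda _ fun i => measurable_pi_lambda _ fun j => measurable_jac a T i j
  have h2 : Continuous fun A : ι → ι → ℝ => Matrix.of A := continuous_id
  simp only [inv_def, Ring.inverse_eq_inv', Matrix.smul_apply, smul_eq_mul]
  exact (h2.matrix_det.measurable.comp h1).inv.mul
    ((h2.matrix_adjugate.matrix_elem i j).measurable.comp h1)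

theorem Br.abs_le (h : Br a b V T) (z : ι → ℝ) (i j : ι) :
    |jac a T z i j| ≤ b ∧ |(jac a T z)⁻¹ i j| ≤ a⁻¹ := by
  have hb := h.pos.trans_le h.le
  exact ⟨((h.Sp z).mono (by linarith [h.pos]) le_rfl).abs_le i j,
    (((h.Sp z).inv h.pos).mono (by linarith [inv_pos.2 hb, inv_pos.2 h.pos]) le_rfl).abs_le i j⟩

theorem Br.int (h : Br a b V T) {f : (ι → ℝ) → ℝ} (hf : Measurable f) :
    ∫ z, f (T z) ∂γ ι = ∫ x, f x ∂muV V := by
  rw [← h.push, integral_map h.measurable.aemeasurable hf.aestronglyMeasurable]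

theorem MAb_measurable_det (a : ℝ) (T : (ι → ℝ) → ι → ℝ) : Measurable fun z => (jac a T z).det := by
  simp only [Matrix.det_apply, Units.smul_def, zsmul_eq_mul]
  exact Finset.measurable_sum _ fun σ _ => measurable_const.mul
    (Finset.measurable_prod _ fun i _ => measurable_jac a T _ _)

omit [DecidableEq ι] in
theorem MAb_measurable_dot : Measurable fun z : ι → ℝ => z ⬝ᵥ z := by
  simp only [dotProduct]
  fun_prop

theorem MAb_abs_log_det {H : Matrix ι ι ℝ} (h : R253.Sp a b H) (ha : 0 < a) :
    |Real.log H.det| ≤ dim ι * (|Real.log a| + |Real.log b|) := by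
  obtain ⟨O, d, hO, e⟩ := exists_Dg h.1
  subst e
  have hd := fun i => h.eig hO i
  rw [det_Dg hO, Real.log_prod fun i _ => (ha.trans_le (hd i).1).ne']
  refine (Finset.abs_sum_le_sum_abs _ _).trans ?_
  rw [dim, ← nsmul_eq_mul, ← Finset.card_univ]
  refine Finset.sum_le_card_nsmul _ _ _ fun i _ => abs_le.2 ⟨?_, ?_⟩
  · linarith [Real.log_le_log ha (hd i).1, neg_abs_le (Real.log a), abs_nonneg (Real.log b)]
  · linarith [Real.log_le_log (ha.trans_le (hd i).1) (hd i).2, le_abs_self (Real.log b),
      abs_nonneg (Real.log a)]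

/-- For a measurable set `s` of points of differentiability,
`γ s = muV (T '' s) = ∫_s exp (-V (T z)) det (jac z) dz`
(`lintegral_image_eq_lintegral_abs_det_fderiv_mul`, `T` injective, `T '' s` measurable); hence the two densities agree
a.e. (`ae_eq_of_forall_setLIntegral_eq_of_sigmaFinite`). -/
theorem Br.MA (h : Br a b V T) (hV : Reg α β V G) : ∀ᵐ z ∂(volume : Measure (ι → ℝ)),
    Real.log (jac a T z).det = V (T z) - z ⬝ᵥ z / 2 - dim ι / 2 * Real.log (2 * Real.pi) := by
  obtain ⟨Ψ, hΨ⟩ := h.pot
  obtain ⟨S, -, -, hS, -⟩ := hΨ.exists_inverse h.pos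
  have hinj : Function.Injective T := Function.LeftInverse.injective hS
  have hVm : Measurable V := hV.sc.continuous.measurable
  set D : Set (ι → ℝ) := {z | DifferentiableAt ℝ T z} with hD
  have hDm : MeasurableSet D := measurableSet_of_differentiableAt ℝ T
  have hDae : ∀ᵐ z ∂(volume : Measure (ι → ℝ)), z ∈ D :=
    h.ae_diff.mono fun z hz => hz.differentiableAt
  have m1 : Measurable fun z : ι → ℝ =>
      ENNReal.ofReal (Real.exp (-(dim ι / 2 * Real.log (2 * Real.pi)) - z ⬝ᵥ z / 2)) :=
    (Real.measurable_exp.comp (measurable_const.sub (MAb_measurable_dot.div_const 2))).ennreal_ofReal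
  have m2 : Measurable fun z : ι → ℝ =>
      ENNReal.ofReal |(jac a T z).det| * ENNReal.ofReal (Real.exp (-V (T z))) :=
    (continuous_abs.measurable.comp (MAb_measurable_det a T)).ennreal_ofReal.mul
      (Real.measurable_exp.comp (hVm.comp h.measurable).neg).ennreal_ofReal
  have key := ae_eq_of_forall_setLIntegral_eq_of_sigmaFinite (μ := volume) m1 m2 fun s hs _ => by
    have e : s =ᵐ[volume] (s ∩ D : Set (ι → ℝ)) :=
      (inter_ae_eq_left_of_ae_eq_univ (ae_eq_univ.2 (ae_iff.1 hDae))).symm
    have hs' : MeasurableSet (s ∩ D) := hs.inter hDm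
    have hf : ∀ x ∈ s ∩ D, HasFDerivWithinAt T (clm (jac a T x)) (s ∩ D) x := fun x hx =>
      (hasFDerivAt_jac hx.2).hasFDerivWithinAt
    have him := measurable_image_of_fderivWithin hs' hf hinj.injOn
    rw [setLIntegral_congr e, setLIntegral_congr e, ← withDensity_apply _ hs', ← γ_eq_withDensity]
    have e2 := lintegral_image_eq_lintegral_abs_det_fderiv_mul volume hs' hf hinj.injOn
      fun x => ENNReal.ofReal (Real.exp (-V x))
    simp only [det_clm] at e2
    rw [← e2, ← withDensity_apply _ him]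
    have e3 := h.push
    unfold muV at e3
    rw [← e3, Measure.map_apply h.measurable him, Set.preimage_image_eq _ hinj]
  filter_upwards [key] with z hz
  have hdet := (h.Sp z).det_pos h.pos
  rw [← ENNReal.ofReal_mul (abs_nonneg _), abs_of_pos hdet,
    ENNReal.ofReal_eq_ofReal_iff (Real.exp_pos _).le (by positivity)] at hz
  have h2 := congrArg Real.log hz
  rw [Real.log_exp, Real.log_mul hdet.ne' (Real.exp_pos _).ne', Real.log_exp] at h2
  linarith

theorem Br.entropy (h : Br a b V T) (hV : Reg α β V G) : ∫ x, V x * Real.exp (-V x) =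
    dim ι / 2 * (Real.log (2 * Real.pi) + 1) + ∫ z, Real.log (jac a T z).det ∂γ ι := by
  have hVm : Measurable V := hV.sc.continuous.measurable
  have e1 : ∫ x, V x ∂muV V = ∫ x, V x * Real.exp (-V x) := by
    have m : Measurable fun x => ENNReal.ofReal (Real.exp (-V x)) :=
      (Real.measurable_exp.comp hVm.neg).ennreal_ofReal
    unfold muV
    rw [integral_withDensity_eq_integral_toReal_smul m
      (Eventually.of_forall fun _ => ENNReal.ofReal_lt_top)]
    refine integral_congr_ae (Eventually.of_forall fun x => ?_)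
    simp only [ENNReal.toReal_ofReal (Real.exp_pos _).le, smul_eq_mul, mul_comm]
  have i1 : Integrable (fun z => Real.log (jac a T z).det) (γ ι) :=
    Integrable.of_bound (Real.measurable_log.comp (MAb_measurable_det a T)).aestronglyMeasurable _
      (Eventually.of_forall fun z => MAb_abs_log_det (h.Sp z) h.pos)
  have i2 : Integrable (fun z : ι → ℝ => z ⬝ᵥ z / 2) (γ ι) :=
    (dot_int L2_coord L2_coord).1.div_const 2
  have i3 : Integrable (fun z => Real.log (jac a T z).det + z ⬝ᵥ z / 2) (γ ι) := i1.add i2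
  have e2 : ∫ z, V (T z) ∂γ ι = ∫ z, (Real.log (jac a T z).det + z ⬝ᵥ z / 2
      + dim ι / 2 * Real.log (2 * Real.pi)) ∂γ ι := by
    refine integral_congr_ae ?_
    filter_upwards [γ_ac.ae_le (h.MA hV)] with z hz
    linarith
  rw [← e1, ← h.int hVm, e2, integral_add i3 (integrable_const _), integral_add i1 i2, integral_div,
    int_dot_self]
  simp only [integral_const, probReal_univ, smul_eq_mul]
  ring

end Crest.Agent.R253
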