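/-
Row 253 (S0390, S0391), file Weak.  The weak form of the linearised Monge-Ampère operator.
Definitions: R253/Fun.lean, R253/Defs.lean.  Outline: R253/Blueprint.lean.  Keep the statements unchanged.
-/
import Crest.Agent.R253.MA
import Crest.Agent.R253.Herm

set_option autoImplicit false

namespace Crest.Agent.R253

open MeasureTheory ProbabilityTheory Matrix Filter Topology Crest.Agent.R203N

variable {ι : Type} [Fintype ι] [DecidableEq ι]
variable {α β a b : ℝ} {V : (ι → ℝ) → ℝ} {G T : (ι → ℝ) → ι → ℝ}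

/-- The difference quotients have integral `0`; dominated convergence along `δ = 1/(n+1)`. -/
theorem int_lineDeriv_zero {g g' w : (ι → ℝ) → ℝ} {e : ι → ℝ} (hg : Integrable g) (hw : Integrable w)
    (hb : ∀ x (δ : ℝ), 0 < δ → δ ≤ 1 → |g (x + δ • e) - g x| ≤ δ * w x)
    (hd : ∀ᵐ x ∂(volume : Measure (ι → ℝ)), HasDerivAt (fun δ : ℝ => g (x + δ • e)) (g' x) 0) :
    ∫ x, g' x = 0 := by
  have h1 : ∀ δ : ℝ, Integrable fun x => δ⁻¹ • (g (x + δ • e) - g x) := fun δ =>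
    ((hg.comp_add_right (δ • e)).sub hg).smul δ⁻¹
  have h2 := tendsto_integral_filter_of_dominated_convergence (μ := volume) (l := 𝓝[>] (0 : ℝ))
    (F := fun δ x => δ⁻¹ • (g (x + δ • e) - g x)) (f := g') w
    (Eventually.of_forall fun δ => (h1 δ).aestronglyMeasurable) ?_ hw ?_
  · refine tendsto_nhds_unique h2 (tendsto_const_nhds.congr fun δ => ?_)
    rw [integral_smul, integral_sub (hg.comp_add_right _) hg, integral_add_right_eq_self, sub_self,
      smul_zero]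
  · filter_upwards [Ioc_mem_nhdsGT one_pos] with δ hδ
    refine Eventually.of_forall fun x => ?_
    rw [norm_smul, Real.norm_of_nonneg (inv_nonneg.2 hδ.1.le), inv_mul_le_iff₀ hδ.1]
    exact hb x δ hδ.1 hδ.2
  · filter_upwards [hd] with x hx
    simpa using hx.tendsto_slope_zero_right

/-- Locally Lipschitz with polynomial growth. -/
def PL (F : (ι → ℝ) → ℝ) : Prop := ∃ (C : ℝ) (k : ℕ),
  ∀ x y, ‖x - y‖ ≤ 1 → |F x - F y| ≤ C * (1 + ‖x‖) ^ k * ‖x - y‖

omit [DecidableEq ι] in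
theorem weaka_nn {F : (ι → ℝ) → ℝ} (h : PL F) : ∃ (C : ℝ) (k : ℕ), 0 ≤ C ∧
    ∀ x y, ‖x - y‖ ≤ 1 → |F x - F y| ≤ C * (1 + ‖x‖) ^ k * ‖x - y‖ := by
  obtain ⟨C, k, h⟩ := h
  exact ⟨|C|, k, abs_nonneg C, fun x y hxy => (h x y hxy).trans (by gcongr; exact le_abs_self C)⟩

omit [DecidableEq ι] in
theorem weaka_gr {F : (ι → ℝ) → ℝ} (h : PL F) :
    ∃ (C : ℝ) (k : ℕ), 0 ≤ C ∧ ∀ x, |F x| ≤ C * (1 + ‖x‖) ^ k := by
  obtain ⟨C, k, hC, h⟩ := weaka_nn h
  have H : ∀ (n : ℕ) (x : ι → ℝ), ‖x‖ ≤ n → |F x - F 0| ≤ n * (C * (1 + ‖x‖) ^ k) := by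
    intro n
    induction n with
    | zero => intro x hx; rw [norm_le_zero_iff.1 (by simpa using hx : ‖x‖ ≤ 0)]; simp
    | succ n ih =>
      intro x hx
      push_cast at hx ⊢
      have hn : (0 : ℝ) < n + 1 := by positivity
      have e1 : ‖((n : ℝ) / (n + 1)) • x‖ = n / (n + 1) * ‖x‖ := by
        rw [norm_smul, Real.norm_of_nonneg (by positivity)]
      have e2 : ‖x - ((n : ℝ) / (n + 1)) • x‖ ≤ 1 := by
        have : x - ((n : ℝ) / (n + 1)) • x = (1 / ((n : ℝ) + 1)) • x := by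
          rw [show 1 / ((n : ℝ) + 1) = 1 - n / (n + 1) by field_simp; ring, sub_smul, one_smul]
        rw [this, norm_smul, Real.norm_of_nonneg (by positivity), one_div, inv_mul_le_iff₀ hn]
        linarith
      have e3 : ‖((n : ℝ) / (n + 1)) • x‖ ≤ ‖x‖ := by
        rw [e1]
        exact mul_le_of_le_one_left (norm_nonneg _) ((div_le_one hn).2 (by linarith))
      have a1 := (h x _ e2).trans (mul_le_of_le_one_right (by positivity) e2)
      have a2 := ih ((n / (n + 1) : ℝ) • x) (by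
        rw [e1, div_mul_eq_mul_div, div_le_iff₀ hn]; gcongr)
      have a3 : n * (C * (1 + ‖((n : ℝ) / (n + 1)) • x‖) ^ k) ≤ n * (C * (1 + ‖x‖) ^ k) := by gcongr
      have a4 := abs_sub_le (F x) (F (((n : ℝ) / (n + 1)) • x)) (F 0)
      linarith
  refine ⟨|F 0| + C, k + 1, by positivity, fun x => ?_⟩
  have a1 := H ⌈‖x‖⌉₊ x (Nat.le_ceil _)
  have a2 : (⌈‖x‖⌉₊ : ℝ) ≤ 1 + ‖x‖ := by linarith [Nat.ceil_lt_add_one (norm_nonneg x)]
  have a3 : (⌈‖x‖⌉₊ : ℝ) * (C * (1 + ‖x‖) ^ k) ≤ (1 + ‖x‖) * (C * (1 + ‖x‖) ^ k) := by gcongr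
  have a4 : |F 0| ≤ |F 0| * (1 + ‖x‖) ^ (k + 1) :=
    le_mul_of_one_le_right (abs_nonneg _) (one_le_pow₀ (by linarith [norm_nonneg x]))
  have a5 := abs_sub_abs_le_abs_sub (F x) (F 0)
  calc |F x| ≤ |F 0| * (1 + ‖x‖) ^ (k + 1) + (1 + ‖x‖) * (C * (1 + ‖x‖) ^ k) := by linarith
    _ = _ := by ring

theorem PL.growth {F : (ι → ℝ) → ℝ} (h : PL F) :
    Continuous F ∧ ∃ (C : ℝ) (k : ℕ), ∀ x, |F x| ≤ C * (1 + ‖x‖) ^ k := by
  refine ⟨continuous_iff_continuousAt.2 fun x => ?_, (weaka_gr h).imp fun C hC => hC.imp fun k hk => hk.2⟩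
  obtain ⟨C, k, h⟩ := h
  have h1 : Tendsto (fun y => C * (1 + ‖x‖) ^ k * ‖x - y‖) (𝓝 x) (𝓝 0) := by
    have : Continuous fun y => C * (1 + ‖x‖) ^ k * ‖x - y‖ := by fun_prop
    simpa using this.tendsto x
  refine tendsto_iff_norm_sub_tendsto_zero.2 (squeeze_zero' (Eventually.of_forall fun _ => norm_nonneg _) ?_ h1)
  filter_upwards [Metric.closedBall_mem_nhds x one_pos] with y hy
  rw [Real.norm_eq_abs, abs_sub_comm]
  exact h x y (by rwa [mem_closedBall_iff_norm'] at hy)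

theorem PL.mul {F F' : (ι → ℝ) → ℝ} (h : PL F) (h' : PL F') : PL fun x => F x * F' x := by
  obtain ⟨D, m, hD, g⟩ := weaka_gr h
  obtain ⟨D', m', hD', g'⟩ := weaka_gr h'
  obtain ⟨C, k, hC, h⟩ := weaka_nn h
  obtain ⟨C', k', hC', h'⟩ := weaka_nn h'
  refine ⟨C * D' + (D + C) * C', k + m + (k' + m'), fun x y hxy => ?_⟩
  have hu : 1 ≤ 1 + ‖x‖ := by linarith [norm_nonneg x]
  have b1 : |F x - F y| ≤ C * (1 + ‖x‖) ^ (k + m) * ‖x - y‖ := (h x y hxy).trans (by gcongr; omega)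
  have b2 : |F' x - F' y| ≤ C' * (1 + ‖x‖) ^ (k' + m') * ‖x - y‖ :=
    (h' x y hxy).trans (by gcongr; omega)
  have b3 : |F' x| ≤ D' * (1 + ‖x‖) ^ (k' + m') := (g' x).trans (by gcongr; omega)
  have b4 : |F x| ≤ D * (1 + ‖x‖) ^ (k + m) := (g x).trans (by gcongr; omega)
  have b5 : |F y| ≤ (D + C) * (1 + ‖x‖) ^ (k + m) := by
    have := b1.trans (mul_le_of_le_one_right (by positivity) hxy)
    have := abs_sub_abs_le_abs_sub (F y) (F x)
    rw [abs_sub_comm] at this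
    linarith
  calc |F x * F' x - F y * F' y| = |(F x - F y) * F' x + F y * (F' x - F' y)| := by ring_nf
    _ ≤ |F x - F y| * |F' x| + |F y| * |F' x - F' y| := by
        rw [← abs_mul, ← abs_mul]; exact abs_add_le _ _
    _ ≤ C * (1 + ‖x‖) ^ (k + m) * ‖x - y‖ * (D' * (1 + ‖x‖) ^ (k' + m')) +
        (D + C) * (1 + ‖x‖) ^ (k + m) * (C' * (1 + ‖x‖) ^ (k' + m') * ‖x - y‖) := by gcongr
    _ = _ := by ring

theorem PL_of_lip {F : (ι → ℝ) → ℝ} {K : NNReal} (h : LipschitzWith K F) : PL F :=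
  ⟨K, 0, fun x y _ => by simpa using h.norm_sub_le x y⟩

omit [DecidableEq ι] in
theorem weaka_far {F : (ι → ℝ) → ℝ} (h : PL F) {R : ℝ} (hR : 0 ≤ R) : ∃ (C : ℝ) (k : ℕ), 0 ≤ C ∧
    ∀ x y, ‖x - y‖ ≤ R → |F x - F y| ≤ C * (1 + ‖x‖) ^ k * ‖x - y‖ := by
  obtain ⟨D, m, hD, g⟩ := weaka_gr h
  obtain ⟨C, k, hC, h⟩ := weaka_nn h
  refine ⟨C + (D + D * (1 + R) ^ m), k + m, by positivity, fun x y hxy => ?_⟩
  have hx := norm_nonneg x
  have hu : 1 ≤ 1 + ‖x‖ := by linarith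
  rcases le_total ‖x - y‖ 1 with h1 | h1
  · refine (h x y h1).trans ?_
    gcongr
    · exact le_add_of_nonneg_right (by positivity)
    · omega
  · have a1 : ‖y‖ ≤ ‖x‖ + R := by
      have := norm_sub_norm_le y x
      rw [norm_sub_rev] at this
      linarith
    have a2 : |F y| ≤ D * ((1 + R) * (1 + ‖x‖)) ^ m := (g y).trans (by gcongr; nlinarith)
    have a3 : (1 + ‖x‖) ^ m ≤ (1 + ‖x‖) ^ (k + m) := by gcongr; omega
    calc |F x - F y| ≤ |F x| + |F y| := abs_sub _ _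
      _ ≤ (D + D * (1 + R) ^ m) * (1 + ‖x‖) ^ m * 1 := by rw [mul_pow] at a2; linarith [g x]
      _ ≤ _ := mul_le_mul (mul_le_mul (le_add_of_nonneg_left hC) a3 (by positivity) (by positivity))
          h1 zero_le_one (by positivity)

theorem PL.comp {F : (ι → ℝ) → ℝ} (h : PL F) {S : (ι → ℝ) → ι → ℝ} {K : NNReal}
    (hS : LipschitzWith K S) : PL fun x => F (S x) := by
  obtain ⟨C, k, hC, h⟩ := weaka_far h K.coe_nonneg
  refine ⟨C * (1 + ‖S 0‖ + K) ^ k * K, k, fun x y hxy => ?_⟩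
  have a1 := hS.norm_sub_le x y
  have a2 : 1 + ‖S x‖ ≤ (1 + ‖S 0‖ + K) * (1 + ‖x‖) := by
    have b1 := hS.norm_sub_le x 0
    have b2 := norm_sub_norm_le (S x) (S 0)
    rw [sub_zero] at b1
    nlinarith [norm_nonneg x, norm_nonneg (S 0), K.coe_nonneg]
  calc |F (S x) - F (S y)| ≤ C * (1 + ‖S x‖) ^ k * ‖S x - S y‖ :=
        h _ _ (a1.trans (mul_le_of_le_one_right K.coe_nonneg hxy))
    _ ≤ C * ((1 + ‖S 0‖ + K) * (1 + ‖x‖)) ^ k * (K * ‖x - y‖) := by gcongr
    _ = _ := by rw [mul_pow]; ring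

omit [DecidableEq ι] in
theorem weaka_add {F F' : (ι → ℝ) → ℝ} (h : PL F) (h' : PL F') : PL fun x => F x + F' x := by
  obtain ⟨C, k, hC, h⟩ := weaka_nn h
  obtain ⟨C', k', hC', h'⟩ := weaka_nn h'
  refine ⟨C + C', k + k', fun x y hxy => ?_⟩
  have hu : 1 ≤ 1 + ‖x‖ := by linarith [norm_nonneg x]
  have b1 : |F x - F y| ≤ C * (1 + ‖x‖) ^ (k + k') * ‖x - y‖ := (h x y hxy).trans (by gcongr; omega)
  have b2 : |F' x - F' y| ≤ C' * (1 + ‖x‖) ^ (k + k') * ‖x - y‖ :=
    (h' x y hxy).trans (by gcongr; omega)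
  have b3 := abs_add_le (F x - F y) (F' x - F' y)
  rw [show F x + F' x - (F y + F' y) = F x - F y + (F' x - F' y) by ring]
  linarith

theorem weaka_poly (i : ι) (q : Polynomial ℤ) : PL fun z : ι → ℝ => (Polynomial.aeval (z i) q : ℝ) := by
  induction q using Polynomial.induction_on with
  | C a => simpa using PL_of_lip (LipschitzWith.const (a : ℝ))
  | add p q hp hq => simpa using weaka_add hp hq
  | monomial n a h =>
    simpa only [pow_succ, ← mul_assoc, map_mul, Polynomial.aeval_X] using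
      h.mul (PL_of_lip (LipschitzWith.eval i))

/-- Mean value inequality with `fderiv_He`, `He_growth`. -/
theorem PL_He (p : ι → ℕ) : PL (He p) := by
  have h := Finset.prod_induction (fun (i : ι) (z : ι → ℝ) => he (p i) (z i)) PL
    (fun _ _ h h' => h.mul h') (PL_of_lip (LipschitzWith.const (1 : ℝ)))
    (s := Finset.univ) fun i _ => weaka_poly i _
  rwa [Finset.prod_fn] at h

theorem weakb_exp (t : ℝ) : |Real.exp t - 1| ≤ |t| * Real.exp |t| := by
  rcases le_total 0 t with h | h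
  · rw [abs_of_nonneg h, abs_of_nonneg (sub_nonneg.2 (Real.one_le_exp h))]
    have h1 := Real.add_one_le_exp (-t)
    have h2 : Real.exp (-t) * Real.exp t = 1 := by rw [← Real.exp_add]; simp
    nlinarith [Real.exp_pos t]
  · rw [abs_of_nonpos h, abs_of_nonpos (sub_nonpos.2 (Real.exp_le_one_iff.2 h))]
    have h1 := Real.add_one_le_exp t
    have h2 : 1 ≤ Real.exp (-t) := Real.one_le_exp (by linarith)
    nlinarith

theorem weakb_bound (hV : Reg α β V G) (j : ι) : ∃ A R : ℝ, 0 ≤ A ∧ ∀ (x : ι → ℝ) (δ : ℝ), 0 < δ → δ ≤ 1 →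
    Real.exp (-V (x + δ • (Pi.single j 1 : ι → ℝ))) ≤ A * Real.exp (R * ‖x‖ - α / 2 * (x ⬝ᵥ x)) ∧
    |Real.exp (-V (x + δ • (Pi.single j 1 : ι → ℝ))) - Real.exp (-V x)| ≤
      δ * (A * (1 + ‖x‖) * Real.exp (R * ‖x‖ - α / 2 * (x ⬝ᵥ x))) := by
  have hβ : 0 < β := hV.pos.trans_le hV.le
  have hM : 0 ≤ ∑ i, |G 0 i| := Finset.sum_nonneg fun i _ => abs_nonneg _
  obtain ⟨C, hC0, hC⟩ := SC_growth (ι := ι) β (|V 0| + ∑ i, |G 0 i|) hβ
  have hG := fun x => (hC α V G hV.sc hV.pos.le (by linarith) (fun i =>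
    (Finset.single_le_sum (f := fun i => |G 0 i|) (fun i _ => abs_nonneg _) (Finset.mem_univ i)).trans
      (by linarith [abs_nonneg (V 0)])) x).2 j
  set D := C + β / 2 + 1 with hD
  have hD1 : 1 ≤ D := by linarith
  refine ⟨D * Real.exp (D - V 0), D + ∑ i, |G 0 i|, by positivity, fun x δ h0 h1 => ?_⟩
  have hn := norm_nonneg x
  have e1 : G x ⬝ᵥ (x + δ • (Pi.single j 1 : ι → ℝ) - x) = δ * G x j := by
    rw [add_sub_cancel_left, dotProduct_smul, dotProduct_single_one, smul_eq_mul]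
  have e2 : (x + δ • (Pi.single j 1 : ι → ℝ) - x) ⬝ᵥ (x + δ • (Pi.single j 1 : ι → ℝ) - x) = δ * δ := by
    rw [add_sub_cancel_left, dotProduct_smul, dotProduct_single_one]
    simp
  have lo := hV.sc.lo x (x + δ • (Pi.single j 1 : ι → ℝ))
  have hi := hV.sc.hi x (x + δ • (Pi.single j 1 : ι → ℝ))
  rw [e1, e2] at lo hi
  set y := x + δ • (Pi.single j 1 : ι → ℝ)
  have hg := abs_le.1 (hG x)
  have hu : |V x - V y| ≤ δ * (D * (1 + ‖x‖)) := by
    have p1 : 0 ≤ α / 2 * (δ * δ) := by have := hV.pos; positivity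
    have p2 : β / 2 * (δ * δ) ≤ δ * (β / 2) := by nlinarith [mul_pos hβ h0]
    have p3 : δ * G x j ≤ δ * (C * (1 + ‖x‖)) := mul_le_mul_of_nonneg_left hg.2 h0.le
    have p4 : δ * (-(C * (1 + ‖x‖))) ≤ δ * G x j := mul_le_mul_of_nonneg_left hg.1 h0.le
    have p5 : δ * (C * (1 + ‖x‖)) + δ * (β / 2) ≤ δ * (D * (1 + ‖x‖)) := by
      rw [← mul_add]
      refine mul_le_mul_of_nonneg_left ?_ h0.le
      rw [hD]
      nlinarith
    have p6 : 0 ≤ δ * (β / 2) := by positivity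
    rw [abs_le]
    constructor <;> linarith
  have hE : 0 ≤ D * (1 + ‖x‖) := by positivity
  have hu' : |V x - V y| ≤ D * (1 + ‖x‖) := hu.trans (by nlinarith)
  have l0 := hV.sc.lo 0 x
  rw [sub_zero] at l0
  have d0 : |G 0 ⬝ᵥ x| ≤ (∑ i, |G 0 i|) * ‖x‖ := by
    rw [dotProduct, Finset.sum_mul]
    refine (Finset.abs_sum_le_sum_abs _ _).trans (Finset.sum_le_sum fun i _ => ?_)
    rw [abs_mul]
    exact mul_le_mul_of_nonneg_left (norm_le_pi_norm x i) (abs_nonneg _)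
  have key : Real.exp (D * (1 + ‖x‖)) * Real.exp (-V x) ≤ Real.exp (D - V 0) *
      Real.exp ((D + ∑ i, |G 0 i|) * ‖x‖ - α / 2 * (x ⬝ᵥ x)) := by
    rw [← Real.exp_add, ← Real.exp_add]
    refine Real.exp_le_exp.2 ?_
    have := (abs_le.1 d0).1
    linarith
  set Z := Real.exp ((D + ∑ i, |G 0 i|) * ‖x‖ - α / 2 * (x ⬝ᵥ x))
  have hZ : 0 < Real.exp (D - V 0) * Z := mul_pos (Real.exp_pos _) (Real.exp_pos _)
  have ey : Real.exp (-V y) = Real.exp (V x - V y) * Real.exp (-V x) := by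
    rw [← Real.exp_add]; congr 1; ring
  constructor
  · rw [ey]
    calc _ ≤ Real.exp (D * (1 + ‖x‖)) * Real.exp (-V x) :=
          mul_le_mul_of_nonneg_right (Real.exp_le_exp.2 ((le_abs_self _).trans hu')) (Real.exp_pos _).le
      _ ≤ _ := key.trans (by nlinarith)
  · have e3 : Real.exp (-V y) - Real.exp (-V x) = (Real.exp (V x - V y) - 1) * Real.exp (-V x) := by
      rw [ey]; ring
    rw [e3, abs_mul, abs_of_pos (Real.exp_pos (-V x))]
    calc _ ≤ (δ * (D * (1 + ‖x‖)) * Real.exp (D * (1 + ‖x‖))) * Real.exp (-V x) := by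
          refine mul_le_mul_of_nonneg_right ((weakb_exp _).trans ?_) (Real.exp_pos _).le
          exact mul_le_mul hu (Real.exp_le_exp.2 hu') (Real.exp_pos _).le (by positivity)
      _ = δ * (D * (1 + ‖x‖)) * (Real.exp (D * (1 + ‖x‖)) * Real.exp (-V x)) := by ring
      _ ≤ δ * (D * (1 + ‖x‖)) * (Real.exp (D - V 0) * Z) :=
          mul_le_mul_of_nonneg_left key (by positivity)
      _ = _ := by ring

/-- Integration by parts against `exp (-V)`: `int_lineDeriv_zero` for `F exp (-V)`;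
`|exp (-V y) - exp (-V x)| ≤ C (1+|x|) exp (R|x| - α|x|²/2) |x-y|` for `|x-y| ≤ 1`, `integrable_gauss`. -/
theorem ibp_muV (hV : Reg α β V G) {F F' : (ι → ℝ) → ℝ} (hF : PL F) (j : ι)
    (hd : ∀ᵐ x ∂(volume : Measure (ι → ℝ)),
      HasDerivAt (fun δ : ℝ => F (x + δ • (Pi.single j 1 : ι → ℝ))) (F' x) 0) :
    ∫ x, (F' x - G x j * F x) * Real.exp (-V x) = 0 := by
  obtain ⟨hFc, C₂, k₂, h₂⟩ := hF.growth
  obtain ⟨C₁, k₁, h₁⟩ := hF
  obtain ⟨A, R, hA, hb⟩ := weakb_bound hV j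
  have hα : 0 < α / 2 := half_pos hV.pos
  refine int_lineDeriv_zero (g := fun x => F x * Real.exp (-V x)) (e := Pi.single j 1)
    (w := fun x => |C₁| * A * ((1 + ‖x‖) ^ k₁ * Real.exp (R * ‖x‖ - α / 2 * (x ⬝ᵥ x))) +
      |C₂| * A * ((1 + ‖x‖) ^ (k₂ + 1) * Real.exp (R * ‖x‖ - α / 2 * (x ⬝ᵥ x)))) ?_ ?_ ?_ ?_
  · simpa using hV.sc.integrable hV.pos 0 hFc.aestronglyMeasurable h₂
  · exact ((integrable_gauss hα R k₁).const_mul _).add ((integrable_gauss hα R (k₂ + 1)).const_mul _)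
  · intro x δ h0 h1
    obtain ⟨b1, b2⟩ := hb x δ h0 h1
    have hn : ‖x - (x + δ • (Pi.single j 1 : ι → ℝ))‖ = δ := by
      rw [sub_add_cancel_left, norm_neg, norm_smul, Pi.norm_single, norm_one, mul_one,
        Real.norm_of_nonneg h0.le]
    have b3 := h₁ x (x + δ • (Pi.single j 1 : ι → ℝ)) (hn.trans_le h1)
    rw [hn, abs_sub_comm] at b3
    set y := x + δ • (Pi.single j 1 : ι → ℝ)
    set Z := Real.exp (R * ‖x‖ - α / 2 * (x ⬝ᵥ x))
    have hZ : 0 < Z := Real.exp_pos _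
    have hx : 0 < 1 + ‖x‖ := by positivity
    have b4 : |F y - F x| ≤ |C₁| * (1 + ‖x‖) ^ k₁ * δ :=
      b3.trans (by gcongr; exact le_abs_self _)
    have b5 : |F x| ≤ |C₂| * (1 + ‖x‖) ^ k₂ := (h₂ x).trans (by gcongr; exact le_abs_self _)
    have e : F y * Real.exp (-V y) - F x * Real.exp (-V x) =
        (F y - F x) * Real.exp (-V y) + F x * (Real.exp (-V y) - Real.exp (-V x)) := by ring
    beta_reduce
    rw [e]
    refine (abs_add_le _ _).trans ?_
    rw [abs_mul, abs_mul, abs_of_pos (Real.exp_pos (-V y))]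
    calc _ ≤ |C₁| * (1 + ‖x‖) ^ k₁ * δ * (A * Z) +
          |C₂| * (1 + ‖x‖) ^ k₂ * (δ * (A * (1 + ‖x‖) * Z)) := by
          gcongr
      _ = _ := by ring
  · filter_upwards [hd] with x hx
    have hl : HasDerivAt (fun δ : ℝ => x + δ • (Pi.single j 1 : ι → ℝ)) (Pi.single j 1) 0 := by
      simpa using ((hasDerivAt_id (0 : ℝ)).smul_const (Pi.single j 1 : ι → ℝ)).const_add x
    have hv : HasDerivAt (fun δ : ℝ => V (x + δ • (Pi.single j 1 : ι → ℝ))) (G x j) 0 := by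
      have := (hV.sc.hasFDerivAt x).comp_hasDerivAt_of_eq (0 : ℝ) hl (by simp)
      rwa [Proj2_T_apply, dotProduct_single_one] at this
    refine (hx.mul hv.neg.exp).congr_deriv ?_
    simp
    ring

/-! ### Second part -/

/-- `ibp_muV` for `F ∘ S`, `S = T⁻¹` (`SC.exists_inverse`).  At `x = T z` with `T`, `F` differentiable at `z`, `S`
has the derivative `clm (jac z)⁻¹` (`HasFDerivAt.of_local_left_inverse`).  The good set: `map S (muV V) = γ`,
`ae_of_ae_map`, `volume ≪ muV V`.  Transport back with `Br.int`. -/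
theorem weak_PL (h : Br a b V T) (hV : Reg α β V G) {F : (ι → ℝ) → ℝ} (hF : PL F)
    (hd : ∀ᵐ z ∂(volume : Measure (ι → ℝ)), DifferentiableAt ℝ F z) (j : ι) :
    ∫ z, ((∑ i, (jac a T z)⁻¹ i j * fderiv ℝ F z (Pi.single i 1)) - G (T z) j * F z) ∂γ ι = 0 := by
  obtain ⟨Ψ, hΨ⟩ := h.pot
  obtain ⟨S, K, hS, hST, hTS, -⟩ := hΨ.exists_inverse h.pos
  have hSm : Measurable S := hS.continuous.measurable
  have hmap : Measure.map S (muV V) = γ ι := by
    rw [← h.push, Measure.map_map hSm h.measurable]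
    have : S ∘ T = id := funext hST
    rw [this, Measure.map_id]
  have hac : (volume : Measure (ι → ℝ)) ≪ muV V := by
    refine withDensity_absolutelyContinuous' ?_ (Eventually.of_forall fun x => ?_)
    · exact (Measurable.ennreal_ofReal (hV.sc.continuous.neg.rexp.measurable)).aemeasurable
    · exact (ENNReal.ofReal_pos.2 (Real.exp_pos _)).ne'
  have hgood : ∀ᵐ x ∂(volume : Measure (ι → ℝ)),
      HasFDerivAt T (clm (jac a T (S x))) (S x) ∧ DifferentiableAt ℝ F (S x) := by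
    refine hac.ae_le (ae_of_ae_map (p := fun z => HasFDerivAt T (clm (jac a T z)) z ∧
      DifferentiableAt ℝ F z) hSm.aemeasurable ?_)
    rw [hmap]
    exact γ_ac.ae_le (h.ae_diff.and hd)
  have key := ibp_muV hV (hF.comp hS) j (F' := fun x =>
    ∑ i, (jac a T (S x))⁻¹ i j * fderiv ℝ F (S x) (Pi.single i 1)) (by
      filter_upwards [hgood] with x hx
      have hu : IsUnit (jac a T (S x)).det := ((h.Sp (S x)).det_pos h.pos).ne'.isUnit
      let L : (ι → ℝ) ≃L[ℝ] (ι → ℝ) := ContinuousLinearEquiv.equivOfInverse (clm (jac a T (S x)))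
        (clm (jac a T (S x))⁻¹)
        (fun v => by rw [clm_apply, clm_apply, mulVec_mulVec, nonsing_inv_mul _ hu, one_mulVec])
        (fun v => by rw [clm_apply, clm_apply, mulVec_mulVec, mul_nonsing_inv _ hu, one_mulVec])
      have hSd : HasFDerivAt S (clm (jac a T (S x))⁻¹) x :=
        HasFDerivAt.of_local_left_inverse (f' := L) hS.continuous.continuousAt hx.1
          (Eventually.of_forall hTS)
      have hl : HasDerivAt (fun δ : ℝ => x + δ • (Pi.single j 1 : ι → ℝ)) (Pi.single j 1) 0 := by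
        simpa using ((hasDerivAt_id (0 : ℝ)).smul_const (Pi.single j 1 : ι → ℝ)).const_add x
      refine ((hx.2.hasFDerivAt.comp x hSd).comp_hasDerivAt_of_eq (0 : ℝ) hl (by simp)).congr_deriv ?_
      have e : (jac a T (S x))⁻¹ *ᵥ (Pi.single j 1 : ι → ℝ) =
          ∑ i, (jac a T (S x))⁻¹ i j • (Pi.single i 1 : ι → ℝ) := by
        funext l
        simp [Finset.sum_apply, Pi.single_apply]
      rw [ContinuousLinearMap.comp_apply, clm_apply, e, map_sum]
      simp only [map_smul, smul_eq_mul])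
  have hGc : Continuous G := hV.sc.continuous_grad hV.pos.le (hV.pos.trans_le hV.le)
  have hm : Measurable fun x => (∑ i, (jac a T (S x))⁻¹ i j * fderiv ℝ F (S x) (Pi.single i 1)) -
      G x j * F (S x) := by
    refine (Finset.measurable_sum _ fun i _ => ((measurable_inv_jac h i j).comp hSm).mul
      ((measurable_fderiv_apply_const ℝ F _).comp hSm)).sub ?_
    exact ((continuous_apply j).comp hGc).measurable.mul (hF.growth.1.measurable.comp hSm)
  rw [← int_muV hV.sc.continuous, ← h.int hm] at key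
  simpa only [hST] using key

theorem weakc_L2 {F : (ι → ℝ) → ℝ} (hF : PL F) : L2 F := by
  obtain ⟨hc, C, k, hC⟩ := hF.growth
  exact L2_of_growth hc.aestronglyMeasurable C k hC

theorem weakc_mul {m f : (ι → ℝ) → ℝ} (hm : Measurable m) {C : ℝ} (hC : ∀ z, |m z| ≤ C) (hf : L2 f) :
    L2 fun z => m z * f z := by
  refine MemLp.of_le_mul (c := C) hf (hm.aestronglyMeasurable.mul hf.1)
    (Eventually.of_forall fun z => ?_)
  rw [norm_mul]
  exact mul_le_mul_of_nonneg_right (hC z) (norm_nonneg _)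

theorem L2_GT (h : Br a b V T) (hV : Reg α β V G) (j : ι) : L2 fun z => G (T z) j := by
  obtain ⟨K, hK⟩ := h.lipschitz
  have hG := hV.sc.lipschitz hV.pos.le (hV.pos.trans_le hV.le)
  exact weakc_L2 (PL_of_lip ((LipschitzWith.eval j).comp (hG.comp hK)))

/-- `weak_PL` for `F = He p * u` (product rule, `fderiv_He`), then `WG_test`. -/
theorem weak_WG (h : Br a b V T) (hV : Reg α β V G) {u : (ι → ℝ) → ℝ} {K : NNReal}
    (hu : LipschitzWith K u) {C : ℝ} (hC : ∀ z, |u z| ≤ C) {ρ : (ι → ℝ) → ℝ}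
    {r : ι → (ι → ℝ) → ℝ} (hρ : WG ρ r) (j : ι) :
    (∑ i, ∫ z, r i z * ((jac a T z)⁻¹ i j * u z) ∂γ ι) + ∫ z, ρ z *
      ((∑ i, (jac a T z)⁻¹ i j * fderiv ℝ u z (Pi.single i 1)) - G (T z) j * u z) ∂γ ι = 0 := by
  have huL : L2 u := weakc_L2 (PL_of_lip hu)
  have hdu : ∀ i, L2 fun z => fderiv ℝ u z (Pi.single i 1 : ι → ℝ) := fun i => by
    refine L2_of_growth (measurable_fderiv_apply_const ℝ u _).aestronglyMeasurable K 0 fun z => ?_
    rw [pow_zero, mul_one, ← Real.norm_eq_abs]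
    refine ((fderiv ℝ u z).le_opNorm _).trans ?_
    rw [Pi.norm_single, norm_one, mul_one]
    exact norm_fderiv_le_of_lipschitz ℝ hu
  have hA : ∀ i, L2 fun z => (jac a T z)⁻¹ i j * u z := fun i =>
    weakc_mul (measurable_inv_jac h i j) (fun z => (h.abs_le z i j).2) huL
  have hB : L2 fun z =>
      (∑ i, (jac a T z)⁻¹ i j * fderiv ℝ u z (Pi.single i 1)) - G (T z) j * u z := by
    refine Herm4_L2_sub (Herm4_L2_sum _ fun i _ =>
      weakc_mul (measurable_inv_jac h i j) (fun z => (h.abs_le z i j).2) (hdu i)) ?_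
    simpa only [mul_comm] using weakc_mul hu.continuous.measurable hC (L2_GT h hV j)
  refine WG_test hA hB (fun p => ?_) hρ
  have hHe : ∀ z, DifferentiableAt ℝ (He p) z := fun z =>
    (contDiff_He p).differentiable one_ne_zero z
  have hdiff : ∀ᵐ z ∂(volume : Measure (ι → ℝ)), DifferentiableAt ℝ u z := hu.ae_differentiableAt
  have key := weak_PL h hV ((PL_He p).mul (PL_of_lip hu)) (by
    filter_upwards [hdiff] with z hz using (hHe z).mul hz) j
  rw [← key]
  unfold co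
  simp only [← integral_const_mul]
  rw [← integral_finsetSum _ fun i _ => ((hA i).mul_int (L2_He _)).const_mul _,
    ← integral_add (integrable_finsetSum _ fun i _ => ((hA i).mul_int (L2_He _)).const_mul _)
      (hB.mul_int (L2_He _))]
  refine integral_congr_ae ?_
  filter_upwards [γ_ac.ae_le hdiff] with z hz
  have e : ∀ i, fderiv ℝ (fun x => He p x * u x) z (Pi.single i 1) =
      He p z * fderiv ℝ u z (Pi.single i 1) + u z * ((p i : ℝ) * He (p - Pi.single i 1) z) := by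
    intro i
    rw [fderiv_fun_mul (hHe z) hz, ← fderiv_He]
    simp
  simp only [e, mul_add, Finset.sum_add_distrib, sub_mul, Finset.sum_mul]
  have e1 : ∑ i, (p i : ℝ) * ((jac a T z)⁻¹ i j * u z * He (p - Pi.single i 1) z) =
      ∑ i, (jac a T z)⁻¹ i j * (u z * ((p i : ℝ) * He (p - Pi.single i 1) z)) :=
    Finset.sum_congr rfl fun i _ => by ring
  have e2 : ∑ i, (jac a T z)⁻¹ i j * fderiv ℝ u z (Pi.single i 1) * He p z =
      ∑ i, (jac a T z)⁻¹ i j * (He p z * fderiv ℝ u z (Pi.single i 1)) :=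
    Finset.sum_congr rfl fun i _ => by ring
  rw [e1, e2]
  ring

theorem weak_coord (h : Br a b V T) (hV : Reg α β V G) (i j : ι) :
    ∫ z, (jac a T z)⁻¹ i j ∂γ ι = ∫ z, G (T z) j * z i ∂γ ι := by
  have key := weak_PL h hV (F := fun z => z i) (PL_of_lip (LipschitzWith.eval i))
    (Eventually.of_forall fun z => differentiableAt_apply i z) j
  have e : ∀ (z : ι → ℝ) (k : ι), fderiv ℝ (fun z : ι → ℝ => z i) z (Pi.single k 1) =
      if k = i then 1 else 0 := by
    intro z k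
    rw [(hasFDerivAt_apply i z).fderiv]
    simp [Pi.single_apply, eq_comm]
  simp only [e, mul_ite, mul_one, mul_zero, Finset.sum_ite_eq', Finset.mem_univ, if_true] at key
  have h1 : L2 fun z => (jac a T z)⁻¹ i j :=
    L2_of_growth (measurable_inv_jac h i j).aestronglyMeasurable a⁻¹ 0 fun z => by
      simpa using (h.abs_le z i j).2
  rwa [integral_sub h1.int ((L2_GT h hV j).mul_int (L2_coord i)), sub_eq_zero] at key

end Crest.Agent.R253
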