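/-
Row 253 (S0390, S0391), file Con1.  The second-order difference inequality and the third derivatives of the potential.
Definitions: R253/Fun.lean, R253/Defs.lean.  Outline: R253/Blueprint.lean.  Keep the statements unchanged.
-/
import Crest.Agent.R253.Weak
import Crest.Agent.R253.DQ
import Crest.Agent.R253.Core0

set_option autoImplicit false

namespace Crest.Agent.R253

open MeasureTheory ProbabilityTheory Matrix Filter Topology Crest.Agent.R203N

variable {ι : Type} [Fintype ι] [DecidableEq ι]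
variable {α β a b : ℝ} {V : (ι → ℝ) → ℝ} {G T : (ι → ℝ) → ι → ℝ}

/-- `t k = ∂_k (jac a T)`. -/
structure Thd (a : ℝ) (T : (ι → ℝ) → ι → ℝ) (t : ι → (ι → ℝ) → Matrix ι ι ℝ) : Prop where
  meas : ∀ k i j, Measurable fun z => t k z i j
  symm : ∀ k z, (t k z).IsSymm
  dq : ∀ i j, DQ (fun z => jac a T z i j) fun k z => t k z i j

theorem BM_jac (h : Br a b V T) : BM (jac a T) :=
  ⟨measurable_jac a T, b, fun z i j => (h.abs_le z i j).1⟩

theorem BM_inv_jac (h : Br a b V T) : BM fun z => (jac a T z)⁻¹ :=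
  ⟨measurable_inv_jac h, a⁻¹, fun z i j => (h.abs_le z i j).2⟩

theorem d2_lip (h : Br a b V T) (v : ι → ℝ) (j : ι) :
    (∃ K, LipschitzWith K fun z => d2 T v z j) ∧ ∃ C : ℝ, ∀ z, |d2 T v z j| ≤ C := by
  obtain ⟨K, hK⟩ := h.lipschitz
  have key : ∀ x y, |T x j - T y j| ≤ K * ‖x - y‖ := fun x y =>
    (norm_le_pi_norm (T x - T y) j).trans (hK.norm_sub_le x y)
  have e : ∀ z, d2 T v z j = T (z + v) j + T (z - v) j - 2 * T z j := fun z => rfl
  refine ⟨⟨4 * K, LipschitzWith.of_dist_le_mul fun x y => ?_⟩, K * ‖v‖ + K * ‖v‖, fun z => ?_⟩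
  · have h1 := abs_le.1 (key (x + v) (y + v))
    have h2 := abs_le.1 (key (x - v) (y - v))
    have h3 := abs_le.1 (key x y)
    rw [add_sub_add_right_eq_sub] at h1
    rw [sub_sub_sub_cancel_right] at h2
    rw [Real.dist_eq, dist_eq_norm, e, e, abs_le]
    push_cast
    constructor <;> linarith [h1.1, h1.2, h2.1, h2.2, h3.1, h3.2]
  · have h1 := abs_le.1 (key (z + v) z)
    have h2 := abs_le.1 (key (z - v) z)
    rw [add_sub_cancel_left] at h1
    rw [sub_sub_cancel_left, norm_neg] at h2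
    rw [e, abs_le]
    constructor <;> linarith [h1.1, h1.2, h2.1, h2.2]

omit [DecidableEq ι] in
theorem con1a_shift {p : (ι → ℝ) → Prop} (h : ∀ᵐ z ∂(volume : Measure (ι → ℝ)), p z) (v : ι → ℝ) :
    ∀ᵐ z ∂(volume : Measure (ι → ℝ)), p (z + v) ∧ p (z - v) := by
  refine ((measurePreserving_add_right volume v).quasiMeasurePreserving.ae h).and ?_
  simp only [sub_eq_add_neg]
  exact (measurePreserving_add_right volume (-v)).quasiMeasurePreserving.ae h

/-- `Br.ae_diff` and translation invariance of `volume`. -/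
theorem d2_fderiv (h : Br a b V T) (v : ι → ℝ) : ∀ᵐ z ∂(volume : Measure (ι → ℝ)), ∀ i j,
    fderiv ℝ (fun z => d2 T v z j) z (Pi.single i 1) =
      (jac a T (z + v) + jac a T (z - v) - (2 : ℝ) • jac a T z) j i := by
  filter_upwards [h.ae_diff, con1a_shift h.ae_diff v] with z h0 ⟨h1, h2⟩ i j
  have h3 : HasFDerivAt (fun z => T (z + v)) (clm (jac a T (z + v))) z := by
    simpa using h1.comp z ((hasFDerivAt_id z).add_const v)
  have h4 : HasFDerivAt (fun z => T (z - v)) (clm (jac a T (z - v))) z := by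
    simpa using h2.comp z ((hasFDerivAt_id z).sub_const v)
  have h5 : HasFDerivAt (d2 T v)
      (clm (jac a T (z + v)) + clm (jac a T (z - v)) - (2 : ℝ) • clm (jac a T z)) z :=
    (h3.add h4).sub (h0.const_smul (2 : ℝ))
  have h6 : HasFDerivAt (fun z => d2 T v z j) ((ContinuousLinearMap.proj j : (ι → ℝ) →L[ℝ] ℝ).comp
      (clm (jac a T (z + v)) + clm (jac a T (z - v)) - (2 : ℝ) • clm (jac a T z))) z :=
    (ContinuousLinearMap.proj j : (ι → ℝ) →L[ℝ] ℝ).hasFDerivAt.comp z h5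
  rw [h6.fderiv]
  simp only [ContinuousLinearMap.comp_apply, _root_.sub_apply, _root_.add_apply,
    _root_.smul_apply, clm_apply, ContinuousLinearMap.proj_apply, Matrix.mulVec_single_one]
  rfl

theorem qd_bdd (ha : 0 < a) (hab : a ≤ b) : ∃ C : ℝ, ∀ H H' : Matrix ι ι ℝ, Sp a b H → Sp a b H' →
    0 ≤ qd H H' ∧ qd H H' ≤ C := by
  refine ⟨2 * (dim ι * (|Real.log a| + |Real.log b|)) + ∑ _i : ι, ∑ _j : ι, a⁻¹ * (b + b),
    fun H H' hH hH' => ⟨le_trans ?_ (qd_lower ha hab hH hH'), ?_⟩⟩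
  · have : 0 ≤ hs (H' - H) := Finset.sum_nonneg fun _ _ => Finset.sum_nonneg fun _ _ => sq_nonneg _
    positivity
  · have hb := ha.trans_le hab
    have h1 := abs_le.1 (MAb_abs_log_det hH ha)
    have h2 := abs_le.1 (MAb_abs_log_det hH' ha)
    have h3 : (H⁻¹ * (H' - H)).trace ≤ ∑ _i : ι, ∑ _j : ι, a⁻¹ * (b + b) := by
      simp only [Matrix.trace, Matrix.diag_apply, Matrix.mul_apply]
      refine Finset.sum_le_sum fun i _ => Finset.sum_le_sum fun j _ => (le_abs_self _).trans ?_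
      rw [abs_mul, Matrix.sub_apply]
      exact mul_le_mul (((hH.inv ha).mono (by linarith [inv_pos.2 hb, inv_pos.2 ha]) le_rfl).abs_le i j)
        ((abs_sub _ _).trans (add_le_add ((hH'.mono (by linarith) le_rfl).abs_le j i)
          ((hH.mono (by linarith) le_rfl).abs_le j i))) (abs_nonneg _) (inv_pos.2 ha).le
    rw [qd]
    linarith [h1.2, h2.1]

theorem measurable_qd (h : Br a b V T) (v : ι → ℝ) :
    Measurable fun z => qd (jac a T z) (jac a T (z + v)) := by
  have hs : Measurable fun z : ι → ℝ => z + v := measurable_add_const v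
  simp only [qd, Matrix.trace, Matrix.diag_apply, Matrix.mul_apply, Matrix.sub_apply]
  exact ((MAb_measurable_det a T).log.add (Finset.measurable_sum _ fun i _ => Finset.measurable_sum _
    fun j _ => (measurable_inv_jac h i j).mul (((measurable_jac a T j i).comp hs).sub
      (measurable_jac a T j i)))).sub ((MAb_measurable_det a T).comp hs).log

/-- `Br.MA` at `z`, `z + v`, `z - v` and `hV.sc.lo` at `T z`. -/
theorem qd_ae (h : Br a b V T) (hV : Reg α β V G) (v : ι → ℝ) :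
    ∀ᵐ z ∂(volume : Measure (ι → ℝ)),
      qd (jac a T z) (jac a T (z + v)) + qd (jac a T z) (jac a T (z - v)) ≤
        v ⬝ᵥ v + (((jac a T z)⁻¹ * (jac a T (z + v) + jac a T (z - v) - (2 : ℝ) • jac a T z)).trace
          - G (T z) ⬝ᵥ d2 T v z) := by
  filter_upwards [h.MA hV, con1a_shift (h.MA hV) v] with z h0 ⟨h1, h2⟩
  have h3 := hV.sc.lo (T z) (T (z + v))
  have h4 := hV.sc.lo (T z) (T (z - v))
  have h5 := mul_nonneg hV.pos.le (Proj1_dot_self_nonneg (T (z + v) - T z))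
  have h6 := mul_nonneg hV.pos.le (Proj1_dot_self_nonneg (T (z - v) - T z))
  have e1 : jac a T (z + v) + jac a T (z - v) - (2 : ℝ) • jac a T z =
      (jac a T (z + v) - jac a T z) + (jac a T (z - v) - jac a T z) := by module
  have e2 : d2 T v z = (T (z + v) - T z) + (T (z - v) - T z) := by
    rw [d2]
    module
  have e3 : (z + v) ⬝ᵥ (z + v) + (z - v) ⬝ᵥ (z - v) = 2 * (z ⬝ᵥ z) + 2 * (v ⬝ᵥ v) := by
    simp only [add_dotProduct, dotProduct_add, sub_dotProduct, dotProduct_sub]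
    ring
  rw [e1, e2, Matrix.mul_add, trace_add, dotProduct_add, qd, qd, h0, h1, h2]
  linarith

theorem Con1b_int (h : Br a b V T) {ρ : (ι → ℝ) → ℝ} (hρ : L2 ρ) (v : ι → ℝ) :
    Integrable (fun z => ρ z * (qd (jac a T z) (jac a T (z + v)) + qd (jac a T z) (jac a T (z - v)))) (γ ι) := by
  obtain ⟨C, hC⟩ := qd_bdd (ι := ι) h.pos h.le
  have h1 : ∀ w, L2 fun z => qd (jac a T z) (jac a T (z + w)) * ρ z := fun w =>
    Core0a_mul (C := C) (measurable_qd h w) (fun z => by
      have := hC _ _ (h.Sp z) (h.Sp (z + w))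
      rw [abs_of_nonneg this.1]
      exact this.2) hρ
  refine ((h1 v).int.add (h1 (-v)).int).congr (Eventually.of_forall fun z => ?_)
  simp only [Pi.add_apply, sub_eq_add_neg]
  ring

/-- `qd_ae` times `ρ`, and `weak_WG` for `u = d2 T v · j`, summed over `j`. -/
theorem basic_ineq (h : Br a b V T) (hV : Reg α β V G) {ρ : (ι → ℝ) → ℝ} {r : ι → (ι → ℝ) → ℝ}
    (hρ : WG ρ r) (h0 : ∀ z, 0 ≤ ρ z) (v : ι → ℝ) :
    (∫ z, ρ z * (qd (jac a T z) (jac a T (z + v)) + qd (jac a T z) (jac a T (z - v))) ∂γ ι)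
      + ∑ i, ∑ j, ∫ z, r i z * ((jac a T z)⁻¹ i j * d2 T v z j) ∂γ ι ≤
        (v ⬝ᵥ v) * ∫ z, ρ z ∂γ ι := by
  have hJ : ∀ w, LM fun z => jac a T (z + w) := fun w =>
    BM.lm ⟨fun i j => (measurable_jac a T i j).comp (measurable_add_const w), b, fun z i j => (h.abs_le _ i j).1⟩
  obtain ⟨D, hD⟩ : ∃ D : (ι → ℝ) → Matrix ι ι ℝ,
    D = fun z => jac a T (z + v) + jac a T (z - v) - (2 : ℝ) • jac a T z := ⟨_, rfl⟩
  have hDL : LM D := by
    simp only [hD, sub_eq_add_neg _ v]
    exact ((hJ v).add (hJ (-v))).sub ((BM_jac h).lm.smul 2)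
  have hB : ∀ j, Integrable (fun z => ρ z * ((D z * (jac a T z)⁻¹) j j - G (T z) j * d2 T v z j)) (γ ι) := fun j => by
    obtain ⟨⟨K, hK⟩, C, hC⟩ := d2_lip h v j
    refine hρ.u2.mul_int ((hDL.mul_BM (BM_inv_jac h) j j).sub ?_)
    simpa only [mul_comm] using Core0a_mul hK.continuous.measurable hC (L2_GT h hV j)
  have hw : ∀ j, (∑ i, ∫ z, r i z * ((jac a T z)⁻¹ i j * d2 T v z j) ∂γ ι) +
      ∫ z, ρ z * ((D z * (jac a T z)⁻¹) j j - G (T z) j * d2 T v z j) ∂γ ι = 0 := fun j => by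
    obtain ⟨⟨K, hK⟩, C, hC⟩ := d2_lip h v j
    rw [← weak_WG h hV hK hC hρ j]
    congr 1
    refine integral_congr_ae ?_
    filter_upwards [γ_ac (d2_fderiv h v)] with z hz
    simp only [hz, hD, Matrix.mul_apply, mul_comm]
  have h1 := Finset.sum_congr rfl fun j (_ : j ∈ Finset.univ) => hw j
  rw [Finset.sum_add_distrib, Finset.sum_comm, ← integral_finsetSum _ fun j _ => hB j, Finset.sum_const_zero] at h1
  have h2 := integral_mono_ae (Con1b_int h hρ.u2 v)
    ((hρ.u2.int.const_mul (v ⬝ᵥ v)).add (integrable_finsetSum Finset.univ fun j _ => hB j)) (by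
      filter_upwards [γ_ac (qd_ae h hV v)] with z hz
      refine (mul_le_mul_of_nonneg_left hz (h0 z)).trans_eq ?_
      rw [Matrix.trace_mul_comm, Pi.add_apply, ← Finset.mul_sum, Finset.sum_sub_distrib, hD]
      simp only [Matrix.trace, Matrix.diag, dotProduct]
      ring)
  rw [integral_add' (hρ.u2.int.const_mul _) (integrable_finsetSum Finset.univ fun j _ => hB j),
    integral_const_mul] at h2
  linarith

/-- `basic_ineq` with `ρ = 1`, `v = δ g`; `qd_lower`. -/
theorem dq_jac (h : Br a b V T) (hV : Reg α β V G) (g : ι → ℝ) {δ : ℝ} (hδ : δ ≠ 0) (i j : ι) :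
    ∫ z, dq (fun z => jac a T z i j) g δ z ^ 2 ∂γ ι ≤ 2 * b ^ 4 / a ^ 2 * (g ⬝ᵥ g) := by
  have ha := h.pos
  have hb := h.pos.trans_le h.le
  obtain ⟨C, hC⟩ := qd_bdd (ι := ι) h.pos h.le
  have h1 := basic_ineq h hV (WG_const 1) (fun _ => zero_le_one) (δ • g)
  simp only [zero_mul, integral_zero, Finset.sum_const_zero, add_zero, integral_const, probReal_univ, smul_eq_mul,
    mul_one, smul_dotProduct, dotProduct_smul] at h1
  have h2 := integral_mono_of_nonneg (f := fun z => dq (fun z => jac a T z i j) g δ z ^ 2)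
    (Eventually.of_forall fun z => sq_nonneg _)
    ((Con1b_int h (WG_const 1).u2 (δ • g)).const_mul (2 * b ^ 4 / a ^ 2 / δ ^ 2)) (Eventually.of_forall fun z => by
      have h3 := qd_lower ha h.le (h.Sp z) (h.Sp (z + δ • g))
      have h4 := (hC _ _ (h.Sp z) (h.Sp (z - δ • g))).1
      have h5 : (jac a T (z + δ • g) i j - jac a T z i j) ^ 2 ≤ hs (jac a T (z + δ • g) - jac a T z) :=
        (Finset.single_le_sum (f := fun j => (jac a T (z + δ • g) - jac a T z) i j ^ 2)
          (fun _ _ => sq_nonneg _) (Finset.mem_univ j)).trans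
          (Finset.single_le_sum (f := fun i => ∑ j, (jac a T (z + δ • g) - jac a T z) i j ^ 2)
            (fun _ _ => Finset.sum_nonneg fun _ _ => sq_nonneg _) (Finset.mem_univ i))
      have h6 := (mul_le_mul_of_nonneg_left h5 (by positivity : 0 ≤ a ^ 2 / (2 * b ^ 4))).trans
        (h3.trans (le_add_of_nonneg_right h4))
      refine le_trans (le_of_eq ?_) (mul_le_mul_of_nonneg_left (h6.trans_eq (one_mul _).symm) (by positivity))
      simp only [dq]
      field_simp)
  rw [integral_const_mul] at h2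
  refine h2.trans ((mul_le_mul_of_nonneg_left h1 (by positivity)).trans_eq ?_)
  field_simp

/-- `exists_DQ` for every entry; symmetrise: `t k z i j = (r i j k z + r j i k z)/2`. -/
theorem exists_Thd (h : Br a b V T) (hV : Reg α β V G) : ∃ t, Thd a T t ∧
    ∀ k i j, ∫ z, t k z i j ^ 2 ∂γ ι ≤ 2 * b ^ 4 / a ^ 2 := by
  have h1 := fun i j => exists_DQ (measurable_jac a T i j) (fun z => (h.abs_le z i j).1)
    (fun g => ⟨_, fun δ hδ => dq_jac h hV g hδ i j⟩) (c := 2 * b ^ 4 / a ^ 2)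
    fun k δ hδ => (dq_jac h hV _ hδ i j).trans_eq (by simp)
  choose r hm hd hc using h1
  have h2 : ∀ i j k, r i j k =ᵐ[γ ι] fun z => (r i j k z + r j i k z) / 2 := fun i j k => by
    have h3 : (fun z => jac a T z j i) = fun z => jac a T z i j := funext fun z => (h.Sp z).1.apply i j
    filter_upwards [WG_unique (hd i j).wg (h3 ▸ (hd j i).wg) k] with z hz
    rw [← hz]
    ring
  refine ⟨fun k z => Matrix.of fun i j => (r i j k z + r j i k z) / 2,
    ⟨fun k i j => ((hm i j k).add (hm j i k)).div_const 2, fun k z => Matrix.IsSymm.ext fun i j => ?_,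
      fun i j => ⟨(hd i j).meas, (hd i j).bdd, (hd i j).wg.congr EventuallyEq.rfl (h2 i j), (hd i j).bound⟩⟩,
    fun k i j => le_trans (le_of_eq (integral_congr_ae ?_)) (hc i j k)⟩
  · simp only [Matrix.of_apply, add_comm]
  · filter_upwards [h2 i j k] with z hz
    rw [Matrix.of_apply, ← hz]

/-- `WG_sym` with `Br.wg`. -/
theorem Thd.sym3 (h : Br a b V T) {t : ι → (ι → ℝ) → Matrix ι ι ℝ} (ht : Thd a T t) :
    ∀ᵐ z ∂γ ι, ∀ k i j, t k z i j = t j z i k := by
  simp only [ae_all_iff]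
  exact fun k i j => WG_sym (h.wg i) (fun j => (ht.dq i j).wg) j k

theorem Con1c_deriv (h : Br a b V T) (g : ι → ℝ) {p : (ι → ℝ) → ℝ} (hp : L2 p) (j : ι) (δ₀ : ℝ) :
    Integrable (fun z => p z * (T (z + δ₀ • g) j - T z j - δ₀ * (jac a T z *ᵥ g) j)) (γ ι) ∧
    HasDerivAt (fun δ : ℝ => ∫ z, p z * (T (z + δ • g) j - T z j - δ * (jac a T z *ᵥ g) j) ∂γ ι)
      (∫ z, p z * ((jac a T (z + δ₀ • g) *ᵥ g) j - (jac a T z *ᵥ g) j) ∂γ ι) δ₀ := by
  obtain ⟨K, hK⟩ := h.lipschitz
  have cT : Continuous fun z => T z j := (continuous_apply j).comp hK.continuous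
  have mc : Measurable fun z => (jac a T z *ᵥ g) j :=
    Finset.measurable_sum _ fun l _ => (measurable_jac a T j l).mul_const _
  set C : ℝ := K * ‖g‖ + ∑ l, b * |g l| with hC
  have lip : ∀ (z : ι → ℝ) (δ δ' : ℝ), |(T (z + δ • g) j - T z j - δ * (jac a T z *ᵥ g) j) -
      (T (z + δ' • g) j - T z j - δ' * (jac a T z *ᵥ g) j)| ≤ C * |δ - δ'| := fun z δ δ' => by
    have e1 : |T (z + δ • g) j - T (z + δ' • g) j| ≤ K * ‖g‖ * |δ - δ'| := by
      refine (dist_le_pi_dist (T (z + δ • g)) (T (z + δ' • g)) j).trans ((hK.dist_le_mul _ _).trans_eq ?_)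
      rw [dist_add_left, dist_eq_norm, ← sub_smul, norm_smul, Real.norm_eq_abs]
      ring
    have e2 : |(jac a T z *ᵥ g) j| ≤ ∑ l, b * |g l| :=
      (Finset.abs_sum_le_sum_abs _ _).trans (Finset.sum_le_sum fun l _ => by
        rw [abs_mul]
        exact mul_le_mul_of_nonneg_right (h.abs_le z j l).1 (abs_nonneg _))
    have e3 := abs_sub (T (z + δ • g) j - T (z + δ' • g) j) ((jac a T z *ᵥ g) j * (δ - δ'))
    rw [abs_mul] at e3
    have e4 := mul_le_mul_of_nonneg_right e2 (abs_nonneg (δ - δ'))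
    refine le_trans (le_of_eq (congrArg _ (by ring))) (e3.trans ?_)
    rw [hC, add_mul]
    exact add_le_add e1 e4
  have hm : ∀ δ : ℝ, Measurable fun z => T (z + δ • g) j - T z j - δ * (jac a T z *ᵥ g) j := fun δ =>
    (((cT.comp (continuous_id.add continuous_const)).sub cT).measurable).sub (mc.const_mul δ)
  have hi : Integrable (fun z => p z * (T (z + δ₀ • g) j - T z j - δ₀ * (jac a T z *ᵥ g) j)) (γ ι) :=
    hp.int.mul_bdd (c := C * |δ₀|) (hm δ₀).aestronglyMeasurable (Eventually.of_forall fun z => by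
      simpa using lip z δ₀ 0)
  refine ⟨hi, (hasDerivAt_integral_of_dominated_loc_of_lip (s := Set.univ) (bound := fun z => p z * C)
    (F := fun δ z => p z * (T (z + δ • g) j - T z j - δ * (jac a T z *ᵥ g) j)) univ_mem
    (Eventually.of_forall fun δ => hp.1.mul (hm δ).aestronglyMeasurable) hi
    (hp.1.mul ((mc.comp (measurable_add_const _)).sub mc).aestronglyMeasurable)
    (Eventually.of_forall fun z => LipschitzOnWith.of_dist_le_mul fun δ _ δ' _ => ?_)
    (hp.int.mul_const C) ?_).2⟩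
  · rw [Real.dist_eq, Real.dist_eq, ← mul_sub, abs_mul, Real.coe_nnabs, abs_mul, mul_assoc]
    exact mul_le_mul_of_nonneg_left ((lip z δ δ').trans
      (mul_le_mul_of_nonneg_right (le_abs_self C) (abs_nonneg _))) (abs_nonneg _)
  · filter_upwards [γ_ac.ae_le
      ((measurePreserving_add_right volume (δ₀ • g)).quasiMeasurePreserving.ae h.ae_diff)] with z hz
    have h1 : HasDerivAt (fun δ : ℝ => z + δ • g) g δ₀ := by
      simpa using ((hasDerivAt_id δ₀).smul_const g).const_add z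
    have h2 := hasDerivAt_pi.1 (HasFDerivAt.comp_hasDerivAt δ₀ hz h1) j
    rw [clm_apply] at h2
    exact ((h2.sub_const _).sub (hasDerivAt_mul_const _)).const_mul _

theorem Con1c_half (h : Br a b V T) {t : ι → (ι → ℝ) → Matrix ι ι ℝ} (ht : Thd a T t) (g : ι → ℝ)
    {p : (ι → ℝ) → ℝ} (hp : L2 p) (j : ι) :
    (∀ δ : ℝ, Integrable (fun z => p z * (T (z + δ • g) j - T z j - δ * (jac a T z *ᵥ g) j)) (γ ι)) ∧
    Tendsto (fun δ : ℝ =>
      (∫ z, p z * (T (z + δ • g) j - T z j - δ * (jac a T z *ᵥ g) j) ∂γ ι) / δ ^ 2) (𝓝[≠] 0)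
      (𝓝 ((∫ z, p z * ((∑ k, g k • t k z) *ᵥ g) j ∂γ ι) / 2)) := by
  refine ⟨fun δ => (Con1c_deriv h g hp j δ).1, HasDerivAt.lhopital_zero_nhdsNE
    (Eventually.of_forall fun δ => (Con1c_deriv h g hp j δ).2)
    (g' := fun δ => 2 * δ) (Eventually.of_forall fun δ => by simpa using hasDerivAt_pow 2 δ)
    (eventually_mem_nhdsWithin.mono fun δ hδ => mul_ne_zero two_ne_zero hδ) ?_ ?_ ?_⟩
  · simpa using (Con1c_deriv h g hp j 0).2.continuousAt.tendsto.mono_left nhdsWithin_le_nhds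
  · simpa using ((continuous_pow 2).tendsto (0 : ℝ)).mono_left nhdsWithin_le_nhds
  have e1 : ∫ z, p z * ((∑ k, g k • t k z) *ᵥ g) j ∂γ ι =
      ∑ l, g l * ∫ z, (∑ k, g k * t k z j l) * p z ∂γ ι := by
    simp only [← integral_const_mul]
    rw [← integral_finsetSum _ fun l _ => (L2.mul_int (Core0a_sum _ fun k _ =>
      ((ht.dq j l).wg.g2 k).const_mul (g k)) hp).const_mul (g l)]
    congr 1
    funext z
    simp only [Matrix.mulVec, dotProduct, Matrix.sum_apply, Matrix.smul_apply, smul_eq_mul,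
      Finset.mul_sum (a := p z)]
    exact Finset.sum_congr rfl fun l _ => by ring
  rw [e1]
  refine ((tendsto_finsetSum Finset.univ fun l _ =>
    ((ht.dq j l).tendsto g hp).const_mul (g l)).div_const 2).congr fun δ => ?_
  simp only [← integral_const_mul]
  rw [← integral_finsetSum _ fun l _ => (L2.mul_int (L2_dq (measurable_jac a T j l)
    (fun z => (h.abs_le z j l).1) g δ) hp).const_mul (g l), ← integral_div, ← integral_div]
  congr 1
  funext z
  simp only [Matrix.mulVec, dotProduct, dq, ← Finset.sum_sub_distrib, Finset.mul_sum, Finset.sum_div]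
  exact Finset.sum_congr rfl fun l _ => by ring

/-- `φ δ = ∫ p d2 T (δ g) · j` is differentiable at every `δ` with
`φ' δ = ∫ p ((jac (z + δ g) - jac (z - δ g)) g)_j` (`hasDerivAt_integral_of_dominated_loc_of_lip`, `Br.ae_diff`), so
`φ' δ / δ = ∑_l g_l ∫ p (dq H_jl g δ + dq H_jl g (-δ))`; `DQ.tendsto`, `HasDerivAt.lhopital_zero_nhdsNE`. -/
theorem d2_tendsto (h : Br a b V T) {t : ι → (ι → ℝ) → Matrix ι ι ℝ} (ht : Thd a T t) (g : ι → ℝ)
    {p : (ι → ℝ) → ℝ} (hp : L2 p) (j : ι) :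
    Tendsto (fun δ : ℝ => (∫ z, p z * d2 T (δ • g) z j ∂γ ι) / δ ^ 2) (𝓝[≠] 0)
      (𝓝 (∫ z, p z * ((∑ k, g k • t k z) *ᵥ g) j ∂γ ι)) := by
  have h1 := ((Con1c_half h ht g hp j).2.add (Con1c_half h ht (-g) hp j).2)
  simp only [Pi.neg_apply, neg_smul, Finset.sum_neg_distrib, Matrix.neg_mulVec, Matrix.mulVec_neg,
    neg_neg, add_halves] at h1
  refine h1.congr fun δ => ?_
  have i1 := (Con1c_half h ht g hp j).1 δ
  have i2 := (Con1c_half h ht (-g) hp j).1 δ
  simp only [Pi.neg_apply, Matrix.mulVec_neg] at i2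
  rw [← add_div, ← integral_add i1 i2]
  congr 2
  funext z
  simp only [d2, smul_neg, ← sub_eq_add_neg, Pi.sub_apply, Pi.add_apply, Pi.smul_apply, smul_eq_mul]
  ring

end Crest.Agent.R253
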