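/-
Row 253 (S0390, S0391), file Pos1.  Linear images and the stability of the Brenier map.
Definitions: R253/Fun.lean, R253/Defs.lean.  Outline: R253/Blueprint.lean.  Keep the statements unchanged.
-/
import Crest.Agent.R253.Con1
import Crest.Agent.R253.Fun1

set_option autoImplicit false

namespace Crest.Agent.R253

open MeasureTheory ProbabilityTheory Matrix Filter Topology Crest.Agent.R203N

variable {ι : Type} [Fintype ι] [DecidableEq ι]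
variable {α β a b : ℝ} {V : (ι → ℝ) → ℝ} {G T : (ι → ℝ) → ι → ℝ}

/-- The potential of the image of `exp (-V) dx` under `A`. -/
noncomputable def VA (A : Matrix ι ι ℝ) (V : (ι → ℝ) → ℝ) (x : ι → ℝ) : ℝ :=
  V (A⁻¹ *ᵥ x) + Real.log |A.det|

/-- Its gradient. -/
noncomputable def GA (A : Matrix ι ι ℝ) (G : (ι → ℝ) → ι → ℝ) (x : ι → ℝ) : ι → ℝ :=
  (A⁻¹)ᵀ *ᵥ G (A⁻¹ *ᵥ x)

/-- `E ℓ(DT)`. -/
noncomputable def EL (a : ℝ) (T : (ι → ℝ) → ι → ℝ) : Matrix ι ι ℝ :=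
  Matrix.of fun i j => ∫ z, fm ell (jac a T z) i j ∂γ ι

theorem pos1a_bij {A : Matrix ι ι ℝ} (hA : IsUnit A.det) : Function.Bijective fun x : ι → ℝ => A *ᵥ x :=
  Function.bijective_iff_has_inverse.2 ⟨fun x => A⁻¹ *ᵥ x,
    fun x => by simp only [mulVec_mulVec, nonsing_inv_mul A hA, one_mulVec],
    fun x => by simp only [mulVec_mulVec, mul_nonsing_inv A hA, one_mulVec]⟩

theorem pos1a_der (A : Matrix ι ι ℝ) (x : ι → ℝ) (s : Set (ι → ℝ)) :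
    HasFDerivWithinAt (fun x : ι → ℝ => A *ᵥ x) (clm A) s x :=
  (clm A).hasFDerivAt.hasFDerivWithinAt

theorem pos1a_exp {A : Matrix ι ι ℝ} (hA : IsUnit A.det) (V : (ι → ℝ) → ℝ) (x : ι → ℝ) :
    |A.det| * Real.exp (-VA A V (A *ᵥ x)) = Real.exp (-V x) := by
  have h := abs_pos.2 hA.ne_zero
  rw [VA, mulVec_mulVec, nonsing_inv_mul A hA, one_mulVec, neg_add, Real.exp_add, Real.exp_neg (Real.log _),
    Real.exp_log h]
  field_simp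

/-- `Real.map_matrix_volume_pi_eq_smul_volume_pi`. -/
theorem int_comp_mulVec {A : Matrix ι ι ℝ} (hA : IsUnit A.det) (f : (ι → ℝ) → ℝ) :
    ∫ x, f x = |A.det| * ∫ x, f (A *ᵥ x) := by
  have h := integral_image_eq_integral_abs_det_fderiv_smul volume MeasurableSet.univ
    (fun x _ => pos1a_der A x Set.univ) (pos1a_bij hA).1.injOn f
  rw [Set.image_univ_of_surjective (pos1a_bij hA).2, Measure.restrict_univ] at h
  rw [h, ← integral_const_mul, det_clm]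
  rfl

theorem muV_VA {A : Matrix ι ι ℝ} (hA : IsUnit A.det) (hV : Continuous V) :
    muV (VA A V) = Measure.map (fun x => A *ᵥ x) (muV V) := by
  have hm : Measurable fun x : ι → ℝ => A *ᵥ x := (clm A).continuous.measurable
  ext s hs
  rw [Measure.map_apply hm hs, muV, muV, withDensity_apply _ hs, withDensity_apply _ (hm hs)]
  have h := lintegral_image_eq_lintegral_abs_det_fderiv_mul volume (hm hs)
    (fun x _ => pos1a_der A x _) (pos1a_bij hA).1.injOn fun x => ENNReal.ofReal (Real.exp (-VA A V x))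
  rw [Set.image_preimage_eq _ (pos1a_bij hA).2] at h
  rw [h]
  refine lintegral_congr fun x => ?_
  rw [← ENNReal.ofReal_mul (abs_nonneg _), det_clm, pos1a_exp hA]

/-- `SC.comp_mulVec` with `M = A⁻¹` (`Sp.inv_eq`, `fm_dot_fm`, `Sp.quad_fm_le`). -/
theorem Reg.va (hV : Reg α β V G) {A : Matrix ι ι ℝ} {c d : ℝ} (hc : 0 < c) (hcd : c ≤ d)
    (hA : Sp c d A) : Reg (α / d ^ 2) (β / c ^ 2) (VA A V) (GA A G) := by
  have hd := hc.trans_le hcd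
  have hβ := hV.pos.trans_le hV.le
  have hu : IsUnit A.det := (hA.det_pos hc).ne'.isUnit
  have e : ∀ (t : ℝ) (x : ι → ℝ), t * (x ⬝ᵥ x) = x ⬝ᵥ fm (fun _ => t) A *ᵥ x := fun t x => by
    rw [fm_const hA.1, smul_mulVec, one_mulVec, dotProduct_smul, smul_eq_mul]
  refine ⟨div_pos hV.pos (pow_pos hd 2), by gcongr; exact hV.le, ?_, ?_⟩
  · refine (hV.sc.comp_mulVec hV.pos.le hβ.le (M := A⁻¹) (c := (d ^ 2)⁻¹) (d := (c ^ 2)⁻¹)
      fun x => ?_).add_const _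
    rw [hA.inv_eq hc, fm_dot_fm, e, e]
    refine ⟨hA.quad_fm_le (fun l h1 h2 => ?_) x, hA.quad_fm_le (fun l h1 h2 => ?_) x⟩ <;>
    · have hl := hc.trans_le h1
      rw [← mul_inv, ← sq]
      gcongr
  · rw [int_comp_mulVec hu, ← integral_const_mul, ← hV.one]
    simp only [pos1a_exp hu]

/-- Strong form of co-coercivity. -/
theorem SC.coco {Ψ : (ι → ℝ) → ℝ} (h : SC a b Ψ T) (ha : 0 ≤ a) (hb : 0 < b) (z w : ι → ℝ) :
    (T w - T z) ⬝ᵥ (T w - T z) / (2 * b) ≤ Ψ z - Ψ w - T w ⬝ᵥ (z - w) := by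
  have h1 := h.lo w (z + b⁻¹ • (T w - T z))
  have h2 := h.hi z (z + b⁻¹ • (T w - T z))
  have h3 : 0 ≤ a / 2 * ((z + b⁻¹ • (T w - T z) - w) ⬝ᵥ (z + b⁻¹ • (T w - T z) - w)) :=
    mul_nonneg (by positivity) (Finset.sum_nonneg fun i _ => mul_self_nonneg _)
  rw [add_sub_cancel_left, smul_dotProduct, dotProduct_smul, dotProduct_smul] at h2
  rw [add_sub_right_comm z _ w, dotProduct_add (T w), dotProduct_smul, ← add_sub_right_comm z _ w] at h1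
  have h4 : b⁻¹ * (T w ⬝ᵥ (T w - T z)) - b⁻¹ * (T z ⬝ᵥ (T w - T z)) -
      b / 2 * (b⁻¹ * (b⁻¹ * ((T w - T z) ⬝ᵥ (T w - T z)))) = (T w - T z) ⬝ᵥ (T w - T z) / (2 * b) := by
    rw [← mul_sub, ← sub_dotProduct]
    field_simp
    ring
  simp only [smul_eq_mul] at h1 h2
  linarith

/-- Optimality.  With `σ = T⁻¹` (`SC.exists_inverse`) and `Ψ* x = σ x ⬝ x - Ψ (σ x)`:
`|x - T z|²/(2b) ≤ Ψ z + Ψ* x - z ⬝ x` (`SC.coco` with `w = σ x`), and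
`∫ Ψ* (S z) dγ = ∫ Ψ* dμ = ∫ Ψ* (T z) dγ = ∫ (z ⬝ T z - Ψ z) dγ`. -/
theorem Br.opt (h : Br a b V T) (hV : Reg α β V G) {S : (ι → ℝ) → ι → ℝ} (hS : Measurable S)
    (hS' : Measure.map S (γ ι) = muV V) :
    ∫ z, (S z - T z) ⬝ᵥ (S z - T z) ∂γ ι ≤ 2 * b * ∫ z, z ⬝ᵥ (T z - S z) ∂γ ι := by
  obtain ⟨Ψ, hΨ⟩ := h.pot
  have hb := h.pos.trans_le h.le
  obtain ⟨σ, K, hK, h1, h2, -⟩ := hΨ.exists_inverse h.pos
  have hc : Continuous fun x => σ x ⬝ᵥ x - Ψ (σ x) :=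
    (hK.continuous.dotProduct continuous_id).sub (hΨ.continuous.comp hK.continuous)
  have lT : LV T := fun i => (h.wg i).u2
  have lS : LV S := fun i => by
    have := (memLp_map_measure_iff (p := 2) (continuous_apply i).aestronglyMeasurable
      h.measurable.aemeasurable).2 (lT i)
    rw [h.push, ← hS'] at this
    exact (memLp_map_measure_iff (continuous_apply i).aestronglyMeasurable hS.aemeasurable).1 this
  have iΨ : Integrable Ψ (γ ι) := by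
    obtain ⟨C, -, hC⟩ := SC_growth (ι := ι) b (|Ψ 0| + ‖T 0‖) hb
    exact (L2_of_growth hΨ.continuous.aestronglyMeasurable C 2 fun z => (hC a Ψ T hΨ h.pos.le
      (le_add_of_nonneg_right (norm_nonneg _)) (fun i => (norm_le_pi_norm (T 0) i).trans
        (le_add_of_nonneg_left (abs_nonneg _))) z).1).int
  have iT := (dot_int L2_coord lT).1
  have iS := (dot_int L2_coord lS).1
  have i1 : Integrable (fun z => σ (S z) ⬝ᵥ S z - Ψ (σ (S z))) (γ ι) := by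
    have := (integrable_map_measure hc.aestronglyMeasurable h.measurable.aemeasurable).2
      ((iT.sub iΨ).congr (Eventually.of_forall fun z => by simp [h1]))
    rw [h.push, ← hS'] at this
    exact (integrable_map_measure hc.aestronglyMeasurable hS.aemeasurable).1 this
  have e1 : ∫ z, (σ (S z) ⬝ᵥ S z - Ψ (σ (S z))) ∂γ ι = (∫ z, z ⬝ᵥ T z ∂γ ι) - ∫ z, Ψ z ∂γ ι := by
    rw [← integral_map hS.aemeasurable hc.aestronglyMeasurable, hS', ← h.int hc.measurable,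
      ← integral_sub iT iΨ]
    simp only [h1]
  have l1 : ∀ i, L2 fun z => (S z - T z) i := fun i => (lS i).sub (lT i)
  calc _ ≤ ∫ z, 2 * b * (Ψ z + (σ (S z) ⬝ᵥ S z - Ψ (σ (S z))) - z ⬝ᵥ S z) ∂γ ι := by
        refine integral_mono (dot_int l1 l1).1 (((iΨ.add i1).sub iS).const_mul _) fun z => ?_
        have := hΨ.coco h.pos.le hb z (σ (S z))
        rw [h2, div_le_iff₀' (by positivity), dotProduct_sub (S z), dotProduct_comm (S z) z,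
          dotProduct_comm (S z) (σ _)] at this
        exact this.trans_eq (by ring)
    _ = _ := by
        simp only [dotProduct_sub]
        rw [integral_const_mul, integral_sub (iΨ.fun_add i1) iS, integral_add iΨ i1, e1, integral_sub iT iS]
        ring

theorem pos1b_meas (A : Matrix ι ι ℝ) : Measurable fun x : ι → ℝ => A *ᵥ x :=
  (continuous_const.matrix_mulVec continuous_id).measurable

theorem pos1b_hs (D : Matrix ι ι ℝ) (x : ι → ℝ) : (D *ᵥ x) ⬝ᵥ (D *ᵥ x) ≤ hs D * (x ⬝ᵥ x) := by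
  unfold hs
  rw [Finset.sum_mul]
  refine Finset.sum_le_sum fun i _ => ?_
  have := Finset.sum_mul_sq_le_sq_mul_sq Finset.univ (D i) x
  simp only [sq] at this ⊢
  exact this

theorem pos1b_U (hV : Reg α β V G) {c d : ℝ} (hc : 0 < c) {A : Matrix ι ι ℝ} (hA : Sp c d A)
    (h : Br a b (VA A V) T) : ∃ U : (ι → ℝ) → ι → ℝ, LV U ∧ ip U U = ∫ x, x ⬝ᵥ x ∂muV V ∧
      (T = fun z => A *ᵥ U z) ∧ ∀ B : Matrix ι ι ℝ, IsUnit B.det →
        (Measurable fun z => B *ᵥ U z) ∧ Measure.map (fun z => B *ᵥ U z) (γ ι) = muV (VA B V) := by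
  have hu : IsUnit A.det := (hA.det_pos hc).ne'.isUnit
  have hm : Measurable fun z => A⁻¹ *ᵥ T z := (pos1b_meas A⁻¹).comp h.measurable
  have hp : Measure.map (fun z => A⁻¹ *ᵥ T z) (γ ι) = muV V := by
    rw [show (fun z => A⁻¹ *ᵥ T z) = (fun x => A⁻¹ *ᵥ x) ∘ T from rfl,
      ← Measure.map_map (pos1b_meas _) h.measurable, h.push, muV_VA hu hV.sc.continuous,
      Measure.map_map (pos1b_meas _) (pos1b_meas _)]
    have : ((fun x : ι → ℝ => A⁻¹ *ᵥ x) ∘ fun x => A *ᵥ x) = id := by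
      funext x
      simp only [Function.comp_apply, mulVec_mulVec, nonsing_inv_mul _ hu, one_mulVec, id]
    rw [this, Measure.map_id]
  refine ⟨fun z => A⁻¹ *ᵥ T z, (BM_const A⁻¹).mulVec fun i => (h.wg i).u2, ?_, ?_, fun B hB => ?_⟩
  · rw [← hp, integral_map hm.aemeasurable MAb_measurable_dot.aestronglyMeasurable]
    rfl
  · funext z
    rw [mulVec_mulVec, mul_nonsing_inv _ hu, one_mulVec]
  · refine ⟨(pos1b_meas B).comp hm, ?_⟩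
    rw [muV_VA hB hV.sc.continuous, ← hp, Measure.map_map (pos1b_meas _) hm]
    rfl

/-- `Br.opt` for `T₂` with `S = A₂ A₁⁻¹ T₁` and for `T₁` with `S = A₁ A₂⁻¹ T₂`; add.  The second moments of
`A₁⁻¹ T₁` and `A₂⁻¹ T₂` are those of `muV V`; `T₂ - A₁ A₂⁻¹ T₂ = (A₂ - A₁) A₂⁻¹ T₂`. -/
theorem Br_stable (hV : Reg α β V G) {c d : ℝ} (hc : 0 < c) (hcd : c ≤ d) (b : ℝ) {ε : ℝ} (hε : 0 < ε) :
    ∃ δ : ℝ, 0 < δ ∧ ∀ (a : ℝ) (A₁ A₂ : Matrix ι ι ℝ) (T₁ T₂ : (ι → ℝ) → ι → ℝ), Sp c d A₁ → Sp c d A₂ →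
      Br a b (VA A₁ V) T₁ → Br a b (VA A₂ V) T₂ → hs (A₁ - A₂) ≤ δ →
        ∫ z, (T₁ z - T₂ z) ⬝ᵥ (T₁ z - T₂ z) ∂γ ι ≤ ε := by
  rcases le_or_gt b 0 with hb | hb
  · exact ⟨1, one_pos, fun a _ _ _ _ _ _ h _ _ => absurd (h.pos.trans_le h.le) (not_lt.2 hb)⟩
  obtain ⟨M, hM⟩ : ∃ M, M = ∫ x, x ⬝ᵥ x ∂muV V := ⟨_, rfl⟩
  have hn : 0 ≤ dim ι := Nat.cast_nonneg _
  have hM0 : 0 ≤ M := hM ▸ integral_nonneg fun x => Finset.sum_nonneg fun i _ => mul_self_nonneg _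
  obtain ⟨t, ht, ht'⟩ : ∃ t : ℝ, 0 < t ∧ t * (8 * (b * dim ι + 1)) = ε :=
    ⟨ε / (8 * (b * dim ι + 1)), by positivity, div_mul_cancel₀ _ (by positivity)⟩
  obtain ⟨δ, hδ, hδ'⟩ : ∃ δ : ℝ, 0 < δ ∧ δ * (2 * (M * (2 * t + 4 * b) + 1)) = t * ε :=
    ⟨t * ε / (2 * (M * (2 * t + 4 * b) + 1)), by positivity, div_mul_cancel₀ _ (by positivity)⟩
  refine ⟨δ, hδ, fun a A₁ A₂ T₁ T₂ s₁ s₂ h₁ h₂ hD => ?_⟩
  obtain ⟨U₁, l₁, m₁, rfl, p₁⟩ := pos1b_U hV hc s₁ h₁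
  obtain ⟨U₂, l₂, m₂, rfl, p₂⟩ := pos1b_U hV hc s₂ h₂
  obtain ⟨q₁, r₁⟩ := p₁ A₂ (s₂.det_pos hc).ne'.isUnit
  obtain ⟨q₂, r₂⟩ := p₂ A₁ (s₁.det_pos hc).ne'.isUnit
  have o₂ := h₂.opt (hV.va hc hcd s₂) q₁ r₁
  have o₁ := h₁.opt (hV.va hc hcd s₁) q₂ r₂
  have lz : LV fun z : ι → ℝ => z := L2_coord
  have lm : ∀ (B : Matrix ι ι ℝ) {U : (ι → ℝ) → ι → ℝ}, LV U → LV fun z => B *ᵥ U z :=
    fun B _ h => (BM_const B).mulVec h
  have k : ∀ {U : (ι → ℝ) → ι → ℝ}, LV U → ip U U = ∫ x, x ⬝ᵥ x ∂muV V →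
      ip (fun z => A₁ *ᵥ U z - A₂ *ᵥ U z) (fun z => A₁ *ᵥ U z - A₂ *ᵥ U z) ≤ δ * M := fun {U} l m => by
    have := ip_mono ((lm A₁ l).sub (lm A₂ l)) l (c := hs (A₁ - A₂)) fun z => by
      rw [← sub_mulVec]; exact pos1b_hs _ _
    rw [m, ← hM] at this
    exact this.trans (mul_le_mul_of_nonneg_right hD hM0)
  have k₁ := k l₁ m₁
  have k₂ := k l₂ m₂
  have a₁ := ip_amgm lz ((lm A₁ l₁).sub (lm A₂ l₁)) t
  have a₂ := ip_amgm lz ((lm A₁ l₂).sub (lm A₂ l₂)) (-t)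
  have ez : ip (fun z : ι → ℝ => z) (fun z => z) = dim ι := int_dot_self
  rw [ez, ip_sub_right lz (lm A₁ l₁) (lm A₂ l₁)] at a₁
  rw [ez, ip_sub_right lz (lm A₁ l₂) (lm A₂ l₂)] at a₂
  change ip (fun z => A₂ *ᵥ U₁ z - A₂ *ᵥ U₂ z) (fun z => A₂ *ᵥ U₁ z - A₂ *ᵥ U₂ z) ≤
    2 * b * ip (fun z => z) (fun z => A₂ *ᵥ U₂ z - A₂ *ᵥ U₁ z) at o₂
  change ip (fun z => A₁ *ᵥ U₂ z - A₁ *ᵥ U₁ z) (fun z => A₁ *ᵥ U₂ z - A₁ *ᵥ U₁ z) ≤
    2 * b * ip (fun z => z) (fun z => A₁ *ᵥ U₁ z - A₁ *ᵥ U₂ z) at o₁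
  rw [ip_sub_right lz (lm A₂ l₂) (lm A₂ l₁)] at o₂
  rw [ip_sub_right lz (lm A₁ l₁) (lm A₁ l₂)] at o₁
  have n₁ := (ip_nonneg _).trans o₁
  have l₃ := (lm A₁ l₁).sub (lm A₂ l₁)
  have l₄ := (lm A₂ l₁).sub (lm A₂ l₂)
  have tri : ∫ z, (A₁ *ᵥ U₁ z - A₂ *ᵥ U₂ z) ⬝ᵥ (A₁ *ᵥ U₁ z - A₂ *ᵥ U₂ z) ∂γ ι ≤
      2 * ip (fun z => A₁ *ᵥ U₁ z - A₂ *ᵥ U₁ z) (fun z => A₁ *ᵥ U₁ z - A₂ *ᵥ U₁ z) +
        2 * ip (fun z => A₂ *ᵥ U₁ z - A₂ *ᵥ U₂ z) (fun z => A₂ *ᵥ U₁ z - A₂ *ᵥ U₂ z) := by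
    have e : ∫ z, (A₁ *ᵥ U₁ z - A₂ *ᵥ U₂ z) ⬝ᵥ (A₁ *ᵥ U₁ z - A₂ *ᵥ U₂ z) ∂γ ι =
        ip (fun z => (A₁ *ᵥ U₁ z - A₂ *ᵥ U₁ z) + (A₂ *ᵥ U₁ z - A₂ *ᵥ U₂ z))
          (fun z => (A₁ *ᵥ U₁ z - A₂ *ᵥ U₁ z) + (A₂ *ᵥ U₁ z - A₂ *ᵥ U₂ z)) := by
      simp only [sub_add_sub_cancel, ip]
    have := ip_amgm l₃ l₄ 1
    rw [e, ip_add_left l₃ l₄ (l₃.add l₄), ip_add_right l₃ l₃ l₄, ip_add_right l₄ l₃ l₄,
      ip_comm (fun z => A₂ *ᵥ U₁ z - A₂ *ᵥ U₂ z)]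
    linarith
  refine tri.trans (le_of_mul_le_mul_left ?_ ht)
  have f₁ := mul_le_mul_of_nonneg_left k₁ ht.le
  have f₂ := mul_le_mul_of_nonneg_left o₂ ht.le
  have f₃ := mul_nonneg ht.le n₁
  have f₄ := mul_le_mul_of_nonneg_left (a₁.trans (add_le_add_right k₁ _)) hb.le
  have f₅ := mul_le_mul_of_nonneg_left (a₂.trans (add_le_add_right k₂ _)) hb.le
  have f₆ : t * (t * (8 * (b * dim ι + 1))) = t * ε := by rw [ht']
  have f₇ : 0 ≤ t ^ 2 := sq_nonneg t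
  linarith

/-- `interp` for `u = (T₁ - T₂)_i` (`Br.wg`, `exists_Thd`). -/
theorem jac_stable (ha : 0 < a) (b : ℝ) {ε : ℝ} (hε : 0 < ε) :
    ∃ δ : ℝ, 0 < δ ∧ ∀ (α β : ℝ) (V₁ V₂ : (ι → ℝ) → ℝ) (G₁ G₂ T₁ T₂ : (ι → ℝ) → ι → ℝ),
      Reg α β V₁ G₁ → Reg α β V₂ G₂ → Br a b V₁ T₁ → Br a b V₂ T₂ →
      ∫ z, (T₁ z - T₂ z) ⬝ᵥ (T₁ z - T₂ z) ∂γ ι ≤ δ →
        ∫ z, hs (jac a T₁ z - jac a T₂ z) ∂γ ι ≤ ε := by
  set c : ℝ := dim ι * (dim ι * (dim ι * (4 * (2 * b ^ 4 / a ^ 2)))) with hc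
  have hc0 : 0 ≤ c := by positivity
  set t : ℝ := min 1 (ε / (2 * (c + 1))) with ht
  have ht0 : 0 < t := lt_min one_pos (by positivity)
  have ht1 : t ≤ 1 := min_le_left _ _
  have ht2 : t * c ≤ ε / 2 := by
    have h1 : t * (2 * (c + 1)) ≤ ε := (le_div_iff₀ (by positivity)).1 (min_le_right _ _)
    nlinarith
  refine ⟨t * (ε / 2), by positivity, fun α β V₁ V₂ G₁ G₂ T₁ T₂ hV₁ hV₂ h₁ h₂ hδ => ?_⟩
  obtain ⟨t₁, ht₁, b₁⟩ := exists_Thd h₁ hV₁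
  obtain ⟨t₂, ht₂, b₂⟩ := exists_Thd h₂ hV₂
  have hu := fun i => (h₁.wg i).sub (h₂.wg i)
  have hg := fun i j => (ht₁.dq i j).wg.sub (ht₂.dq i j).wg
  have hh : ∀ i j k, ∫ z, (t₁ k z i j - t₂ k z i j) ^ 2 ∂γ ι ≤ 4 * (2 * b ^ 4 / a ^ 2) := by
    intro i j k
    have l₁ := ((ht₁.dq i j).wg.g2 k).sq_int
    have l₂ := ((ht₂.dq i j).wg.g2 k).sq_int
    calc _ ≤ ∫ z, (2 * t₁ k z i j ^ 2 + 2 * t₂ k z i j ^ 2) ∂γ ι :=
          integral_mono ((hg i j).g2 k).sq_int ((l₁.const_mul 2).add (l₂.const_mul 2)) fun z => by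
            nlinarith [sq_nonneg (t₁ k z i j + t₂ k z i j)]
      _ = 2 * ∫ z, t₁ k z i j ^ 2 ∂γ ι + 2 * ∫ z, t₂ k z i j ^ 2 ∂γ ι := by
          rw [integral_add (l₁.const_mul 2) (l₂.const_mul 2), integral_const_mul, integral_const_mul]
      _ ≤ _ := by linarith [b₁ k i j, b₂ k i j]
  have hi : ∀ i, t * ∑ j, ∫ z, (jac a T₁ z i j - jac a T₂ z i j) ^ 2 ∂γ ι ≤
      (∫ z, (T₁ z i - T₂ z i) * (T₁ z i - T₂ z i) ∂γ ι) +
        t ^ 2 * (dim ι * (dim ι * (4 * (2 * b ^ 4 / a ^ 2)))) := by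
    intro i
    have k1 := interp (hu i) (hg i) t
    have k2 : ∑ j, ∑ k, ∫ z, (t₁ k z i j - t₂ k z i j) ^ 2 ∂γ ι ≤
        dim ι * (dim ι * (4 * (2 * b ^ 4 / a ^ 2))) := by
      calc _ ≤ ∑ _j : ι, ∑ _k : ι, 4 * (2 * b ^ 4 / a ^ 2) :=
            Finset.sum_le_sum fun j _ => Finset.sum_le_sum fun k _ => hh i j k
        _ = _ := by simp
    have k3 : 0 ≤ ∑ j, ∫ z, (jac a T₁ z i j - jac a T₂ z i j) ^ 2 ∂γ ι :=
      Finset.sum_nonneg fun j _ => integral_nonneg fun z => sq_nonneg _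
    simp only [← sq]
    have k4 := mul_le_mul_of_nonneg_left k2 (sq_nonneg t)
    have k5 := mul_nonneg (mul_nonneg ht0.le (sub_nonneg.2 ht1)) k3
    nlinarith
  rw [(hs_int (X := fun z => jac a T₁ z - jac a T₂ z) fun i j => (hg i j).u2).2]
  rw [(dot_int (u := fun z => T₁ z - T₂ z) (v := fun z => T₁ z - T₂ z) (fun i => (hu i).u2)
    fun i => (hu i).u2).2] at hδ
  have k := Finset.sum_le_sum fun i (_ : i ∈ Finset.univ) => hi i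
  rw [← Finset.mul_sum, Finset.sum_add_distrib, Finset.sum_const, Finset.card_univ, nsmul_eq_mul] at k
  simp only [Pi.sub_apply, Matrix.sub_apply] at hδ ⊢
  refine le_of_mul_le_mul_left (k.trans ?_) ht0
  have e : (Fintype.card ι : ℝ) * (t ^ 2 * (dim ι * (dim ι * (4 * (2 * b ^ 4 / a ^ 2))))) =
      t * (t * c) := by rw [hc]; ring
  rw [e]
  nlinarith [mul_le_mul_of_nonneg_left ht2 ht0.le]

/-- `exists_ell_ext`, `hs_fm_sub_le`, `Sp.fm_congr`, Cauchy-Schwarz. -/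
theorem EL_stable (hV : Reg α β V G) {c d : ℝ} (hc : 0 < c) (hcd : c ≤ d) (ha : 0 < a) (b : ℝ) {ε : ℝ}
    (hε : 0 < ε) : ∃ δ : ℝ, 0 < δ ∧ ∀ (A₁ A₂ : Matrix ι ι ℝ) (T₁ T₂ : (ι → ℝ) → ι → ℝ),
      Sp c d A₁ → Sp c d A₂ → Br a b (VA A₁ V) T₁ → Br a b (VA A₂ V) T₂ → hs (A₁ - A₂) ≤ δ →
        ∀ i j, |EL a T₁ i j - EL a T₂ i j| ≤ ε := by
  by_cases hab : a ≤ b
  swap
  · exact ⟨1, one_pos, fun _ _ _ _ _ _ h _ _ => (hab h.le).elim⟩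
  obtain ⟨g, g1, K, hg, hK, he⟩ := exists_ell_ext ha hab
  obtain ⟨δ₁, hδ₁, H₁⟩ := jac_stable (ι := ι) ha b (ε := ε ^ 2 / (K ^ 2 + 1)) (by positivity)
  obtain ⟨δ, hδ, H⟩ := Br_stable hV hc hcd b hδ₁
  refine ⟨δ, hδ, fun A₁ A₂ T₁ T₂ hA₁ hA₂ h₁ h₂ hA i j => ?_⟩
  have key := H₁ _ _ _ _ _ _ T₁ T₂ (hV.va hc hcd hA₁) (hV.va hc hcd hA₂) h₁ h₂
    (H a A₁ A₂ T₁ T₂ hA₁ hA₂ h₁ h₂ hA)
  obtain ⟨C, hC⟩ := exists_fm_bound (ι := ι) hg.cont.1 b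
  have hL : ∀ {W : (ι → ℝ) → ℝ} {S : (ι → ℝ) → ι → ℝ}, Br a b W S →
      EL a S i j = ∫ z, fm g (jac a S z) i j ∂γ ι ∧ Integrable (fun z => fm g (jac a S z) i j) (γ ι) := by
    intro W S h
    constructor
    · simp only [EL, Matrix.of_apply]
      refine integral_congr_ae (Eventually.of_forall fun z => ?_)
      simp only [(h.Sp z).fm_congr he]
    · refine L2.int (L2_of_growth (measurable_fm hg.cont.1 (measurable_jac a S) (fun z => (h.Sp z).1)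
        i j).aestronglyMeasurable C 0 fun z => ?_)
      simpa using hC _ ((h.Sp z).mono (by linarith) le_rfl) i j
  have hI := (hs_int (X := fun z => jac a T₁ z - jac a T₂ z) fun i j =>
    ((h₁.wg i).sub (h₂.wg i)).g2 j).1
  rw [(hL h₁).1, (hL h₂).1, ← integral_sub (hL h₁).2 (hL h₂).2]
  refine (abs_integral_le_integral_abs).trans ?_
  calc _ ≤ ∫ z, (ε / 2 + K ^ 2 / (2 * ε) * hs (jac a T₁ z - jac a T₂ z)) ∂γ ι := by
        refine integral_mono ((hL h₁).2.sub (hL h₂).2).abs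
          ((integrable_const _).add (hI.const_mul _)) fun z => ?_
        have k1 := (sq_le_hs _ i j).trans (hs_fm_sub_le hK (h₁.Sp z).1 (h₂.Sp z).1)
        rw [Matrix.sub_apply, ← sq_abs] at k1
        refine le_of_mul_le_mul_left ?_ (by positivity : 0 < 2 * ε)
        have e : 2 * ε * (ε / 2 + K ^ 2 / (2 * ε) * hs (jac a T₁ z - jac a T₂ z)) =
            ε ^ 2 + K ^ 2 * hs (jac a T₁ z - jac a T₂ z) := by field_simp
        beta_reduce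
        rw [e]
        nlinarith [sq_nonneg (|fm g (jac a T₁ z) i j - fm g (jac a T₂ z) i j| - ε)]
    _ = ε / 2 + K ^ 2 / (2 * ε) * ∫ z, hs (jac a T₁ z - jac a T₂ z) ∂γ ι := by
        rw [integral_add (integrable_const _) (hI.const_mul _), integral_const_mul]
        simp
    _ ≤ ε / 2 + K ^ 2 / (2 * ε) * (ε ^ 2 / (K ^ 2 + 1)) := by gcongr
    _ ≤ ε := by
        have e : K ^ 2 / (2 * ε) * (ε ^ 2 / (K ^ 2 + 1)) = ε / 2 * (K ^ 2 / (K ^ 2 + 1)) := by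
          field_simp
        have k : K ^ 2 / (K ^ 2 + 1) ≤ 1 := (div_le_one (by positivity)).2 (by linarith)
        rw [e]
        nlinarith

end Crest.Agent.R253
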