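/-
Row 253 (S0390, S0391), file Reg1.  Log-concave densities and their regularisation.
Definitions: R253/Fun.lean, R253/Defs.lean.  Outline: R253/Blueprint.lean.  Keep the statements unchanged.
-/
import Crest.Agent.R253.LL
import Crest.Agent.R203N.Stein
import Crest.Prelude.Def_Isotropic

set_option autoImplicit false

namespace Crest.Agent.R253

open MeasureTheory ProbabilityTheory Matrix Filter Topology Crest.Agent.R203N

open Crest.GeometryTopology.Isotropic

variable {m : ℕ} {f : (Fin m → ℝ) → ℝ}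

/-- Log-concave probability density. -/
structure LC (f : (Fin m → ℝ) → ℝ) : Prop where
  meas : Measurable f
  nonneg : ∀ x, 0 ≤ f x
  one : ∫ x, f x = 1
  cvx : Convex ℝ {x | 0 < f x}
  conc : ConcaveOn ℝ {x | 0 < f x} fun x => Real.log (f x)

/-- `g n → f` almost everywhere, with a uniform exponential bound. -/
structure Apx (g : ℕ → (Fin m → ℝ) → ℝ) (f : (Fin m → ℝ) → ℝ) : Prop where
  meas : ∀ n, Measurable (g n)
  nonneg : ∀ n x, 0 ≤ g n x
  dom : ∃ C c : ℝ, 0 < c ∧ ∀ n x, g n x ≤ C * Real.exp (-(c * ‖x‖))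
  lim : ∀ᵐ x ∂(volume : Measure (Fin m → ℝ)), Tendsto (fun n => g n x) atTop (𝓝 (f x))

/-- `Convex.interior_nonempty_iff_affineSpan_eq_top`, `Measure.addHaar_affineSubspace`. -/
theorem convex_interior {s : Set (Fin m → ℝ)} (hs : Convex ℝ s) (h0 : volume s ≠ 0) :
    (interior s).Nonempty := by
  rw [hs.interior_nonempty_iff_affineSpan_eq_top]
  by_contra h
  exact h0 (measure_mono_null (subset_affineSpan ℝ s) (Measure.addHaar_affineSubspace _ _ h))

/-- `interior s \ t` is open and null; `Convex.closure_interior_eq_closure_of_nonempty_interior`. -/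
theorem eq_of_ae_eq {s t : Set (Fin m → ℝ)} (hs : Convex ℝ s) (ht : Convex ℝ t) (cs : IsClosed s)
    (ct : IsClosed t) (h0 : volume s ≠ 0) (h : s =ᵐ[volume] t) : s = t := by
  have key : ∀ {a b : Set (Fin m → ℝ)}, Convex ℝ a → IsClosed b → volume a ≠ 0 → a =ᵐ[volume] b →
      a ⊆ b := by
    intro a b ha cb ha0 hab
    have h1 : interior a \ b = ∅ := by
      rw [← (isOpen_interior.sdiff cb).measure_eq_zero_iff (volume : Measure (Fin m → ℝ))]
      exact measure_mono_null (Set.sdiff_subset_sdiff_left interior_subset) (ae_le_set.1 hab.le)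
    have h2 : interior a ⊆ b := Set.sdiff_eq_empty.1 h1
    calc a ⊆ closure a := subset_closure
      _ = closure (interior a) :=
          (ha.closure_interior_eq_closure_of_nonempty_interior (convex_interior ha ha0)).symm
      _ ⊆ b := closure_minimal h2 cb
  exact Set.Subset.antisymm (key hs ct h0 h) (key ht cs (by rwa [← measure_congr h]) h.symm)

/-- If `x ∈ s` and `|x i - x₀ i| = ρ`, then `s` contains `x₀ + A [0,1]^m`, where `A` has the column `(x - x₀)/2`
at `i` and `(r/2) e_j` at `j ≠ i`; `|det A| = (ρ/2) (r/2)^(m-1)` (`Measure.addHaar_image_linearMap`). -/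
theorem bounded_of_convex {s : Set (Fin m → ℝ)} (hs : Convex ℝ s) (hv : volume s ≠ ⊤) {x₀ : Fin m → ℝ}
    {r : ℝ} (hr : 0 < r) (hb : ∀ x, ‖x - x₀‖ ≤ r → x ∈ s) : ∃ R : ℝ, ∀ x ∈ s, ‖x - x₀‖ ≤ R := by
  let A : ℕ → Set (Fin m → ℝ) := fun n => {x | (n : ℝ) < ‖x - x₀‖}
  have hA : ∀ n, MeasurableSet (A n) := fun n =>
    (isOpen_lt continuous_const (by fun_prop)).measurableSet
  have hanti : Antitone A := fun a b hab x (hx : (b : ℝ) < _) =>
    lt_of_le_of_lt (Nat.cast_le.2 hab : (a : ℝ) ≤ b) hx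
  have hint : (⋂ n, A n) = ∅ := by
    ext x
    simp only [Set.mem_iInter, Set.mem_empty_iff_false, iff_false, not_forall]
    obtain ⟨n, hn⟩ := exists_nat_ge ‖x - x₀‖
    exact ⟨n, not_lt.2 hn⟩
  have ht := tendsto_measure_iInter_atTop (μ := volume.restrict s)
    (fun n => (hA n).nullMeasurableSet) hanti ⟨0, by
      rw [Measure.restrict_apply (hA 0)]
      exact ne_top_of_le_ne_top hv (measure_mono Set.inter_subset_right)⟩
  rw [hint, measure_empty] at ht
  have hpos : 0 < volume (Metric.ball (0 : Fin m → ℝ) (r / 2)) :=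
    Metric.measure_ball_pos _ _ (by positivity)
  obtain ⟨n, hn⟩ := (ht.eventually (gt_mem_nhds hpos)).exists
  refine ⟨2 * n + r, fun x hx => ?_⟩
  by_contra hlt
  push Not at hlt
  refine absurd hn (not_lt.2 ?_)
  simp only [Function.comp_apply]
  rw [Measure.restrict_apply (hA n), ← Measure.addHaar_ball_center volume ((1 / 2 : ℝ) • (x + x₀))]
  refine measure_mono fun y hy => ?_
  rw [mem_ball_iff_norm] at hy
  set d := y - (1 / 2 : ℝ) • (x + x₀) with hd
  constructor
  · show (n : ℝ) < ‖y - x₀‖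
    have e : x - x₀ = (2 : ℝ) • (y - x₀) - (2 : ℝ) • d := by
      rw [hd]; ext i; simp; ring
    have h1 : ‖x - x₀‖ ≤ 2 * ‖y - x₀‖ + 2 * ‖d‖ := by
      rw [e]
      refine (norm_sub_le _ _).trans_eq ?_
      simp [norm_smul]
    linarith
  · have h1 : x₀ + (2 : ℝ) • d ∈ s := hb _ (by
      rw [add_sub_cancel_left, norm_smul, Real.norm_ofNat]; linarith)
    have h2 := hs hx h1 (by norm_num : (0 : ℝ) ≤ 1 / 2) (by norm_num : (0 : ℝ) ≤ 1 / 2) (by norm_num)
    convert h2 using 1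
    rw [hd]; ext i; simp; ring

theorem LC.integrable (h : LC f) : Integrable f := by
  exact integrable_of_integral_eq_one h.one


theorem LC.mid (h : LC f) (x y : Fin m → ℝ) : f x * f y ≤ f ((1 / 2 : ℝ) • (x + y)) ^ 2 := by
  rcases (h.nonneg x).eq_or_lt with hx | hx
  · rw [← hx, zero_mul]; positivity
  rcases (h.nonneg y).eq_or_lt with hy | hy
  · rw [← hy, mul_zero]; positivity
  have h1 := @h.conc.2 x hx y hy (1 / 2) (1 / 2) (by norm_num) (by norm_num) (by norm_num)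
  have h2 : 0 < f ((1 / 2 : ℝ) • x + (1 / 2 : ℝ) • y) :=
    h.cvx (x := x) hx (y := y) hy (a := 1 / 2) (b := 1 / 2) (by norm_num) (by norm_num) (by norm_num)
  rw [smul_add, ← Real.log_le_log_iff (by positivity) (by positivity), Real.log_mul hx.ne' hy.ne', Real.log_pow]
  simp only [smul_eq_mul] at h1
  push_cast
  linarith


theorem LC.b_cont (h : LC f) {x : Fin m → ℝ} (hx : x ∈ interior {x | 0 < f x}) : ContinuousAt f x := by
  have h1 : ContinuousAt (fun x => Real.log (f x)) x :=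
    h.conc.continuousOn_interior.continuousAt (isOpen_interior.mem_nhds hx)
  refine (Real.continuous_exp.continuousAt.comp h1).congr ?_
  filter_upwards [mem_interior_iff_mem_nhds.1 hx] with y hy
  exact Real.exp_log hy

/-- `convex_interior`, `ConcaveOn.continuousOn_interior`. -/
theorem LC.ball (h : LC f) : ∃ (x₀ : Fin m → ℝ) (r c : ℝ), 0 < r ∧ 0 < c ∧
    ∀ x, ‖x - x₀‖ ≤ r → c ≤ f x := by
  have h0 : volume {x | 0 < f x} ≠ 0 := by
    intro h0
    have : ∫ x, f x = 0 := by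
      refine integral_eq_zero_of_ae ?_
      filter_upwards [measure_eq_zero_iff_ae_notMem.1 h0] with x hx
      exact le_antisymm (not_lt.1 hx) (h.nonneg x)
    rw [h.one] at this
    exact one_ne_zero this
  obtain ⟨x₀, hx₀⟩ := convex_interior h.cvx h0
  have hp : 0 < f x₀ := interior_subset (s := {x | 0 < f x}) hx₀
  have := (h.b_cont hx₀).eventually (lt_mem_nhds (half_lt_self hp))
  obtain ⟨r, hr, hb⟩ := Metric.nhds_basis_closedBall.mem_iff.1 this
  exact ⟨x₀, r, f x₀ / 2, hr, half_pos hp, fun x hx => (hb (mem_closedBall_iff_norm.2 hx)).le⟩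


theorem LC.b_bdd (h : LC f) : ∃ M : ℝ, 0 < M ∧ ∀ x, f x ≤ M := by
  obtain ⟨x₀, r, c, hr, hc, hb⟩ := h.ball
  refine ⟨1 / (c * (r ^ m) ^ 2), by positivity, fun x => ?_⟩
  set z : Fin m → ℝ := (1 / 2 : ℝ) • (x + x₀)
  have h1 : ∀ y ∈ Metric.closedBall z (r / 2), √(c * f x) ≤ f y := by
    intro y hy
    have h2 := h.mid x ((2 : ℝ) • y - x)
    have h3 : (1 / 2 : ℝ) • (x + ((2 : ℝ) • y - x)) = y := by module
    have h4 : c ≤ f ((2 : ℝ) • y - x) := by
      refine hb _ ?_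
      have : (2 : ℝ) • y - x - x₀ = (2 : ℝ) • (y - z) := by simp only [z]; module
      rw [this, norm_smul, Real.norm_two]
      linarith [mem_closedBall_iff_norm.1 hy]
    rw [h3] at h2
    refine Real.sqrt_le_iff.2 ⟨h.nonneg y, le_trans ?_ h2⟩
    rw [mul_comm]
    exact mul_le_mul_of_nonneg_left h4 (h.nonneg x)
  have hv : volume.real (Metric.closedBall z (r / 2)) = r ^ m := by
    rw [measureReal_def, Real.volume_pi_closedBall _ (by positivity), ENNReal.toReal_ofReal (by positivity),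
      Fintype.card_fin]
    congr 1; ring
  have h5 : √(c * f x) * r ^ m ≤ 1 := by
    rw [← hv, ← h.one]
    refine (setIntegral_ge_of_const_le_real measurableSet_closedBall measure_closedBall_lt_top.ne h1
      h.integrable.integrableOn).trans ?_
    exact setIntegral_le_integral h.integrable (Eventually.of_forall h.nonneg)
  have h6 := pow_le_pow_left₀ (by positivity) h5 2
  rw [mul_pow, Real.sq_sqrt (mul_nonneg hc.le (h.nonneg x))] at h6
  rw [le_div_iff₀ (by positivity)]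
  linarith

/-- Superlevel sets `{c' ≤ f}` (`c' > 0`) are convex and of finite volume (Markov).  Let `{c/e ≤ f} ⊆ B(x₀, R)`
(`bounded_of_convex`).  For `ρ = |x - x₀| > R + 1`, `t = (R+1)/ρ`, `y = x₀ + t (x - x₀)`:
`(1-t) log c + t log f x ≤ log f y < log c - 1`.  Boundedness: on the ball `B((x + x₀)/2, r/2)` we have
`f ≥ √(c f x)` (`LC.mid`), and `∫ f = 1`. -/
theorem LC.decay (h : LC f) : ∃ C c : ℝ, 0 < c ∧ ∀ x, f x ≤ C * Real.exp (-(c * ‖x‖)) := by
  obtain ⟨x₀, r, c, hr, hc, hb⟩ := h.ball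
  obtain ⟨M, hM, hfM⟩ := h.b_bdd
  have hcv := h.conc.convex_ge (Real.log c - 1)
  have hvol : volume {x ∈ {x | 0 < f x} | Real.log c - 1 ≤ Real.log (f x)} ≠ ⊤ := by
    refine ((measure_mono fun x hx => ?_).trans_lt
      (h.integrable.measure_ge_lt_top (Real.exp_pos (Real.log c - 1)))).ne
    exact (Real.le_log_iff_exp_le hx.1).1 hx.2
  obtain ⟨R, hR⟩ := bounded_of_convex hcv hvol hr (x₀ := x₀) fun x hx =>
    ⟨hc.trans_le (hb x hx), (sub_le_self _ zero_le_one).trans (Real.log_le_log hc (hb x hx))⟩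
  have hc0 : c ≤ f x₀ := hb x₀ (by simp [hr.le])
  have hR0 : 0 ≤ R := by
    simpa using hR x₀ ⟨hc.trans_le hc0, (sub_le_self _ zero_le_one).trans (Real.log_le_log hc hc0)⟩
  have key : ∀ x, f x ≤ (c + M) * Real.exp (1 - ‖x - x₀‖ / (R + 1)) := by
    intro x
    rcases (h.nonneg x).eq_or_lt with hx | hx
    · rw [← hx]; positivity
    rcases le_or_gt ‖x - x₀‖ (R + 1) with h1 | h1
    · have h2 : 1 ≤ Real.exp (1 - ‖x - x₀‖ / (R + 1)) :=
        Real.one_le_exp (sub_nonneg.2 ((div_le_one (by positivity)).2 h1))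
      nlinarith [hfM x]
    · have hρ : 0 < ‖x - x₀‖ := lt_trans (by positivity) h1
      set t := (R + 1) / ‖x - x₀‖ with ht
      have ht0 : 0 < t := by positivity
      have ht1 : t < 1 := (div_lt_one hρ).2 h1
      have h2 := @h.conc.2 x₀ (hc.trans_le hc0) x hx (1 - t) t (by linarith) ht0.le (by ring)
      have h3 : 0 < f ((1 - t) • x₀ + t • x) :=
        h.cvx (x := x₀) (hc.trans_le hc0) (y := x) hx (a := 1 - t) (b := t) (by linarith) ht0.le (by ring)
      have h4 : Real.log (f ((1 - t) • x₀ + t • x)) < Real.log c - 1 := by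
        by_contra h5
        have h6 := hR _ ⟨h3, not_lt.1 h5⟩
        have h7 : (1 - t) • x₀ + t • x - x₀ = t • (x - x₀) := by module
        rw [h7, norm_smul, Real.norm_of_nonneg ht0.le, ht, div_mul_cancel₀ _ hρ.ne'] at h6
        linarith
      simp only [smul_eq_mul] at h2
      have h5 := Real.log_le_log hc hc0
      have h6 : t * (Real.log (f x) - Real.log c) ≤ -1 := by nlinarith
      have h7 : Real.log (f x) ≤ Real.log c - ‖x - x₀‖ / (R + 1) := by
        have h8 : ‖x - x₀‖ / (R + 1) = t⁻¹ := by rw [ht, inv_div]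
        have h9 : Real.log (f x) - Real.log c ≤ -1 / t := by
          rw [le_div_iff₀ ht0]; linarith
        rw [h8]
        rw [neg_div, one_div] at h9
        linarith
      rw [Real.log_le_iff_le_exp hx, Real.exp_sub, Real.exp_log hc] at h7
      refine h7.trans ?_
      rw [div_eq_mul_inv, ← Real.exp_neg]
      exact mul_le_mul (by linarith) (Real.exp_le_exp.2 (by linarith)) (by positivity) (by positivity)
  refine ⟨(c + M) * Real.exp (1 + ‖x₀‖ / (R + 1)), (R + 1)⁻¹, by positivity, fun x => (key x).trans ?_⟩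
  rw [mul_assoc, ← Real.exp_add]
  refine mul_le_mul_of_nonneg_left (Real.exp_le_exp.2 ?_) (by positivity)
  have h1 : ‖x‖ - ‖x₀‖ ≤ ‖x - x₀‖ := norm_sub_norm_le x x₀
  have h2 := mul_le_mul_of_nonneg_left h1 (show 0 ≤ (R + 1)⁻¹ by positivity)
  simp only [div_eq_inv_mul]
  linarith


/-- `Convex.addHaar_frontier`; inside the positive set `f = exp (log f)`, outside its closure `f = 0`. -/
theorem LC.ae_cont (h : LC f) : ∀ᵐ x ∂(volume : Measure (Fin m → ℝ)), ContinuousAt f x := by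
  filter_upwards [measure_eq_zero_iff_ae_notMem.1 (h.cvx.addHaar_frontier volume)] with x hx
  by_cases h1 : x ∈ closure {x | 0 < f x}
  · exact h.b_cont (by_contra fun h2 => hx ⟨h1, h2⟩)
  · refine (continuousAt_const (y := (0 : ℝ))).congr ?_
    filter_upwards [isClosed_closure.isOpen_compl.mem_nhds h1] with y hy
    exact le_antisymm (h.nonneg y) (not_lt.1 fun h2 => hy (subset_closure h2))


/-! ### Second part -/

/-- Gaussian average. -/
noncomputable def gs (f : (Fin m → ℝ) → ℝ) (σ : ℝ) (x : Fin m → ℝ) : ℝ := ∫ z, f (x - σ • z) ∂γ (Fin m)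

/-- `Stein_int` (or `γ_eq_withDensity`) and the substitution `y = x - σ z`. -/
theorem gs_eq (σ : ℝ) (hσ : 0 < σ) : ∃ c : ℝ, 0 < c ∧ ∀ (f : (Fin m → ℝ) → ℝ) (x : Fin m → ℝ),
    gs f σ x = c * ∫ y, f y * Real.exp (-((x - y) ⬝ᵥ (x - y)) / (2 * σ ^ 2)) := by
  refine ⟨Real.exp (-(dim (Fin m) / 2 * Real.log (2 * Real.pi))) * |(σ ^ Module.finrank ℝ (Fin m → ℝ))⁻¹|,
    by positivity, fun f x => ?_⟩
  have h := Measure.integral_comp_smul volume
    (fun z => f (x - z) * Real.exp (-((x - (x - z)) ⬝ᵥ (x - (x - z))) / (2 * σ ^ 2))) σ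
  rw [integral_sub_left_eq_self (fun y => f y * Real.exp (-((x - y) ⬝ᵥ (x - y)) / (2 * σ ^ 2))) volume x,
    smul_eq_mul] at h
  rw [mul_assoc, ← h, ← integral_const_mul, gs, Stein_int]
  congr 1
  funext z
  rw [Stein_rho, sub_sub_cancel, mul_left_comm, ← Real.exp_add, smul_dotProduct, dotProduct_smul]
  congr 2
  simp only [smul_eq_mul]
  field_simp
  ring

theorem reg1c_le (σ : ℝ) (u : Fin m → ℝ) : Real.exp (-(u ⬝ᵥ u) / (2 * σ ^ 2)) ≤ 1 :=
  Real.exp_le_one_iff.2 (div_nonpos_of_nonpos_of_nonneg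
    (neg_nonpos.2 (Finset.sum_nonneg fun _ _ => mul_self_nonneg _)) (by positivity))

theorem LC.reg1c_meas (h : LC f) (σ : ℝ) (x : Fin m → ℝ) :
    Measurable fun y => f y * Real.exp (-((x - y) ⬝ᵥ (x - y)) / (2 * σ ^ 2)) :=
  h.meas.mul (Continuous.measurable (by fun_prop))

theorem LC.reg1c_bd (h : LC f) (σ : ℝ) (x y : Fin m → ℝ) :
    ‖f y * Real.exp (-((x - y) ⬝ᵥ (x - y)) / (2 * σ ^ 2))‖ ≤ f y := by
  rw [Real.norm_of_nonneg (mul_nonneg (h.nonneg y) (Real.exp_pos _).le)]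
  exact mul_le_of_le_one_right (h.nonneg y) (reg1c_le _ _)

theorem LC.reg1c_int (h : LC f) (σ : ℝ) (x : Fin m → ℝ) :
    Integrable fun y => f y * Real.exp (-((x - y) ⬝ᵥ (x - y)) / (2 * σ ^ 2)) :=
  h.integrable.mono' (h.reg1c_meas σ x).aestronglyMeasurable (Eventually.of_forall (h.reg1c_bd σ x))

theorem LC.gs_pos (h : LC f) {σ : ℝ} (hσ : 0 < σ) (x : Fin m → ℝ) : 0 < gs f σ x := by
  obtain ⟨c, hc, e⟩ := gs_eq (m := m) σ hσ
  rw [e]
  refine mul_pos hc ((integral_pos_iff_support_of_nonneg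
    (fun y => mul_nonneg (h.nonneg y) (Real.exp_pos _).le) (h.reg1c_int σ x)).2 ?_)
  refine ((integral_pos_iff_support_of_nonneg h.nonneg h.integrable).1 (h.one ▸ one_pos)).trans_le
    (measure_mono fun y hy => mul_ne_zero hy (Real.exp_pos _).ne')

theorem LC.gs_cont (h : LC f) {σ : ℝ} (hσ : 0 < σ) : Continuous (gs f σ) := by
  obtain ⟨c, -, e⟩ := gs_eq (m := m) σ hσ
  rw [show gs f σ = _ from funext (e f)]
  exact continuous_const.mul (continuous_of_dominated (fun x => (h.reg1c_meas σ x).aestronglyMeasurable)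
    (fun x => Eventually.of_forall (h.reg1c_bd σ x)) h.integrable (Eventually.of_forall fun y => by fun_prop))

/-- `PL_real` for `y ↦ f y exp (-|x-y|²/(2σ²))`; `CS_real` with the parallelogram identity:
`|(x+x')/2 - y|² = (|x-y|² + |x'-y|²)/2 - |x-x'|²/4`. -/
theorem LC.gs_SC (h : LC f) {σ : ℝ} (hσ : 0 < σ) :
    ∃ G, SC 0 (σ ^ 2)⁻¹ (fun x => -Real.log (gs f σ x)) G := by
  obtain ⟨c, hc, e⟩ := gs_eq (m := m) σ hσ
  have p := h.gs_pos hσ
  have n : ∀ x y, 0 ≤ f y * Real.exp (-((x - y) ⬝ᵥ (x - y)) / (2 * σ ^ 2)) := fun x y =>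
    mul_nonneg (h.nonneg y) (Real.exp_pos _).le
  have par : ∀ u v : Fin m → ℝ, ((1 / 2 : ℝ) • (u + v)) ⬝ᵥ ((1 / 2 : ℝ) • (u + v)) =
      (u ⬝ᵥ u + v ⬝ᵥ v) / 2 - ((u - v) ⬝ᵥ (u - v)) / 4 := fun u v => by
    simp only [sub_dotProduct, dotProduct_sub, add_dotProduct, dotProduct_add, smul_dotProduct,
      dotProduct_smul, smul_eq_mul]
    ring
  refine SC_of_mid ((h.gs_cont hσ).log fun x => (p x).ne').neg (fun x x' => ?_) fun x x' => ?_
  · have h1 := PL_real (h.reg1c_meas σ x) (h.reg1c_meas σ x') (h.reg1c_meas σ ((1 / 2 : ℝ) • (x + x')))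
      (n _) (n _) (n _) (h.reg1c_int _ _) (h.reg1c_int _ _) (h.reg1c_int _ _) fun y y' => by
        have e1 : (1 / 2 : ℝ) • (x + x') - (1 / 2 : ℝ) • (y + y') = (1 / 2 : ℝ) • ((x - y) + (x' - y')) := by
          module
        rw [mul_mul_mul_comm, mul_pow, e1, par, ← Real.exp_add, ← Real.exp_nat_mul]
        refine mul_le_mul (h.mid y y') (Real.exp_le_exp.2 ?_) (Real.exp_pos _).le (sq_nonneg _)
        have h2 : 0 ≤ (x - y - (x' - y')) ⬝ᵥ (x - y - (x' - y')) := Finset.sum_nonneg fun _ _ => mul_self_nonneg _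
        rw [← add_div, ← mul_div_assoc]
        refine div_le_div_of_nonneg_right ?_ (by positivity)
        push_cast
        linarith
    have h3 := (LLb_log (c := 0) (p x) (p x') (p ((1 / 2 : ℝ) • (x + x')))).1 (by
      rw [e, e, e, Real.exp_zero, one_mul, mul_mul_mul_comm, mul_pow, sq c]
      exact mul_le_mul_of_nonneg_left h1 (mul_self_nonneg c))
    linarith
  · have h1 := CS_real (n x) (n x') (h := fun y => Real.exp (-((σ ^ 2)⁻¹ / 8 * ((x - x') ⬝ᵥ (x - x')))) *
      (f y * Real.exp (-(((1 / 2 : ℝ) • (x + x') - y) ⬝ᵥ ((1 / 2 : ℝ) • (x + x') - y)) / (2 * σ ^ 2))))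
      (fun y => mul_nonneg (Real.exp_pos _).le (n _ _)) (h.reg1c_int _ _) (h.reg1c_int _ _)
      ((h.reg1c_int _ _).const_mul _) fun y => by
        have e1 : (1 / 2 : ℝ) • (x + x') - y = (1 / 2 : ℝ) • ((x - y) + (x' - y)) := by module
        rw [mul_left_comm, mul_mul_mul_comm, mul_pow, e1, par, ← Real.exp_add, ← Real.exp_add,
          ← Real.exp_nat_mul, sub_sub_sub_cancel_right, sq (f y)]
        refine le_of_eq ?_
        congr 2
        push_cast
        field_simp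
        ring
    rw [integral_const_mul] at h1
    have h3 := (LLb_log (c := -((σ ^ 2)⁻¹ / 8 * ((x - x') ⬝ᵥ (x - x')))) (p x) (p x')
      (p ((1 / 2 : ℝ) • (x + x')))).2 (by
        rw [e, e, e, mul_left_comm, mul_mul_mul_comm, mul_pow, sq c]
        exact mul_le_mul_of_nonneg_left h1 (mul_self_nonneg c))
    linarith

theorem Reg1d_int {c : ℝ} (hc : 0 < c) : Integrable fun x : Fin m → ℝ => Real.exp (-(c * ‖x‖)) := by
  refine ((integrable_one_add_norm (E := Fin m → ℝ) (μ := volume) (r := (m + 1 : ℕ)) (by simp)).const_mul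
    (((m + 1).factorial : ℝ) * Real.exp c / c ^ (m + 1))).mono' (Continuous.aestronglyMeasurable (by fun_prop))
    (Eventually.of_forall fun x => ?_)
  have h := Real.pow_div_factorial_le_exp (c * (1 + ‖x‖)) (by positivity) (m + 1)
  rw [div_le_iff₀ (by positivity), mul_pow, mul_add c, mul_one, Real.exp_add] at h
  rw [Real.norm_of_nonneg (Real.exp_pos _).le, Real.rpow_neg (by positivity), Real.rpow_natCast, Real.exp_neg,
    ← div_eq_mul_inv, div_div, inv_eq_one_div, div_le_div_iff₀ (by positivity) (by positivity)]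
  linarith

theorem Reg1d_intγ (c : ℝ) : Integrable (fun z : Fin m → ℝ => Real.exp (c * ‖z‖)) (γ (Fin m)) := by
  rw [γ_eq_withDensity, integrable_withDensity_iff (by fun_prop) (ae_of_all _ fun _ => ENNReal.ofReal_lt_top)]
  refine ((integrable_gauss (c := 1 / 2) (by norm_num) c 0).const_mul
    (Real.exp (-(dim (Fin m) / 2 * Real.log (2 * Real.pi))))).congr (ae_of_all _ fun z => ?_)
  simp only [pow_zero, one_mul, ENNReal.toReal_ofReal (Real.exp_pos _).le, ← Real.exp_add]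
  congr 1
  ring

theorem LC.gs_le (h : LC f) : ∃ C c : ℝ, 0 < c ∧ ∀ σ x, 0 < σ → σ ≤ 1 →
    gs f σ x ≤ C * Real.exp (-(c * ‖x‖)) := by
  obtain ⟨C, c, hc, hC⟩ := h.decay
  have hC0 : 0 ≤ C := nonneg_of_mul_nonneg_left ((h.nonneg 0).trans (hC 0)) (Real.exp_pos _)
  refine ⟨C * ∫ z, Real.exp (c * ‖z‖) ∂γ (Fin m), c, hc, fun σ x h0 h1 => ?_⟩
  rw [mul_right_comm, ← integral_const_mul]
  refine integral_mono_of_nonneg (Eventually.of_forall fun z => h.nonneg _) ((Reg1d_intγ c).const_mul _)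
    (Eventually.of_forall fun z => (hC _).trans ?_)
  beta_reduce
  rw [mul_assoc, ← Real.exp_add]
  refine mul_le_mul_of_nonneg_left (Real.exp_le_exp.2 ?_) hC0
  have h2 := norm_sub_norm_le x (σ • z)
  rw [norm_smul, Real.norm_of_nonneg h0.le] at h2
  nlinarith [mul_le_mul_of_nonneg_left h2 hc.le, mul_le_mul_of_nonneg_right h1 (mul_nonneg hc.le (norm_nonneg z))]

theorem LC.gs_tendsto (h : LC f) {x : Fin m → ℝ} (hx : ContinuousAt f x) :
    Tendsto (fun n : ℕ => gs f (1 / ((n : ℝ) + 1)) x) atTop (𝓝 (f x)) := by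
  obtain ⟨C, c, hc, hC⟩ := h.decay
  have hC0 : 0 ≤ C := nonneg_of_mul_nonneg_left ((h.nonneg 0).trans (hC 0)) (Real.exp_pos _)
  have h1 := tendsto_integral_of_dominated_convergence (μ := γ (Fin m))
    (F := fun (n : ℕ) z => f (x - (1 / ((n : ℝ) + 1)) • z)) (f := fun _ => f x) (fun _ => C)
    (fun n => (h.meas.comp (by fun_prop)).aestronglyMeasurable) (integrable_const _)
    (fun n => Eventually.of_forall fun z => by
      rw [Real.norm_of_nonneg (h.nonneg _)]
      exact (hC _).trans (mul_le_of_le_one_right hC0 (Real.exp_le_one_iff.2 (neg_nonpos.2 (by positivity)))))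
    (Eventually.of_forall fun z => hx.tendsto.comp (by
      simpa using ((tendsto_one_div_add_atTop_nhds_zero_nat (𝕜 := ℝ)).smul_const z).const_sub x))
  simpa [gs] using h1

/-- `σ = 1/(n+1)`, `V n x = -log (gs f σ x) + σ |x|²/2 + log Z_n`, `Z_n = ∫ gs f σ x exp (-σ |x|²/2) → 1`
(dominated convergence), `Z_n > 0`, hence `Z_n ≥ z₀ > 0`. -/
theorem LC.approx (h : LC f) : ∃ (V : ℕ → (Fin m → ℝ) → ℝ) (G : ℕ → (Fin m → ℝ) → Fin m → ℝ)
    (α β : ℕ → ℝ), (∀ n, Reg (α n) (β n) (V n) (G n)) ∧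
      Apx (fun n x => Real.exp (-V n x)) f := by
  obtain ⟨σ, hσ⟩ : ∃ σ : ℕ → ℝ, σ = fun n : ℕ => 1 / ((n : ℝ) + 1) := ⟨_, rfl⟩
  have h0 : ∀ n, 0 < σ n := fun n => by rw [hσ]; positivity
  have h1 : ∀ n, σ n ≤ 1 := fun n => by
    rw [hσ]
    exact (div_le_one (by positivity)).2 (le_add_of_nonneg_left n.cast_nonneg)
  obtain ⟨C, c, hc, hC⟩ := h.gs_le
  obtain ⟨g, hg⟩ : ∃ g : ℕ → (Fin m → ℝ) → ℝ,
    g = fun n x => gs f (σ n) x * Real.exp (-(σ n / 2 * (x ⬝ᵥ x))) := ⟨_, rfl⟩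
  have g0 : ∀ n x, 0 < g n x := fun n x => hg ▸ mul_pos (h.gs_pos (h0 n) x) (Real.exp_pos _)
  have gc : ∀ n, Continuous (g n) := fun n => hg ▸ (h.gs_cont (h0 n)).mul (by fun_prop)
  have gb : ∀ n x, g n x ≤ C * Real.exp (-(c * ‖x‖)) := fun n x => hg ▸
    (mul_le_of_le_one_right (h.gs_pos (h0 n) x).le (Real.exp_le_one_iff.2 (neg_nonpos.2 (mul_nonneg
      (half_pos (h0 n)).le (Finset.sum_nonneg fun i _ => mul_self_nonneg _))))).trans (hC _ x (h0 n) (h1 n))
  have gb' : ∀ n, ∀ᵐ x, ‖g n x‖ ≤ C * Real.exp (-(c * ‖x‖)) := fun n => Eventually.of_forall fun x => by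
    rw [Real.norm_of_nonneg (g0 n x).le]
    exact gb n x
  have gl : ∀ᵐ x, Tendsto (fun n => g n x) atTop (𝓝 (f x)) := h.ae_cont.mono fun x hx => by
    have h2 : Tendsto (fun n => Real.exp (-(σ n / 2 * (x ⬝ᵥ x)))) atTop (𝓝 (Real.exp (-(0 / 2 * (x ⬝ᵥ x))))) :=
      (((hσ ▸ tendsto_one_div_add_atTop_nhds_zero_nat : Tendsto σ atTop (𝓝 0)).div_const 2).mul_const _).neg.rexp
    simpa [hg, hσ] using (h.gs_tendsto hx).mul h2
  have z0 : ∀ n, 0 < ∫ x, g n x := fun n => integral_pos_of_integrable_nonneg_nonzero (gc n)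
    (((Reg1d_int hc).const_mul C).mono' (gc n).aestronglyMeasurable (gb' n)) (fun x => (g0 n x).le) (g0 n 0).ne'
  have zl := (tendsto_integral_of_dominated_convergence _ (fun n => (gc n).aestronglyMeasurable)
    ((Reg1d_int hc).const_mul C) gb' gl).inv₀ (h.one.trans_ne one_ne_zero)
  rw [h.one, inv_one] at zl
  obtain ⟨K, hK⟩ := zl.bddAbove_range
  choose G hG using fun n => h.gs_SC (h0 n)
  have e : ∀ n x, Real.exp (-(-Real.log (gs f (σ n) x) + σ n / 2 * (x ⬝ᵥ x) + Real.log (∫ x, g n x))) =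
      (∫ x, g n x)⁻¹ * g n x := fun n x => by
    rw [neg_add, neg_add, neg_neg, Real.exp_add, Real.exp_add, Real.exp_log (h.gs_pos (h0 n) x),
      Real.exp_neg (Real.log _), Real.exp_log (z0 n), mul_comm]
    simp only [hg]
  refine ⟨_, _, _, _, fun n => ⟨by simpa using h0 n, by simp [sq_nonneg],
    ((hG n).add (SC_quad (σ n))).add_const (Real.log (∫ x, g n x)), ?_⟩, ?_⟩
  · simp only [e]
    rw [integral_const_mul, inv_mul_cancel₀ (z0 n).ne']
  · simp only [e]
    exact ⟨fun n => (gc n).measurable.const_mul _, fun n x => mul_nonneg (inv_pos.2 (z0 n)).le (g0 n x).le,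
      ⟨K * C, c, hc, fun n x => (mul_le_mul (hK ⟨n, rfl⟩) (gb n x) (g0 n x).le
        ((inv_pos.2 (z0 n)).le.trans (hK ⟨n, rfl⟩))).trans_eq (mul_assoc _ _ _).symm⟩,
      gl.mono fun x hx => by simpa using zl.mul hx⟩

end Crest.Agent.R253
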