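/-
Row 253 (S0390, S0391), file Reg2.  Moments, covariance and entropy of densities.
Definitions: R253/Fun.lean, R253/Defs.lean.  Outline: R253/Blueprint.lean.  Keep the statements unchanged.
-/
import Crest.Agent.R253.Reg1
import Crest.Agent.R253.Core0

set_option autoImplicit false

namespace Crest.Agent.R253

open MeasureTheory ProbabilityTheory Matrix Filter Topology Crest.Agent.R203N

open Crest.GeometryTopology.Isotropic

variable {m : ℕ} {f : (Fin m → ℝ) → ℝ} {g : ℕ → (Fin m → ℝ) → ℝ}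

/-- The measure `f dx`. -/
noncomputable def dm (f : (Fin m → ℝ) → ℝ) : Measure (Fin m → ℝ) :=
  (volume : Measure (Fin m → ℝ)).withDensity fun x => ENNReal.ofReal (f x)

/-- Probability density with second moments. -/
structure Mom (f : (Fin m → ℝ) → ℝ) : Prop where
  meas : Measurable f
  nonneg : ∀ x, 0 ≤ f x
  one : ∫ x, f x = 1
  int : Integrable fun x => (1 + ‖x‖) ^ 2 * f x

/-- `T - E T`. -/
noncomputable def cen {ι : Type} [Fintype ι] (T : (ι → ℝ) → ι → ℝ) (z : ι → ℝ) : ι → ℝ :=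
  fun i => T z i - ∫ y, T y i ∂γ ι

/-- The covariance matrix of `T` (`F.cov = covT F.T` by `rfl`). -/
noncomputable def covT {ι : Type} [Fintype ι] (T : (ι → ℝ) → ι → ℝ) : Matrix ι ι ℝ :=
  Matrix.of fun i j => ∫ z, cen T z i * cen T z j ∂γ ι

theorem integrable_exp_norm {c : ℝ} (hc : 0 < c) (k : ℕ) :
    Integrable fun x : Fin m → ℝ => (1 + ‖x‖) ^ k * Real.exp (-(c * ‖x‖)) := by
  have h1 : Integrable fun x : Fin m → ℝ => (1 + ‖x‖) ^ (-((m + 1 : ℕ) : ℝ)) :=
    integrable_one_add_norm (by simp)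
  refine (h1.const_mul (((k + (m + 1)).factorial : ℝ) * Real.exp c / c ^ (k + (m + 1)))).mono'
    (by fun_prop) (Eventually.of_forall fun x => ?_)
  have ht : 0 < 1 + ‖x‖ := by positivity
  rw [Real.norm_eq_abs, abs_of_nonneg (by positivity), Real.rpow_neg ht.le, Real.rpow_natCast,
    ← div_eq_mul_inv, le_div_iff₀ (by positivity), le_div_iff₀ (by positivity)]
  have h2 := Real.pow_div_factorial_le_exp (c * (1 + ‖x‖)) (by positivity) (k + (m + 1))
  rw [div_le_iff₀ (by positivity), mul_pow] at h2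
  have h3 : Real.exp (c * (1 + ‖x‖)) * Real.exp (-(c * ‖x‖)) = Real.exp c := by
    rw [← Real.exp_add]; congr 1; ring
  calc (1 + ‖x‖) ^ k * Real.exp (-(c * ‖x‖)) * (1 + ‖x‖) ^ (m + 1) * c ^ (k + (m + 1))
      = (c ^ (k + (m + 1)) * (1 + ‖x‖) ^ (k + (m + 1))) * Real.exp (-(c * ‖x‖)) := by ring
    _ ≤ (Real.exp (c * (1 + ‖x‖)) * ((k + (m + 1)).factorial : ℝ)) * Real.exp (-(c * ‖x‖)) := by
        gcongr
    _ = _ := by rw [← h3]; ring

theorem Mom_of_decay (hm : Measurable f) (h0 : ∀ x, 0 ≤ f x) (h1 : ∫ x, f x = 1) {C c : ℝ} (hc : 0 < c)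
    (h : ∀ x, f x ≤ C * Real.exp (-(c * ‖x‖))) : Mom f := by
  refine ⟨hm, h0, h1, ((integrable_exp_norm hc 2).const_mul C).mono' ?_
    (Eventually.of_forall fun x => ?_)⟩
  · exact (Measurable.mul (by fun_prop) hm).aestronglyMeasurable
  · rw [Real.norm_eq_abs, abs_of_nonneg (mul_nonneg (by positivity) (h0 x))]
    calc (1 + ‖x‖) ^ 2 * f x ≤ (1 + ‖x‖) ^ 2 * (C * Real.exp (-(c * ‖x‖))) := by
          gcongr; exact h x
      _ = _ := by ring

theorem LC.mom (h : LC f) : Mom f := by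
  obtain ⟨C, c, hc, hd⟩ := h.decay
  exact Mom_of_decay h.meas h.nonneg h.one hc hd

theorem int_dm (hm : Measurable f) (h0 : ∀ x, 0 ≤ f x) (φ : (Fin m → ℝ) → ℝ) :
    ∫ x, φ x ∂dm f = ∫ x, φ x * f x := by
  unfold dm
  rw [integral_withDensity_eq_integral_toReal_smul hm.ennreal_ofReal
    (Eventually.of_forall fun x => ENNReal.ofReal_lt_top)]
  congr 1; ext x
  rw [ENNReal.toReal_ofReal (h0 x), smul_eq_mul, mul_comm]

theorem Mom.prob (h : Mom f) : IsProbabilityMeasure (dm f) := by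
  have hi : Integrable f := Integrable.of_integral_ne_zero (by rw [h.one]; exact one_ne_zero)
  refine ⟨?_⟩
  unfold dm
  rw [withDensity_apply _ MeasurableSet.univ, Measure.restrict_univ,
    ← ofReal_integral_eq_lintegral_ofReal hi (Eventually.of_forall h.nonneg), h.one,
    ENNReal.ofReal_one]

theorem Mom.memLp (h : Mom f) (i : Fin m) : MemLp (fun x : Fin m → ℝ => x i) 2 (dm f) := by
  rw [memLp_two_iff_integrable_sq (measurable_pi_apply i).aestronglyMeasurable]
  unfold dm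
  rw [integrable_withDensity_iff_integrable_smul' h.meas.ennreal_ofReal
    (Eventually.of_forall fun x => ENNReal.ofReal_lt_top)]
  refine h.int.mono' ?_ (Eventually.of_forall fun x => ?_)
  · exact (h.meas.ennreal_ofReal.ennreal_toReal.smul
      ((measurable_pi_apply i).pow_const 2)).aestronglyMeasurable
  · rw [ENNReal.toReal_ofReal (h.nonneg x), smul_eq_mul, Real.norm_eq_abs,
      abs_of_nonneg (mul_nonneg (h.nonneg x) (sq_nonneg _)), mul_comm]
    refine mul_le_mul_of_nonneg_right ?_ (h.nonneg x)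
    have h1 : |x i| ≤ ‖x‖ := norm_le_pi_norm x i
    rw [← sq_abs]
    exact pow_le_pow_left₀ (abs_nonneg _) (by linarith) 2

theorem densCov_symm (f : (Fin m → ℝ) → ℝ) : (densCov f).IsSymm := by
  ext i j
  simp only [densCov, transpose_apply, of_apply]
  congr 1; ext x; ring

theorem Reg2a_cov (h : Mom f) (u v : Fin m → ℝ) :
    u ⬝ᵥ densCov f *ᵥ v = ∫ x, (u ⬝ᵥ (x - densMean f)) * (v ⬝ᵥ (x - densMean f)) ∂dm f := by
  have := h.prob
  have hL : ∀ i, MemLp (fun x : Fin m → ℝ => x i - densMean f i) 2 (dm f) := fun i =>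
    (h.memLp i).sub (memLp_const _)
  have hI : ∀ i j, Integrable (fun x : Fin m → ℝ =>
      u i * v j * ((x i - densMean f i) * (x j - densMean f j))) (dm f) := fun i j =>
    ((hL i).integrable_mul (hL j)).const_mul _
  have e : ∀ x : Fin m → ℝ, (u ⬝ᵥ (x - densMean f)) * (v ⬝ᵥ (x - densMean f)) =
      ∑ i, ∑ j, u i * v j * ((x i - densMean f i) * (x j - densMean f j)) := by
    intro x
    simp only [dotProduct, Pi.sub_apply, Finset.sum_mul_sum]
    exact Finset.sum_congr rfl fun i _ => Finset.sum_congr rfl fun j _ => by ring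
  simp_rw [e]
  rw [integral_finsetSum _ fun i _ => integrable_finsetSum _ fun j _ => hI i j]
  simp only [dotProduct, mulVec, Finset.mul_sum]
  refine Finset.sum_congr rfl fun i _ => ?_
  rw [integral_finsetSum _ fun j _ => hI i j]
  refine Finset.sum_congr rfl fun j _ => ?_
  rw [integral_const_mul, int_dm h.meas h.nonneg]
  simp only [densCov, of_apply]
  ring

theorem Reg2a_lin (h : Mom f) (u : Fin m → ℝ) : MemLp (fun x : Fin m → ℝ => u ⬝ᵥ x) 2 (dm f) := by
  simp only [dotProduct]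
  exact memLp_finsetSum _ fun i _ => (h.memLp i).const_mul _

/-- `⟨v, Cov v⟩ = ∫ ⟨v, x - mean⟩² f`; hyperplanes are null (`Measure.addHaar_affineSubspace`). -/
theorem Mom.cov_pos (h : Mom f) {v : Fin m → ℝ} (hv : v ≠ 0) : 0 < v ⬝ᵥ densCov f *ᵥ v := by
  have := h.prob
  rw [Reg2a_cov h]
  have hL : MemLp (fun x : Fin m → ℝ => v ⬝ᵥ (x - densMean f)) 2 (dm f) := by
    simp only [dotProduct_sub]
    exact (Reg2a_lin h v).sub (memLp_const _)
  rw [integral_pos_iff_support_of_nonneg (fun x => mul_self_nonneg _) (hL.integrable_mul hL)]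
  let l : (Fin m → ℝ) →ₗ[ℝ] ℝ :=
    { toFun := fun x => v ⬝ᵥ x
      map_add' := fun x y => dotProduct_add _ _ _
      map_smul' := fun c x => by simp }
  let H : AffineSubspace ℝ (Fin m → ℝ) := AffineSubspace.mk' (densMean f) (LinearMap.ker l)
  have hH : H ≠ ⊤ := by
    intro hH
    have : v + densMean f ∈ H := by rw [hH]; trivial
    simp only [H, AffineSubspace.mem_mk', vsub_eq_sub, add_sub_cancel_right, LinearMap.mem_ker] at this
    exact hv (dotProduct_self_eq_zero.1 this)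
  have h0 : dm f (H : Set (Fin m → ℝ)) = 0 :=
    withDensity_absolutelyContinuous _ _ (Measure.addHaar_affineSubspace volume H hH)
  rw [pos_iff_ne_zero]
  intro h1
  have h2 : dm f Set.univ = 0 := by
    refine measure_mono_null (fun x _ => ?_) (measure_union_null h0 h1)
    by_cases hx : v ⬝ᵥ (x - densMean f) = 0
    · left
      simp only [H, SetLike.mem_coe, AffineSubspace.mem_mk', vsub_eq_sub, LinearMap.mem_ker]
      exact hx
    · right
      exact mul_self_ne_zero.2 hx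
  simp at h2

theorem Mom.det_pos (h : Mom f) : 0 < (densCov f).det := by
  have : (densCov f).PosDef := by
    refine Matrix.posDef_iff_dotProduct_mulVec.2 ⟨?_, fun v hv => ?_⟩
    · rw [Matrix.IsHermitian, conjTranspose_eq_transpose_of_trivial]; exact densCov_symm f
    · simpa using h.cov_pos hv
  exact this.det_pos

theorem cov_of_law (h : Mom f) {A : Matrix (Fin m) (Fin m) ℝ} {T : (Fin m → ℝ) → Fin m → ℝ}
    (hT : Measurable T) (hl : Measure.map T (γ (Fin m)) = Measure.map (fun x => A *ᵥ x) (dm f)) :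
    LV T ∧ (∀ i, ∫ z, T z i ∂γ (Fin m) = (A *ᵥ densMean f) i) ∧ covT T = A * densCov f * Aᵀ := by
  have := h.prob
  have hA : Measurable fun x : Fin m → ℝ => A *ᵥ x := by fun_prop
  have key : ∀ φ : (Fin m → ℝ) → ℝ, Measurable φ →
      ∫ z, φ (T z) ∂γ (Fin m) = ∫ x, φ (A *ᵥ x) ∂dm f := fun φ hφ => by
    rw [← integral_map hT.aemeasurable hφ.aestronglyMeasurable, hl,
      integral_map hA.aemeasurable hφ.aestronglyMeasurable]
  have hmean : ∀ i, ∫ z, T z i ∂γ (Fin m) = (A *ᵥ densMean f) i := fun i => by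
    rw [key (fun x => x i) (measurable_pi_apply i)]
    simp only [mulVec, dotProduct]
    rw [integral_finsetSum _ fun j _ => ((h.memLp j).integrable one_le_two).const_mul _]
    refine Finset.sum_congr rfl fun j _ => ?_
    rw [integral_const_mul, int_dm h.meas h.nonneg]; rfl
  refine ⟨fun i => ?_, hmean, ?_⟩
  · have h1 : MemLp (fun x : Fin m → ℝ => x i) 2 (Measure.map T (γ (Fin m))) := by
      rw [hl, memLp_map_measure_iff (measurable_pi_apply i).aestronglyMeasurable hA.aemeasurable]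
      exact Reg2a_lin h (A i)
    exact (memLp_map_measure_iff (measurable_pi_apply i).aestronglyMeasurable hT.aemeasurable).1 h1
  · ext i j
    have e : (A * densCov f * Aᵀ) i j = A i ⬝ᵥ densCov f *ᵥ A j := by
      rw [Matrix.mul_assoc]; rfl
    rw [e, Reg2a_cov h]
    simp only [covT, cen, of_apply, hmean]
    rw [key (fun x => (x i - (A *ᵥ densMean f) i) * (x j - (A *ᵥ densMean f) j)) (by fun_prop)]
    simp only [dotProduct_sub]
    rfl

/-! ### Second part -/

theorem Apx.subseq (h : Apx g f) {φ : ℕ → ℕ} (hφ : StrictMono φ) : Apx (fun n => g (φ n)) f := by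
  obtain ⟨C, c, hc, hd⟩ := h.dom
  exact ⟨fun n => h.meas _, fun n => h.nonneg _, ⟨C, c, hc, fun n => hd _⟩,
    h.lim.mono fun x hx => hx.comp hφ.tendsto_atTop⟩

/-- Dominated convergence. -/
theorem Apx.tendsto (h : Apx g f) {ψ : ℕ → (Fin m → ℝ) → ℝ} {ψ' : (Fin m → ℝ) → ℝ}
    (hm : ∀ n, Measurable (ψ n)) {C : ℝ} {k : ℕ} (hb : ∀ n x, |ψ n x| ≤ C * (1 + ‖x‖) ^ k)
    (hl : ∀ x, Tendsto (fun n => ψ n x) atTop (𝓝 (ψ' x))) :
    Tendsto (fun n => ∫ x, ψ n x * g n x) atTop (𝓝 (∫ x, ψ' x * f x)) := by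
  obtain ⟨D, c, hc, hd⟩ := h.dom
  refine tendsto_integral_of_dominated_convergence
    (fun x => C * D * ((1 + ‖x‖) ^ k * Real.exp (-(c * ‖x‖))))
    (fun n => ((hm n).mul (h.meas n)).aestronglyMeasurable) ((integrable_exp_norm hc k).const_mul _)
    (fun n => Eventually.of_forall fun x => ?_) (h.lim.mono fun x hx => (hl x).mul hx)
  rw [Real.norm_eq_abs, abs_mul, abs_of_nonneg (h.nonneg n x), mul_mul_mul_comm]
  exact mul_le_mul (hb n x) (hd n x) (h.nonneg n x) ((abs_nonneg _).trans (hb n x))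

theorem Apx.mean (h : Apx g f) : Tendsto (fun n => densMean (g n)) atTop (𝓝 (densMean f)) := by
  refine tendsto_pi_nhds.2 fun i => h.tendsto (ψ := fun _ x => x i) (fun _ => measurable_pi_apply i) (C := 1)
    (k := 1) (fun _ x => ?_) fun _ => tendsto_const_nhds
  rw [one_mul, pow_one]
  exact (norm_le_pi_norm x i).trans (by linarith)

theorem Apx.cov (h : Apx g f) : Tendsto (fun n => densCov (g n)) atTop (𝓝 (densCov f)) := by
  obtain ⟨B, hB⟩ := (Metric.isBounded_range_of_tendsto _ h.mean).exists_norm_le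
  have hB' : ∀ n (x : Fin m → ℝ) i, |x i - densMean (g n) i| ≤ (1 + B) * (1 + ‖x‖) := fun n x i => by
    have h1 : |x i| ≤ ‖x‖ := norm_le_pi_norm x i
    have h2 : |densMean (g n) i| ≤ B := (norm_le_pi_norm (densMean (g n)) i).trans (hB _ ⟨n, rfl⟩)
    have h3 : 0 ≤ B := (abs_nonneg _).trans h2
    refine (abs_sub _ _).trans ?_
    nlinarith [mul_nonneg h3 (norm_nonneg x)]
  have hm := tendsto_pi_nhds.1 h.mean
  refine tendsto_pi_nhds.2 fun i => tendsto_pi_nhds.2 fun j =>
    h.tendsto (ψ := fun n x => (x i - densMean (g n) i) * (x j - densMean (g n) j))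
      (fun _ => ((measurable_pi_apply i).sub_const _).mul ((measurable_pi_apply j).sub_const _))
      (C := (1 + B) ^ 2) (k := 2) (fun n x => ?_) fun x => ((hm i).const_sub _).mul ((hm j).const_sub _)
  rw [abs_mul, ← mul_pow, sq]
  exact mul_le_mul (hB' n x i) (hB' n x j) (abs_nonneg _) ((abs_nonneg _).trans (hB' n x i))

theorem reg2b_mul_log {t : ℝ} (ht : 0 ≤ t) : |t * Real.log t| ≤ 2 * Real.sqrt t + t ^ 2 := by
  rcases ht.eq_or_lt with rfl | ht
  · simp
  have hs : 0 < Real.sqrt t := Real.sqrt_pos.2 ht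
  have h1 : t * Real.log t ≤ t * (t - 1) := mul_le_mul_of_nonneg_left (Real.log_le_sub_one_of_pos ht) ht.le
  have h2 := Real.log_le_sub_one_of_pos (inv_pos.2 hs)
  rw [Real.log_inv, Real.log_sqrt ht.le] at h2
  have h3 := mul_le_mul_of_nonneg_left h2 ht.le
  have h4 : t * (Real.sqrt t)⁻¹ = Real.sqrt t := by rw [← div_eq_mul_inv, Real.div_sqrt]
  rw [mul_sub, h4] at h3
  exact abs_le.2 ⟨by nlinarith [sq_nonneg t], by nlinarith⟩

/-- `|t log t| ≤ 2 √t + t²`, `Real.continuous_mul_log`. -/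
theorem Apx.entropy (h : Apx g f) :
    Tendsto (fun n => diffEntropy (g n)) atTop (𝓝 (diffEntropy f)) := by
  obtain ⟨D, c, hc, hd⟩ := h.dom
  refine (tendsto_integral_of_dominated_convergence
    (fun x => 2 * Real.sqrt D * ((1 + ‖x‖) ^ 0 * Real.exp (-(c / 2 * ‖x‖))) +
      D ^ 2 * ((1 + ‖x‖) ^ 0 * Real.exp (-(2 * c * ‖x‖))))
    (fun n => ((h.meas n).mul (h.meas n).log).aestronglyMeasurable)
    (((integrable_exp_norm (half_pos hc) 0).const_mul _).add
      ((integrable_exp_norm (mul_pos two_pos hc) 0).const_mul _))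
    (fun n => Eventually.of_forall fun x => ?_)
    (h.lim.mono fun x hx => (Real.continuous_mul_log.tendsto _).comp hx)).neg
  refine (reg2b_mul_log (h.nonneg n x)).trans (add_le_add ?_ ?_)
  · rw [pow_zero, one_mul, mul_assoc, show -(c / 2 * ‖x‖) = -(c * ‖x‖) / 2 by ring, Real.exp_half,
      ← Real.sqrt_mul' _ (Real.exp_pos _).le]
    exact mul_le_mul_of_nonneg_left (Real.sqrt_le_sqrt (hd n x)) zero_le_two
  · rw [pow_zero, one_mul, show -(2 * c * ‖x‖) = (2 : ℕ) * -(c * ‖x‖) by push_cast; ring, Real.exp_nat_mul,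
      ← mul_pow]
    exact pow_le_pow_left₀ (h.nonneg n x) (hd n x) 2

/-- Cauchy-Schwarz. -/
theorem covT_tendsto {T : ℕ → (Fin m → ℝ) → Fin m → ℝ} {S : (Fin m → ℝ) → Fin m → ℝ}
    (hT : ∀ n, LV (T n)) (hS : LV S) (h : Tendsto (fun n =>
      ∫ z, (cen (T n) z - cen S z) ⬝ᵥ (cen (T n) z - cen S z) ∂γ (Fin m)) atTop (𝓝 0)) :
    Tendsto (fun n => covT (T n)) atTop (𝓝 (covT S)) := by
  have lc : ∀ {T : (Fin m → ℝ) → Fin m → ℝ}, LV T → ∀ i, L2 fun z => cen T z i := fun h i =>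
    (h i).sub (memLp_const _)
  have lb := lc hS
  have ld : ∀ n i, L2 fun z => (cen (T n) z - cen S z) i := fun n i => (lc (hT n) i).sub (lb i)
  have h1 : ∀ i, Tendsto (fun n => √(∫ z, (cen (T n) z - cen S z) i ^ 2 ∂γ (Fin m))) atTop (𝓝 0) := fun i => by
    rw [← Real.sqrt_zero]
    refine (squeeze_zero (fun n => integral_nonneg fun z => sq_nonneg _) (fun n => ?_) h).sqrt
    refine integral_mono (ld n i).sq_int (dot_int (ld n) (ld n)).1 fun z => ?_
    simp only [sq]
    exact Finset.single_le_sum (f := fun i => (cen (T n) z - cen S z) i * (cen (T n) z - cen S z) i)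
      (fun i _ => mul_self_nonneg _) (Finset.mem_univ i)
  have h2 : ∀ i j, Tendsto (fun n => ∫ z, (cen (T n) z - cen S z) i * cen S z j ∂γ (Fin m)) atTop (𝓝 0) :=
    fun i j => squeeze_zero_norm (fun n => abs_int_mul_le (ld n i) (lb j)) (by simpa using (h1 i).mul_const _)
  have h3 : ∀ i j, Tendsto (fun n => ∫ z, (cen (T n) z - cen S z) i * (cen (T n) z - cen S z) j ∂γ (Fin m))
      atTop (𝓝 0) :=
    fun i j => squeeze_zero_norm (fun n => abs_int_mul_le (ld n i) (ld n j)) (by simpa using (h1 i).mul (h1 j))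
  refine tendsto_pi_nhds.2 fun i => tendsto_pi_nhds.2 fun j => ?_
  have h4 := (((h3 i j).add (h2 i j)).add (h2 j i)).add_const (covT S i j)
  simp only [zero_add] at h4
  refine h4.congr fun n => ?_
  have i1 := (ld n i).mul_int (ld n j)
  have i2 := (ld n i).mul_int (lb j)
  have i3 := (ld n j).mul_int (lb i)
  rw [covT, covT, of_apply, of_apply, ← integral_add i1 i2, ← integral_add (i1.fun_add i2) i3,
    ← integral_add ((i1.fun_add i2).fun_add i3) ((lb i).mul_int (lb j))]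
  refine integral_congr_ae (Eventually.of_forall fun z => ?_)
  simp only [Pi.sub_apply]
  ring

/-- `C ≥ 2c`, so eventually `C_n ≥ c` and `c |row i of A_n|² ≤ (A_n C_n A_nᵀ)_ii`, which is bounded;
`tendsto_subseq_of_bounded`. -/
theorem exists_lim_matrix {A C : ℕ → Matrix (Fin m) (Fin m) ℝ} {C' : Matrix (Fin m) (Fin m) ℝ}
    (hs' : C'.IsSymm) (hp : ∀ v : Fin m → ℝ, v ≠ 0 → 0 < v ⬝ᵥ C' *ᵥ v) (hC : Tendsto C atTop (𝓝 C'))
    (h : Tendsto (fun n => A n * C n * (A n)ᵀ) atTop (𝓝 1)) :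
    ∃ (φ : ℕ → ℕ) (A' : Matrix (Fin m) (Fin m) ℝ), StrictMono φ ∧ IsUnit A'.det ∧
      Tendsto (fun n => A (φ n)) atTop (𝓝 A') := by
  have hq : Continuous fun p : Matrix (Fin m) (Fin m) ℝ × (Fin m → ℝ) => p.2 ⬝ᵥ p.1 *ᵥ p.2 := by fun_prop
  have hK := isCompact_sphere (0 : Fin m → ℝ) 1
  obtain ⟨c, hc, h1⟩ := hK.exists_forall_le' (hq.comp (Continuous.prodMk_right C')).continuousOn
    fun v hv => hp v (ne_zero_of_mem_unit_sphere ⟨v, hv⟩)
  have h2 := hC.eventually (hK.eventually_forall_of_forall_eventually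
    (P := fun M v => c / 2 < v ⬝ᵥ M *ᵥ v) fun v hv =>
      (hq.tendsto (C', v)).eventually_const_lt ((half_lt_self hc).trans_le (h1 v hv)))
  have h3 : ∀ᶠ n in atTop, ∀ i, (A n * C n * (A n)ᵀ) i i < 2 := eventually_all.2 fun i =>
    (tendsto_pi_nhds.1 (tendsto_pi_nhds.1 h i) i).eventually_lt_const (by simp)
  have h4 : ∀ᶠ n in atTop, (fun i => A n i) ∈ Metric.closedBall (0 : Fin m → Fin m → ℝ) (1 + 4 / c) := by
    filter_upwards [h2, h3] with n e1 e2
    rw [mem_closedBall_zero_iff, pi_norm_le_iff_of_nonneg (by positivity)]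
    intro i
    by_contra hr
    have hr1 : 1 + 4 / c < ‖A n i‖ := not_le.1 hr
    have h0 : 0 < 4 / c := by positivity
    have hr0 : 0 < ‖A n i‖ := by linarith
    have e3 := e1 (‖A n i‖⁻¹ • A n i) (by simp [norm_smul, hr0.ne'])
    have e4 : (A n * C n * (A n)ᵀ) i i = A n i ⬝ᵥ C n *ᵥ A n i := by
      rw [Matrix.mul_assoc]
      rfl
    rw [mulVec_smul, smul_dotProduct, dotProduct_smul, ← e4, smul_eq_mul, smul_eq_mul,
      lt_inv_mul_iff₀ hr0, lt_inv_mul_iff₀ hr0] at e3
    have e5 : 4 < ‖A n i‖ * c := (div_lt_iff₀ hc).1 (by linarith)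
    nlinarith [e2 i]
  obtain ⟨A', -, φ, hφ, h5⟩ := (isCompact_closedBall _ _).tendsto_subseq' h4.frequently
  have h6 : Tendsto (fun n => A (φ n)) atTop (𝓝 (of A')) := h5
  refine ⟨φ, of A', hφ, isUnit_det_of_right_inverse (B := C' * (of A')ᵀ) ?_, h6⟩
  rw [← Matrix.mul_assoc]
  exact tendsto_nhds_unique ((h6.mul (hC.comp hφ.tendsto_atTop)).mul
    ((continuous_id.matrix_transpose.tendsto _).comp h6)) (h.comp hφ.tendsto_atTop)

end Crest.Agent.R253
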