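/-
Row 253 (S0390, S0391), file Expo.  Affine images of the product of exponential laws.
Definitions: R253/Fun.lean, R253/Defs.lean.  Outline: R253/Blueprint.lean.  Keep the statements unchanged.
-/
import Crest.Agent.R253.Reg2
import Crest.Agent.R253.Fun1
import Crest.Agent.R253.Pos1

set_option autoImplicit false

namespace Crest.Agent.R253

open MeasureTheory ProbabilityTheory Matrix Filter Topology Crest.Agent.R203N

open Crest.GeometryTopology.Isotropic

variable {m : ℕ} {M O : Matrix (Fin m) (Fin m) ℝ} {b : Fin m → ℝ}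

/-- The extremal densities. -/
noncomputable def ex (M : Matrix (Fin m) (Fin m) ℝ) (b : Fin m → ℝ) : (Fin m → ℝ) → ℝ :=
  fun x => |M.det|⁻¹ * Set.indicator {y : Fin m → ℝ | ∀ i, 0 ≤ (M⁻¹.mulVec (y - b)) i}
    (fun y => Real.exp (- ∑ i, (M⁻¹.mulVec (y - b)) i)) x

/-- The law of `m` independent exponential variables. -/
noncomputable def pe (m : ℕ) : Measure (Fin m → ℝ) := Measure.pi fun _ => expMeasure 1

theorem Expoa_meas (M : Matrix (Fin m) (Fin m) ℝ) (b : Fin m → ℝ) :
    Measurable fun y : Fin m → ℝ => M *ᵥ (y - b) :=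
  (clm M).continuous.measurable.comp (measurable_id.sub_const b)

/-- The density of the standard exponential law. -/
noncomputable def Expoa_e (t : ℝ) : ℝ := (Set.Ici (0 : ℝ)).indicator (fun t => Real.exp (-t)) t

theorem Expoa_e_meas : Measurable Expoa_e :=
  (by fun_prop : Measurable fun t : ℝ => Real.exp (-t)).indicator measurableSet_Ici

theorem Expoa_e_nonneg (t : ℝ) : 0 ≤ Expoa_e t :=
  Set.indicator_nonneg (fun _ _ => (Real.exp_pos _).le) t

theorem Expoa_exp_eq :
    expMeasure 1 = (volume : Measure ℝ).withDensity fun t => ENNReal.ofReal (Expoa_e t) := by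
  unfold expMeasure gammaMeasure
  congr 1
  funext t
  rw [gammaPDF_eq, Expoa_e]
  by_cases h : 0 ≤ t
  · rw [if_pos h, Set.indicator_of_mem (show t ∈ Set.Ici (0 : ℝ) from h)]
    simp
  · rw [if_neg h, Set.indicator_of_notMem (show t ∉ Set.Ici (0 : ℝ) from h)]

theorem Expoa_pow_eq (k : ℕ) : (fun t : ℝ => Expoa_e t * t ^ k) =
    (Set.Ici (0 : ℝ)).indicator fun t => Real.exp (-t) * t ^ (((k : ℝ) + 1) - 1) := by
  funext t
  rw [add_sub_cancel_right, Expoa_e]
  by_cases h : t ∈ Set.Ici (0 : ℝ)
  · rw [Set.indicator_of_mem h, Set.indicator_of_mem h, Real.rpow_natCast]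
  · rw [Set.indicator_of_notMem h, Set.indicator_of_notMem h, zero_mul]

theorem Expoa_int_vol (k : ℕ) : Integrable fun t : ℝ => Expoa_e t * t ^ k := by
  rw [Expoa_pow_eq, integrable_indicator_iff measurableSet_Ici, integrableOn_Ici_iff_integrableOn_Ioi]
  exact Real.GammaIntegral_convergent (by positivity)

theorem Expoa_int (k : ℕ) : Integrable (fun t : ℝ => t ^ k) (expMeasure 1) := by
  rw [Expoa_exp_eq, integrable_withDensity_iff_integrable_smul' Expoa_e_meas.ennreal_ofReal
    (Eventually.of_forall fun _ => ENNReal.ofReal_lt_top)]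
  simp only [ENNReal.toReal_ofReal (Expoa_e_nonneg _), smul_eq_mul]
  exact Expoa_int_vol k

theorem Expoa_mom (k : ℕ) : ∫ t : ℝ, t ^ k ∂expMeasure 1 = k.factorial := by
  rw [Expoa_exp_eq, integral_withDensity_eq_integral_toReal_smul Expoa_e_meas.ennreal_ofReal
    (Eventually.of_forall fun _ => ENNReal.ofReal_lt_top)]
  simp only [ENNReal.toReal_ofReal (Expoa_e_nonneg _), smul_eq_mul]
  rw [Expoa_pow_eq, integral_indicator measurableSet_Ici, integral_Ici_eq_integral_Ioi,
    ← Real.Gamma_eq_integral (by positivity), Real.Gamma_nat_eq_factorial]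

theorem Expoa_ex_comp (hM : M.det ≠ 0) (b u : Fin m → ℝ) :
    |M.det| * ex M b (M *ᵥ u + b) = ex (1 : Matrix (Fin m) (Fin m) ℝ) 0 u := by
  have h : M⁻¹ *ᵥ (M *ᵥ u + b - b) = u := by
    rw [add_sub_cancel_right, mulVec_mulVec, nonsing_inv_mul M hM.isUnit, one_mulVec]
  have h0 := abs_pos.2 hM
  simp only [ex, Set.indicator, Set.mem_ofPred_eq, h, inv_one, det_one, abs_one, one_mul, sub_zero,
    one_mulVec]
  rw [← mul_assoc, mul_inv_cancel₀ h0.ne', one_mul]

theorem measurable_ex (M : Matrix (Fin m) (Fin m) ℝ) (b : Fin m → ℝ) : Measurable (ex M b) := by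
  have h := Expoa_meas M⁻¹ b
  refine Measurable.const_mul (Measurable.indicator ?_ ?_) _
  · exact (Finset.measurable_sum _ fun i _ => (measurable_pi_apply i).comp h).neg.exp
  · rw [Set.ofPred_forall]
    exact MeasurableSet.iInter fun i => measurableSet_le measurable_const ((measurable_pi_apply i).comp h)

theorem ex_nonneg (M : Matrix (Fin m) (Fin m) ℝ) (b x : Fin m → ℝ) : 0 ≤ ex M b x := by
  exact mul_nonneg (inv_nonneg.2 (abs_nonneg _)) (Set.indicator_nonneg (fun _ _ => (Real.exp_pos _).le) x)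

/-- Compare the lemma before `γ_eq_withDensity` in `R203N/Gauss.lean`. -/
theorem dm_ex_one : dm (ex (1 : Matrix (Fin m) (Fin m) ℝ) 0) = pe m := by
  have h := Gauss_pi_withDensity (ι := Fin m) (volume : Measure ℝ) (f := fun _ t => Expoa_e t)
    (fun _ t => Expoa_e_nonneg t) (fun _ => by simpa using Expoa_int_vol 0)
  unfold pe dm
  rw [Expoa_exp_eq, h, ← volume_pi]
  congr 1
  funext u
  congr 1
  simp only [ex, Set.indicator, Set.mem_ofPred_eq, inv_one, det_one, abs_one, one_mul, sub_zero,
    one_mulVec]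
  by_cases hu : ∀ i, 0 ≤ u i
  · rw [if_pos hu, ← Finset.sum_neg_distrib, Real.exp_sum]
    exact Finset.prod_congr rfl fun i _ =>
      (Set.indicator_of_mem (show u i ∈ Set.Ici (0 : ℝ) from hu i) fun t => Real.exp (-t)).symm
  · rw [if_neg hu]
    obtain ⟨i, hi⟩ := not_forall.1 hu
    exact (Finset.prod_eq_zero (Finset.mem_univ i)
      (Set.indicator_of_notMem (show u i ∉ Set.Ici (0 : ℝ) from hi) _)).symm

/-- `int_comp_mulVec` (or its `lintegral` form) and translation invariance. -/
theorem dm_ex (hM : M.det ≠ 0) (b : Fin m → ℝ) :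
    dm (ex M b) = Measure.map (fun u => M *ᵥ u + b) (pe m) := by
  have hm : Measurable fun u : Fin m → ℝ => M *ᵥ u + b := (clm M).continuous.measurable.add_const b
  have hb : Function.Bijective fun u : Fin m → ℝ => M *ᵥ u + b :=
    (Equiv.addRight b).bijective.comp (pos1a_bij hM.isUnit)
  rw [← dm_ex_one]
  ext s hs
  rw [Measure.map_apply hm hs, dm, dm, withDensity_apply _ hs, withDensity_apply _ (hm hs)]
  have h := lintegral_image_eq_lintegral_abs_det_fderiv_mul volume (hm hs)
    (fun x _ => (pos1a_der M x _).add_const b) hb.1.injOn fun x => ENNReal.ofReal (ex M b x)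
  rw [Set.image_preimage_eq _ hb.2] at h
  rw [h]
  refine lintegral_congr fun x => ?_
  rw [← ENNReal.ofReal_mul (abs_nonneg _), det_clm, Expoa_ex_comp hM]

theorem pe_prob : IsProbabilityMeasure (pe m) := by
  have := isProbabilityMeasure_expMeasure one_pos
  unfold pe
  infer_instance

/-- `∫ t^k e^(-t) = k!` (`Real.integral_rpow_mul_exp_neg_mul_Ioi`, `Real.Gamma_nat_eq_factorial`);
independence of the coordinates (`integral_fintype_prod_eq_prod`). -/
theorem pe_moments (i j : Fin m) : MemLp (fun u : Fin m → ℝ => u i) 2 (pe m) ∧ ∫ u, u i ∂pe m = 1 ∧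
    ∫ u, (u i - 1) * (u j - 1) ∂pe m = (1 : Matrix (Fin m) (Fin m) ℝ) i j := by
  have := isProbabilityMeasure_expMeasure one_pos
  have hp : ∀ i : Fin m, MeasurePreserving (fun u : Fin m → ℝ => u i) (pe m) (expMeasure 1) := fun i =>
    measurePreserving_eval (fun _ : Fin m => expMeasure 1) i
  have hL : MemLp (fun t : ℝ => t) 2 (expMeasure 1) :=
    (memLp_two_iff_integrable_sq measurable_id.aestronglyMeasurable).2 (Expoa_int 2)
  have hI : ∀ (i : Fin m) (φ : ℝ → ℝ), Measurable φ → ∫ u, φ (u i) ∂pe m = ∫ t, φ t ∂expMeasure 1 :=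
    fun i φ hφ => by
      rw [← (hp i).map_eq, integral_map (hp i).measurable.aemeasurable hφ.aestronglyMeasurable]
  have i1 : Integrable (fun t : ℝ => t) (expMeasure 1) := by simpa using Expoa_int 1
  have m1 : ∫ t : ℝ, t ∂expMeasure 1 = 1 := by simpa using Expoa_mom 1
  have m2 : ∫ t : ℝ, t ^ 2 ∂expMeasure 1 = 2 := by simpa using Expoa_mom 2
  have c1 : ∫ t : ℝ, (t - 1) ∂expMeasure 1 = 0 := by
    rw [integral_sub i1 (integrable_const _), m1]
    simp
  refine ⟨hL.comp_measurePreserving (hp i), (hI i (fun t => t) measurable_id).trans m1, ?_⟩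
  by_cases hij : i = j
  · subst hij
    rw [one_apply_eq, hI i (fun t => (t - 1) * (t - 1)) (by fun_prop)]
    have e : (fun t : ℝ => (t - 1) * (t - 1)) = fun t => t ^ 2 - t - (t - 1) := by
      funext t
      ring
    have i2 : Integrable (fun t : ℝ => t ^ 2 - t) (expMeasure 1) := (Expoa_int 2).sub i1
    have i3 : Integrable (fun t : ℝ => t - 1) (expMeasure 1) := i1.sub (integrable_const _)
    rw [e, integral_sub i2 i3,
      integral_sub (Expoa_int 2) i1, m1, m2, c1]
    norm_num
  · have hind : IndepFun (fun u : Fin m → ℝ => u i - 1) (fun u : Fin m → ℝ => u j - 1) (pe m) :=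
      (iIndepFun_pi (μ := fun _ : Fin m => expMeasure 1) (X := fun _ t => t - 1)
        fun _ => (measurable_id.sub_const 1).aemeasurable).indepFun hij
    rw [one_apply_ne hij, hind.integral_fun_mul_eq_mul_integral
      ((measurable_pi_apply i).sub_const 1).aestronglyMeasurable
      ((measurable_pi_apply j).sub_const 1).aestronglyMeasurable,
      hI i (fun t => t - 1) (by fun_prop), c1, zero_mul]

theorem expob_meas (M : Matrix (Fin m) (Fin m) ℝ) (b : Fin m → ℝ) :
    Measurable fun u : Fin m → ℝ => M *ᵥ u + b :=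
  ((continuous_const.matrix_mulVec continuous_id).add continuous_const).measurable

theorem expob_int (hM : M.det ≠ 0) (b : Fin m → ℝ) {φ : (Fin m → ℝ) → ℝ} (hφ : Measurable φ) :
    ∫ x, φ x * ex M b x = ∫ u, φ (M *ᵥ u + b) ∂pe m := by
  rw [← int_dm (measurable_ex M b) (ex_nonneg M b), dm_ex hM,
    integral_map (expob_meas M b).aemeasurable hφ.aestronglyMeasurable]

theorem expob_i1 (i : Fin m) : Integrable (fun u : Fin m → ℝ => u i) (pe m) :=
  have := pe_prob (m := m)
  (pe_moments i i).1.integrable one_le_two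

theorem Mom_ex (hM : M.det ≠ 0) (b : Fin m → ℝ) : Mom (ex M b) := by
  have := pe_prob (m := m)
  refine ⟨measurable_ex M b, ex_nonneg M b, ?_, ?_⟩
  · simpa using expob_int hM b (φ := fun _ => 1) measurable_const
  · have h1 : MemLp (fun u : Fin m → ℝ => M *ᵥ u + b) 2 (pe m) := memLp_pi_iff.2 fun i => by
      simp only [Pi.add_apply, mulVec, dotProduct]
      exact (memLp_finsetSum _ fun k _ => (pe_moments k k).1.const_mul _).add (memLp_const _)
    have h2 : Integrable (fun x : Fin m → ℝ => (1 + ‖x‖) ^ 2) (dm (ex M b)) := by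
      rw [dm_ex hM, integrable_map_measure (by fun_prop) (expob_meas M b).aemeasurable]
      have h4 : MemLp (fun u : Fin m → ℝ => ‖M *ᵥ u + b‖) 2 (pe m) := h1.norm
      have h3 : MemLp (fun u : Fin m → ℝ => 1 + ‖M *ᵥ u + b‖) 2 (pe m) :=
        MemLp.add (f := fun _ => 1) (g := fun u => ‖M *ᵥ u + b‖) (memLp_const 1) h4
      exact h3.integrable_sq
    rw [dm, integrable_withDensity_iff (measurable_ex M b).ennreal_ofReal (by simp)] at h2
    simpa only [ENNReal.toReal_ofReal (ex_nonneg M b _)] using h2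

theorem densCov_ex (hM : M.det ≠ 0) (b : Fin m → ℝ) : densCov (ex M b) = M * Mᵀ := by
  have := pe_prob (m := m)
  have hm : ∀ i, densMean (ex M b) i = (∑ k, M i k) + b i := fun i => by
    rw [densMean, expob_int hM b (measurable_pi_apply i)]
    simp only [Pi.add_apply, mulVec, dotProduct]
    rw [integral_add (integrable_finsetSum _ fun k _ => (expob_i1 k).const_mul _) (integrable_const _),
      integral_finsetSum _ fun k _ => (expob_i1 k).const_mul _]
    simp only [integral_const_mul, fun k => (pe_moments (m := m) k k).2.1, mul_one, integral_const,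
      probReal_univ, one_smul]
  ext i j
  rw [densCov, of_apply, expob_int hM b (by fun_prop), hm, hm]
  have e : ∀ u : Fin m → ℝ, ((M *ᵥ u + b) i - ((∑ k, M i k) + b i)) * ((M *ᵥ u + b) j - ((∑ k, M j k) + b j))
      = ∑ k, ∑ l, M i k * M j l * ((u k - 1) * (u l - 1)) := fun u => by
    simp only [Pi.add_apply, mulVec, dotProduct, add_sub_add_right_eq_sub, ← Finset.sum_sub_distrib,
      Finset.sum_mul_sum]
    exact Finset.sum_congr rfl fun k _ => Finset.sum_congr rfl fun l _ => by ring
  have hi : ∀ k l, Integrable (fun u : Fin m → ℝ => M i k * M j l * ((u k - 1) * (u l - 1))) (pe m) :=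
    fun k l => (((pe_moments k k).1.sub (memLp_const 1)).integrable_mul
      ((pe_moments l l).1.sub (memLp_const 1))).const_mul _
  simp only [e]
  rw [integral_finsetSum _ fun k _ => integrable_finsetSum _ fun l _ => hi k l, mul_apply]
  refine Finset.sum_congr rfl fun k _ => ?_
  rw [integral_finsetSum _ fun l _ => hi k l]
  simp [integral_const_mul, fun l => (pe_moments (m := m) k l).2.2, one_apply]

theorem diffEntropy_ex (hM : M.det ≠ 0) (b : Fin m → ℝ) :
    diffEntropy (ex M b) = m + Real.log |M.det| := by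
  have := pe_prob (m := m)
  have e : ∀ x, ex M b x * Real.log (ex M b x) =
      (-Real.log |M.det| - ∑ i, (M⁻¹ *ᵥ (x - b)) i) * ex M b x := fun x => by
    unfold ex
    by_cases hx : x ∈ {y : Fin m → ℝ | ∀ i, 0 ≤ (M⁻¹.mulVec (y - b)) i}
    · rw [Set.indicator_of_mem hx, Real.log_mul (inv_ne_zero (abs_ne_zero.2 hM)) (Real.exp_ne_zero _),
        Real.log_inv, Real.log_exp]
      ring
    · simp only [Set.indicator_of_notMem hx, mul_zero, zero_mul]
  have hc : Continuous fun x : Fin m → ℝ => -Real.log |M.det| - ∑ i, (M⁻¹ *ᵥ (x - b)) i :=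
    continuous_const.sub (continuous_finsetSum _ fun i _ => (continuous_apply i).comp
      (continuous_const.matrix_mulVec (continuous_id.sub continuous_const)))
  rw [diffEntropy]
  simp only [e]
  rw [expob_int hM b hc.measurable]
  simp only [add_sub_cancel_right, mulVec_mulVec, nonsing_inv_mul M hM.isUnit, one_mulVec]
  rw [integral_sub (integrable_const _) (integrable_finsetSum _ fun k _ => expob_i1 k),
    integral_finsetSum _ fun k _ => expob_i1 k]
  simp [fun k => (pe_moments (m := m) k k).2.1]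

theorem eq_of_ex {f : (Fin m → ℝ) → ℝ} (hM : M.det ≠ 0) (h : f =ᵐ[volume] ex M b) :
    diffEntropy f = m + Real.log (densCov f).det / 2 := by
  have h1 : diffEntropy f = diffEntropy (ex M b) := by
    unfold diffEntropy
    rw [integral_congr_ae (g := fun x => ex M b x * Real.log (ex M b x))
      (h.mono fun x hx => by simp only [hx])]
  have h2 : densMean f = densMean (ex M b) :=
    funext fun i => integral_congr_ae (h.mono fun x hx => by simp only [hx])
  have h3 : densCov f = densCov (ex M b) := by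
    ext i j
    simp only [densCov, of_apply, h2]
    exact integral_congr_ae (h.mono fun x hx => by simp only [hx])
  rw [h1, h3, diffEntropy_ex hM, densCov_ex hM, det_mul, det_transpose, Real.log_mul hM hM, Real.log_abs]
  ring

/-! ### Second part -/

theorem expoc_surj {a : ℝ} (ha : 0 < a) : ∃ l, Tf l = a := by
  have hπ : 0 < Real.sqrt (2 * Real.pi) := by positivity
  have h1 : Tendsto (fun l => Real.exp (-Tf l)) atTop (𝓝 0) := by
    simpa only [exp_neg_Tf, zero_div] using Mills_Q_lim.div_const (Real.sqrt (2 * Real.pi))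
  have h2 : Tendsto (fun l => Real.exp (-Tf (-l))) atTop (𝓝 1) := by
    have := h1.const_sub 1
    rw [sub_zero] at this
    refine this.congr fun l => ?_
    rw [exp_neg_Tf, exp_neg_Tf, sub_eq_iff_eq_add', ← add_div, Mills_Q_add, div_self hπ.ne']
  obtain ⟨l1, h3⟩ := (h1.eventually (gt_mem_nhds (Real.exp_pos (-a)))).exists
  obtain ⟨l2, h4⟩ := (h2.eventually (lt_mem_nhds (Real.exp_lt_one_iff.2 (neg_lt_zero.2 ha)))).exists
  rw [Real.exp_lt_exp] at h3 h4
  exact intermediate_value_univ (-l2) l1 continuous_Tf ⟨by linarith, by linarith⟩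

theorem expoc_Iic (l : ℝ) : (gaussianReal 0 1).real (Set.Iic l) = 1 - Real.exp (-Tf l) := by
  rw [← Set.compl_Ioi, probReal_compl_eq_one_sub measurableSet_Ioi, exp_neg_Tf, measureReal_def,
    gaussianReal_apply_eq_integral 0 one_ne_zero,
    ENNReal.toReal_ofReal (integral_nonneg fun x => gaussianPDFReal_nonneg _ _ _), Mills_Q, ← integral_div]
  congr 2
  funext x
  simp [gaussianPDFReal, Mills_e, div_eq_inv_mul]

/-- `Measure.ext_of_Iic` (or `Ioi`): `Tf` is strictly increasing, positive, and `P(N > l) = exp (-Tf l)`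
(`exp_neg_Tf`); `Tf → 0` at `-∞`, `Tf → ∞` at `+∞`. -/
theorem map_Tf : Measure.map Tf (gaussianReal 0 1) = expMeasure 1 := by
  have hm := continuous_Tf.measurable
  have := isProbabilityMeasure_expMeasure one_pos
  have := Measure.isProbabilityMeasure_map (μ := gaussianReal 0 1) hm.aemeasurable
  have hs : StrictMono Tf := strictMono_of_deriv_pos fun x => by
    rw [(hasDerivAt_Tf x).deriv]
    exact haz_pos x
  refine Measure.eq_of_cdf _ _ (StieltjesFunction.ext fun a => ?_)
  rw [cdf_expMeasure_eq one_pos, cdf_eq_real, map_measureReal_apply hm measurableSet_Iic, one_mul]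
  rcases le_or_gt a 0 with ha | ha
  · rw [show Tf ⁻¹' Set.Iic a = ∅ from Set.eq_empty_of_forall_notMem fun l hl =>
      (Tf_pos l).not_ge (le_trans hl ha), measureReal_empty]
    split_ifs with h
    · simp [le_antisymm ha h]
    · rfl
  · obtain ⟨l, rfl⟩ := expoc_surj ha
    rw [if_pos ha.le, ← expoc_Iic]
    congr 1
    exact Set.ext fun x => hs.le_iff_le

/-- `γ_eq_withDensity`, `|det O| = 1` (or characteristic functions). -/
theorem γ_rot {ι : Type} [Fintype ι] [DecidableEq ι] {O : Matrix ι ι ℝ} (hO : Orth O) :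
    Measure.map (fun z => Oᵀ *ᵥ z) (γ ι) = γ ι := by
  have h1 : γ ι = muV fun z => dim ι / 2 * Real.log (2 * Real.pi) + z ⬝ᵥ z / 2 := by
    rw [γ_eq_withDensity, muV]
    simp only [neg_add', sub_eq_add_neg]
  have h2 : |Oᵀ.det| = 1 := by
    have := congrArg Matrix.det hO
    rw [det_mul, det_transpose, det_one] at this
    rw [det_transpose, ← sq_eq_sq₀ (abs_nonneg _) zero_le_one, sq_abs, sq, this, one_pow]
  rw [h1, ← muV_VA (by rw [det_transpose]; exact hO.isUnit_det) (by fun_prop)]
  congr 1
  funext x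
  rw [VA, h2, Real.log_one, add_zero, Matrix.inv_eq_right_inv hO, dotProduct_mulVec, ← mulVec_transpose,
    mulVec_mulVec, show Oᵀ * O = 1 from hO, one_mulVec]

/-- The Brenier map onto a rotated product of exponential laws. -/
noncomputable def Tt {ι : Type} [Fintype ι] (O : Matrix ι ι ℝ) (z : ι → ℝ) : ι → ℝ :=
  O *ᵥ fun a => Tf ((Oᵀ *ᵥ z) a)

theorem measurable_Tt {ι : Type} [Fintype ι] (O : Matrix ι ι ℝ) : Measurable (Tt O) := by
  classical
  exact (pos1b_meas O).comp (measurable_pi_lambda _ fun a =>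
    continuous_Tf.measurable.comp ((measurable_pi_apply a).comp (pos1b_meas Oᵀ)))

/-- `Measure.pi_map_pi`. -/
theorem map_Tt (hO : Orth O) : Measure.map (Tt O) (γ (Fin m)) = dm (ex O 0) := by
  have hm := continuous_Tf.measurable
  have h1 : Measurable fun (y : Fin m → ℝ) a => Tf (y a) :=
    measurable_pi_lambda _ fun a => hm.comp (measurable_pi_apply a)
  have := Measure.isProbabilityMeasure_map (μ := gaussianReal 0 1) hm.aemeasurable
  have h2 : Measure.map (fun (y : Fin m → ℝ) a => Tf (y a)) (γ (Fin m)) = pe m := by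
    rw [γ, Measure.pi_map_pi fun _ => hm.aemeasurable, map_Tf, pe]
  rw [dm_ex hO.isUnit_det.ne_zero, ← h2]
  simp only [add_zero]
  conv_rhs => rw [← γ_rot hO]
  rw [Measure.map_map h1 (pos1b_meas _), Measure.map_map (pos1b_meas _) (h1.comp (pos1b_meas _))]
  rfl

theorem covT_Tt (hO : Orth O) : LV (Tt O) ∧ covT (Tt O) = 1 := by
  obtain ⟨h1, -, h2⟩ := cov_of_law (Mom_ex hO.isUnit_det.ne_zero 0) (A := 1) (measurable_Tt O)
    (by simp only [one_mulVec, Measure.map_id', map_Tt hO])
  rw [densCov_ex hO.isUnit_det.ne_zero, hO.mul_transpose] at h2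
  exact ⟨h1, by simpa using h2⟩

end Crest.Agent.R253
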