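/-
Row 253 (S0390, S0391), file Body.  From densities to convex bodies.
Definitions: R253/Fun.lean, R253/Defs.lean.  Outline: R253/Blueprint.lean.  Keep the statements unchanged.
-/
import Crest.Agent.R253.Expo
import Crest.Agent.R203N.Body2

set_option autoImplicit false

namespace Crest.Agent.R253

open MeasureTheory ProbabilityTheory Matrix Filter Topology Crest.Agent.R203N

open Crest.GeometryTopology.Isotropic

variable {n : ℕ} {K : Set (Fin n → ℝ)}

/-- The density `exp (-x₀) / (n! vol K)` on the cone over `K`. -/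
noncomputable def fK (K : Set (Fin n → ℝ)) (x : Fin (n + 1) → ℝ) : ℝ :=
  ((n.factorial : ℝ) * (volume K).toReal)⁻¹ * Set.indicator (cone K) (fun x => Real.exp (-x 0)) x

theorem vol_pos (hK : IsCompact K) (hi : (interior K).Nonempty) : 0 < (volume K).toReal :=
  ENNReal.toReal_pos (Measure.measure_pos_of_nonempty_interior _ hi).ne' hK.measure_lt_top.ne

theorem convex_cone (hc : Convex ℝ K) : Convex ℝ (cone K) := by
  rintro x ⟨hx, k, hk, ex⟩ y ⟨hy, l, hl, ey⟩ a b ha hb hab
  have h0 : 0 ≤ a * x 0 + b * y 0 := by positivity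
  have ht : Fin.tail (a • x + b • y) = (a * x 0) • k + (b * y 0) • l := by
    rw [mul_smul, mul_smul, ex, ey]; rfl
  refine ⟨h0, ?_⟩
  rw [ht]
  show ∃ k' ∈ K, (a * x 0 + b * y 0) • k' = _
  rcases h0.eq_or_lt with h | h
  · have h1 : a * x 0 = 0 := by nlinarith [mul_nonneg ha hx, mul_nonneg hb hy]
    have h2 : b * y 0 = 0 := by linarith
    exact ⟨k, hk, by simp [h1, h2]⟩
  · refine ⟨(a * x 0 / (a * x 0 + b * y 0)) • k + (b * y 0 / (a * x 0 + b * y 0)) • l,
      hc hk hl (by positivity) (by positivity) (by field_simp), ?_⟩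
    rw [smul_add, smul_smul, smul_smul, mul_div_cancel₀ _ h.ne', mul_div_cancel₀ _ h.ne']

theorem fK_pos (hK : IsCompact K) (hi : (interior K).Nonempty) : {x | 0 < fK K x} = cone K := by
  have := vol_pos hK hi
  ext x
  by_cases hx : x ∈ cone K
  · simp only [fK, Set.mem_ofPred_eq, Set.indicator_of_mem hx, hx, iff_true]; positivity
  · simp [fK, hx]

theorem LC_fK (hK : IsCompact K) (hc : Convex ℝ K) (hi : (interior K).Nonempty) : LC (fK K) := by
  have hv := vol_pos hK hi
  have hm := (isClosed_cone hK).measurableSet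
  refine ⟨(Measurable.indicator (by fun_prop) hm).const_mul _, fun x => ?_, ?_, ?_, ?_⟩
  · exact mul_nonneg (by positivity) (Set.indicator_nonneg (fun _ _ => (Real.exp_pos _).le) _)
  · have := lap_cone hK one_pos
    simp only [lap, dotProduct_single, mul_one, one_pow, div_one] at this
    simp only [fK]
    rw [integral_const_mul, integral_indicator hm, this]
    field_simp
  · rw [fK_pos hK hi]; exact convex_cone hc
  · rw [fK_pos hK hi]
    refine ⟨convex_cone hc, fun x hx y hy a b ha hb hab => ?_⟩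
    have e : ∀ z ∈ cone K, Real.log (fK K z) =
        Real.log ((n.factorial : ℝ) * (volume K).toReal)⁻¹ - z 0 := fun z hz => by
      rw [fK, Set.indicator_of_mem hz, Real.log_mul (by positivity) (Real.exp_pos _).ne', Real.log_exp]
      ring
    simp only [e x hx, e y hy, e _ (convex_cone hc hx hy ha hb hab), smul_eq_mul, Pi.add_apply,
      Pi.smul_apply]
    have : b = 1 - a := by linarith
    subst this
    linarith

theorem int_cone (hK : IsCompact K) (p : ℕ) {g : (Fin n → ℝ) → ℝ} (hg : Continuous g) :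
    IntegrableOn (fun x : Fin (n + 1) → ℝ => x 0 ^ p * g ((x 0)⁻¹ • Fin.tail x) * Real.exp (-x 0))
      (cone K) ∧
    ∫ x in cone K, x 0 ^ p * g ((x 0)⁻¹ • Fin.tail x) * Real.exp (-x 0) =
      ((n + p).factorial : ℝ) * ∫ k in K, g k := by
  have hm := (isClosed_cone hK).measurableSet
  have hG := Real.integral_rpow_mul_exp_neg_mul_Ioi (a := ((n + p : ℕ) : ℝ) + 1) (r := 1)
    (by positivity) one_pos
  rw [Real.Gamma_nat_eq_factorial, add_sub_cancel_right] at hG
  simp only [Real.rpow_natCast, div_one, Real.one_rpow, one_mul] at hG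
  have hI : IntegrableOn (fun t : ℝ => t ^ (n + p) * Real.exp (-t)) (Set.Ioi 0) :=
    .of_integral_ne_zero (by rw [hG]; positivity)
  set Ψ : ℝ × (Fin n → ℝ) → ℝ := fun q =>
    (Set.Ioi (0 : ℝ)).indicator (fun t => t ^ p * Real.exp (-t)) q.1 * K.indicator g (q.1⁻¹ • q.2)
    with hΨ
  have mΨ : Measurable Ψ :=
    ((Measurable.indicator (by fun_prop) measurableSet_Ioi).comp measurable_fst).mul
      ((hg.measurable.indicator hK.measurableSet).comp (by fun_prop))
  have iK : ∀ {u : (Fin n → ℝ) → ℝ}, Continuous u → Integrable (K.indicator u) := fun hu =>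
    (integrable_indicator_iff hK.measurableSet).2 (hu.continuousOn.integrableOn_compact hK)
  have fib : ∀ (u : (Fin n → ℝ) → ℝ) (t : ℝ),
      ∫ k : Fin n → ℝ, (Set.Ioi (0 : ℝ)).indicator (fun t => t ^ p * Real.exp (-t)) t *
        K.indicator u (t⁻¹ • k) =
      (Set.Ioi (0 : ℝ)).indicator (fun t => t ^ (n + p) * Real.exp (-t)) t * ∫ k in K, u k := by
    intro u t
    by_cases ht : t ∈ Set.Ioi (0 : ℝ)
    · rw [integral_const_mul, Measure.integral_comp_inv_smul_of_nonneg _ _ (le_of_lt ht),
        integral_indicator hK.measurableSet, Set.indicator_of_mem ht, Set.indicator_of_mem ht]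
      simp only [Module.finrank_fin_fun, smul_eq_mul]
      ring
    · simp [Set.indicator_of_notMem ht]
  have iΨ : Integrable Ψ ((volume : Measure ℝ).prod (volume : Measure (Fin n → ℝ))) := by
    rw [integrable_prod_iff mΨ.aestronglyMeasurable]
    refine ⟨Eventually.of_forall fun t => ?_, ?_⟩
    · by_cases ht : t ∈ Set.Ioi (0 : ℝ)
      · simp only [hΨ]
        exact ((iK hg).comp_smul (inv_ne_zero (ne_of_gt ht))).const_mul _
      · simp [hΨ, Set.indicator_of_notMem ht]
    · have e : ∀ t : ℝ, ∫ k : Fin n → ℝ, ‖Ψ (t, k)‖ =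
          (Set.Ioi (0 : ℝ)).indicator (fun t => t ^ (n + p) * Real.exp (-t)) t * ∫ k in K, |g k| := by
        intro t
        rw [← fib]
        refine integral_congr_ae (Eventually.of_forall fun k => ?_)
        simp only [hΨ, norm_mul, Real.norm_eq_abs]
        congr 1
        · refine abs_of_nonneg (Set.indicator_nonneg (fun s hs => ?_) _)
          have : 0 < s := hs
          positivity
        · by_cases hk : t⁻¹ • k ∈ K <;> simp [hk]
      simp only [e]
      exact ((integrable_indicator_iff measurableSet_Ioi).2 hI).mul_const _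
  have mp := volume_preserving_piFinSuccAbove (fun _ : Fin (n + 1) => ℝ) 0
  have ae : (cone K).indicator (fun x : Fin (n + 1) → ℝ =>
      x 0 ^ p * g ((x 0)⁻¹ • Fin.tail x) * Real.exp (-x 0)) =ᵐ[volume]
      fun x => Ψ (MeasurableEquiv.piFinSuccAbove (fun _ : Fin (n + 1) => ℝ) 0 x) := by
    have h0 : ∀ᵐ x ∂(volume : Measure (Fin (n + 1) → ℝ)), x 0 ≠ 0 :=
      Measure.ae_eval_ne (fun _ => volume) 0 0
    filter_upwards [h0] with x hx
    have e : MeasurableEquiv.piFinSuccAbove (fun _ : Fin (n + 1) => ℝ) 0 x = (x 0, Fin.tail x) := by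
      simp [MeasurableEquiv.piFinSuccAbove, Fin.insertNthEquiv, Fin.removeNth_zero]
    rw [e]
    simp only [hΨ]
    by_cases hc : x ∈ cone K
    · have hp : x 0 ∈ Set.Ioi (0 : ℝ) := lt_of_le_of_ne hc.1 hx.symm
      have hk : (x 0)⁻¹ • Fin.tail x ∈ K := by
        obtain ⟨k, hk, e⟩ := hc.2
        rwa [← e, inv_smul_smul₀ hx]
      rw [Set.indicator_of_mem hc, Set.indicator_of_mem hp, Set.indicator_of_mem hk]
      ring
    · rw [Set.indicator_of_notMem hc]
      by_cases hp : x 0 ∈ Set.Ioi (0 : ℝ)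
      · have hk : (x 0)⁻¹ • Fin.tail x ∉ K := fun hk =>
          hc ⟨le_of_lt hp, _, hk, smul_inv_smul₀ hx _⟩
        simp [Set.indicator_of_notMem hk]
      · simp [Set.indicator_of_notMem hp]
  constructor
  · rw [← integrable_indicator_iff hm, integrable_congr ae]
    exact mp.integrable_comp_of_integrable iΨ
  · rw [← integral_indicator hm, integral_congr_ae ae, mp.integral_comp', Measure.volume_eq_prod,
      integral_prod _ iΨ]
    simp only [hΨ, fib]
    rw [integral_mul_const, integral_indicator measurableSet_Ioi, hG]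

theorem Bodyb_int (hK : IsCompact K) (p : ℕ) {g : (Fin n → ℝ) → ℝ} (hg : Continuous g)
    {φ : (Fin (n + 1) → ℝ) → ℝ} (hφ : ∀ x ∈ cone K, φ x = x 0 ^ p * g ((x 0)⁻¹ • Fin.tail x)) :
    Integrable (fun x => φ x * fK K x) ∧ ∫ x, φ x * fK K x =
      ((n + p).factorial : ℝ) / n.factorial * ((∫ k in K, g k) / (volume K).toReal) := by
  have hm := (isClosed_cone hK).measurableSet
  obtain ⟨h1, h2⟩ := int_cone hK p hg
  have e : (fun x => φ x * fK K x) = fun x => ((n.factorial : ℝ) * (volume K).toReal)⁻¹ *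
      (cone K).indicator (fun x : Fin (n + 1) → ℝ =>
        x 0 ^ p * g ((x 0)⁻¹ • Fin.tail x) * Real.exp (-x 0)) x := by
    funext x
    by_cases hx : x ∈ cone K
    · simp only [fK, Set.indicator_of_mem hx, hφ x hx]; ring
    · simp [fK, hx]
  rw [e]
  refine ⟨((integrable_indicator_iff hm).2 h1).const_mul _, ?_⟩
  rw [integral_const_mul, integral_indicator hm, h2]
  ring

theorem Bodyb_coord {x : Fin (n + 1) → ℝ} (hx : x ∈ cone K) (i : Fin (n + 1)) :
    x i = x 0 * (Fin.cons 1 ((x 0)⁻¹ • Fin.tail x) : Fin (n + 1) → ℝ) i := by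
  refine Fin.cases (by simp) (fun i => ?_) i
  obtain ⟨-, k, -, e⟩ := hx
  have := congrFun e i
  simp only [Pi.smul_apply, smul_eq_mul, Fin.tail] at this
  simp only [Fin.cons_succ, Pi.smul_apply, smul_eq_mul, Fin.tail]
  by_cases h : x 0 = 0
  · rw [← this, h]; simp
  · field_simp

theorem Bodyb_cont (i : Fin (n + 1)) :
    Continuous fun k : Fin n → ℝ => (Fin.cons 1 k : Fin (n + 1) → ℝ) i := by
  refine Fin.cases ?_ (fun i => ?_) i
  · simpa using continuous_const
  · simpa using continuous_apply i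

theorem Bodyb_one (hK : IsCompact K) (i : Fin (n + 1)) :
    Integrable (fun x => x i * fK K x) ∧ ∫ x, x i * fK K x = ((n : ℝ) + 1) *
      ((∫ k in K, (Fin.cons 1 k : Fin (n + 1) → ℝ) i) / (volume K).toReal) := by
  obtain ⟨h1, h2⟩ := Bodyb_int hK 1 (Bodyb_cont i) (φ := fun x => x i)
    fun x hx => by rw [pow_one]; exact Bodyb_coord hx i
  refine ⟨h1, h2.trans ?_⟩
  congr 1
  rw [Nat.factorial_succ]
  push_cast
  field_simp

theorem Bodyb_two (hK : IsCompact K) (i j : Fin (n + 1)) :
    Integrable (fun x => x i * x j * fK K x) ∧ ∫ x, x i * x j * fK K x = ((n : ℝ) + 1) * ((n : ℝ) + 2) *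
      ((∫ k in K, (Fin.cons 1 k : Fin (n + 1) → ℝ) i * (Fin.cons 1 k : Fin (n + 1) → ℝ) j) /
        (volume K).toReal) := by
  obtain ⟨h1, h2⟩ := Bodyb_int hK 2 ((Bodyb_cont i).mul (Bodyb_cont j)) (φ := fun x => x i * x j)
    fun x hx => by
      have h1 := Bodyb_coord hx i
      have h2 := Bodyb_coord hx j
      simp only [Pi.mul_apply]
      calc x i * x j = _ := congrArg₂ (· * ·) h1 h2
        _ = _ := by ring
  refine ⟨h1, h2.trans ?_⟩
  congr 1
  rw [Nat.factorial_succ, Nat.factorial_succ]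
  push_cast
  field_simp
  ring

theorem Bodyb_zero (hK : IsCompact K) (hi : (interior K).Nonempty) :
    Integrable (fK K) ∧ ∫ x, fK K x = 1 := by
  have hv := vol_pos hK hi
  obtain ⟨h1, h2⟩ := Bodyb_int hK 0 (g := fun _ => 1) continuous_const (φ := fun _ => 1)
    fun x hx => by simp
  simp only [one_mul] at h1 h2
  refine ⟨h1, h2.trans ?_⟩
  simp only [add_zero, integral_const, smul_eq_mul, mul_one, Measure.real,
    Measure.restrict_apply_univ]
  field_simp

theorem densMean_fK (hK : IsCompact K) (hi : (interior K).Nonempty) :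
    densMean (fK K) = ((n : ℝ) + 1) • (Fin.cons 1 (centroid K) : Fin (n + 1) → ℝ) := by
  have hv := vol_pos hK hi
  funext i
  rw [densMean, (Bodyb_one hK i).2]
  refine Fin.cases ?_ (fun i => ?_) i
  · simp only [Fin.cons_zero, integral_const, smul_eq_mul, mul_one, Measure.real,
      Measure.restrict_apply_univ, Pi.smul_apply]
    field_simp
  · simp [centroid]

theorem Bodyb_cov (hK : IsCompact K) (hi : (interior K).Nonempty) (i j : Fin (n + 1)) :
    densCov (fK K) i j = (∫ x, x i * x j * fK K x) - densMean (fK K) i * densMean (fK K) j := by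
  obtain ⟨i0, e0⟩ := Bodyb_zero hK hi
  have e : ∀ x : Fin (n + 1) → ℝ, (x i - densMean (fK K) i) * (x j - densMean (fK K) j) * fK K x =
      x i * x j * fK K x - densMean (fK K) j * (x i * fK K x) - densMean (fK K) i * (x j * fK K x)
        + densMean (fK K) i * densMean (fK K) j * fK K x := fun x => by ring
  simp only [densCov, of_apply, e]
  rw [integral_add (((Bodyb_two hK i j).1.sub' ((Bodyb_one hK i).1.const_mul _)).sub'
      ((Bodyb_one hK j).1.const_mul _)) (i0.const_mul _),
    integral_sub ((Bodyb_two hK i j).1.sub' ((Bodyb_one hK i).1.const_mul _))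
      ((Bodyb_one hK j).1.const_mul _),
    integral_sub (Bodyb_two hK i j).1 ((Bodyb_one hK i).1.const_mul _),
    integral_const_mul, integral_const_mul, integral_const_mul, e0]
  simp only [densMean]
  ring

theorem Bodyb_covK (hK : IsCompact K) (hi : (interior K).Nonempty) (i j : Fin n) :
    covMatrix K i j = (∫ k in K, k i * k j) / (volume K).toReal - centroid K i * centroid K j := by
  have hv := vol_pos hK hi
  have I : ∀ {u : (Fin n → ℝ) → ℝ}, Continuous u → Integrable u (volume.restrict K) := fun hu =>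
    hu.continuousOn.integrableOn_compact hK
  have e : ∀ x : Fin n → ℝ, (x i - centroid K i) * (x j - centroid K j) =
      x i * x j - centroid K j * x i - centroid K i * x j + centroid K i * centroid K j :=
    fun x => by ring
  simp only [covMatrix, of_apply, e]
  rw [integral_add (I (by fun_prop)) (I (by fun_prop)), integral_sub (I (by fun_prop)) (I (by fun_prop)),
    integral_sub (I (by fun_prop)) (I (by fun_prop)), integral_const_mul, integral_const_mul,
    integral_const]
  have h1 : ∀ i, ∫ x in K, x i = centroid K i * (volume K).toReal := fun i => by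
    rw [centroid]; field_simp
  simp only [h1, smul_eq_mul, Measure.real, Measure.restrict_apply_univ]
  field_simp
  ring

theorem densCov_fK (hK : IsCompact K) (hi : (interior K).Nonempty) :
    densCov (fK K) 0 0 = (n : ℝ) + 1 ∧
    (∀ i : Fin n, densCov (fK K) 0 i.succ = ((n : ℝ) + 1) * centroid K i) ∧
    ∀ i j : Fin n, densCov (fK K) i.succ j.succ = ((n : ℝ) + 1) * ((n : ℝ) + 2) * covMatrix K i j
      + ((n : ℝ) + 1) * (centroid K i * centroid K j) := by
  have hv := vol_pos hK hi
  refine ⟨?_, fun i => ?_, fun i j => ?_⟩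
  · rw [Bodyb_cov hK hi, (Bodyb_two hK _ _).2, densMean_fK hK hi]
    simp only [Fin.cons_zero, integral_const, smul_eq_mul, mul_one, Measure.real,
      Measure.restrict_apply_univ, Pi.smul_apply]
    field_simp
    ring
  · rw [Bodyb_cov hK hi, (Bodyb_two hK _ _).2, densMean_fK hK hi]
    simp only [Fin.cons_zero, Fin.cons_succ, smul_eq_mul, one_mul, mul_one, Pi.smul_apply, centroid]
    ring
  · rw [Bodyb_cov hK hi, (Bodyb_two hK _ _).2, densMean_fK hK hi, Bodyb_covK hK hi]
    simp only [Fin.cons_succ, smul_eq_mul, Pi.smul_apply]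
    ring

theorem det_densCov_fK (hK : IsCompact K) (hi : (interior K).Nonempty) : (densCov (fK K)).det =
    (covMatrix K).det * ((n : ℝ) + 1) ^ (n + 1) * ((n : ℝ) + 2) ^ n := by
  obtain ⟨h0, h1, h2⟩ := densCov_fK hK hi
  have h1' : ∀ i : Fin n, densCov (fK K) i.succ 0 = ((n : ℝ) + 1) * centroid K i := fun i => by
    rw [← h1 i]; exact (densCov_symm (fK K)).apply _ _
  set B : Matrix (Fin (n + 1)) (Fin (n + 1)) ℝ := Matrix.of fun i j =>
    densCov (fK K) i j - (Fin.cons 0 (centroid K) : Fin (n + 1) → ℝ) i * densCov (fK K) 0 j with hB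
  have e : (densCov (fK K)).det = B.det :=
    det_eq_of_forall_row_eq_smul_add_const (Fin.cons 0 (centroid K)) 0 (by simp)
      fun i j => by simp [hB]
  rw [e, det_succ_column_zero, Fin.sum_univ_succ]
  have z : ∀ i : Fin n, B i.succ 0 = 0 := fun i => by
    simp only [hB, of_apply, Fin.cons_succ, h0, h1']; ring
  have s : B.submatrix (Fin.succAbove 0) Fin.succ = (((n : ℝ) + 1) * ((n : ℝ) + 2)) • covMatrix K := by
    ext i j
    simp only [hB, submatrix_apply, of_apply, Fin.succAbove_zero, Fin.cons_succ, h1, h2, Matrix.smul_apply,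
      smul_eq_mul]
    ring
  have b0 : B 0 0 = (n : ℝ) + 1 := by simp [hB, h0]
  simp only [z, mul_zero, zero_mul, Finset.sum_const_zero, add_zero, s, b0, det_smul,
    Fintype.card_fin]
  simp only [Fin.val_zero, pow_zero, one_mul, mul_pow]
  ring

theorem diffEntropy_fK (hK : IsCompact K) (hi : (interior K).Nonempty) :
    diffEntropy (fK K) = (n : ℝ) + 1 + Real.log ((n.factorial : ℝ) * (volume K).toReal) := by
  have hv := vol_pos hK hi
  obtain ⟨i0, e0⟩ := Bodyb_zero hK hi
  have e : ∀ x : Fin (n + 1) → ℝ, fK K x * Real.log (fK K x) =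
      -(x 0 * fK K x) - Real.log ((n.factorial : ℝ) * (volume K).toReal) * fK K x := fun x => by
    by_cases hx : x ∈ cone K
    · have : Real.log (fK K x) = -Real.log ((n.factorial : ℝ) * (volume K).toReal) - x 0 := by
        rw [fK, Set.indicator_of_mem hx, Real.log_mul (by positivity) (Real.exp_pos _).ne',
          Real.log_exp, Real.log_inv]
        ring
      rw [this]; ring
    · simp [fK, hx]
  have m0 : ∫ x, x 0 * fK K x = (n : ℝ) + 1 := by
    have := congrFun (densMean_fK hK hi) 0
    simpa [densMean] using this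
  simp only [diffEntropy, e]
  rw [integral_sub (Bodyb_one hK 0).1.fun_neg (i0.const_mul _), integral_neg, integral_const_mul, e0, m0]
  ring

theorem simplex_of_ex (hK : IsCompact K) (hc : Convex ℝ K) (hi : (interior K).Nonempty)
    {M : Matrix (Fin (n + 1)) (Fin (n + 1)) ℝ} {b : Fin (n + 1) → ℝ} (hM : M.det ≠ 0)
    (h : fK K =ᵐ[volume] ex M b) :
    ∃ v : Fin (n + 1) → (Fin n → ℝ), AffineIndependent ℝ v ∧ K = convexHull ℝ (Set.range v) := by
  have hU : IsUnit M.det := hM.isUnit
  set t : Set (Fin (n + 1) → ℝ) := {y | ∀ i, 0 ≤ (M⁻¹.mulVec (y - b)) i} with ht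
  have hp : ∀ x, 0 < ex M b x ↔ x ∈ t := fun x => by
    have : 0 < |M.det|⁻¹ := by positivity
    by_cases hx : x ∈ t
    · simp only [ex, ← ht, Set.indicator_of_mem hx, hx, iff_true]; positivity
    · simp only [ex, ← ht, Set.indicator_of_notMem hx, hx, mul_zero, lt_irrefl]
  have hae : cone K =ᵐ[volume] t := by
    filter_upwards [h] with x hx
    have h1 : x ∈ cone K ↔ 0 < fK K x := by rw [← fK_pos hK hi]; rfl
    exact propext (h1.trans (hx ▸ hp x))
  have ct : IsClosed t := by
    rw [ht, Set.ofPred_forall]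
    exact isClosed_iInter fun i => isClosed_le continuous_const (by fun_prop)
  have vt : Convex ℝ t := by
    intro x hx y hy a c ha hc' hac i
    have : a • x + c • y - b = a • (x - b) + c • (y - b) := by
      rw [smul_sub, smul_sub, show a • x - a • b + (c • y - c • b) = a • x + c • y - (a + c) • b by
        rw [add_smul]; abel, hac, one_smul]
    rw [this, mulVec_add, mulVec_smul, mulVec_smul]
    exact add_nonneg (mul_nonneg ha (hx i)) (mul_nonneg hc' (hy i))
  have h0 : volume (cone K) ≠ 0 := fun h0 => by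
    have h1 := (Bodyb_zero hK hi).2
    have : fK K =ᵐ[volume] 0 := by
      filter_upwards [measure_eq_zero_iff_ae_notMem.1 h0] with x hx
      simp [fK, hx]
    rw [integral_congr_ae this] at h1
    simp at h1
  have e := eq_of_ae_eq (convex_cone hc) vt (isClosed_cone hK) ct h0 hae
  obtain ⟨k0, hk0⟩ := hi.mono interior_subset
  have b1 : b ∈ cone K := by rw [e]; intro i; simp
  have b2 : (2 : ℝ) • b ∈ t := by
    rw [← e]
    obtain ⟨h1, k, hk, h2⟩ := b1
    refine ⟨by simpa using h1, k, hk, ?_⟩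
    rw [Pi.smul_apply, smul_eq_mul, mul_smul, h2]; rfl
  have b3 : (0 : Fin (n + 1) → ℝ) ∈ t := by
    rw [← e]
    exact ⟨le_rfl, k0, hk0, by simp; rfl⟩
  have b4 : M⁻¹ *ᵥ b = 0 := funext fun i => by
    have h1 := b2 i
    have h2 := b3 i
    rw [two_smul, add_sub_cancel_right] at h1
    rw [zero_sub, mulVec_neg, Pi.neg_apply] at h2
    exact le_antisymm (by simpa using h2) h1
  have b5 : b = 0 := by
    have := congrArg (fun v => M *ᵥ v) b4
    simpa [mulVec_mulVec, mul_nonsing_inv _ hU] using this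
  refine simplex_of_cone hc hU (e.trans ?_)
  ext x
  rw [ht, b5]
  constructor
  · intro hx
    refine ⟨M⁻¹ *ᵥ x, fun i => by simpa using hx i, ?_⟩
    simp [mulVec_mulVec, mul_nonsing_inv _ hU]
  · rintro ⟨u, hu, rfl⟩ i
    simpa [mulVec_mulVec, nonsing_inv_mul _ hU] using hu i

theorem ex_of_simplex {v : Fin (n + 1) → (Fin n → ℝ)} (hv : AffineIndependent ℝ v) :
    ∃ M : Matrix (Fin (n + 1)) (Fin (n + 1)) ℝ, M.det ≠ 0 ∧
      fK (convexHull ℝ (Set.range v)) = ex M 0 := by
  set A : Matrix (Fin (n + 1)) (Fin (n + 1)) ℝ :=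
    Matrix.of fun i j => (Fin.cons 1 (v j) : Fin (n + 1) → ℝ) i with hAd
  have key : ∀ w, A *ᵥ w = Fin.cons (∑ j, w j) (∑ j, w j • v j) := fun w => by
    simpa using mulVec_eq_cons (A := A) (u := v) (s := fun _ => 1) (fun j => by ext i; simp [hAd]) w
  have hA : IsUnit A.det := by
    refine (Matrix.isUnit_iff_isUnit_det A).1 (Matrix.mulVec_injective_iff_isUnit.1 ?_)
    refine (injective_iff_map_eq_zero (Matrix.mulVecLin A)).2 fun w hw => funext fun j => ?_
    rw [mulVecLin_apply, key] at hw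
    exact affineIndependent_iff.1 hv Finset.univ w (congrFun hw 0)
      (funext fun i => congrFun hw i.succ) j (Finset.mem_univ _)
  have hC : cone (convexHull ℝ (Set.range v)) = img A (orthant _) := by
    ext x
    constructor
    · rintro ⟨h1, k, hk, e⟩
      obtain ⟨w, h2, h3, rfl⟩ := mem_hull_range.1 hk
      refine ⟨x 0 • w, fun i => mul_nonneg h1 (h2 i), ?_⟩
      simp only [mulVec_smul]
      rw [key, h3]
      ext i
      refine Fin.cases (by simp) (fun i => ?_) i
      simpa [Fin.tail] using congrFun e i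
    · rintro ⟨w, hw, rfl⟩
      have h1 : 0 ≤ ∑ j, w j := Finset.sum_nonneg fun j _ => hw j
      simp only [key]
      refine ⟨h1, ?_⟩
      simp only [Fin.cons_zero, Fin.tail_cons]
      rcases h1.eq_or_lt with h | h
      · refine ⟨v 0, subset_convexHull ℝ _ ⟨0, rfl⟩, ?_⟩
        have := (Finset.sum_eq_zero_iff_of_nonneg fun j _ => hw j).1 h.symm
        rw [← h, zero_smul, Finset.sum_eq_zero fun j hj => by rw [this j hj, zero_smul]]
      · refine ⟨_, mem_hull_range.2 ⟨fun j => w j / ∑ j, w j, fun j => div_nonneg (hw j) h1,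
          by rw [← Finset.sum_div, div_self h.ne'], rfl⟩, ?_⟩
        rw [Finset.smul_sum]
        exact Finset.sum_congr rfl fun j _ => by rw [smul_smul, mul_div_cancel₀ _ h.ne']
  have hK : IsCompact (convexHull ℝ (Set.range v)) := (Set.finite_range v).isCompact_convexHull ℝ
  have hd : (n.factorial : ℝ) * (volume (convexHull ℝ (Set.range v))).toReal = |A.det| := by
    have h1 := lap_cone hK one_pos
    have e1 : Aᵀ *ᵥ Pi.single 0 (1 : ℝ) = fun _ => (1 : ℝ) := by
      ext j; simp [hAd]
    rw [hC, lap_img hA measurableSet_orthant, e1, lap_orthant fun _ => one_pos] at h1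
    simpa using h1.symm
  refine ⟨A, hA.ne_zero, funext fun x => ?_⟩
  have hx : x = A *ᵥ (A⁻¹ *ᵥ x) := by simp [mulVec_mulVec, mul_nonsing_inv _ hA]
  have hs : (img A (orthant _) : Set (Fin (n + 1) → ℝ)) =
      {y | ∀ i, 0 ≤ (A⁻¹.mulVec (y - 0)) i} := by
    ext y
    constructor
    · rintro ⟨u, hu, rfl⟩ i
      simpa [mulVec_mulVec, nonsing_inv_mul _ hA] using hu i
    · intro hy
      exact ⟨A⁻¹ *ᵥ y, fun i => by simpa using hy i, by simp [mulVec_mulVec, mul_nonsing_inv _ hA]⟩
  have hf : (fun x : Fin (n + 1) → ℝ => Real.exp (-x 0)) =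
      fun y => Real.exp (- ∑ i, (A⁻¹.mulVec (y - 0)) i) := by
    funext y
    have h1 := congrFun (key (A⁻¹ *ᵥ y)) 0
    rw [mulVec_mulVec, mul_nonsing_inv _ hA, one_mulVec, Fin.cons_zero] at h1
    rw [sub_zero, h1]
  rw [fK, ex, hd, hC, hs, hf]

/-- The statement on bodies from the statement on densities. -/
theorem body_of_main (hK : IsCompact K) (hc : Convex ℝ K) (hi : (interior K).Nonempty)
    (H : (((n + 1 : ℕ) : ℝ) + Real.log (densCov (fK K)).det / 2 ≤ diffEntropy (fK K)) ∧
      (diffEntropy (fK K) = ((n + 1 : ℕ) : ℝ) + Real.log (densCov (fK K)).det / 2 ↔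
        ∃ (M : Matrix (Fin (n + 1)) (Fin (n + 1)) ℝ) (b : Fin (n + 1) → ℝ), M.det ≠ 0 ∧
          fK K =ᵐ[volume] ex M b)) :
    (covMatrix K).det * ((n : ℝ) + 1) ^ (n + 1) * ((n : ℝ) + 2) ^ n ≤
        (Nat.factorial n : ℝ) ^ 2 * (volume K).toReal ^ 2 ∧
      ((covMatrix K).det * ((n : ℝ) + 1) ^ (n + 1) * ((n : ℝ) + 2) ^ n =
          (Nat.factorial n : ℝ) ^ 2 * (volume K).toReal ^ 2 ↔
        ∃ v : Fin (n + 1) → (Fin n → ℝ), AffineIndependent ℝ v ∧
          K = convexHull ℝ (Set.range v)) := by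
  have hv := vol_pos hK hi
  have hp := (LC_fK hK hc hi).mom.det_pos
  have hq : 0 < ((n.factorial : ℝ) * (volume K).toReal) ^ 2 := by positivity
  rw [← det_densCov_fK hK hi, ← mul_pow]
  rw [diffEntropy_fK hK hi] at H
  push_cast at H
  have hl : Real.log (((n.factorial : ℝ) * (volume K).toReal) ^ 2) =
      2 * Real.log ((n.factorial : ℝ) * (volume K).toReal) := by rw [Real.log_pow]; norm_num
  refine ⟨(Real.log_le_log_iff hp hq).1 (by linarith [H.1]), fun h => ?_, ?_⟩
  · obtain ⟨M, b, hM, hb⟩ := H.2.1 (by rw [h, hl]; ring)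
    exact simplex_of_ex hK hc hi hM hb
  · rintro ⟨v, h1, h2⟩
    obtain ⟨M, hM, hb⟩ := ex_of_simplex h1
    have := H.2.2 ⟨M, 0, hM, by rw [h2, hb]⟩
    exact Real.log_injOn_pos hp hq (by linarith)

end Crest.Agent.R253
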