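/-
Row 253 (S0390, S0391), file Con2.  The constraint coming from log-concavity; construction of the field.
Definitions: R253/Fun.lean, R253/Defs.lean.  Outline: R253/Blueprint.lean.  Keep the statements unchanged.
-/
import Crest.Agent.R253.Con1
import Crest.Agent.R253.Fun1

set_option autoImplicit false

namespace Crest.Agent.R253

open MeasureTheory ProbabilityTheory Matrix Filter Topology Crest.Agent.R203N

variable {ι : Type} [Fintype ι] [DecidableEq ι]
variable {α β a b : ℝ} {V : (ι → ℝ) → ℝ} {G T : (ι → ℝ) → ι → ℝ} {t : ι → (ι → ℝ) → Matrix ι ι ℝ}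

theorem con2a_tr {ρ : (ι → ℝ) → ℝ} (hρ : L2 ρ) {Z M : (ι → ℝ) → Matrix ι ι ℝ} (hZ : BM Z) (hM : LM M) :
    Integrable (fun z => ρ z * (Z z * M z).trace) (γ ι) ∧
      ∫ z, ρ z * (Z z * M z).trace ∂γ ι = ∑ i, ∑ j, ∫ z, M z j i * (Z z i j * ρ z) ∂γ ι := by
  obtain ⟨mZ, C, hC⟩ := hZ
  have hi : ∀ i j, Integrable (fun z => M z j i * (Z z i j * ρ z)) (γ ι) := fun i j =>
    (hM j i).integrable_mul (weakc_mul (mZ i j) (fun z => hC z i j) hρ)
  have e : ∀ z, ρ z * (Z z * M z).trace = ∑ i, ∑ j, M z j i * (Z z i j * ρ z) := fun z => by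
    simp only [trace, diag, Matrix.mul_apply, Finset.mul_sum]
    exact Finset.sum_congr rfl fun i _ => Finset.sum_congr rfl fun j _ => by ring
  simp only [e]
  refine ⟨integrable_finsetSum _ fun i _ => integrable_finsetSum _ fun j _ => hi i j, ?_⟩
  rw [integral_finsetSum _ fun i _ => integrable_finsetSum _ fun j _ => hi i j]
  exact Finset.sum_congr rfl fun i _ => integral_finsetSum _ fun j _ => hi i j

/-- `basic_ineq` for `v = δ g`, `qd_legendre` with `ε = δ` for `jac (z + δ g)` and `ε = -δ` for `jac (z - δ g)`;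
divide by `δ²`; the limits are `DQ.tendsto` (`p = ρ Z_ij`; also along `δ ↦ -δ`) and `d2_tendsto`. -/
theorem con_Z (h : Br a b V T) (hV : Reg α β V G) (ht : Thd a T t) {ρ : (ι → ℝ) → ℝ}
    {r : ι → (ι → ℝ) → ℝ} (hρ : WG ρ r) (h0 : ∀ z, 0 ≤ ρ z) (g : ι → ℝ)
    {Z : (ι → ℝ) → Matrix ι ι ℝ} {R : ℝ} (mZ : ∀ i j, Measurable fun z => Z z i j)
    (sZ : ∀ z, Sp (-R) R (Z z)) :
    (∫ z, ρ z * (2 * (Z z * ∑ k, g k • t k z).trace - (Z z * jac a T z * Z z * jac a T z).trace) ∂γ ι)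
      + ∑ i, ∑ j, ∫ z, r i z * ((jac a T z)⁻¹ i j * ((∑ k, g k • t k z) *ᵥ g) j) ∂γ ι ≤
        (g ⬝ᵥ g) * ∫ z, ρ z ∂γ ι := by
  obtain ⟨C, ε₀, hε, hC⟩ := qd_legendre (ι := ι) (R := R) h.pos h.le
  obtain ⟨C', hC'⟩ := qd_bdd (ι := ι) h.pos h.le
  have hZ : BM Z := ⟨mZ, R, fun z => (sZ z).abs_le⟩
  have hH := BM_jac h
  have hp : ∀ i j, L2 fun z => Z z i j * ρ z := fun i j => weakc_mul (mZ i j) (fun z => (sZ z).abs_le i j) hρ.u2
  obtain ⟨Q, hQ⟩ : ∃ Q : ℝ → (ι → ℝ) → Matrix ι ι ℝ, ∀ δ z i j, Q δ z i j = dq (fun z => jac a T z i j) g δ z :=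
    ⟨fun δ z => Matrix.of fun i j => _, fun _ _ _ _ => rfl⟩
  have lQ : ∀ δ, LM (Q δ) := fun δ i j => by
    simp only [hQ]
    exact L2_dq (hH.1 i j) (fun z => (h.abs_le z i j).1) g δ
  have eQ : ∀ δ : ℝ, δ ≠ 0 → ∀ z, jac a T (z + δ • g) - jac a T z = δ • Q δ z := fun δ hδ z => by
    ext i j
    rw [Matrix.smul_apply, hQ, dq, smul_eq_mul, mul_div_cancel₀ _ hδ, Matrix.sub_apply]
  have lt : LM fun z => ∑ k, g k • t k z := fun i j => by
    simp only [Matrix.sum_apply, Matrix.smul_apply, smul_eq_mul]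
    exact memLp_finsetSum _ fun k _ => ((ht.dq i j).wg.g2 k).const_mul _
  have iB := (con2a_tr hρ.u2 hZ ((hH.mul hZ).mul hH).lm).1
  simp only [← Matrix.mul_assoc] at iB
  have i0 : Integrable ρ (γ ι) := hρ.u2.integrable one_le_two
  have tA : Tendsto (fun δ => ∫ z, ρ z * (Z z * Q δ z).trace ∂γ ι) (𝓝[≠] 0)
      (𝓝 (∫ z, ρ z * (Z z * ∑ k, g k • t k z).trace ∂γ ι)) := by
    simp only [(con2a_tr hρ.u2 hZ lt).2, fun δ => (con2a_tr hρ.u2 hZ (lQ δ)).2, hQ, Matrix.sum_apply,
      Matrix.smul_apply, smul_eq_mul]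
    exact tendsto_finsetSum _ fun i _ => tendsto_finsetSum _ fun j _ => (ht.dq j i).tendsto g (hp i j)
  have tn : Tendsto (fun δ : ℝ => -δ) (𝓝[≠] 0) (𝓝[≠] 0) := by
    simpa using (continuous_neg (G := ℝ)).continuousWithinAt.tendsto_nhdsWithin (s := {0}ᶜ) (t := {0}ᶜ) (x := 0)
      fun x hx => by simpa using hx
  have tc : Tendsto (fun δ : ℝ => 2 * C * |δ| * ∫ z, ρ z ∂γ ι) (𝓝[≠] 0) (𝓝 0) := by
    have : Continuous fun δ : ℝ => 2 * C * |δ| * ∫ z, ρ z ∂γ ι := by fun_prop
    simpa using (this.tendsto 0).mono_left nhdsWithin_le_nhds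
  have tD := tendsto_finsetSum Finset.univ fun i _ => tendsto_finsetSum Finset.univ fun j _ =>
    d2_tendsto h ht g (weakc_mul (measurable_inv_jac h i j) (fun z => (h.abs_le z i j).2) (hρ.g2 i)) j
  have key := le_of_tendsto ((((tA.add (tA.comp tn)).sub_const
    (∫ z, ρ z * (Z z * jac a T z * Z z * jac a T z).trace ∂γ ι)).sub tc).add tD) (b := (g ⬝ᵥ g) * ∫ z, ρ z ∂γ ι) (by
    have hs : ∀ᶠ δ : ℝ in 𝓝[≠] 0, |δ| ≤ ε₀ :=
      ((continuous_abs.tendsto' 0 0 abs_zero).eventually (eventually_le_nhds hε)).filter_mono nhdsWithin_le_nhds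
    filter_upwards [hs, self_mem_nhdsWithin] with δ h1 (h2 : δ ≠ 0)
    have hb := basic_ineq h hV hρ h0 (δ • g)
    have i1 := (con2a_tr hρ.u2 hZ (lQ δ)).1
    have i2 := (con2a_tr hρ.u2 hZ (lQ (-δ))).1
    have hl := integral_mono (((((i1.add i2).sub iB).sub (i0.const_mul (2 * C * |δ|))).const_mul (δ ^ 2)))
      (g := fun z => ρ z * (qd (jac a T z) (jac a T (z + δ • g)) + qd (jac a T z) (jac a T (z - δ • g))))
      (i0.mul_bdd (c := C' + C') ((measurable_qd h _).add (by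
        simpa only [sub_eq_add_neg] using measurable_qd h (-(δ • g)))).aestronglyMeasurable
        (Eventually.of_forall fun z => by
          have a1 := hC' _ _ (h.Sp z) (h.Sp (z + δ • g))
          have a2 := hC' _ _ (h.Sp z) (h.Sp (z - δ • g))
          rw [Real.norm_of_nonneg (by linarith [a1.1, a2.1])]
          linarith [a1.2, a2.2]))
      fun z => by
        have a1 := hC _ _ _ δ (h.Sp z) (h.Sp (z + δ • g)) (sZ z) h1
        have a2 := hC _ _ _ (-δ) (h.Sp z) (h.Sp (z + (-δ) • g)) (sZ z) (by rwa [abs_neg])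
        rw [eQ _ h2] at a1
        rw [eQ _ (neg_ne_zero.2 h2), neg_smul δ g, ← sub_eq_add_neg, abs_neg] at a2
        simp only [Matrix.mul_smul, trace_smul, smul_eq_mul] at a1 a2
        have a3 := mul_le_mul_of_nonneg_left (add_le_add a1 a2) (h0 z)
        have a4 : |δ| ^ 3 = δ ^ 2 * |δ| := by rw [← sq_abs δ]; ring
        rw [a4] at a3
        simp only [Pi.add_apply, Pi.sub_apply]
        linarith
    rw [integral_const_mul, integral_sub' ((i1.add i2).sub iB) (i0.const_mul _), integral_sub' (i1.add i2) iB,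
      integral_add' i1 i2, integral_const_mul] at hl
    have d2 : 0 < δ ^ 2 := by positivity
    refine le_of_mul_le_mul_left ?_ d2
    simp only [← Finset.sum_div, Function.comp_apply, mul_comm _ (r _ _), mul_assoc] at hb hl ⊢
    rw [mul_add, mul_div_cancel₀ _ d2.ne']
    rw [smul_dotProduct, dotProduct_smul, smul_eq_mul, smul_eq_mul] at hb
    linarith)
  simp only [mul_sub, mul_left_comm _ (2 : ℝ), mul_comm _ (r _ _), mul_assoc] at key ⊢
  rw [integral_sub ((con2a_tr hρ.u2 hZ lt).1.const_mul 2) (by simpa only [mul_assoc] using iB), integral_const_mul]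
  linarith

theorem con2b_alg {H S : Matrix ι ι ℝ} (hH : IsUnit H.det) :
    2 * (H⁻¹ * S * H⁻¹ * S).trace - (H⁻¹ * S * H⁻¹ * H * (H⁻¹ * S * H⁻¹) * H).trace =
      (H⁻¹ * S * H⁻¹ * S).trace := by
  have e : H⁻¹ * S * H⁻¹ * H * (H⁻¹ * S * H⁻¹) * H = H⁻¹ * S * H⁻¹ * S := by
    have h1 : H⁻¹ * H = 1 := Matrix.nonsing_inv_mul H hH
    calc H⁻¹ * S * H⁻¹ * H * (H⁻¹ * S * H⁻¹) * H
        = H⁻¹ * S * (H⁻¹ * H) * (H⁻¹ * S * (H⁻¹ * H)) := by simp only [Matrix.mul_assoc]
      _ = H⁻¹ * S * H⁻¹ * S := by rw [h1]; simp only [Matrix.mul_one, Matrix.mul_assoc]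
  rw [e]; ring

/-- `con_Z` with `Z = H⁻¹ t_g H⁻¹` where `hs (H⁻¹ t_g H⁻¹) ≤ N²` and `0` elsewhere (`Sp_of_hs`); dominated
convergence `N → ∞`. -/
theorem con_scalar (h : Br a b V T) (hV : Reg α β V G) (ht : Thd a T t) {ρ : (ι → ℝ) → ℝ}
    {r : ι → (ι → ℝ) → ℝ} (hρ : DQ ρ r) (h0 : ∀ z, 0 ≤ ρ z) (g : ι → ℝ) :
    (∫ z, ρ z * ((jac a T z)⁻¹ * (∑ k, g k • t k z) * (jac a T z)⁻¹ * ∑ k, g k • t k z).trace ∂γ ι)
      + ∑ i, ∑ j, ∫ z, r i z * ((jac a T z)⁻¹ i j * ((∑ k, g k • t k z) *ᵥ g) j) ∂γ ι ≤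
        (g ⬝ᵥ g) * ∫ z, ρ z ∂γ ι := by
  classical
  have ha := h.pos
  set S : (ι → ℝ) → Matrix ι ι ℝ := fun z => ∑ k, g k • t k z with hS
  set M : (ι → ℝ) → Matrix ι ι ℝ := fun z => (jac a T z)⁻¹ * S z * (jac a T z)⁻¹ with hM
  have mS : ∀ i j, Measurable fun z => S z i j := fun i j => by
    simp only [hS, Matrix.sum_apply, Matrix.smul_apply, smul_eq_mul]
    exact Finset.measurable_sum _ fun k _ => (ht.meas k i j).const_mul _
  have lS : LM S := fun i j => by
    simp only [hS, Matrix.sum_apply, Matrix.smul_apply, smul_eq_mul]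
    exact Core0a_sum _ fun k _ => ((ht.dq i j).wg.g2 k).const_mul _
  have sS : ∀ z, (S z).IsSymm := fun z => by
    refine Matrix.IsSymm.ext fun i j => ?_
    simp only [hS, Matrix.sum_apply, Matrix.smul_apply, smul_eq_mul]
    exact Finset.sum_congr rfl fun k _ => by rw [(ht.symm k z).apply i j]
  have mM : ∀ i j, Measurable fun z => M z i j := fun i j => by
    simp only [hM, Matrix.mul_apply]
    exact Finset.measurable_sum _ fun k _ => (Finset.measurable_sum _ fun l _ =>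
      (measurable_inv_jac h i l).mul (mS l k)).mul (measurable_inv_jac h k j)
  have lM : LM M := ((BM_inv_jac h).mul_LM lS).mul_BM (BM_inv_jac h)
  have sM : ∀ z, (M z).IsSymm := fun z => by
    have h1 : ((jac a T z)⁻¹).IsSymm := ((h.Sp z).inv ha).1
    have h2 := sS z
    unfold Matrix.IsSymm at h1 h2 ⊢
    simp only [hM, Matrix.transpose_mul, h1, h2, Matrix.mul_assoc]
  have mh : Measurable fun z => hs (M z) := by
    unfold hs
    exact Finset.measurable_sum _ fun i _ => Finset.measurable_sum _ fun j _ => (mM i j).pow_const 2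
  obtain ⟨C, hC⟩ := hρ.bdd
  have iF : Integrable (fun z => ρ z * (M z * S z).trace) (γ ι) :=
    (trace_mul_int lM lS).1.bdd_mul (c := C) hρ.meas.aestronglyMeasurable
      (Eventually.of_forall fun z => hC z)
  have mA : ∀ N : ℕ, MeasurableSet {z | hs (M z) ≤ (N : ℝ) ^ 2} := fun N =>
    measurableSet_le mh measurable_const
  have key : ∀ N : ℕ, (∫ z, Set.indicator {z | hs (M z) ≤ (N : ℝ) ^ 2}
      (fun z => ρ z * (M z * S z).trace) z ∂γ ι)
      + ∑ i, ∑ j, ∫ z, r i z * ((jac a T z)⁻¹ i j * ((S z) *ᵥ g) j) ∂γ ι ≤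
        (g ⬝ᵥ g) * ∫ z, ρ z ∂γ ι := fun N => by
    have := con_Z h hV ht hρ.wg h0 g
      (Z := fun z => if hs (M z) ≤ (N : ℝ) ^ 2 then M z else 0) (R := N)
      (fun i j => by
        have : (fun z => (if hs (M z) ≤ (N : ℝ) ^ 2 then M z else 0) i j) =
            fun z => if hs (M z) ≤ (N : ℝ) ^ 2 then M z i j else 0 := by
          funext z; split_ifs <;> rfl
        rw [this]
        exact Measurable.ite (mA N) (mM i j) measurable_const)
      (fun z => by
        split_ifs with hz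
        · exact Sp_of_hs (sM z) (Nat.cast_nonneg N) hz
        · refine Sp_of_hs Matrix.isSymm_zero (Nat.cast_nonneg N) ?_
          simp [hs])
    refine le_of_eq_of_le ?_ this
    congr 1
    refine integral_congr_ae (Eventually.of_forall fun z => ?_)
    simp only [Set.indicator, Set.mem_ofPred_eq]
    split_ifs with hz
    · congr 1
      exact (con2b_alg (S := S z) ((h.Sp z).det_pos ha).ne'.isUnit).symm
    · simp
  have lim : Tendsto (fun N : ℕ => ∫ z, Set.indicator {z | hs (M z) ≤ (N : ℝ) ^ 2}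
      (fun z => ρ z * (M z * S z).trace) z ∂γ ι) atTop (𝓝 (∫ z, ρ z * (M z * S z).trace ∂γ ι)) := by
    refine tendsto_integral_of_dominated_convergence (fun z => ‖ρ z * (M z * S z).trace‖)
      (fun N => (iF.indicator (mA N)).1) iF.norm
      (fun N => Eventually.of_forall fun z => norm_indicator_le_norm_self _ _)
      (Eventually.of_forall fun z => ?_)
    refine tendsto_const_nhds.congr' ?_
    have h1 : ∀ᶠ N : ℕ in atTop, max (hs (M z)) 1 ≤ (N : ℝ) :=
      tendsto_natCast_atTop_atTop.eventually_ge_atTop _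
    filter_upwards [h1] with N hN
    have h2 : hs (M z) ≤ (N : ℝ) ^ 2 := by
      have := le_max_left (hs (M z)) 1
      have := le_max_right (hs (M z)) 1
      nlinarith
    rw [Set.indicator_of_mem (by exact h2)]
  exact le_of_tendsto' (lim.add_const _) key

omit [DecidableEq ι] in
theorem Con2c_one {κ : Type} [Fintype κ] (u : κ → ℝ) (g : κ → ι → ℝ) (P W : Matrix ι ι ℝ)
    (t : ι → Matrix ι ι ℝ) (h : ∀ i j, ∑ n, u n * (g n i * g n j) = W i j) :
    ∑ k, ∑ l, W k l * (P * t k * P * t l).trace =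
      ∑ n, u n * (P * (∑ k, g n k • t k) * P * ∑ k, g n k • t k).trace := by
  simp only [← h, Finset.sum_mul, Finset.mul_sum, Matrix.mul_smul, Matrix.smul_mul, Matrix.trace_sum,
    Matrix.trace_smul, smul_eq_mul]
  rw [Finset.sum_comm]
  refine (Finset.sum_congr rfl fun l _ => Finset.sum_comm).trans (Finset.sum_comm.trans ?_)
  refine Finset.sum_congr rfl fun n _ => Finset.sum_congr rfl fun l _ => Finset.sum_congr rfl fun k _ => ?_
  ring

omit [DecidableEq ι] in
theorem Con2c_two {κ : Type} [Fintype κ] (r : κ → ι → ℝ) (g : κ → ι → ℝ) (P : Matrix ι ι ℝ)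
    (dW t : ι → Matrix ι ι ℝ) (h : ∀ k l i, ∑ n, g n k * g n l * r n i = dW i k l)
    (h3 : ∀ k j m, t k j m = t j m k) :
    ∑ k, ∑ l, P k l * (dW k * t l).trace =
      ∑ n, ∑ i, ∑ j, r n i * (P i j * ((∑ k, g n k • t k) *ᵥ g n) j) := by
  rw [Finset.sum_comm (s := (Finset.univ : Finset κ))]
  refine Finset.sum_congr rfl fun i _ => ?_
  rw [Finset.sum_comm (s := (Finset.univ : Finset κ))]
  refine Finset.sum_congr rfl fun j _ => ?_
  simp only [Matrix.trace, Matrix.diag, Matrix.mul_apply, ← h, Matrix.mulVec, dotProduct, Matrix.sum_apply,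
    Matrix.smul_apply, smul_eq_mul, Finset.sum_mul, Finset.mul_sum]
  rw [Finset.sum_comm]
  refine (Finset.sum_congr rfl fun l _ => Finset.sum_comm).trans (Finset.sum_comm.trans ?_)
  refine Finset.sum_congr rfl fun n _ => Finset.sum_congr rfl fun m _ => Finset.sum_congr rfl fun k _ => ?_
  rw [h3 k j m]
  ring

/-- `exists_partition`: `W z = ∑ ρ_n (W z) g_n g_nᵀ`; `DQ_of_lip` gives weak gradients `r_n` of `ρ_n ∘ W`,
`WG_unique` gives `∑ r_n i z g_n k g_n l = dW i z k l` a.e.; sum `con_scalar` over `n`; `Thd.sym3`. -/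
theorem con_matrix (h : Br a b V T) (hV : Reg α β V G) (ht : Thd a T t)
    {W : (ι → ℝ) → Matrix ι ι ℝ} {dW : ι → (ι → ℝ) → Matrix ι ι ℝ} {c d : ℝ} (hc : 0 < c)
    (sW : ∀ z, Sp c d (W z)) (hW : ∀ i j, DQ (fun z => W z i j) fun k z => dW k z i j) :
    ∫ z, ((∑ k, ∑ l, W z k l * ((jac a T z)⁻¹ * t k z * (jac a T z)⁻¹ * t l z).trace)
      + ∑ k, ∑ l, (jac a T z)⁻¹ k l * (dW k z * t l z).trace) ∂γ ι ≤ ∫ z, (W z).trace ∂γ ι := by
  obtain ⟨κ, _, g, ρ, K, hcont, hlip, hpos, hsum⟩ := exists_partition (ι := ι) (b := d) hc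
  have hm : ∀ n, Measurable fun z => ρ n (W z) := fun n => by
    have h1 : Continuous fun x : {M : ι → ι → ℝ // Sp c d (Matrix.of M)} => ρ n (Matrix.of x.1) :=
      (hcont n).comp_continuous (f := fun x : {M : ι → ι → ℝ // Sp c d (Matrix.of M)} => Matrix.of x.1)
        continuous_subtype_val fun x => x.2
    have h2 : Measurable fun z => (fun i j => W z i j : ι → ι → ℝ) :=
      measurable_pi_iff.2 fun i => measurable_pi_iff.2 fun j => (hW i j).meas
    exact h1.measurable.comp (h2.subtype_mk (h := fun z => sW z))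
  have hr : ∀ n, ∃ r, DQ (fun z => ρ n (W z)) r := fun n =>
    DQ_of_lip (κ := ι × ι) (F := fun p z => W z p.1 p.2) (fun p => hW p.1 p.2) (hm n) (K := K)
      fun z z' => by
        rw [Fintype.sum_prod_type]
        exact hlip n _ _ (sW z) (sW z')
  choose r hr using hr
  have hd : ∀ᵐ z ∂γ ι, ∀ k l i, ∑ n, g n k * g n l * r n i z = dW i z k l := by
    refine ae_all_iff.2 fun k => ae_all_iff.2 fun l => ae_all_iff.2 fun i => ?_
    have h1 := WG.sum (Finset.univ : Finset κ) fun n _ => (hr n).wg.const_mul (g n k * g n l)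
    refine WG_unique (h1.congr (ae_of_all _ fun z => ?_) fun _ => EventuallyEq.rfl) (hW k l).wg i
    rw [← hsum _ (sW z)]
    exact Finset.sum_congr rfl fun n _ => mul_comm _ _
  have hP := BM_inv_jac h
  have hg : ∀ n, LM fun z => ∑ k, g n k • t k z := fun n i j => by
    simp only [Matrix.sum_apply, Matrix.smul_apply, smul_eq_mul]
    exact Core0a_sum _ fun k _ => ((ht.dq i j).wg.g2 k).const_mul _
  have i1 : ∀ n, Integrable (fun z => ρ n (W z) * ((jac a T z)⁻¹ * (∑ k, g n k • t k z) * (jac a T z)⁻¹ *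
      ∑ k, g n k • t k z).trace) (γ ι) := fun n => by
    obtain ⟨C, hC⟩ := (hr n).bdd
    exact (trace_mul_int ((hP.mul_LM (hg n)).mul_BM hP) (hg n)).1.bdd_mul (c := C) (hm n).aestronglyMeasurable
      (ae_of_all _ hC)
  have i2 : ∀ n i j, Integrable (fun z => r n i z *
      ((jac a T z)⁻¹ i j * ((∑ k, g n k • t k z) *ᵥ g n) j)) (γ ι) := fun n i j => by
    obtain ⟨mP, C, hC⟩ := hP
    exact ((hr n).wg.g2 i).mul_int
      (Core0a_mul (mP i j) (fun z => hC z i j) ((hg n).mulVec (g n) j))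
  have i3 : ∀ n, Integrable (fun z => ρ n (W z)) (γ ι) := fun n => (hr n).wg.u2.int
  have i2' : ∀ n, Integrable (fun z => ∑ i, ∑ j, r n i z *
      ((jac a T z)⁻¹ i j * ((∑ k, g n k • t k z) *ᵥ g n) j)) (γ ι) := fun n =>
    integrable_finsetSum _ fun i _ => integrable_finsetSum _ fun j _ => i2 n i j
  calc _ = ∫ z, ∑ n, (ρ n (W z) * ((jac a T z)⁻¹ * (∑ k, g n k • t k z) * (jac a T z)⁻¹ *
          ∑ k, g n k • t k z).trace + ∑ i, ∑ j, r n i z *
          ((jac a T z)⁻¹ i j * ((∑ k, g n k • t k z) *ᵥ g n) j)) ∂γ ι := by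
        refine integral_congr_ae ?_
        filter_upwards [hd, ht.sym3 h] with z h1 h2
        rw [Finset.sum_add_distrib, Con2c_one _ g _ _ (fun k => t k z) (hsum _ (sW z)),
          Con2c_two (fun n i => r n i z) g _ (fun k => dW k z) (fun k => t k z) h1 fun k j m => by
            rw [← (ht.symm k z).apply j m, h2 k m j]]
    _ ≤ ∑ n, (g n ⬝ᵥ g n) * ∫ z, ρ n (W z) ∂γ ι := by
        refine (integral_finsetSum _ fun n _ => (i1 n).add (i2' n)).trans_le
          (Finset.sum_le_sum fun n _ => ?_)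
        refine (integral_add (i1 n) (i2' n)).trans_le ?_
        rw [integral_finsetSum _ fun i _ => integrable_finsetSum _ fun j _ => i2 n i j]
        simp only [fun i => integral_finsetSum _ fun j (_ : j ∈ Finset.univ) => i2 n i j]
        exact con_scalar h hV ht (hr n) (fun z => hpos n _ (sW z)) (g n)
    _ = ∫ z, (W z).trace ∂γ ι := by
        simp only [← integral_const_mul]
        rw [← integral_finsetSum _ fun n _ => (i3 n).const_mul _]
        refine integral_congr_ae (ae_of_all _ fun z => ?_)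
        simp only [Matrix.trace, Matrix.diag, ← hsum _ (sW z), dotProduct, Finset.sum_mul]
        rw [Finset.sum_comm]
        exact Finset.sum_congr rfl fun i _ => Finset.sum_congr rfl fun n _ => mul_comm _ _

/-- `exists_ell_ext` gives `g, g1`; `L = fm g H = fm ell H`, `X k = Df g g1 H (t k)`, `R = |ell a| + |ell b|`
(`Sp.fm`, `ell_mono`).  `DQ.fm` twice gives `chain`.  `fm haz L = H` (`fm_fm`, `Sp.fm_congr`, `haz_ell`),
`H⁻¹ = fm mills L`, `t k = Df haz haz1 L (X k)` a.e. (`WG_unique`); `con_matrix` with `W = fm w L`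
(`w` has a positive minimum on `[-R, R]`). -/
theorem exists_Fld (h : Br a b V T) (hV : Reg α β V G) :
    ∃ F : Fld ι, F.T = T ∧ ∀ z, F.L z = fm ell (jac a T z) := by
  have ha := h.pos
  have hab := h.le
  obtain ⟨t, ht, -⟩ := exists_Thd h hV
  obtain ⟨g, g1, K, hg, -, hge⟩ := exists_ell_ext ha hab
  have sH : ∀ z, Sp (-b) b (jac a T z) := fun z => (h.Sp z).mono (by linarith) le_rfl
  have e1 : ∀ z, fm g (jac a T z) = fm ell (jac a T z) := fun z => (h.Sp z).fm_congr hge
  have hL : ∀ i j, DQ (fun z => fm ell (jac a T z) i j)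
      fun k z => Df g g1 (jac a T z) (t k z) i j := fun i j => by
    have := DQ.fm ht.dq sH ht.symm hg i j
    simpa only [e1] using this
  have sL : ∀ z, Sp (-(|ell a| + |ell b|)) (|ell a| + |ell b|) (fm ell (jac a T z)) := fun z =>
    (h.Sp z).fm fun x h1 h2 => by
      have hx : 0 < x := ha.trans_le h1
      have b1 : ell a ≤ ell x := ell_mono ha hx h1
      have b2 : ell x ≤ ell b := ell_mono hx (ha.trans_le hab) h2
      constructor
      · linarith [neg_abs_le (ell a), abs_nonneg (ell b)]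
      · linarith [le_abs_self (ell b), abs_nonneg (ell a)]
  have sX : ∀ k z, (Df g g1 (jac a T z) (t k z)).IsSymm := fun k z => Df_symm _ _ _ (ht.symm k z)
  have e2 : ∀ z, fm haz (fm ell (jac a T z)) = jac a T z := fun z => by
    rw [fm_fm _ _ (h.Sp z).1, (h.Sp z).fm_congr (g := fun x => x)
      fun x h1 _ => haz_ell (ha.trans_le h1), fm_id (h.Sp z).1]
  have e3 : ∀ z, fm mills (fm ell (jac a T z)) = (jac a T z)⁻¹ := fun z => by
    rw [fm_fm _ _ (h.Sp z).1, (h.Sp z).inv_eq ha]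
    refine (h.Sp z).fm_congr fun x h1 _ => ?_
    have := mills_mul_haz (ell x)
    rw [haz_ell (ha.trans_le h1)] at this
    exact eq_inv_of_mul_eq_one_left this
  have e4 : ∀ᵐ z ∂γ ι, ∀ k,
      Df haz haz1 (fm ell (jac a T z)) (Df g g1 (jac a T z) (t k z)) = t k z := by
    have : ∀ k i j, ∀ᵐ z ∂γ ι,
        Df haz haz1 (fm ell (jac a T z)) (Df g g1 (jac a T z) (t k z)) i j = t k z i j := by
      intro k i j
      have h1 := (DQ.fm hL sL sX C2_haz i j).wg
      simp only [e2] at h1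
      exact WG_unique h1 (ht.dq i j).wg k
    filter_upwards [ae_all_iff.2 fun k => ae_all_iff.2 fun i => ae_all_iff.2 fun j => this k i j]
      with z hz k
    exact Matrix.ext fun i j => hz k i j
  refine ⟨⟨T, fun z => fm ell (jac a T z), fun k z => Df g g1 (jac a T z) (t k z),
    |ell a| + |ell b|, fun i => (measurable_pi_apply i).comp h.measurable, fun i j => (hL i j).meas,
    fun k i j => hg.measurable_Df (measurable_jac a T) sH (ht.meas k) (ht.symm k) i j, sL, sX,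
    fun i => by simpa only [e2] using h.wg i, fun f f1 hf i j => (DQ.fm hL sL sX hf i j).wg,
    fun w w1 hw hw0 => ?_⟩, rfl, fun _ => rfl⟩
  have hR : (Set.Icc (-(|ell a| + |ell b|)) (|ell a| + |ell b|)).Nonempty :=
    Set.nonempty_Icc.2 (by linarith [abs_nonneg (ell a), abs_nonneg (ell b)])
  obtain ⟨x0, -, h0⟩ := isCompact_Icc.exists_isMinOn hR hw.cont.1.continuousOn
  obtain ⟨x1, -, h1⟩ := isCompact_Icc.exists_isMaxOn hR hw.cont.1.continuousOn
  have key := con_matrix h hV ht (W := fun z => fm w (fm ell (jac a T z)))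
    (dW := fun k z => Df w w1 (fm ell (jac a T z)) (Df g g1 (jac a T z) (t k z))) (hw0 x0)
    (fun z => (sL z).fm fun x a1 a2 => ⟨h0 ⟨a1, a2⟩, h1 ⟨a1, a2⟩⟩) (DQ.fm hL sL sX hw)
  refine le_of_eq_of_le (integral_congr_ae ?_) key
  filter_upwards [e4] with z hz
  simp only [Kq, e3, hz]

end Crest.Agent.R253
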