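/-
Row 253 (S0390, S0391), file Ker1.  Scalar kernel inequalities.
Definitions: R253/Fun.lean, R253/Defs.lean.  Outline: R253/Blueprint.lean.  Keep the statements unchanged.
-/
import Crest.Agent.R253.Fun1
import Crest.Agent.R203N.Mat3

set_option autoImplicit false

namespace Crest.Agent.R253

open MeasureTheory ProbabilityTheory Matrix Filter Topology Crest.Agent.R203N

/-- The mean of `|log λ(x) - log λ(a)|` over `x` between `a` and `b`. -/
noncomputable def mL (a b : ℝ) : ℝ := ∫ t in (0 : ℝ)..1, |lh (a + t * (b - a)) - lh a|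

theorem mL_nonneg (a b : ℝ) : 0 ≤ mL a b :=
  intervalIntegral.integral_nonneg zero_le_one fun _ _ => abs_nonneg _

theorem Ker1a_lh_mono : Monotone lh :=
  monotone_of_hasDerivAt_nonneg hasDerivAt_lh fun l => (mu_pos l).le

theorem Ker1a_between {a b t : ℝ} (h0 : 0 ≤ t) (h1 : t ≤ 1) :
    |lh (a + t * (b - a)) - lh a| + |lh (a + t * (b - a)) - lh b| = |lh a - lh b| := by
  rcases le_total a b with hab | hab
  · have h2 : lh a ≤ lh (a + t * (b - a)) := Ker1a_lh_mono (by nlinarith)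
    have h3 : lh (a + t * (b - a)) ≤ lh b := Ker1a_lh_mono (by nlinarith)
    rw [abs_of_nonneg (by linarith), abs_of_nonpos (by linarith), abs_of_nonpos (by linarith)]
    ring
  · have h2 : lh (a + t * (b - a)) ≤ lh a := Ker1a_lh_mono (by nlinarith)
    have h3 : lh b ≤ lh (a + t * (b - a)) := Ker1a_lh_mono (by nlinarith)
    rw [abs_of_nonpos (by linarith), abs_of_nonneg (by linarith), abs_of_nonneg (by linarith)]
    ring

/-- `lh` is monotone; substitute `t ↦ 1 - t`. -/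
theorem mL_add (a b : ℝ) : mL a b + mL b a = |lh a - lh b| := by
  have h1 : mL b a = ∫ t in (0 : ℝ)..1, |lh (a + t * (b - a)) - lh b| := by
    unfold mL
    have := intervalIntegral.integral_comp_sub_left (a := (0 : ℝ)) (b := 1)
      (fun t => |lh (a + t * (b - a)) - lh b|) 1
    simp only [sub_self, sub_zero] at this
    rw [← this]
    refine intervalIntegral.integral_congr fun t _ => ?_
    show |lh (b + t * (a - b)) - lh b| = |lh (a + (1 - t) * (b - a)) - lh b|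
    rw [show a + (1 - t) * (b - a) = b + t * (a - b) by ring]
  rw [h1]
  unfold mL
  rw [← intervalIntegral.integral_add (Continuous.intervalIntegrable (by fun_prop) _ _)
    (Continuous.intervalIntegrable (by fun_prop) _ _)]
  rw [intervalIntegral.integral_congr (g := fun _ => |lh a - lh b|) fun t ht => by
    rw [Set.uIcc_of_le zero_le_one] at ht
    exact Ker1a_between ht.1 ht.2]
  simp

theorem Ker1a_nonneg {f f1 : ℝ → ℝ} (hd : ∀ x, HasDerivAt f (f1 x) x) (h0 : f 0 = 0)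
    (h1 : ∀ x, 0 ≤ x → 0 ≤ f1 x) {x : ℝ} (hx : 0 ≤ x) : 0 ≤ f x := by
  have hm : MonotoneOn f (Set.Ici 0) :=
    monotoneOn_of_hasDerivWithinAt_nonneg (convex_Ici 0)
      (fun y _ => (hd y).continuousAt.continuousWithinAt)
      (fun y _ => (hd y).hasDerivWithinAt) fun y hy => h1 y (interior_subset hy)
  have := hm (Set.mem_Ici.2 le_rfl) (Set.mem_Ici.2 hx) hx
  rwa [h0] at this

theorem Ker1a_exp {d : ℝ} (hd : 0 ≤ d) :
    1 + d / 2 + d ^ 2 / 12 ≤ Real.exp d * (1 - d / 2 + d ^ 2 / 12) := by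
  have h2 : ∀ x : ℝ, 0 ≤ x → 0 ≤ Real.exp x * (1 / 6 - x / 6 + x ^ 2 / 12) - 1 / 6 := fun x hx => by
    refine Ker1a_nonneg (f := fun x => Real.exp x * (1 / 6 - x / 6 + x ^ 2 / 12) - 1 / 6)
      (f1 := fun x => Real.exp x * x ^ 2 / 12) (fun y => ?_) (by simp) (fun y _ => by positivity) hx
    have := (((Real.hasDerivAt_exp y).mul ((((hasDerivAt_id y).div_const 6).const_sub (1 / 6)).add
      ((hasDerivAt_pow 2 y).div_const 12))).sub_const (1 / 6))
    refine this.congr_deriv ?_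
    simp only [id, Pi.add_apply]
    norm_num
    ring
  have h1 : ∀ x : ℝ, 0 ≤ x →
      0 ≤ Real.exp x * (1 / 2 - x / 3 + x ^ 2 / 12) - (1 / 2 + x / 6) := fun x hx => by
    refine Ker1a_nonneg (f := fun x => Real.exp x * (1 / 2 - x / 3 + x ^ 2 / 12) - (1 / 2 + x / 6))
      (f1 := fun x => Real.exp x * (1 / 6 - x / 6 + x ^ 2 / 12) - 1 / 6) (fun y => ?_) (by simp)
      h2 hx
    have := (((Real.hasDerivAt_exp y).mul ((((hasDerivAt_id y).div_const 3).const_sub (1 / 2)).add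
      ((hasDerivAt_pow 2 y).div_const 12))).sub (((hasDerivAt_id y).div_const 6).const_add (1 / 2)))
    refine this.congr_deriv ?_
    simp only [id, Pi.add_apply]
    norm_num
    ring
  have h0 : 0 ≤ Real.exp d * (1 - d / 2 + d ^ 2 / 12) - (1 + d / 2 + d ^ 2 / 12) := by
    refine Ker1a_nonneg
      (f := fun x => Real.exp x * (1 - x / 2 + x ^ 2 / 12) - (1 + x / 2 + x ^ 2 / 12))
      (f1 := fun x => Real.exp x * (1 / 2 - x / 3 + x ^ 2 / 12) - (1 / 2 + x / 6)) (fun y => ?_)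
      (by simp) h1 hd
    have := (((Real.hasDerivAt_exp y).mul ((((hasDerivAt_id y).div_const 2).const_sub 1).add
      ((hasDerivAt_pow 2 y).div_const 12))).sub ((((hasDerivAt_id y).div_const 2).const_add 1).add
        ((hasDerivAt_pow 2 y).div_const 12)))
    refine this.congr_deriv ?_
    simp only [id, Pi.add_apply]
    norm_num
    ring
  linarith

theorem Ker1a_int_log {A B : ℝ} (hA : 0 < A) (hAB : A < B) :
    ∫ t in (0 : ℝ)..1, Real.log (A + t * (B - A)) =
      (B * Real.log B - A * Real.log A) / (B - A) - 1 := by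
  have hBA : B - A ≠ 0 := by linarith [sub_pos.2 hAB] |> fun h : 0 < B - A => h.ne'
  have h1 := intervalIntegral.integral_comp_add_mul (a := (0 : ℝ)) (b := 1) Real.log hBA A
  simp only [mul_zero, add_zero, mul_one, add_sub_cancel, smul_eq_mul] at h1
  rw [intervalIntegral.integral_congr (g := fun t => Real.log (A + (B - A) * t)) fun t _ => by
    show Real.log (A + t * (B - A)) = Real.log (A + (B - A) * t)
    rw [mul_comm], h1, integral_log]
  field_simp
  ring

/-- `x cosh x - sinh x - x² sinh x / 3 ≤ 0` for `x ≥ 0` (derivative `(x/3)(sinh x - x cosh x) ≤ 0`); with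
`A = e^u`, `B = e^(u+d)`: `∫₀¹ log (A + t(B-A)) dt - (log A + log B)/2 = (d/2) coth (d/2) - 1`. -/
theorem avg_log_le {A B : ℝ} (hA : 0 < A) (hAB : A < B) :
    ∫ t in (0 : ℝ)..1, Real.log (A + t * (B - A)) ≤
      (Real.log A + Real.log B) / 2 + (Real.log B - Real.log A) ^ 2 / 12 := by
  rw [Ker1a_int_log hA hAB]
  have hB : 0 < B := hA.trans hAB
  have hBA : 0 < B - A := sub_pos.2 hAB
  set d := Real.log B - Real.log A with hd
  have hd0 : 0 ≤ d := sub_nonneg.2 (Real.log_le_log hA hAB.le)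
  have he : B = A * Real.exp d := by
    rw [hd, Real.exp_sub, Real.exp_log hA, Real.exp_log hB]
    field_simp
  have h1 := Ker1a_exp hd0
  have h2 : A * (1 + d / 2 + d ^ 2 / 12) ≤ B * (1 - d / 2 + d ^ 2 / 12) := by
    rw [he, mul_assoc]
    exact mul_le_mul_of_nonneg_left h1 hA.le
  have h3 : Real.log B = Real.log A + d := by rw [hd]; ring
  rw [sub_le_iff_le_add, div_le_iff₀ hBA, h3]
  nlinarith

theorem Ker1a_convex : ConvexOn ℝ Set.univ haz := by
  have hm : Monotone haz1 := monotone_of_hasDerivAt_nonneg hasDerivAt_haz1 haz2_nonneg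
  have hd : deriv haz = haz1 := funext fun x => (hasDerivAt_haz x).deriv
  exact Monotone.convexOn_univ_of_deriv (fun x => (hasDerivAt_haz x).differentiableAt) (hd ▸ hm)

theorem Ker1a_mL_bounds {a b : ℝ} (hab : a < b) :
    (lh b - lh a) / 2 ≤ mL a b ∧ mL a b ≤ (lh b - lh a) / 2 + (lh b - lh a) ^ 2 / 12 := by
  have h1 : mL a b = (∫ t in (0 : ℝ)..1, lh (a + t * (b - a))) - lh a := by
    unfold mL
    rw [intervalIntegral.integral_congr (g := fun t => lh (a + t * (b - a)) - lh a) fun t ht => by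
      rw [Set.uIcc_of_le zero_le_one] at ht
      exact abs_of_nonneg (sub_nonneg.2 (Ker1a_lh_mono (by nlinarith [ht.1])))]
    rw [intervalIntegral.integral_sub (Continuous.intervalIntegrable (by fun_prop) _ _)
      (Continuous.intervalIntegrable (by fun_prop) _ _)]
    simp
  have hA := haz_pos a
  have hAB : haz a < haz b := strictMono_haz hab
  constructor
  · have h2 : ∫ t in (0 : ℝ)..1, (lh a + t * (lh b - lh a)) ≤
        ∫ t in (0 : ℝ)..1, lh (a + t * (b - a)) := by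
      refine intervalIntegral.integral_mono_on zero_le_one
        (Continuous.intervalIntegrable (by fun_prop) _ _)
        (Continuous.intervalIntegrable (by fun_prop) _ _) fun t ht => ?_
      have := concaveOn_loghaz.2 (Set.mem_univ a) (Set.mem_univ b) (sub_nonneg.2 ht.2) ht.1
        (by ring)
      simp only [smul_eq_mul] at this
      rw [show a + t * (b - a) = (1 - t) * a + t * b by ring]
      unfold lh
      linarith
    rw [intervalIntegral.integral_add (Continuous.intervalIntegrable (by fun_prop) _ _)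
      (Continuous.intervalIntegrable (by fun_prop) _ _), intervalIntegral.integral_mul_const,
      integral_id] at h2
    simp only [intervalIntegral.integral_const, sub_zero, smul_eq_mul] at h2
    rw [h1]
    linarith
  · have hpos : ∀ t ∈ Set.Icc (0 : ℝ) 1, 0 < haz a + t * (haz b - haz a) := fun t ht => by
      nlinarith [ht.1]
    have h2 : ∫ t in (0 : ℝ)..1, lh (a + t * (b - a)) ≤
        ∫ t in (0 : ℝ)..1, Real.log (haz a + t * (haz b - haz a)) := by
      refine intervalIntegral.integral_mono_on zero_le_one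
        (Continuous.intervalIntegrable (by fun_prop) _ _) ?_ fun t ht => ?_
      · refine ContinuousOn.intervalIntegrable ?_
        rw [Set.uIcc_of_le zero_le_one]
        exact ContinuousOn.log (by fun_prop) fun t ht => (hpos t ht).ne'
      · have := Ker1a_convex.2 (Set.mem_univ a) (Set.mem_univ b) (sub_nonneg.2 ht.2) ht.1
          (by ring)
        simp only [smul_eq_mul] at this
        rw [show a + t * (b - a) = (1 - t) * a + t * b by ring]
        unfold lh
        exact Real.log_le_log (haz_pos _) (by linarith)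
    have h3 := avg_log_le hA hAB
    rw [h1]
    unfold lh at h2 ⊢
    linarith

theorem Ker1a_mL_sq {a b : ℝ} (hab : a < b) :
    mL a b ^ 2 + mL b a ^ 2 ≤ 6 * sg (lh a - lh b) := by
  obtain ⟨h1, h2⟩ := Ker1a_mL_bounds hab
  have h3 := mL_add a b
  have h4 : lh a ≤ lh b := Ker1a_lh_mono hab.le
  rw [abs_of_nonpos (by linarith)] at h3
  set d := lh b - lh a with hd
  have h5 : lh a - lh b = -d := by rw [hd]; ring
  have h6 : mL b a = d - mL a b := by linarith
  have h7 : (mL a b - d / 2) ^ 2 ≤ (d ^ 2 / 12) ^ 2 :=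
    pow_le_pow_left₀ (by linarith) (by linarith) 2
  rw [h5, h6]
  unfold sg
  nlinarith [sq_nonneg (d ^ 2)]

/-- For `a < b`, `d = lh b - lh a`: `d/2 ≤ mL a b` (`lh` concave: `concaveOn_loghaz`) and
`mL a b ≤ d/2 + d²/12` (`haz` convex by `haz2_nonneg`, so `haz (a + t(b-a)) ≤ haz a + t (haz b - haz a)`;
`avg_log_le`).  Then `m₁² + m₂² = d²/2 + 2 (m₁ - d/2)² ≤ d²/2 + d⁴/72`. -/
theorem mL_sq (a b : ℝ) : mL a b ^ 2 + mL b a ^ 2 ≤ 6 * sg (lh a - lh b) := by
  rcases lt_trichotomy a b with h | h | h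
  · exact Ker1a_mL_sq h
  · subst h
    simp [mL, sg]
  · have := Ker1a_mL_sq h
    have e : sg (lh a - lh b) = sg (lh b - lh a) := by unfold sg; ring
    rw [e]
    linarith

/-- `c lh ± φ1` are monotone. -/
theorem abs_sub_le_lh {φ1 φ2 : ℝ → ℝ} {c : ℝ} (h1 : ∀ x, HasDerivAt φ1 (φ2 x) x)
    (hc : ∀ x, |φ2 x| ≤ c * mu x) (a b : ℝ) : |φ1 b - φ1 a| ≤ c * |lh b - lh a| := by
  have hp : Monotone fun x => c * lh x + φ1 x :=
    monotone_of_hasDerivAt_nonneg (f' := fun x => c * mu x + φ2 x)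
      (fun x => ((hasDerivAt_lh x).const_mul c).add (h1 x))
      fun x => by have := neg_abs_le (φ2 x); have := hc x; simp only [Pi.zero_apply]; linarith
  have hm : Monotone fun x => c * lh x - φ1 x :=
    monotone_of_hasDerivAt_nonneg (f' := fun x => c * mu x - φ2 x)
      (fun x => ((hasDerivAt_lh x).const_mul c).sub (h1 x))
      fun x => by have := le_abs_self (φ2 x); have := hc x; simp only [Pi.zero_apply]; linarith
  rcases le_total a b with hab | hab
  · have h2 := hp hab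
    have h3 := hm hab
    have h4 : lh a ≤ lh b := Ker1a_lh_mono hab
    rw [abs_of_nonneg (sub_nonneg.2 h4), abs_le]
    simp only at h2 h3
    constructor <;> linarith
  · have h2 := hp hab
    have h3 := hm hab
    have h4 : lh b ≤ lh a := Ker1a_lh_mono hab
    rw [abs_of_nonpos (sub_nonpos.2 h4), abs_le]
    simp only at h2 h3
    constructor <;> linarith

/-- `Mat3_dd_int`. -/
theorem abs_dd_sub_le {φ φ1 φ2 : ℝ → ℝ} {c : ℝ} (h0 : ∀ x, HasDerivAt φ (φ1 x) x)
    (h1 : ∀ x, HasDerivAt φ1 (φ2 x) x) (hc : ∀ x, |φ2 x| ≤ c * mu x) (a b : ℝ) :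
    |dd φ φ1 a b - φ1 a| ≤ c * mL a b := by
  have hc1 : Continuous φ1 := continuous_iff_continuousAt.2 fun x => (h1 x).continuousAt
  have e : dd φ φ1 a b - φ1 a = ∫ t in (0 : ℝ)..1, (φ1 (a + t * (b - a)) - φ1 a) := by
    rw [Mat3_dd_int h0 hc1, intervalIntegral.integral_sub
      (Continuous.intervalIntegrable (by fun_prop) _ _)
      (Continuous.intervalIntegrable (by fun_prop) _ _)]
    simp
  rw [e]
  refine (intervalIntegral.abs_integral_le_integral_abs zero_le_one).trans ?_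
  unfold mL
  rw [← intervalIntegral.integral_const_mul]
  exact intervalIntegral.integral_mono_on zero_le_one
    (Continuous.intervalIntegrable (by fun_prop) _ _)
    (Continuous.intervalIntegrable (by fun_prop) _ _) fun t _ => abs_sub_le_lh h1 hc _ _

theorem Ker1a_k {φ φ1 φ2 : ℝ → ℝ} {c : ℝ} (h0 : ∀ x, HasDerivAt φ (φ1 x) x)
    (h1 : ∀ x, HasDerivAt φ1 (φ2 x) x) (hc : ∀ x, |φ2 x| ≤ c * mu x) (a b : ℝ) :
    (dd φ φ1 a b - φ1 a) ^ 2 + (dd φ φ1 b a - φ1 b) ^ 2 ≤ 2 * (3 * c ^ 2) * sg (lh a - lh b) := by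
  have h2 := abs_dd_sub_le h0 h1 hc a b
  have h3 := abs_dd_sub_le h0 h1 hc b a
  have h4 := pow_le_pow_left₀ (abs_nonneg _) h2 2
  have h5 := pow_le_pow_left₀ (abs_nonneg _) h3 2
  rw [sq_abs, mul_pow] at h4 h5
  have h6 := mul_le_mul_of_nonneg_left (mL_sq a b) (sq_nonneg c)
  linarith

theorem k1_le (h : NF) (a b : ℝ) : (dd tau tau1 a b - tau1 a) ^ 2 + (dd tau tau1 b a - tau1 b) ^ 2 ≤
    2 * (3 * (94 / 1000) ^ 2) * sg (lh a - lh b) :=
  Ker1a_k hasDerivAt_tau hasDerivAt_tau1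
    (fun x => by rw [abs_of_nonneg (h.t2_nonneg x)]; exact h.c1 x) a b

theorem k2_le (h : NF) (a b : ℝ) : (dd tau1 tau2 a b - tau2 a) ^ 2 + (dd tau1 tau2 b a - tau2 b) ^ 2 ≤
    2 * (3 * (41 / 1000) ^ 2) * sg (lh a - lh b) :=
  Ker1a_k hasDerivAt_tau1 hasDerivAt_tau2 h.c2 a b

/-- The kernel of `kA3`. -/
noncomputable def k3 (a b : ℝ) : ℝ :=
  dd vf vf1 a b - nf b + tau1 a ^ 2 - 2 * (tau1 a * dd tau tau1 a b)

theorem ker1b_mL (a b : ℝ) : mL b a = ∫ t in (0 : ℝ)..1, |lh (a + t * (b - a)) - lh b| := by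
  have := intervalIntegral.integral_comp_sub_left (a := (0 : ℝ)) (b := 1)
    (fun t => |lh (a + t * (b - a)) - lh b|) 1
  simp only [sub_self, sub_zero] at this
  rw [← this, mL]
  congr 1
  funext t
  congr 3
  ring

theorem ker1b_abs {f g : ℝ → ℝ} (hg : Continuous g) (h : ∀ t, 0 ≤ t → t ≤ 1 → |f t| ≤ g t) :
    |∫ t in (0 : ℝ)..1, f t| ≤ ∫ t in (0 : ℝ)..1, g t :=
  intervalIntegral.norm_integral_le_of_norm_le (f := f) zero_le_one
    (Eventually.of_forall fun t ht => h t ht.1.le ht.2) (hg.intervalIntegrable _ _)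

theorem ker1b_k3 (h : NF) (a b : ℝ) : |k3 a b| ≤ 93 / 1000 * mL b a + 47 / 1000 * mL a b := by
  have e1 : k3 a b = ∫ t in (0 : ℝ)..1,
      (vf1 (a + t * (b - a)) - 2 * tau1 a * tau1 (a + t * (b - a)) + (tau1 a ^ 2 - nf b)) := by
    rw [intervalIntegral.integral_add (Continuous.intervalIntegrable (by fun_prop) _ _)
      (Continuous.intervalIntegrable (by fun_prop) _ _),
      intervalIntegral.integral_sub (Continuous.intervalIntegrable (by fun_prop) _ _)
      (Continuous.intervalIntegrable (by fun_prop) _ _), intervalIntegral.integral_const_mul,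
      ← Mat3_dd_int hasDerivAt_vf continuous_vf1, ← Mat3_dd_int hasDerivAt_tau continuous_tau1, k3]
    simp only [intervalIntegral.integral_const, sub_zero, one_smul]
    ring
  rw [e1, ker1b_mL a b, mL, ← intervalIntegral.integral_const_mul, ← intervalIntegral.integral_const_mul,
    ← intervalIntegral.integral_add (Continuous.intervalIntegrable (by fun_prop) _ _)
      (Continuous.intervalIntegrable (by fun_prop) _ _)]
  refine ker1b_abs (by fun_prop) fun t _ _ => ?_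
  generalize a + t * (b - a) = x
  have h1 := abs_sub_le_lh hasDerivAt_nf h.c3 b x
  have h2 := abs_sub_le_lh hasDerivAt_tau1 (c := 94 / 1000)
    (fun y => by rw [abs_of_nonneg (h.t2_nonneg y)]; exact h.c1 y) a x
  have h3 : |tau1 x - tau1 a| ≤ 1 / 2 := by
    have := h.t1_pos x
    have := h.t1_pos a
    have := h.t1_le x
    have := h.t1_le a
    rw [abs_le]
    constructor <;> linarith
  have h4 : (tau1 x - tau1 a) ^ 2 ≤ 47 / 1000 * |lh x - lh a| := by
    rw [← sq_abs]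
    nlinarith [abs_nonneg (tau1 x - tau1 a)]
  have e2 : vf1 x - 2 * tau1 a * tau1 x + (tau1 a ^ 2 - nf b) = (nf x - nf b) + (tau1 x - tau1 a) ^ 2 := by
    unfold vf1
    ring
  rw [e2]
  refine (abs_add_le _ _).trans ?_
  rw [abs_of_nonneg (sq_nonneg (tau1 x - tau1 a))]
  linarith

/-- `k3 a b = avg (nf x - nf b) + avg (tau1 x - tau1 a)²` (`Mat3_dd_int`), and
`(tau1 x - tau1 a)² ≤ (1/2) c₁ |lh x - lh a|`, so `|k3 a b| ≤ c₃ mL b a + (c₁/2) mL a b`. -/
theorem k3_le (h : NF) (a b : ℝ) : k3 a b ^ 2 + k3 b a ^ 2 ≤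
    2 * (3 * (140 / 1000) ^ 2) * sg (lh a - lh b) := by
  have h1 := ker1b_k3 h a b
  have h2 := ker1b_k3 h b a
  have h3 := mL_sq a b
  have h4 := pow_le_pow_left₀ (abs_nonneg _) h1 2
  have h5 := pow_le_pow_left₀ (abs_nonneg _) h2 2
  rw [sq_abs] at h4 h5
  nlinarith [sq_nonneg (mL a b - mL b a)]

theorem ker1b_mono : Monotone lh :=
  monotone_of_deriv_nonneg (fun x => (hasDerivAt_lh x).differentiableAt) fun x => by
    rw [(hasDerivAt_lh x).deriv]
    exact (mu_pos x).le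

theorem ker1b_between (a b : ℝ) {t : ℝ} (h0 : 0 ≤ t) (h1 : t ≤ 1) :
    |lh (a + t * (b - a)) - lh a| ≤ |lh a - lh b| := by
  rcases le_total a b with h | h
  · have h2 := ker1b_mono (show a ≤ a + t * (b - a) by nlinarith)
    have h3 := ker1b_mono (show a + t * (b - a) ≤ b by nlinarith)
    rw [abs_of_nonneg (by linarith), abs_of_nonpos (by linarith)]
    linarith
  · have h2 := ker1b_mono (show a + t * (b - a) ≤ a by nlinarith)
    have h3 := ker1b_mono (show b ≤ a + t * (b - a) by nlinarith)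
    rw [abs_of_nonpos (by linarith), abs_of_nonneg (by linarith)]
    linarith

theorem ker1b_pt (h : NF) (a x : ℝ) : |tau1 x - tau1 a| ≤
    165 / 1000 * √(tau1 a) * (1 + 1185 / 10000 * |lh x - lh a|) * |lh x - lh a| := by
  have hs : ∀ y, 0 < √(tau1 y) := fun y => Real.sqrt_pos.2 (h.t1_pos y)
  have hq : ∀ y, √(tau1 y) ^ 2 = tau1 y := fun y => Real.sq_sqrt (h.t1_pos y).le
  have d1 : ∀ y, HasDerivAt (fun y => √(tau1 y)) (tau2 y / (2 * √(tau1 y))) y := fun y =>
    (hasDerivAt_tau1 y).sqrt (h.t1_pos y).ne'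
  have d2 : ∀ y, HasDerivAt (fun y => (√(tau1 y))⁻¹) (-(tau2 y / (2 * √(tau1 y))) / √(tau1 y) ^ 2) y :=
    fun y => (d1 y).inv (hs y).ne'
  have h1 := abs_sub_le_lh d1 (c := 165 / 2000) (fun y => by
    have h0 := hs y
    have hm := mu_pos y
    have h2 : |tau2 y| ≤ 165 / 1000 * (mu y * √(tau1 y)) :=
      abs_le_of_sq_le_sq (by rw [mul_pow, mul_pow, hq]; exact h.c6 y) (by positivity)
    rw [abs_div, abs_of_pos (by positivity : 0 < 2 * √(tau1 y)), div_le_iff₀ (by positivity)]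
    linarith) a x
  have h2 := abs_sub_le_lh d2 (c := 67 / 200) (fun y => by
    have h0 := hs y
    have hm := mu_pos y
    have h2 : |tau2 y| ≤ 67 / 100 * (mu y * √(tau1 y) ^ 3) :=
      abs_le_of_sq_le_sq (by
        rw [mul_pow, mul_pow, ← pow_mul, mul_comm 3 2, pow_mul, hq]; exact h.c7 y) (by positivity)
    rw [abs_div, abs_neg, abs_div, abs_of_pos (by positivity : 0 < 2 * √(tau1 y)),
      abs_of_pos (by positivity : 0 < √(tau1 y) ^ 2), div_div, div_le_iff₀ (by positivity)]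
    linarith) a x
  have hp := hs x
  have hq' := hs a
  have hp1 : √(tau1 x) ≤ 7072 / 10000 := by
    refine Real.sqrt_le_iff.2 ⟨by norm_num, (h.t1_le x).trans (by norm_num)⟩
  rw [← hq x, ← hq a, Real.sqrt_sq hq'.le]
  have hy := abs_nonneg (lh x - lh a)
  generalize |lh x - lh a| = y at *
  generalize √(tau1 x) = p at *
  generalize √(tau1 a) = q at *
  have h3 : p - q ≤ 67 / 200 * y * (p * q) := by
    have h4 := (abs_le.1 h2).1
    have e : p - q = -(p⁻¹ - q⁻¹) * (p * q) := by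
      field_simp
      ring
    rw [e]
    exact mul_le_mul_of_nonneg_right (by linarith) (by positivity)
  have h4 : p + q ≤ 2 * q * (1 + 1185 / 10000 * y) := by
    have := mul_le_mul_of_nonneg_left hp1 (show 0 ≤ y * q by positivity)
    nlinarith [mul_nonneg hy hq'.le]
  rw [show p ^ 2 - q ^ 2 = (p - q) * (p + q) by ring, abs_mul, abs_of_pos (by positivity : 0 < p + q)]
  refine (mul_le_mul h1 h4 (by positivity) (by positivity)).trans (le_of_eq (by ring))

theorem ker1b_k6 (h : NF) (a b : ℝ) : (dd tau tau1 a b - tau1 a) ^ 2 / tau1 a ≤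
    (165 / 1000) ^ 2 * (1 + 1185 / 10000 * |lh a - lh b|) ^ 2 * mL a b ^ 2 := by
  have e1 : dd tau tau1 a b - tau1 a = ∫ t in (0 : ℝ)..1, (tau1 (a + t * (b - a)) - tau1 a) := by
    rw [intervalIntegral.integral_sub (Continuous.intervalIntegrable (by fun_prop) _ _)
      (Continuous.intervalIntegrable (by fun_prop) _ _), ← Mat3_dd_int hasDerivAt_tau continuous_tau1]
    simp
  have h1 : |dd tau tau1 a b - tau1 a| ≤
      165 / 1000 * √(tau1 a) * (1 + 1185 / 10000 * |lh a - lh b|) * mL a b := by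
    rw [e1, mL, ← intervalIntegral.integral_const_mul]
    refine ker1b_abs (by fun_prop) fun t h0 h1 => (ker1b_pt h a _).trans ?_
    have := ker1b_between a b h0 h1
    gcongr
  have h2 := pow_le_pow_left₀ (abs_nonneg _) h1 2
  rw [sq_abs, mul_pow, mul_pow, mul_pow, Real.sq_sqrt (h.t1_pos a).le] at h2
  rw [div_le_iff₀ (h.t1_pos a)]
  linarith

/-- `|(√tau1)'| ≤ (c₆/2) mu`, `|(1/√tau1)'| ≤ (c₇/2) mu` (`abs_sub_le_lh`), so with `y = |lh x - lh a|`,
`|tau1 x - tau1 a| ≤ (c₆/2) y (√tau1 x + √tau1 a)` and `√tau1 x / √tau1 a ≤ 1 + √(1/2) (c₇/2) y`, i.e.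
`|tau1 x - tau1 a| ≤ c₆ √(tau1 a) y (1 + c₉ y)`, `c₉ = c₇/(4√2) ≤ 0.1185`.  For `x` between `a` and `b`,
`y ≤ d`.  `m₁² + m₂² ≤ d²`, `(1 + c₉ d)² ≤ (1 + 30 c₉²)(1 + d²/30)`. -/
theorem k6_le (h : NF) (a b : ℝ) :
    (dd tau tau1 a b - tau1 a) ^ 2 / tau1 a + (dd tau tau1 b a - tau1 b) ^ 2 / tau1 b ≤
      2 * (233 / 1000) * sg (lh a - lh b) := by
  have h1 := ker1b_k6 h a b
  have h2 := ker1b_k6 h b a
  rw [abs_sub_comm (lh b)] at h2
  have h3 := mL_add a b
  have h4 := mul_nonneg (mL_nonneg a b) (mL_nonneg b a)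
  have e : sg (lh a - lh b) = |lh a - lh b| ^ 2 / 12 * (1 + |lh a - lh b| ^ 2 / 30) := by
    rw [sq_abs, sg]
    ring
  rw [e]
  generalize |lh a - lh b| = d at *
  have h5 : mL a b ^ 2 + mL b a ^ 2 ≤ d ^ 2 := by
    rw [← h3]
    nlinarith
  have h6 : (1 + 1185 / 10000 * d) ^ 2 ≤ (1 + 30 * (1185 / 10000) ^ 2) * (1 + d ^ 2 / 30) := by
    nlinarith [sq_nonneg (d - 30 * (1185 / 10000))]
  have h7 := mul_le_mul h6 h5 (by positivity) (by positivity)
  have h8 : 0 ≤ (1 + d ^ 2 / 30) * d ^ 2 := by positivity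
  nlinarith

/-! ### Second part: the two-point and three-point inequalities -/

theorem ker1c_mvt {f f1 : ℝ → ℝ} (hd : ∀ x, HasDerivAt f (f1 x) x) (a b : ℝ) : ∃ c, dd f f1 a b = f1 c := by
  have key : ∀ a b, a < b → ∃ c, dd f f1 a b = f1 c := fun a b hab => by
    obtain ⟨c, -, hc⟩ := exists_hasDerivAt_eq_slope f f1 hab
      (fun x _ => (hd x).continuousAt.continuousWithinAt) fun x _ => hd x
    exact ⟨c, by rw [dd, if_neg hab.ne, hc]⟩
  rcases lt_trichotomy a b with h | rfl | h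
  · exact key a b h
  · exact ⟨a, if_pos rfl⟩
  · rw [Mat3_dd_comm]; exact key b a h

theorem ker1c_mono {f f1 : ℝ → ℝ} {a b : ℝ} (hab : a ≤ b) (hd : ∀ x, HasDerivAt f (f1 x) x)
    (h : ∀ x, a ≤ x → x ≤ b → 0 ≤ f1 x) : f a ≤ f b := by
  rcases hab.eq_or_lt with rfl | hab
  · exact le_rfl
  obtain ⟨c, hc, e⟩ := exists_hasDerivAt_eq_slope f f1 hab
    (fun x _ => (hd x).continuousAt.continuousWithinAt) fun x _ => hd x
  have := h c hc.1.le hc.2.le
  rw [e, le_div_iff₀ (sub_pos.2 hab)] at this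
  linarith

theorem dd_haz_pos (a b : ℝ) : 0 < dd haz haz1 a b := by
  obtain ⟨c, hc⟩ := ker1c_mvt hasDerivAt_haz a b
  rw [hc]; exact haz1_pos c

/-- Trapezoid bound: for fixed `a` the difference `ψ(b)` has
`2 ψ' = tau1 b (lh b - lh a) - (tau b - tau a) mu b ≥ 0`, because `tau1/mu` is monotone
(`tau2 ≥ 0`, `mu_anti`); note `tau mu = 1 - tau1`. -/
theorem trapezoid (h : NF) {a b : ℝ} (hab : a ≤ b) :
    (b - a) - (tau b - tau a) ≤ (tau a + tau b) / 2 * (lh b - lh a) := by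
  have key : ∀ x, a ≤ x → 0 ≤ tau1 x * (lh x - lh a) - (tau x - tau a) * mu x := fun x hx => by
    have := ker1c_mono hx (f := fun y => tau1 x * lh y - tau y * mu x)
      (fun y => ((hasDerivAt_lh y).const_mul (tau1 x)).sub ((hasDerivAt_tau y).mul_const (mu x)))
      fun y _ hy => sub_nonneg.2 (mul_le_mul (ker1c_mono hy hasDerivAt_tau1 fun z _ _ => h.t2_nonneg z)
        (mu_anti hy) (mu_pos x).le (h.t1_pos x).le)
    linarith
  have := ker1c_mono hab (f := fun y => (tau a + tau y) / 2 * (lh y - lh a) - y + tau y)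
    (fun y => ((((((hasDerivAt_tau y).const_add (tau a)).div_const 2).mul
      ((hasDerivAt_lh y).sub_const (lh a))).sub (hasDerivAt_id' y)).add (hasDerivAt_tau y)))
    fun y hy _ => by
      have h1 := key y hy
      have h2 : tau1 y = 1 - tau y * mu y := rfl
      linarith
  simp only [sub_self, mul_zero] at this
  linarith

theorem ker1c_alg {p q d : ℝ} (p0 : 0 ≤ p) (p1 : p ≤ 1 / 2) (q0 : 0 ≤ q) (hd : 0 ≤ d) (h : 1 ≤ p + q * d) :
    1 + sg d ≤ (p + q * (Real.exp d - 1)) * (p + q * (1 - Real.exp (-d))) := by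
  have hs := sum_le_hasSum (Finset.range 3) (fun n _ => by positivity) (Real.hasSum_sinh d)
  have hc := sum_le_hasSum (Finset.range 4) (fun n _ => by positivity) (Real.hasSum_cosh d)
  simp only [Finset.sum_range_succ, Finset.sum_range_zero, Nat.factorial] at hs hc
  norm_num at hs hc
  have s0 : 0 ≤ sg d := by unfold sg; positivity
  have h1 : d * (1 + 2 * sg d) ≤ Real.sinh d := by
    unfold sg; nlinarith [pow_nonneg hd 5]
  have h2 : d ^ 2 * (1 + sg d) ≤ 2 * Real.cosh d - 2 := by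
    unfold sg; nlinarith
  have e : (p + q * (Real.exp d - 1)) * (p + q * (1 - Real.exp (-d))) =
      p ^ 2 + 2 * (p * q) * Real.sinh d + q ^ 2 * (2 * Real.cosh d - 2) := by
    have : Real.exp d * Real.exp (-d) = 1 := by rw [← Real.exp_add]; simp
    rw [Real.sinh_eq, Real.cosh_eq]
    linear_combination (-q ^ 2) * this
  have h3 := mul_le_mul_of_nonneg_left h1 (mul_nonneg p0 q0)
  have h4 := mul_le_mul_of_nonneg_left h2 (sq_nonneg q)
  have h5 : 1 ≤ (p + q * d) ^ 2 := one_le_pow₀ h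
  have h6 : (p + q * d) ^ 2 ≤ 4 * p * (q * d) + (q * d) ^ 2 := by
    nlinarith [mul_nonneg p0 (show 0 ≤ 2 * (q * d) - p by linarith)]
  have h7 := mul_le_mul_of_nonneg_left (h5.trans h6) s0
  rw [e]
  nlinarith

/-- For `a < b`: `p = τ[a,b] ∈ [0,1/2]`, `d = lh b - lh a`, `r = F d/(b-a)`, `p + r ≥ 1` (`trapezoid`).  The
factors are `p + r (e^d - 1)/d` and `p + r (1 - e^(-d))/d`; the product is
`p² + 2 p r sinh d / d + r² 2 (cosh d - 1)/d² ≥ (p+r)² + σ (4 p r + r²) ≥ (p+r)² (1+σ)`, `σ = sg d`.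
For `a = b` equality (`tau1 + tau mu = 1`). -/
theorem two_point (h : NF) (a b : ℝ) : 1 + sg (lh a - lh b) ≤
    (dd tau tau1 a b + (tau a + tau b) / 2 * dd haz haz1 a b / haz a) *
      (dd tau tau1 a b + (tau a + tau b) / 2 * dd haz haz1 a b / haz b) := by
  wlog hab : a ≤ b generalizing a b
  · have := this b a (not_le.1 hab).le
    rw [Mat3_dd_comm tau, Mat3_dd_comm haz, add_comm (tau b), mul_comm] at this
    refine le_trans (le_of_eq ?_) this
    unfold sg; ring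
  rcases hab.eq_or_lt with rfl | hlt
  · have h0 := (haz_pos a).ne'
    have e : dd tau tau1 a a + (tau a + tau a) / 2 * dd haz haz1 a a / haz a = 1 := by
      simp only [dd, if_pos, tau1, haz1, mu]; field_simp; ring
    rw [e]; simp [sg]
  have hT := trapezoid h hab
  obtain ⟨c, hc⟩ := ker1c_mvt hasDerivAt_tau a b
  have p0 : 0 ≤ dd tau tau1 a b := hc ▸ (h.t1_pos c).le
  have p1 : dd tau tau1 a b ≤ 1 / 2 := hc ▸ h.t1_le c
  have hd : 0 ≤ lh b - lh a := sub_nonneg.2 (ker1c_mono hab hasDerivAt_lh fun x _ _ => (mu_pos x).le)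
  have hba := sub_pos.2 hlt
  have ha := haz_pos a
  have hb := haz_pos b
  have q0 : 0 ≤ (tau a + tau b) / 2 / (b - a) := by
    have := tau_pos a; have := tau_pos b; positivity
  have hpr : 1 ≤ dd tau tau1 a b + (tau a + tau b) / 2 / (b - a) * (lh b - lh a) := by
    rw [dd, if_neg hlt.ne, div_mul_eq_mul_div, ← add_div, le_div_iff₀ hba]; linarith
  have e0 : Real.exp (lh b - lh a) = haz b / haz a := by
    rw [Real.exp_sub, lh, lh, Real.exp_log ha, Real.exp_log hb]
  have e1 : (tau a + tau b) / 2 * dd haz haz1 a b / haz a =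
      (tau a + tau b) / 2 / (b - a) * (Real.exp (lh b - lh a) - 1) := by
    rw [e0, dd, if_neg hlt.ne]; field_simp
  have e2 : (tau a + tau b) / 2 * dd haz haz1 a b / haz b =
      (tau a + tau b) / 2 / (b - a) * (1 - Real.exp (-(lh b - lh a))) := by
    rw [Real.exp_neg, e0, dd, if_neg hlt.ne]; field_simp
  rw [e1, e2, show sg (lh a - lh b) = sg (lh b - lh a) by unfold sg; ring]
  exact ker1c_alg p0 p1 q0 hd hpr

/-- `α = τ[a,b] / λ[a,b]`. -/
noncomputable def al (a b : ℝ) : ℝ := dd tau tau1 a b / dd haz haz1 a b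

theorem Ker1d_om_mono (h : NF) : Monotone fun l => tau1 l * haz l / mu l := fun a b hab => by
  have h1 : Monotone tau1 := monotone_of_deriv_nonneg (fun x => (hasDerivAt_tau1 x).differentiableAt)
    fun x => by rw [(hasDerivAt_tau1 x).deriv]; exact h.t2_nonneg x
  exact div_le_div₀ (mul_pos (h.t1_pos b) (haz_pos b)).le
    (mul_le_mul (h1 hab) (strictMono_haz.monotone hab) (haz_pos a).le (h.t1_pos b).le) (mu_pos b) (mu_anti hab)

theorem Ker1d_al_mul (a b : ℝ) : al a b * (haz b - haz a) = tau b - tau a := by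
  have h := (dd_haz_pos a b).ne'
  rw [← Mat3_dd_mul haz haz1, ← Mat3_dd_mul tau tau1, al]
  field_simp

theorem Ker1d_mvt {a b : ℝ} (hab : a ≤ b) :
    ∃ ξ, a ≤ ξ ∧ ξ ≤ b ∧ al a b * haz a * haz b = tau1 ξ * haz ξ / mu ξ := by
  rcases hab.eq_or_lt with rfl | hab
  · refine ⟨a, le_rfl, le_rfl, ?_⟩
    have h1 := (haz_pos a).ne'
    have h2 := (mu_pos a).ne'
    have h3 : haz1 a = haz a * mu a := rfl
    simp only [al, dd, if_true, h3]
    field_simp
  · obtain ⟨ξ, hξ, h1⟩ := exists_ratio_hasDerivAt_eq_ratio_slope tau tau1 hab continuous_tau.continuousOn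
      (fun x _ => hasDerivAt_tau x) mills (fun l => l * mills l - 1) continuous_mills.continuousOn
      (fun x _ => hasDerivAt_mills x)
    refine ⟨ξ, hξ.1.le, hξ.2.le, ?_⟩
    have h2 := Ker1d_al_mul a b
    have h3 : haz b - haz a ≠ 0 := (sub_pos.2 (strictMono_haz hab)).ne'
    have ha := mills_mul_haz a
    have hb := mills_mul_haz b
    have hx := mills_mul_haz ξ
    rw [eq_div_iff (mu_pos ξ).ne']
    refine mul_left_cancel₀ h3 ?_
    rw [mu]
    linear_combination (haz a * haz b * (haz ξ - ξ)) * h2 + (haz a * haz b * haz ξ) * h1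
      + (haz a * haz b * ξ * (tau b - tau a)) * hx - (haz a * haz ξ * tau1 ξ) * hb + (haz b * haz ξ * tau1 ξ) * ha

/-- Cauchy's mean value theorem (`exists_ratio_hasDerivAt_eq_ratio_slope`) for `tau` and `-mills`:
`al a b * haz a * haz b = ω(ξ)` for some `ξ ∈ [a,b]`, `ω = tau1 haz / mu` monotone and nonnegative. -/
theorem al_mono (h : NF) {a b c : ℝ} (hab : a ≤ b) (hbc : b ≤ c) :
    0 ≤ al a b * haz a * haz b ∧ al a b * haz a * haz b ≤ al b c * haz b * haz c := by
  obtain ⟨ξ, -, h1, h2⟩ := Ker1d_mvt hab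
  obtain ⟨η, h3, -, h4⟩ := Ker1d_mvt hbc
  rw [h2, h4]
  exact ⟨(div_pos (mul_pos (h.t1_pos ξ) (haz_pos ξ)) (mu_pos ξ)).le, Ker1d_om_mono h (h1.trans h3)⟩

/-- The algebraic core.  `b = a+u`, `c = b+v`, `fb = x + y u/(ab)`, `fc = fb + (y+z) v/(bc)`.  The difference
times `(abc)³ (u+v)` equals `xz P₁ + y² P₂ + yz P₃ + z² P₄` with (monomials `a^i u^j v^k`)
`P₁ = 2a²uv⁴+6a²u²v³+8a²u³v²+6a²u⁴v+2a²u⁵+2a³v⁴+10a³uv³+16a³u²v²+14a³u³v+6a³u⁴+4a⁴v³+10a⁴uv²+10a⁴u²v+6a⁴u³
  +2a⁵v²+2a⁵uv+2a⁵u²`,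
`P₂ = u²v⁴/4+5u³v³/4+9u⁴v²/4+7u⁵v/4+u⁶/2+auv⁴+9au²v³/2+17au³v²/2+15au⁴v/2+5au⁵/2+a²v⁴+19a²uv³/4+9a²u²v²
  +35a²u³v/4+7a²u⁴/2+3a³v³/2+3a³uv²+3a³u²v+3a³u³/2`,
`P₃ = 2auv⁴+13au²v³/2+9au³v²+13au⁴v/2+2au⁵+2a²v⁴+9a²uv³+14a²u²v²+11a²u³v+4a²u⁴+3a³v³+11a³uv²/2+9a³u²v/2+2a³u³`,
`P₄ = a²v⁴+9a²uv³/4+9a²u²v²/4+a²u³v+3a³v³/2+3a³uv²/2+a³u²v`. -/
theorem three_alg {a u v x y z b c fa fb fc p q r : ℝ} (ha : 0 < a) (hu : 0 ≤ u) (hv : 0 ≤ v)
    (huv : 0 < u + v) (hx : 0 ≤ x) (hy : 0 ≤ y) (hz : 0 ≤ z) (hb : b = a + u) (hc : c = b + v)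
    (hfa : fa = x) (hfb : fb = x + y * u / (a * b)) (hfc : fc = fb + (y + z) * v / (b * c))
    (hp : p = y / (a * b)) (hq : q = (y + z) / (b * c)) (hr : r = (fc - fa) / (u + v)) :
    (p * (fa + fb) * (1 / a + 1 / b) / 2 + (fa + fb) ^ 2 / (4 * a * b))
      + (q * (fb + fc) * (1 / b + 1 / c) / 2 + (fb + fc) ^ 2 / (4 * b * c))
      + (r * (fc + fa) * (1 / c + 1 / a) / 2 + (fc + fa) ^ 2 / (4 * c * a))
    ≤ (fc ^ 2 / (a * b) + p * (fa + fb) / c) + (fa ^ 2 / (b * c) + q * (fb + fc) / a)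
      + (fb ^ 2 / (c * a) + r * (fc + fa) / b) := by
  have hb0 : 0 < b := by linarith
  have hc0 : 0 < c := by linarith
  have key : 0 ≤ (x * z * (2*a^2*u*v^4 + 6*a^2*u^2*v^3 + 8*a^2*u^3*v^2 + 6*a^2*u^4*v + 2*a^2*u^5 + 2*a^3*v^4
       + 10*a^3*u*v^3 + 16*a^3*u^2*v^2 + 14*a^3*u^3*v + 6*a^3*u^4 + 4*a^4*v^3 + 10*a^4*u*v^2
       + 10*a^4*u^2*v + 6*a^4*u^3 + 2*a^5*v^2 + 2*a^5*u*v + 2*a^5*u^2)
      + y ^ 2 * (u^2*v^4/4 + 5*u^3*v^3/4 + 9*u^4*v^2/4 + 7*u^5*v/4 + u^6/2 + a*u*v^4 + 9*a*u^2*v^3/2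
       + 17*a*u^3*v^2/2 + 15*a*u^4*v/2 + 5*a*u^5/2 + a^2*v^4 + 19*a^2*u*v^3/4 + 9*a^2*u^2*v^2
       + 35*a^2*u^3*v/4 + 7*a^2*u^4/2 + 3*a^3*v^3/2 + 3*a^3*u*v^2 + 3*a^3*u^2*v + 3*a^3*u^3/2)
      + y * z * (2*a*u*v^4 + 13*a*u^2*v^3/2 + 9*a*u^3*v^2 + 13*a*u^4*v/2 + 2*a*u^5 + 2*a^2*v^4 + 9*a^2*u*v^3
       + 14*a^2*u^2*v^2 + 11*a^2*u^3*v + 4*a^2*u^4 + 3*a^3*v^3 + 11*a^3*u*v^2/2 + 9*a^3*u^2*v/2
       + 2*a^3*u^3)
      + z ^ 2 * (a^2*v^4 + 9*a^2*u*v^3/4 + 9*a^2*u^2*v^2/4 + a^2*u^3*v + 3*a^3*v^3/2 + 3*a^3*u*v^2/2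
       + a^3*u^2*v)) / ((a * b * c) ^ 3 * (u + v)) := by positivity
  refine sub_nonneg.1 (key.trans_eq ?_)
  subst hr hq hp hfc hfb hfa
  field_simp
  subst hc hb
  ring

/-- Twice the kernel of `Kq`. -/
noncomputable def kk (a b c : ℝ) : ℝ :=
  tau c ^ 2 / (haz a * haz b) + al a b * (tau a + tau b) / haz c

/-- The kernel of `|X|² - |∂τ|² + sur`. -/
noncomputable def pp (a b : ℝ) : ℝ :=
  (1 + sg (lh a - lh b) - dd tau tau1 a b ^ 2) / dd haz haz1 a b ^ 2

theorem Ker1d_pp_le (h : NF) (a b : ℝ) : pp a b ≤ al a b * (tau a + tau b) * (1 / haz a + 1 / haz b) / 2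
    + (tau a + tau b) ^ 2 / (4 * haz a * haz b) := by
  have h1 := two_point h a b
  have h2 := dd_haz_pos a b
  have ha := (haz_pos a).ne'
  have hb := (haz_pos b).ne'
  rw [pp, div_le_iff₀ (by positivity), sub_le_iff_le_add]
  refine h1.trans_eq ?_
  rw [al]
  field_simp
  ring

theorem Ker1d_pp_comm (a b : ℝ) : pp a b = pp b a := by
  rw [pp, pp, Mat3_dd_comm tau, Mat3_dd_comm haz, sg, sg]
  ring

theorem Ker1d_kk_comm (a b c : ℝ) : kk a b c = kk b a c := by
  rw [kk, kk, al, al, Mat3_dd_comm tau, Mat3_dd_comm haz]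
  ring

theorem Ker1d_sorted (h : NF) {a b c : ℝ} (hab : a ≤ b) (hbc : b ≤ c) :
    pp a b + pp b c + pp c a ≤ kk a b c + kk b c a + kk c a b := by
  have h1 := Ker1d_pp_le h a b
  have h2 := Ker1d_pp_le h b c
  have h3 := Ker1d_pp_le h c a
  have ha := haz_pos a
  have hb := haz_pos b
  have hc := haz_pos c
  refine (add_le_add (add_le_add h1 h2) h3).trans ?_
  rcases (hab.trans hbc).eq_or_lt with rfl | hac
  · obtain rfl := le_antisymm hab hbc
    refine le_of_eq ?_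
    rw [kk]
    field_simp
    ring
  obtain ⟨h4, h5⟩ := al_mono h hab hbc
  have h6 : 0 < haz b - haz a + (haz c - haz b) := by linarith [strictMono_haz hac]
  refine three_alg (u := haz b - haz a) (v := haz c - haz b) (z := al b c * haz b * haz c - al a b * haz a * haz b)
    ha (sub_nonneg.2 (strictMono_haz.monotone hab)) (sub_nonneg.2 (strictMono_haz.monotone hbc)) h6
    (tau_pos a).le h4 (sub_nonneg.2 h5) (by ring) (by ring) rfl ?_ ?_ ?_ ?_ ?_
  · field_simp
    linear_combination -Ker1d_al_mul a b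
  · field_simp
    linear_combination (-(haz c)) * Ker1d_al_mul b c
  · field_simp
  · field_simp
    ring
  · rw [eq_div_iff h6.ne']
    linear_combination -Ker1d_al_mul c a

/-- Both sides are symmetric, so sort the three points.  `two_point` gives
`pp a b ≤ α (τa+τb)(1/λa+1/λb)/2 + (τa+τb)²/(4 λa λb)`; then `three_alg` with `x = tau a`,
`y = al a b λa λb`, `y + z = al b c λb λc` (`al_mono`); if `a = b = c` there is equality. -/
theorem three_point (h : NF) (a b c : ℝ) :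
    pp a b + pp b c + pp c a ≤ kk a b c + kk b c a + kk c a b := by
  have e1 := Ker1d_pp_comm a b
  have e2 := Ker1d_pp_comm b c
  have e3 := Ker1d_pp_comm c a
  have f1 := Ker1d_kk_comm a b c
  have f2 := Ker1d_kk_comm b c a
  have f3 := Ker1d_kk_comm c a b
  rcases le_total a b with h1 | h1 <;> rcases le_total b c with h2 | h2 <;> rcases le_total a c with h3 | h3
  · exact Ker1d_sorted h h1 h2
  · exact Ker1d_sorted h h1 h2
  · linarith [Ker1d_sorted h h3 h2]
  · linarith [Ker1d_sorted h h3 h1]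
  · linarith [Ker1d_sorted h h1 h3]
  · linarith [Ker1d_sorted h h2 h3]
  · linarith [Ker1d_sorted h h2 h1]
  · linarith [Ker1d_sorted h h2 h1]

end Crest.Agent.R253
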