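/-
Row 253 (S0390, S0391), file Ker2.  Pointwise matrix inequalities.
Definitions: R253/Fun.lean, R253/Defs.lean.  Outline: R253/Blueprint.lean.  Keep the statements unchanged.
-/
import Crest.Agent.R253.Ker1
import Crest.Agent.R253.Mat

set_option autoImplicit false

namespace Crest.Agent.R253

open MeasureTheory ProbabilityTheory Matrix Filter Topology Crest.Agent.R203N

variable {ι : Type} [Fintype ι] [DecidableEq ι]

/-- Symmetrisation: `∑ k(i,j)² X_ij² = ∑ (k(i,j)² + k(j,i)²)/2 X_ij²` for symmetric `X`. -/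
theorem hs_le_sur {A X M : Matrix ι ι ℝ} (hA : A.IsSymm) (hX : X.IsSymm) {k : ℝ → ℝ → ℝ} {K : ℝ}
    (hk : ∀ a b, k a b ^ 2 + k b a ^ 2 ≤ 2 * K * sg (lh a - lh b))
    (hM : ∀ (O : Matrix ι ι ℝ) (a : ι → ℝ), Orth O → A = Dg O a → ∀ i j,
      (Oᵀ * M * O) i j = k (a i) (a j) * (Oᵀ * X * O) i j) : hs M ≤ K * sur A X := by
  obtain ⟨O, a, hO, rfl⟩ := exists_Dg hA
  have hY := conj_symm hX O
  rw [← hs_conj hO, sur_eq hO, hs]
  simp only [hM O a hO rfl]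
  generalize Oᵀ * X * O = Y at hY
  have e : ∑ i, ∑ j, (k (a i) (a j) * Y i j) ^ 2 = ∑ i, ∑ j, (k (a j) (a i) * Y i j) ^ 2 := by
    rw [Finset.sum_comm]
    exact Finset.sum_congr rfl fun i _ => Finset.sum_congr rfl fun j _ => by rw [hY.apply i j]
  have h2 : ∑ i, ∑ j, (k (a i) (a j) * Y i j) ^ 2 + ∑ i, ∑ j, (k (a j) (a i) * Y i j) ^ 2 ≤
      2 * K * ∑ i, ∑ j, sg (lh (a i) - lh (a j)) * Y i j ^ 2 := by
    simp only [← Finset.sum_add_distrib, Finset.mul_sum]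
    refine Finset.sum_le_sum fun i _ => Finset.sum_le_sum fun j _ => ?_
    have := mul_le_mul_of_nonneg_right (hk (a i) (a j)) (sq_nonneg (Y i j))
    linarith
  linarith

theorem Ker2a_kA1 {O : Matrix ι ι ℝ} (hO : Orth O) (a : ι → ℝ) (X : Matrix ι ι ℝ) (i j : ι) :
    (Oᵀ * kA1 (Dg O a) X * O) i j = (dd tau tau1 (a i) (a j) - tau1 (a i)) * (Oᵀ * X * O) i j := by
  rw [kA1, Matrix.mul_sub, Matrix.sub_mul, Matrix.sub_apply, conj_Df _ _ hO, conj_fm_mul _ hO, sub_mul]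

theorem hs_kA1_le (h : NF) {A X : Matrix ι ι ℝ} (hA : A.IsSymm) (hX : X.IsSymm) :
    hs (kA1 A X) ≤ 3 * (94 / 1000) ^ 2 * sur A X := by
  refine hs_le_sur hA hX (k := fun a b => dd tau tau1 a b - tau1 a) (k1_le h) ?_
  rintro O a hO rfl i j
  exact Ker2a_kA1 hO a X i j

theorem hs_kA4_le (h : NF) {A X : Matrix ι ι ℝ} (hA : A.IsSymm) (hX : X.IsSymm) :
    hs (kA4 A X) ≤ 3 * (94 / 1000) ^ 2 * sur A X := by
  refine hs_le_sur hA hX (k := fun a b => dd tau tau1 a b - tau1 b) (fun a b => ?_) ?_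
  · have := k1_le h a b
    rw [Mat3_dd_comm tau tau1 b a] at this ⊢
    linarith
  rintro O a hO rfl i j
  rw [kA4, Matrix.mul_sub, Matrix.sub_mul, Matrix.sub_apply, conj_Df _ _ hO, conj_mul_fm _ hO]
  ring

theorem hs_kA2_le (h : NF) {A X : Matrix ι ι ℝ} (hA : A.IsSymm) (hX : X.IsSymm) :
    hs (kA2 A X) ≤ 3 * (41 / 1000) ^ 2 * sur A X := by
  refine hs_le_sur hA hX (k := fun a b => dd tau1 tau2 a b - tau2 a) (k2_le h) ?_
  rintro O a hO rfl i j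
  rw [kA2, Matrix.mul_sub, Matrix.sub_mul, Matrix.sub_apply, conj_Df _ _ hO, conj_fm_mul _ hO, sub_mul]

theorem hs_kA3_le (h : NF) {A X : Matrix ι ι ℝ} (hA : A.IsSymm) (hX : X.IsSymm) :
    hs (kA3 A X) ≤ 3 * (140 / 1000) ^ 2 * sur A X := by
  refine hs_le_sur hA hX (k := k3) (k3_le h) ?_
  rintro O a hO rfl i j
  rw [kA3, Matrix.mul_sub, Matrix.sub_mul, Matrix.mul_add, Matrix.add_mul, Matrix.mul_sub, Matrix.sub_mul,
    Matrix.mul_smul, Matrix.smul_mul, Matrix.sub_apply, Matrix.add_apply, Matrix.sub_apply, Matrix.smul_apply,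
    conj_Df _ _ hO, conj_mul_fm _ hO, conj_fm_mul _ hO, conj_fm_mul _ hO, conj_Df _ _ hO, k3, smul_eq_mul]
  ring

theorem hs_kA6_le (h : NF) {A X : Matrix ι ι ℝ} (hA : A.IsSymm) (hX : X.IsSymm) :
    hs (kA6 A X) ≤ 233 / 1000 * sur A X := by
  refine hs_le_sur hA hX (k := fun a b => (Real.sqrt (tau1 a))⁻¹ * (dd tau tau1 a b - tau1 a))
    (fun a b => ?_) ?_
  · simp only [inv_mul_eq_div, div_pow _ (Real.sqrt _), Real.sq_sqrt (h.t1_pos _).le]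
    exact k6_le h a b
  rintro O a hO rfl i j
  rw [kA6, conj_fm_mul _ hO, Ker2a_kA1 hO, ← mul_assoc]

theorem sur_nonneg (A X : Matrix ι ι ℝ) : 0 ≤ sur A X := by
  have h1 := hs_nonneg (cm lh A X)
  have h2 := hs_nonneg (cm lh A (cm lh A X))
  unfold sur
  positivity

/-- `abs_gf_sub_le`. -/
theorem hs_cm_gf_le {A : Matrix ι ι ℝ} (hA : A.IsSymm) (X : Matrix ι ι ℝ) :
    hs (cm gf A X) ≤ 12 * sur A X := by
  obtain ⟨O, a, hO, rfl⟩ := exists_Dg hA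
  rw [← hs_conj hO, sur_eq hO, hs]
  simp only [conj_cm _ hO, Finset.mul_sum, mul_pow, ← mul_assoc]
  refine Finset.sum_le_sum fun i _ => Finset.sum_le_sum fun j _ => mul_le_mul_of_nonneg_right ?_ (sq_nonneg _)
  have h1 := sq_le_sq.2 (abs_gf_sub_le (a i) (a j))
  have h2 : 0 ≤ (lh (a i) - lh (a j)) ^ 4 := by positivity
  unfold sg
  linarith

theorem Ker2a_dot {O : Matrix ι ι ℝ} (hO : Orth O) (u w : ι → ℝ) :
    u ⬝ᵥ w = ∑ i, (Oᵀ *ᵥ u) i * (Oᵀ *ᵥ w) i := by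
  have : (Oᵀ *ᵥ u) ⬝ᵥ (Oᵀ *ᵥ w) = u ⬝ᵥ w := by
    rw [mulVec_transpose, ← dotProduct_mulVec, mulVec_mulVec, hO.mul_transpose, one_mulVec]
  exact this.symm

theorem Ker2a_Dg {O : Matrix ι ι ℝ} (hO : Orth O) (c u : ι → ℝ) (i : ι) :
    (Oᵀ *ᵥ Dg O c *ᵥ u) i = c i * (Oᵀ *ᵥ u) i := by
  have h : Oᵀ * O = 1 := hO
  rw [Dg, ← mulVec_mulVec, ← mulVec_mulVec, mulVec_mulVec _ Oᵀ, h, one_mulVec, mulVec_diagonal]

theorem Ker2a_quad {P Q z : ℝ} (hP : 0 ≤ P) (hQ : Q ^ 2 ≤ z * P) (hz : 0 ≤ z) (y w : ℝ) :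
    0 ≤ y ^ 2 * P + 2 * (y * w) * Q + z * w ^ 2 := by
  rcases hP.eq_or_lt with rfl | hP
  · have : Q = 0 := pow_eq_zero_iff two_ne_zero |>.1 (le_antisymm (by linarith) (sq_nonneg Q))
    rw [this, mul_zero, mul_zero, add_zero, zero_add]
    positivity
  · refine le_of_mul_le_mul_left ?_ hP
    nlinarith [sq_nonneg (y * P + w * Q), mul_nonneg (sub_nonneg.2 hQ) (sq_nonneg w)]

/-- In an eigenbasis of `A`, with `x = Oᵀ X e`, `κ = Oᵀ (kA1 A X) e`, `t_i = tau1 (a_i) ∈ (0, 1/2]`: the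
difference is `∑ x_i² t_i (2cp - a t_i) + 2 x_i κ_i (cp - a t_i) + z κ_i²/t_i ≥ 0`. -/
theorem absorb (h : NF) {A : Matrix ι ι ℝ} (hA : A.IsSymm) (X : Matrix ι ι ℝ) (e : ι → ℝ)
    {cp a z : ℝ} (hz : Abs cp a z) :
    -(a * ((kA1 A X *ᵥ e) ⬝ᵥ (kA1 A X *ᵥ e)) + z * ((kA6 A X *ᵥ e) ⬝ᵥ (kA6 A X *ᵥ e))) ≤
      2 * cp * ((X *ᵥ e) ⬝ᵥ (Df tau tau1 A X *ᵥ e))
        - a * ((Df tau tau1 A X *ᵥ e) ⬝ᵥ (Df tau tau1 A X *ᵥ e)) := by
  obtain ⟨O, d, hO, rfl⟩ := exists_Dg hA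
  have e1 : Df tau tau1 (Dg O d) X = kA1 (Dg O d) X + fm tau1 (Dg O d) * X := (sub_add_cancel _ _).symm
  rw [e1, kA6, add_mulVec, ← mulVec_mulVec, ← mulVec_mulVec, fm_Dg _ hO, fm_Dg _ hO]
  generalize kA1 (Dg O d) X *ᵥ e = κ
  generalize X *ᵥ e = x
  simp only [Ker2a_dot hO, mulVec_add, Pi.add_apply, Ker2a_Dg hO, Finset.mul_sum, ← Finset.sum_add_distrib,
    ← Finset.sum_sub_distrib, ← Finset.sum_neg_distrib]
  refine Finset.sum_le_sum fun i _ => ?_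
  obtain ⟨h1, h2⟩ := hz.2.2 _ (h.t1_pos (d i)).le (h.t1_le (d i))
  have hs := Real.sqrt_pos.2 (h.t1_pos (d i))
  have ht := Real.sq_sqrt (h.t1_pos (d i)).le
  generalize Real.sqrt (tau1 (d i)) = s at hs ht
  have h3 := Ker2a_quad h1 h2 hz.2.1 (s * (Oᵀ *ᵥ x) i) (s⁻¹ * (Oᵀ *ᵥ κ) i)
  have h4 : s * (Oᵀ *ᵥ x) i * (s⁻¹ * (Oᵀ *ᵥ κ) i) = (Oᵀ *ᵥ x) i * (Oᵀ *ᵥ κ) i := by field_simp
  rw [h4, mul_pow, ht] at h3
  linarith

/-! ### Second part: the main kernel inequality -/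

/-- The tensor `t_abc = ∑_k O_kc (Oᵀ t_k O)_ab`. -/
noncomputable def rot (O : Matrix ι ι ℝ) (t : ι → Matrix ι ι ℝ) (a b c : ι) : ℝ :=
  ∑ k, O k c * (Oᵀ * t k * O) a b

omit [DecidableEq ι] in
theorem Ker2b_swap (G : ι → ι → ι → ℝ) :
    ∑ k, ∑ l, ∑ a, G k l a = ∑ a, ∑ k, ∑ l, G k l a :=
  (Finset.sum_congr rfl fun _ _ => Finset.sum_comm).trans Finset.sum_comm

theorem Ker2b_dd_sq (a b : ℝ) :
    dd (fun l => tau l ^ 2 / 2) (fun l => tau l * tau1 l) a b = dd tau tau1 a b * (tau a + tau b) / 2 := by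
  unfold dd
  split_ifs with h
  · subst h; ring
  · have : b - a ≠ 0 := sub_ne_zero.2 (Ne.symm h)
    field_simp
    ring

theorem Ker2b_mills (l : ℝ) : mills l = (haz l)⁻¹ := eq_inv_of_mul_eq_one_left (mills_mul_haz l)

theorem Ker2b_X {O : Matrix ι ι ℝ} (hO : Orth O) (a : ι → ℝ) (X : Matrix ι ι ℝ) (i j : ι) :
    (Oᵀ * X * O) i j = (Oᵀ * Df haz haz1 (Dg O a) X * O) i j / dd haz haz1 (a i) (a j) := by
  rw [conj_Df _ _ hO]
  have := (dd_haz_pos (a i) (a j)).ne'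
  field_simp

theorem rot_symm (O : Matrix ι ι ℝ) {t : ι → Matrix ι ι ℝ} (h1 : ∀ k, (t k).IsSymm)
    (h2 : ∀ i j k, t k i j = t j i k) (a b c : ι) :
    rot O t a b c = rot O t b a c ∧ rot O t a b c = rot O t a c b := by
  constructor
  · unfold rot
    exact Finset.sum_congr rfl fun k _ => by rw [(conj_symm (h1 k) O).apply a b]
  · unfold rot
    simp only [Matrix.mul_apply, Matrix.transpose_apply, Finset.mul_sum, Finset.sum_mul]
    rw [Finset.sum_comm]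
    refine Finset.sum_congr rfl fun q _ => Finset.sum_congr rfl fun k _ =>
      Finset.sum_congr rfl fun p _ => ?_
    rw [h2 p q k]
    ring

/-- `∑_{k,l} (O diag(u) Oᵀ)_kl ∑_ab w_ab (Oᵀ t_k O)_ab (Oᵀ t_l O)_ab = ∑_abc u_c w_ab t_abc²`. -/
theorem sum_rot (O : Matrix ι ι ℝ) (t : ι → Matrix ι ι ℝ) (u : ι → ℝ) (w : ι → ι → ℝ) :
    ∑ k, ∑ l, Dg O u k l * ∑ a, ∑ b, w a b * ((Oᵀ * t k * O) a b * (Oᵀ * t l * O) a b) =
      ∑ a, ∑ b, ∑ c, u c * w a b * rot O t a b c ^ 2 := by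
  have e1 : ∀ k l, Dg O u k l = ∑ c, O k c * u c * O l c := by
    intro k l
    unfold Dg
    rw [Matrix.mul_apply]
    exact Finset.sum_congr rfl fun c _ => by rw [Matrix.mul_diagonal, Matrix.transpose_apply]
  unfold rot
  have e2 : ∀ a b c, u c * w a b * (∑ k, O k c * (Oᵀ * t k * O) a b) ^ 2 =
      ∑ k, ∑ l, O k c * u c * O l c * (w a b * ((Oᵀ * t k * O) a b * (Oᵀ * t l * O) a b)) := by
    intro a b c
    rw [sq, Finset.sum_mul_sum, Finset.mul_sum]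
    refine Finset.sum_congr rfl fun k _ => ?_
    rw [Finset.mul_sum]
    exact Finset.sum_congr rfl fun l _ => by ring
  have e3 : ∀ k l, Dg O u k l * ∑ a, ∑ b, w a b * ((Oᵀ * t k * O) a b * (Oᵀ * t l * O) a b) =
      ∑ a, ∑ b, ∑ c, O k c * u c * O l c * (w a b * ((Oᵀ * t k * O) a b * (Oᵀ * t l * O) a b)) := by
    intro k l
    rw [Finset.mul_sum]
    refine Finset.sum_congr rfl fun a _ => ?_
    rw [Finset.mul_sum]
    refine Finset.sum_congr rfl fun b _ => ?_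
    rw [e1, Finset.sum_mul]
  simp only [e2, e3]
  rw [Ker2b_swap]
  refine Finset.sum_congr rfl fun a _ => ?_
  rw [Ker2b_swap]
  refine Finset.sum_congr rfl fun b _ => ?_
  rw [Ker2b_swap]

/-- With `t_k = Df haz haz1 A X_k`: `X̃ = t̃ / λ[a,b]` (`dd_haz_pos`), `(τ²/2)[a,b] = τ[a,b] (τa+τb)/2`. -/
theorem Kq_eq {O : Matrix ι ι ℝ} (hO : Orth O) (a : ι → ℝ) {X : ι → Matrix ι ι ℝ}
    (hX : ∀ k, (X k).IsSymm) :
    2 * Kq (fun l => tau l ^ 2 / 2) (fun l => tau l * tau1 l) (Dg O a) X =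
      ∑ i, ∑ j, ∑ k, kk (a i) (a j) (a k) * rot O (fun k => Df haz haz1 (Dg O a) (X k)) i j k ^ 2 := by
  have hs : ∀ k i j, (Oᵀ * Df haz haz1 (Dg O a) (X k) * O) j i =
      (Oᵀ * Df haz haz1 (Dg O a) (X k) * O) i j := fun k i j =>
    (conj_symm (Df_symm haz haz1 (Dg O a) (hX k)) O).apply i j
  have e1 : ∀ k l, (fm mills (Dg O a) * Df haz haz1 (Dg O a) (X k) * fm mills (Dg O a) *
      Df haz haz1 (Dg O a) (X l)).trace = ∑ i, ∑ j, (mills (a i) * mills (a j)) *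
        ((Oᵀ * Df haz haz1 (Dg O a) (X k) * O) i j * (Oᵀ * Df haz haz1 (Dg O a) (X l) * O) i j) := by
    intro k l
    rw [trace_mul_conj hO]
    refine Finset.sum_congr rfl fun i _ => Finset.sum_congr rfl fun j _ => ?_
    rw [conj_mul_fm mills hO, conj_fm_mul mills hO, hs l i j]
    ring
  have e2 : ∀ k l, (Df (fun l => tau l ^ 2 / 2) (fun l => tau l * tau1 l) (Dg O a) (X k) *
      Df haz haz1 (Dg O a) (X l)).trace = ∑ i, ∑ j, (al (a i) (a j) * (tau (a i) + tau (a j)) / 2) *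
        ((Oᵀ * Df haz haz1 (Dg O a) (X k) * O) i j * (Oᵀ * Df haz haz1 (Dg O a) (X l) * O) i j) := by
    intro k l
    rw [trace_mul_conj hO]
    refine Finset.sum_congr rfl fun i _ => Finset.sum_congr rfl fun j _ => ?_
    rw [conj_Df _ _ hO, hs l i j, Ker2b_dd_sq, Ker2b_X hO a (X k) i j]
    unfold al
    ring
  unfold Kq
  simp only [e1, e2]
  rw [fm_Dg _ hO, fm_Dg _ hO, sum_rot O (fun k => Df haz haz1 (Dg O a) (X k)),
    sum_rot O (fun k => Df haz haz1 (Dg O a) (X k))]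
  simp only [← Finset.sum_add_distrib, Finset.mul_sum]
  refine Finset.sum_congr rfl fun i _ => Finset.sum_congr rfl fun j _ =>
    Finset.sum_congr rfl fun k _ => ?_
  unfold kk
  simp only [Ker2b_mills]
  ring

theorem lhs_eq {O : Matrix ι ι ℝ} (hO : Orth O) (a : ι → ℝ) (X : ι → Matrix ι ι ℝ) :
    ∑ k, (hs (X k) - hs (Df tau tau1 (Dg O a) (X k)) + sur (Dg O a) (X k)) =
      ∑ i, ∑ j, ∑ k, pp (a i) (a j) * rot O (fun k => Df haz haz1 (Dg O a) (X k)) i j k ^ 2 := by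
  have e1 : ∀ k, hs (X k) - hs (Df tau tau1 (Dg O a) (X k)) + sur (Dg O a) (X k) =
      ∑ i, ∑ j, pp (a i) (a j) *
        ((Oᵀ * Df haz haz1 (Dg O a) (X k) * O) i j * (Oᵀ * Df haz haz1 (Dg O a) (X k) * O) i j) := by
    intro k
    rw [sur_eq hO, ← hs_conj hO (X k), ← hs_conj hO (Df tau tau1 (Dg O a) (X k))]
    unfold hs
    simp only [← Finset.sum_sub_distrib, ← Finset.sum_add_distrib]
    refine Finset.sum_congr rfl fun i _ => Finset.sum_congr rfl fun j _ => ?_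
    rw [conj_Df _ _ hO, conj_Df _ _ hO]
    have := (dd_haz_pos (a i) (a j)).ne'
    unfold pp
    field_simp
    ring
  have e2 := sum_rot O (fun k => Df haz haz1 (Dg O a) (X k)) (fun _ => 1)
    (fun i j => pp (a i) (a j))
  simp only [one_mul] at e2
  rw [← e2, Dg_const hO, one_smul]
  refine Finset.sum_congr rfl fun k _ => ?_
  rw [Finset.sum_eq_single k]
  · rw [Matrix.one_apply_eq, one_mul, e1]
  · intro l _ hl
    rw [Matrix.one_apply_ne (Ne.symm hl), zero_mul]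
  · intro hk
    exact absurd (Finset.mem_univ k) hk

/-- Cyclic symmetrisation and `three_point`. -/
theorem kernel_ineq (h : NF) {A : Matrix ι ι ℝ} (hA : A.IsSymm) {X : ι → Matrix ι ι ℝ}
    (hX : ∀ k, (X k).IsSymm)
    (hs3 : ∀ i j k, Df haz haz1 A (X k) i j = Df haz haz1 A (X j) i k) :
    ∑ k, (hs (X k) - hs (Df tau tau1 A (X k)) + sur A (X k)) ≤
      2 * Kq (fun l => tau l ^ 2 / 2) (fun l => tau l * tau1 l) A X := by
  obtain ⟨O, a, hO, rfl⟩ := exists_Dg hA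
  rw [lhs_eq hO, Kq_eq hO a hX]
  have hr := rot_symm O (t := fun k => Df haz haz1 (Dg O a) (X k))
    (fun k => Df_symm haz haz1 _ (hX k)) hs3
  generalize rot O (fun k => Df haz haz1 (Dg O a) (X k)) = r at hr
  have hc : ∀ i j k, r j k i = r i j k := fun i j k => by rw [(hr j k i).2, (hr j i k).1]
  have key : ∀ g : ι → ι → ι → ℝ, ∑ i, ∑ j, ∑ k, g j k i * r i j k ^ 2 =
      ∑ i, ∑ j, ∑ k, g i j k * r i j k ^ 2 := by
    intro g
    rw [Ker2b_swap (fun i j k => g i j k * r i j k ^ 2)]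
    simp only [hc]
  have p1 := key fun i j _ => pp (a i) (a j)
  have p2 := key fun i _ k => pp (a k) (a i)
  have p3 := key fun _ j k => pp (a j) (a k)
  have k1 := key fun i j k => kk (a i) (a j) (a k)
  have k3 := key fun i j k => kk (a j) (a k) (a i)
  have hle : ∑ i, ∑ j, ∑ k, (pp (a i) (a j) * r i j k ^ 2 + pp (a j) (a k) * r i j k ^ 2
      + pp (a k) (a i) * r i j k ^ 2) ≤ ∑ i, ∑ j, ∑ k, (kk (a i) (a j) (a k) * r i j k ^ 2
      + kk (a j) (a k) (a i) * r i j k ^ 2 + kk (a k) (a i) (a j) * r i j k ^ 2) := by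
    refine Finset.sum_le_sum fun i _ => Finset.sum_le_sum fun j _ => Finset.sum_le_sum fun k _ => ?_
    have := mul_le_mul_of_nonneg_right (three_point h (a i) (a j) (a k)) (sq_nonneg (r i j k))
    linarith
  simp only [Finset.sum_add_distrib] at hle
  linarith

end Crest.Agent.R253
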