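/-
Row 253 (S0390, S0391), file Core1.  The relations for one direction, first group.
Definitions: R253/Fun.lean, R253/Defs.lean.  Outline: R253/Blueprint.lean.  Keep the statements unchanged.
-/
import Crest.Agent.R253.Core0
import Crest.Agent.R253.Ker2

set_option autoImplicit false

namespace Crest.Agent.R253

open MeasureTheory ProbabilityTheory Matrix Filter Topology Crest.Agent.R203N

variable {ι : Type} [Fintype ι] [DecidableEq ι]

namespace Fld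

variable (F : Fld ι) {e : ι → ℝ} {s : ℝ}

theorem Core1a_sum (he : F.Eig e s) : ∑ k, (F.D k *ᵥ e) ⬝ᵥ (F.D k *ᵥ e) = s := by
  rw [F.sum_De_dot, he.2, dotProduct_smul, he.1, smul_eq_mul, mul_one]

theorem Core1a_dot (v : ι → ℝ) : 0 ≤ v ⬝ᵥ v := Finset.sum_nonneg fun i _ => mul_self_nonneg (v i)

theorem Eig.nonneg (he : F.Eig e s) : 0 ≤ s := by
  rw [← F.Core1a_sum he]
  exact Finset.sum_nonneg fun k _ => Core1a_dot _

/-- If `s = 0` then `D_k e = 0` for all `k`. -/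
theorem Eig.De_zero (he : F.Eig e 0) (k : ι) : F.D k *ᵥ e = 0 := by
  have h := (Finset.sum_eq_zero_iff_of_nonneg fun k _ => Core1a_dot (F.D k *ᵥ e)).1 (F.Core1a_sum he) k
    (Finset.mem_univ k)
  exact dotProduct_self_eq_zero.1 h

theorem Core1a_Ge (he : F.Eig e 0) (z : ι → ℝ) : F.Ge e z = 0 := by
  simp [Ge, Eig.De_zero F he]

theorem Core1a_G2 (he : F.Eig e 0) (z : ι → ℝ) : F.G2 e z = 0 := by
  simp [G2, Eig.De_zero F he]

theorem mul_p2 (he : F.Eig e s) : s * F.p2 e s = ip (F.Ge e) (F.Ge e) := by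
  rcases eq_or_ne s 0 with rfl | hs
  · simp [ip, F.Core1a_Ge he]
  · rw [p2, mul_div_cancel₀ _ hs]

theorem mul_Q2 (he : F.Eig e s) : s * F.Q2 e s = ip (F.G2 e) (F.G2 e) := by
  rcases eq_or_ne s 0 with rfl | hs
  · simp [ip, F.Core1a_G2 he]
  · rw [Q2, mul_div_cancel₀ _ hs]

theorem Core1a_BB (he : F.Eig e s) : ip (fun z => Bz F.D z *ᵥ e) (fun z => Bz F.D z *ᵥ e) = s := by
  rw [F.ip_Be e (g := fun k _ => F.D k *ᵥ e), ← F.Core1a_sum he]
  · exact Finset.sum_congr rfl fun k _ => ip_const _ _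
  · intro i
    have h := WG_mulVec (Matrix.of fun i k => (F.D k *ᵥ e) i) i
    have e1 : (fun z : ι → ℝ => (Bz F.D z *ᵥ e) i)
        = fun z => ((Matrix.of fun i k => (F.D k *ᵥ e) i) *ᵥ z) i := by
      funext z
      rw [Bz, Matrix.sum_mulVec, Finset.sum_apply]
      simp only [Matrix.smul_mulVec, Pi.smul_apply, smul_eq_mul]
      exact Finset.sum_congr rfl fun k _ => mul_comm _ _
    rw [e1]
    exact h

theorem Core1a_Eid : ip (F.Ee e) (F.fv e fun l => l) = F.b0 e := by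
  rw [show (F.fv e fun l => l) = fun z => Bz F.D z *ᵥ e + F.Ee e z from funext (F.fv_id e),
    ip_add_right (F.LV_Ee e) (F.LV_Be e) (F.LV_Ee e), ip_comm, F.ip_Be_Ee, zero_add]
  rfl

theorem I_sq (he : F.Eig e s) : F.I e (fun l => l ^ 2) = s + F.b0 e := by
  have h1 := F.ip_fv e (fun l => l) (fun l => l)
  simp only [← sq] at h1
  rw [← h1]
  conv_lhs => rw [show ip (F.fv e fun l => l) = ip fun z => Bz F.D z *ᵥ e + F.Ee e z from
    congrArg ip (funext (F.fv_id e))]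
  rw [ip_add_left (F.LV_Be e) (F.LV_Ee e) (F.LV_fv e continuous_id')]
  rw [show ip (fun z => F.Ee e z) (F.fv e fun l => l) = F.b0 e from F.Core1a_Eid,
    show (F.fv e fun l => l) = fun z => Bz F.D z *ᵥ e + F.Ee e z from funext (F.fv_id e),
    ip_add_right (F.LV_Be e) (F.LV_Be e) (F.LV_Ee e), F.Core1a_BB he]
  rw [show ip (fun z => Bz F.D z *ᵥ e) (fun z => F.Ee e z) = 0 from F.ip_Be_Ee e, add_zero]

/-- `gap2` for each component. -/
theorem b01 (h0 : F.Cen) : 2 * F.b0 e ≤ F.b1 e := by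
  rw [b0, b1, ip_self_eq_sum (F.LV_Ee e), Finset.mul_sum,
    Finset.sum_congr rfl fun k _ => ip_self_eq_sum (F.LV_Ye e k), Finset.sum_comm]
  exact Finset.sum_le_sum fun i _ => gap2 (F.WG_Ee e i) (F.int_Ee e h0 i) fun k => F.int_Ye e k i

theorem Core1a_fv (u : ℝ → ℝ) (t c : ℝ) :
    F.fv e (fun l => t * u l - c) = fun z => t • F.fv e u z - c • e := by
  funext z
  rw [fv, fm_sub, fm_smul, fm_const (F.sL z).1, Matrix.sub_mulVec, Matrix.smul_mulVec, Matrix.smul_mulVec,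
    Matrix.one_mulVec]
  rfl

theorem Core1a_mean {G : (ι → ℝ) → ι → ℝ} (hG : LV G) (h0 : ∀ i, ∫ z, G z i ∂γ ι = 0) {u : ℝ → ℝ}
    (hu : Continuous u) (t c : ℝ) : ip G (F.fv e fun l => t * u l - c) = t * ip G (F.fv e u) := by
  rw [F.Core1a_fv, ip_sub_right hG ((F.LV_fv e hu).smul t) (LV_const _), ip_smul_right,
    ip_const_of_mean hG h0, sub_zero]

/-- `⟨E e, (t u - c0 - c1 l)(L) e⟩ = t ⟨E e, u(L) e⟩ - c1 b0`, `ip_amgm`, `ip_fv`. -/
theorem pairE (h0 : F.Cen) {u : ℝ → ℝ} (hu : Continuous u) (y t c0 c1 : ℝ) :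
    2 * y * (t * ip (F.Ee e) (F.fv e u) - c1 * F.b0 e) ≤
      y ^ 2 * F.b0 e + F.I e (fun l => (t * u l - c0 - c1 * l) ^ 2) := by
  have hw : Continuous fun l => t * u l - c0 - c1 * l := by fun_prop
  have hw' : Continuous fun l => t * u l - c0 := by fun_prop
  have h1 := ip_amgm (F.LV_Ee e) (F.LV_fv e hw) y
  rw [F.ip_fv] at h1
  simp only [← sq] at h1
  have e1 : F.fv e (fun l => t * u l - c0 - c1 * l)
      = fun z => F.fv e (fun l => t * u l - c0) z - c1 • F.fv e (fun l => l) z := by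
    funext z
    rw [fv, fm_sub (fun l => t * u l - c0), fm_smul c1 (fun l => l), Matrix.sub_mulVec, Matrix.smul_mulVec]
    rfl
  rw [e1, ip_sub_right (F.LV_Ee e) (F.LV_fv e hw') ((F.LV_fv e continuous_id').smul c1), ip_smul_right,
    F.Core1a_Eid, F.Core1a_mean (F.LV_Ee e) (F.int_Ee e h0) hu] at h1
  exact h1

/-- `G` has mean zero.  If `s = 0` then `G = 0`; otherwise `ip_amgm` with `y/s`, times `s`. -/
theorem pairG (he : F.Eig e s) {u : ℝ → ℝ} (hu : Continuous u) (y t c : ℝ) :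
    2 * y * (t * ip (F.Ge e) (F.fv e u)) ≤
      y ^ 2 * F.p2 e s + s * F.I e (fun l => (t * u l - c) ^ 2) := by
  rcases (Eig.nonneg F he).eq_or_lt with rfl | hs
  · simp [ip, p2, F.Core1a_Ge he]
  · have hw : Continuous fun l => t * u l - c := by fun_prop
    have h1 := ip_amgm (F.LV_Ge e) (F.LV_fv e hw) (y / s)
    rw [F.ip_fv, F.Core1a_mean (F.LV_Ge e) (F.int_Ge e) hu, ← F.mul_p2 he] at h1
    simp only [← sq] at h1
    have h2 := mul_le_mul_of_nonneg_left h1 hs.le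
    refine le_trans (le_of_eq ?_) (h2.trans (le_of_eq ?_))
    · field_simp
    · field_simp

theorem pairD (he : F.Eig e s) {w : ι → (ι → ℝ) → ι → ℝ} (hw : ∀ k, LV (w k)) (t : ℝ) :
    2 * t * ∑ k, ip (fun _ => F.D k *ᵥ e) (w k) ≤ t ^ 2 * s + ∑ k, ip (w k) (w k) := by
  rw [← F.Core1a_sum he, Finset.mul_sum, Finset.mul_sum, ← Finset.sum_add_distrib]
  refine Finset.sum_le_sum fun k _ => ?_
  rw [← ip_const]
  exact ip_amgm (LV_const _) (hw k) t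

/-- `I_mul` for `tau`, `Df tau = kA4 + X tau1(L)`, `sum_ip_DX`, `pairD`. -/
theorem stein (he : F.Eig e s) : ∃ e4 : ℝ,
    F.I e (fun l => l * tau l) - s * F.I e tau1 =
      ip (F.Ee e) (F.fv e tau) + ip (F.Ge e) (F.fv e tau1) + e4 ∧
    ∀ t : ℝ, 2 * t * e4 ≤ t ^ 2 * s + F.sh e kA4 := by
  have h4 := fun k => (F.LM_kA4 k).mulVec e
  refine ⟨_, ?_, F.pairD he h4⟩
  have h1 : ∀ k, (ip (fun _ => F.D k *ᵥ e) fun z => Df tau tau1 (F.L z) (F.X k z) *ᵥ e) =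
      (ip (fun _ => F.D k *ᵥ e) fun z => kA4 (F.L z) (F.X k z) *ᵥ e) +
        ip (fun _ => F.D k *ᵥ e) fun z => (F.X k z * fm tau1 (F.L z)) *ᵥ e := fun k => by
    rw [← ip_add_right (LV_const _) (h4 k) (((F.LM_X k).mul_BM (F.BM_fm continuous_tau1)).mulVec e)]
    simp only [← add_mulVec, kA4, sub_add_cancel]
  rw [F.I_mul e C2_tau, Finset.sum_congr rfl fun k _ => h1 k, Finset.sum_add_distrib,
    F.sum_ip_DX e continuous_tau1 he]
  ring

/-- `Xc - I(l τ) - Et = ∑ ⟨Y_k e, ∂_k τ e⟩ - 2 ⟨E e, τ e⟩` (`I_mul`); `cs2` for each component. -/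
theorem hU (h0 : F.Cen) (t : ℝ) :
    2 * t * (F.Xc e - F.I e (fun l => l * tau l) - ip (F.Ee e) (F.fv e tau)) ≤
      (F.b1 e - 2 * F.b0 e) + t ^ 2 * F.N e := by
  have h1 : ∀ k, ip (F.Xe e k) (F.te e k) =
      (ip (fun _ => F.D k *ᵥ e) fun z => Df tau tau1 (F.L z) (F.X k z) *ᵥ e) + ip (F.Ye e k) (F.te e k) := fun k => by
    refine Eq.trans ?_ (ip_add_left (LV_const _) (F.LV_Ye e k) (F.LV_te e k))
    simp only [Ye, Y, ← add_mulVec, add_sub_cancel]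
    rfl
  have h2 := Finset.sum_le_sum fun i (_ : i ∈ Finset.univ) =>
    cs2 (F.WG_Ee e i) (F.int_Ee e h0 i) (fun k => F.int_Ye e k i) (F.WG_fv e C2_tau i) t
  simp only [Finset.sum_add_distrib, Finset.sum_sub_distrib, ← Finset.mul_sum] at h2
  rw [Xc, F.I_mul e C2_tau, Finset.sum_congr rfl fun k _ => h1 k, Finset.sum_add_distrib, b1, b0, N,
    Finset.sum_congr rfl fun k _ => ip_eq_sum (F.LV_Ye e k) (F.LV_te e k),
    Finset.sum_congr rfl fun k _ => ip_self_eq_sum (F.LV_Ye e k),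
    Finset.sum_congr rfl fun k _ => ip_self_eq_sum (F.LV_te e k), ip_self_eq_sum (F.LV_Ee e),
    ip_eq_sum (F.LV_Ee e) (F.LV_fv e continuous_tau), Finset.sum_comm (f := fun k i => ∫ z, F.Ye e k z i * _ ∂γ ι),
    Finset.sum_comm (f := fun k i => ∫ z, F.Ye e k z i ^ 2 ∂γ ι),
    Finset.sum_comm (f := fun k i => ∫ z, F.te e k z i ^ 2 ∂γ ι)]
  refine le_of_eq_of_le ?_ h2
  simp only [te, dt]
  ring

/-- Integrate `absorb`. -/
theorem hK (h : NF) {cp a z : ℝ} (hz : Abs cp a z) :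
    -(a * F.sh e kA1 + z * F.sh e kA6) ≤ 2 * cp * F.Xc e - a * F.N e := by
  simp only [sh, Xc, N, Finset.mul_sum, ← Finset.sum_add_distrib, ← Finset.sum_neg_distrib, ← Finset.sum_sub_distrib]
  refine Finset.sum_le_sum fun k _ => ?_
  have i1 := ((((F.LM_kA1 k).mulVec e).int_dot ((F.LM_kA1 k).mulVec e)).const_mul a)
  have i6 := ((((F.LM_kA6 h k).mulVec e).int_dot ((F.LM_kA6 h k).mulVec e)).const_mul z)
  have i2 := ((F.LV_Xe e k).int_dot (F.LV_te e k)).const_mul (2 * cp)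
  have i3 := ((F.LV_te e k).int_dot (F.LV_te e k)).const_mul a
  simp only [ip, ← integral_const_mul]
  rw [← integral_add i1 i6, ← integral_neg, ← integral_sub i2 i3]
  exact integral_mono (i1.add i6).neg (i2.sub i3) fun y => absorb h (F.sL y).1 _ e hz

/-! ### Second part -/

omit [DecidableEq ι] in
theorem Core1c_int {f1 f2 f3 f4 f5 f6 : (ι → ℝ) → ℝ} (h1 : Integrable f1 (γ ι))
    (h2 : Integrable f2 (γ ι)) (h3 : Integrable f3 (γ ι)) (h4 : Integrable f4 (γ ι))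
    (h5 : Integrable f5 (γ ι)) (h6 : Integrable f6 (γ ι))
    (h : ∀ z, f1 z - f2 z = f3 z + f4 z - f5 z - f6 z) :
    ∫ z, f1 z ∂γ ι - ∫ z, f2 z ∂γ ι =
      ∫ z, f3 z ∂γ ι + ∫ z, f4 z ∂γ ι - ∫ z, f5 z ∂γ ι - ∫ z, f6 z ∂γ ι := by
  have a1 := integral_sub h1 h2
  have a2 := integral_add h3 h4
  have a3 := integral_sub (h3.add h4) h5
  have a4 := integral_sub ((h3.add h4).sub h5) h6
  simp only [Pi.add_apply, Pi.sub_apply] at a3 a4
  rw [← a1, ← a2, ← a3, ← a4]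
  exact integral_congr_ae (Eventually.of_forall h)

theorem Core1c_dec (e : ι → ℝ) (k : ι) :
    ip (fun _ => F.D k *ᵥ e) (fun z => Df vf vf1 (F.L z) (F.X k z) *ᵥ e)
        - ip (F.te e k) (F.te e k) =
      ip (fun _ => F.D k *ᵥ e) (fun z => (F.X k z * fm nf (F.L z)) *ᵥ e)
        + ip (fun _ => F.D k *ᵥ e) (fun z => kA3 (F.L z) (F.X k z) *ᵥ e)
        - ip (fun z => fm (fun l => tau1 l ^ 2) (F.L z) *ᵥ (F.D k *ᵥ e)) (F.Ye e k)
        - ip (fun z => F.te e k z - fm tau1 (F.L z) *ᵥ (F.D k *ᵥ e))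
            (fun z => F.te e k z - fm tau1 (F.L z) *ᵥ (F.D k *ᵥ e)) := by
  have l0 : LV fun _ : ι → ℝ => F.D k *ᵥ e := LV_const _
  have l1 : LV fun z => Df vf vf1 (F.L z) (F.X k z) *ᵥ e := (F.LM_Df C2_vf k).mulVec e
  have l2 := F.LV_te e k
  have l3 : LV fun z => (F.X k z * fm nf (F.L z)) *ᵥ e :=
    ((F.LM_X k).mul_BM (F.BM_fm continuous_nf)).mulVec e
  have l4 : LV fun z => kA3 (F.L z) (F.X k z) *ᵥ e := (F.LM_kA3 k).mulVec e
  have l5 : LV fun z => fm (fun l => tau1 l ^ 2) (F.L z) *ᵥ (F.D k *ᵥ e) :=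
    (F.BM_fm (by fun_prop)).mulVec l0
  have l6 := F.LV_Ye e k
  have l7 : LV fun z => F.te e k z - fm tau1 (F.L z) *ᵥ (F.D k *ᵥ e) :=
    l2.sub ((F.BM_fm continuous_tau1).mulVec l0)
  refine Core1c_int (l0.int_dot l1) (l2.int_dot l2) (l0.int_dot l3) (l0.int_dot l4) (l5.int_dot l6)
    (l7.int_dot l7) fun z => ?_
  have a1 : (fm tau1 (F.L z) *ᵥ (F.D k *ᵥ e)) ⬝ᵥ (fm tau1 (F.L z) *ᵥ (F.D k *ᵥ e)) =
      (F.D k *ᵥ e) ⬝ᵥ fm (fun l => tau1 l ^ 2) (F.L z) *ᵥ (F.D k *ᵥ e) := by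
    rw [fm_dot_fm]; simp only [sq]
  have a2 := dot_symm (fm_symm tau1 (F.L z)) (F.D k *ᵥ e) (F.te e k z)
  have a3 := dot_symm (fm_symm (fun l => tau1 l ^ 2) (F.L z)) (F.D k *ᵥ e) (F.Ye e k z)
  have a4 : F.X k z *ᵥ e = F.D k *ᵥ e + F.Ye e k z := by
    simp only [Ye, Y, sub_mulVec]; abel
  have a5 : kA3 (F.L z) (F.X k z) *ᵥ e = Df vf vf1 (F.L z) (F.X k z) *ᵥ e
      - (F.X k z * fm nf (F.L z)) *ᵥ e + fm (fun l => tau1 l ^ 2) (F.L z) *ᵥ (F.X k z *ᵥ e)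
      - (2 : ℝ) • (fm tau1 (F.L z) *ᵥ F.te e k z) := by
    simp only [kA3, te, dt, sub_mulVec, add_mulVec, smul_mulVec, mulVec_mulVec]
  beta_reduce
  rw [a5, a4, mulVec_add]
  simp only [dotProduct_sub, dotProduct_add, sub_dotProduct, dotProduct_smul, smul_eq_mul]
  rw [a1, a2, a3, dotProduct_comm (F.te e k z) (fm tau1 (F.L z) *ᵥ (F.D k *ᵥ e))]
  ring

theorem Core1c_eY (h : NF) (e : ι → ℝ) (k : ι) (t : ℝ) :
    2 * t * ip (fun z => fm (fun l => tau1 l ^ 2) (F.L z) *ᵥ (F.D k *ᵥ e)) (F.Ye e k) ≤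
      t ^ 2 * ((F.D k *ᵥ e) ⬝ᵥ (F.D k *ᵥ e)) / 64 + ip (F.Ye e k) (F.Ye e k) := by
  have l0 : LV fun _ : ι → ℝ => F.D k *ᵥ e := LV_const _
  have l5 : LV fun z => fm (fun l => tau1 l ^ 2 - 1 / 8) (F.L z) *ᵥ (F.D k *ᵥ e) :=
    (F.BM_fm (by fun_prop)).mulVec l0
  have l6 := F.LV_Ye e k
  have e1 : (fun z => fm (fun l => tau1 l ^ 2) (F.L z) *ᵥ (F.D k *ᵥ e)) = fun z =>
      fm (fun l => tau1 l ^ 2 - 1 / 8) (F.L z) *ᵥ (F.D k *ᵥ e) + (1 / 8 : ℝ) • (F.D k *ᵥ e) := by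
    funext z
    rw [fm_sub, fm_const (F.sL z).1, sub_mulVec, smul_mulVec, one_mulVec, sub_add_cancel]
  have e2 : ip (fun _ => (1 / 8 : ℝ) • (F.D k *ᵥ e)) (F.Ye e k) = 0 := by
    rw [ip_comm]; exact ip_const_of_mean l6 (F.int_Ye e k) _
  have e3 := ip_amgm l5 l6 t
  have e4 := ip_mono l5 l0 (c := (1 / 8) ^ 2) fun z => fm_dot_le (fun l => by
    have h1 := h.t1_pos l
    have h2 := h.t1_le l
    rw [abs_le]; constructor <;> nlinarith) _ _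
  rw [ip_const] at e4
  rw [e1, ip_add_left l5 (LV_const _) l6, e2, add_zero]
  have e5 := mul_le_mul_of_nonneg_left e4 (sq_nonneg t)
  linarith

theorem Core1c_R2 (h : NF) (e : ι → ℝ) (k : ι) {η : ℝ} (hη : 0 < η) :
    ip (fun z => F.te e k z - fm tau1 (F.L z) *ᵥ (F.D k *ᵥ e))
        (fun z => F.te e k z - fm tau1 (F.L z) *ᵥ (F.D k *ᵥ e)) ≤
      (1 + η) * ip (F.Ye e k) (F.Ye e k) / 4 + (1 + 1 / η) *
        ip (fun z => kA1 (F.L z) (F.X k z) *ᵥ e) (fun z => kA1 (F.L z) (F.X k z) *ᵥ e) := by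
  have l6 := F.LV_Ye e k
  have l1 : LV fun z => fm tau1 (F.L z) *ᵥ F.Ye e k z := (F.BM_fm continuous_tau1).mulVec l6
  have l2 : LV fun z => kA1 (F.L z) (F.X k z) *ᵥ e := (F.LM_kA1 k).mulVec e
  have e1 : (fun z => F.te e k z - fm tau1 (F.L z) *ᵥ (F.D k *ᵥ e)) = fun z =>
      fm tau1 (F.L z) *ᵥ F.Ye e k z + kA1 (F.L z) (F.X k z) *ᵥ e := by
    funext z
    simp only [kA1, te, dt, Ye, Y, sub_mulVec, mulVec_sub, ← mulVec_mulVec]
    abel
  have e3 := ip_amgm l1 l2 η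
  have e4 := ip_mono l1 l6 (c := (1 / 2) ^ 2) fun z => fm_dot_le (fun l => by
    rw [abs_of_pos (h.t1_pos l)]; exact h.t1_le l) _ _
  rw [e1, ip_add_left l1 l2 (l1.add l2), ip_add_right l1 l1 l2, ip_add_right l2 l1 l2,
    ip_comm (fun z => kA1 (F.L z) (F.X k z) *ᵥ e) (fun z => fm tau1 (F.L z) *ᵥ F.Ye e k z)]
  generalize ip (fun z => fm tau1 (F.L z) *ᵥ F.Ye e k z) (fun z => fm tau1 (F.L z) *ᵥ F.Ye e k z) = b
    at *
  generalize ip (fun z => fm tau1 (F.L z) *ᵥ F.Ye e k z) (fun z => kA1 (F.L z) (F.X k z) *ᵥ e) = c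
    at *
  generalize ip (fun z => kA1 (F.L z) (F.X k z) *ᵥ e) (fun z => kA1 (F.L z) (F.X k z) *ᵥ e) = a at *
  have e5 : 2 * c ≤ η * b + 1 / η * a := by
    refine le_of_mul_le_mul_left ?_ hη
    have : η * (η * b + 1 / η * a) = η ^ 2 * b + a := by field_simp
    linarith
  have e6 := mul_le_mul_of_nonneg_left e4 (by linarith : 0 ≤ 1 + η)
  linarith

/-- `e3 = ∑ ⟨D_k e, kA3 e⟩`, `eY = ∑ ⟨τ'²(L) D_k e, Y_k e⟩ = ∑ ⟨(τ'² - 1/8)(L) D_k e, Y_k e⟩`,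
`R2 = ∑ |R_k|²`, `R_k = ∂_k τ e - τ'(L) D_k e = τ'(L) Y_k e + kA1 e`.  `x - 1 = I(l v) - I n - N`
(`mul_vf_sub`), `I_mul` for `vf`, `Df v = kA3 + X n(L) - τ'² X + 2 τ' ∂τ`, `sum_ip_DX`,
`N = R2 + 2 ∑ ⟨τ' D_k e, ∂_k τ e⟩ - ∑ |τ' D_k e|²`; `fm_dot_le` with `|τ'² - 1/8| ≤ 1/8`, `|τ'| ≤ 1/2`. -/
theorem hP (h : NF) (he : F.Eig e s) : ∃ e3 eY R2 : ℝ,
    F.x e - 1 = (s - 1) * F.I e nf + ip (F.Ee e) (F.fv e vf) + ip (F.Ge e) (F.fv e nf)
      + e3 - eY - R2 ∧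
    (∀ t : ℝ, 2 * t * e3 ≤ t ^ 2 * s + F.sh e kA3) ∧
    (∀ t : ℝ, 2 * t * eY ≤ t ^ 2 * s / 64 + F.b1 e) ∧ 0 ≤ R2 ∧
    ∀ η : ℝ, 0 < η → R2 ≤ (1 + η) * F.b1 e / 4 + (1 + 1 / η) * F.sh e kA1 := by
  have hs : ∑ k, (F.D k *ᵥ e) ⬝ᵥ (F.D k *ᵥ e) = s := by
    rw [F.sum_De_dot, he.2, dotProduct_smul, he.1, smul_eq_mul, mul_one]
  refine ⟨∑ k, ip (fun _ => F.D k *ᵥ e) (fun z => kA3 (F.L z) (F.X k z) *ᵥ e),
    ∑ k, ip (fun z => fm (fun l => tau1 l ^ 2) (F.L z) *ᵥ (F.D k *ᵥ e)) (F.Ye e k),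
    ∑ k, ip (fun z => F.te e k z - fm tau1 (F.L z) *ᵥ (F.D k *ᵥ e))
      (fun z => F.te e k z - fm tau1 (F.L z) *ᵥ (F.D k *ᵥ e)), ?_, fun t => ?_, fun t => ?_,
    Finset.sum_nonneg fun k _ => ip_nonneg _, fun η hη => ?_⟩
  · have a1 : (fun l => 2 * Tf l - tau l ^ 2) = fun l => (l * vf l - nf l) + 1 := by
      funext l; rw [mul_vf_sub]; ring
    have a2 : F.I e (fun l => 2 * Tf l - tau l ^ 2) = F.I e (fun l => l * vf l) - F.I e nf + 1 := by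
      rw [a1, F.I_add e (by fun_prop) continuous_const, F.I_sub e (by fun_prop) continuous_nf,
        F.I_const, he.1, mul_one]
    have a3 := F.I_mul e C2_vf
    have a4 := F.sum_ip_DX e continuous_nf he
    have a5 := Finset.sum_congr (rfl : (Finset.univ : Finset ι) = Finset.univ)
      fun k _ => F.Core1c_dec e k
    simp only [Finset.sum_sub_distrib, Finset.sum_add_distrib] at a5
    unfold x N
    linarith
  · exact F.pairD he (fun k => (F.LM_kA3 k).mulVec e) t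
  · rw [← hs, b1, Finset.mul_sum, Finset.mul_sum, Finset.sum_div, ← Finset.sum_add_distrib]
    exact Finset.sum_le_sum fun k _ => F.Core1c_eY h e k t
  · rw [b1, sh, Finset.mul_sum, Finset.mul_sum, Finset.sum_div, ← Finset.sum_add_distrib]
    exact Finset.sum_le_sum fun k _ => F.Core1c_R2 h e k hη

end Fld

end Crest.Agent.R253
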