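/-
Row 253 (S0390, S0391), file Core2.  The covariance in one direction.
Definitions: R253/Fun.lean, R253/Defs.lean.  Outline: R253/Blueprint.lean.  Keep the statements unchanged.
-/
import Crest.Agent.R253.Core1

set_option autoImplicit false

namespace Crest.Agent.R253

open MeasureTheory ProbabilityTheory Matrix Filter Topology Crest.Agent.R203N

variable {ι : Type} [Fintype ι] [DecidableEq ι]

namespace Fld

variable (F : Fld ι) {e : ι → ℝ} {s : ℝ}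

theorem cov_symm : F.cov.IsSymm := by
  exact IsSymm.ext fun i j => by simp only [cov, of_apply, mul_comm]

/-- `u = ⟨e, T - E T⟩` has the weak gradient `λ(L) e` (`λ(L)` is symmetric); `int_mul_eq_TT`. -/
theorem A_eq (e : ι → ℝ) :
    F.A e = ∑ j, TT (fun z => F.fv e haz z j) (fun z => F.fv e haz z j) := by
  have h1 := fun i => (F.wT i).sub (WG_const (∫ y, F.T y i ∂γ ι))
  have h2 : WG (fun z => ∑ i, e i * (F.T z i - ∫ y, F.T y i ∂γ ι)) fun j z => F.fv e haz z j :=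
    (WG.sum Finset.univ fun i _ => (h1 i).const_mul (e i)).congr (ae_eq_refl _) fun j =>
      Eventually.of_forall fun z => Finset.sum_congr rfl fun i _ => by
        rw [sub_zero, mul_comm, (fm_symm haz (F.L z)).apply j i]
  rw [← int_mul_eq_TT h2 h2]
  · simp only [Finset.sum_mul_sum, mul_mul_mul_comm (e _)]
    rw [integral_finsetSum _ fun i _ => integrable_finsetSum _ fun j _ =>
      (Herm4_int (h1 i).u2 (h1 j).u2).const_mul _]
    refine Finset.sum_congr rfl fun i _ => ?_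
    rw [integral_finsetSum _ fun j _ => (Herm4_int (h1 i).u2 (h1 j).u2).const_mul _]
    simp only [mulVec, dotProduct, Finset.mul_sum, integral_const_mul, cov, of_apply]
    exact Finset.sum_congr rfl fun j _ => by ring
  · rw [integral_finsetSum _ fun i _ => ((h1 i).u2.integrable one_le_two).const_mul _]
    refine Finset.sum_eq_zero fun i _ => ?_
    rw [integral_const_mul, integral_sub ((F.wT i).u2.integrable one_le_two) (integrable_const _)]
    simp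

/-- `TT_bounds`. -/
theorem htriv (e : ι → ℝ) : F.A e ≤ F.I e (fun l => haz l ^ 2) := by
  simp only [sq]
  rw [A_eq, ← ip_fv, ip_self_eq_sum (F.LV_fv e continuous_haz)]
  exact Finset.sum_le_sum fun j _ => (TT_bounds (F.LV_fv e continuous_haz j)).2

/-- `A ≥ |E λ(L) e|²` and `⟨e, E λ(L) e⟩ ≥ λ(-R) |e|² > 0` (`Sp.quad_fm_le`). -/
theorem A_pos {e : ι → ℝ} (he : e ≠ 0) : 0 < F.A e := by
  by_contra h
  have hl := F.LV_fv e continuous_haz
  have h1 : ∑ j, (∫ z, F.fv e haz z j ∂γ ι) ^ 2 ≤ 0 := by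
    rw [A_eq, not_lt] at h
    exact (Finset.sum_le_sum fun j _ => (TT_bounds (hl j)).1).trans h
  have h2 := ip_const_of_mean hl (fun j => pow_eq_zero_iff two_ne_zero |>.1 (le_antisymm
    ((Finset.single_le_sum (f := fun j => (∫ z, F.fv e haz z j ∂γ ι) ^ 2) (fun j _ => sq_nonneg _)
      (Finset.mem_univ j)).trans h1) (sq_nonneg _))) e
  have h3 : F.I e (fun _ => haz (-F.R)) ≤ ip (fun _ => e) (F.fv e haz) :=
    integral_mono ((LV_const e).int_dot (F.LV_fv e continuous_const)) ((LV_const e).int_dot hl)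
      fun z => (F.sL z).quad_fm_le (fun x hx _ => Mills_haz_mono hx) e
  rw [ip_comm, h2, I_const] at h3
  exact h3.not_gt (mul_pos (haz_pos _) (lt_of_le_of_ne (Finset.sum_nonneg fun i _ => mul_self_nonneg _)
    fun h0 => he (dotProduct_self_eq_zero.1 h0.symm)))

/-- `exists_resolvent` for each component of `h = λ(L) e` gives `φ`; `χ = φ - τ(L) e`.
`A = ⟨h,φ⟩ = |φ|₁²`, `⟨φ, u⟩₁ = ⟨h,u⟩ = I T` for `u = τ(L) e` (`haz_mul_tau`), `|u|₁² = I τ² + N`. -/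
theorem exists_chi (e : ι → ℝ) : ∃ (χ : (ι → ℝ) → ι → ℝ) (ψ : ι → (ι → ℝ) → ι → ℝ),
    (∀ i, WG (fun z => χ z i) (fun k z => ψ k z i)) ∧
    F.A e - F.x e = ip χ χ + ∑ k, ip (ψ k) (ψ k) ∧
    ip χ χ + ∑ k, ip (ψ k) (ψ k) =
      ip (F.fv e fun l => haz l - tau l) χ - ∑ k, ip (F.te e k) (ψ k) := by
  have hl := F.LV_fv e continuous_haz
  have hu := F.LV_fv e continuous_tau
  have ht := F.LV_te e
  choose φ ψ h1 h2 h3 using fun i => exists_resolvent (hl i)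
  have lφ : LV fun z i => φ i z := fun i => (h1 i).u2
  have lψ : ∀ k, LV fun z i => ψ i k z := fun k i => (h1 i).g2 k
  have key : ∀ {w : (ι → ℝ) → ι → ℝ} {g : ι → (ι → ℝ) → ι → ℝ},
      (∀ i, WG (fun z => w z i) fun k z => g k z i) →
      ip (fun z i => φ i z) w + ∑ k, ip (fun z i => ψ i k z) (g k) = ip (F.fv e haz) w := fun {w g} h => by
    have lw : LV w := fun i => (h i).u2
    rw [ip_eq_sum lφ lw, ip_eq_sum hl lw, Finset.sum_congr rfl fun k _ =>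
      ip_eq_sum (lψ k) (v := g k) fun i => (h i).g2 k, Finset.sum_comm, ← Finset.sum_add_distrib]
    exact Finset.sum_congr rfl fun i _ => h3 i _ _ (h i)
  have wu : ∀ i, WG (fun z => F.fv e tau z i) fun k z => F.te e k z i := F.WG_fv e C2_tau
  have wχ : ∀ i, WG (fun z => ((fun i => φ i z) - F.fv e tau z) i)
    fun k z => ((fun i => ψ i k z) - F.te e k z) i := fun i => (h1 i).sub (wu i)
  have a1 := key (w := fun z i => φ i z) (g := fun k z i => ψ i k z) h1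
  have a2 := key wu
  have a3 := key wχ
  have a4 : F.A e = ip (F.fv e haz) fun z i => φ i z := by
    rw [A_eq, ip_eq_sum hl lφ]
    exact Finset.sum_congr rfl fun i _ => h2 i
  refine ⟨_, _, wχ, ?_, ?_⟩
  · rw [ip_fv] at a2
    simp only [haz_mul_tau] at a2
    rw [ip_sub_left lφ hu (lφ.sub hu), ip_sub_right lφ lφ hu, ip_sub_right hu lφ hu, ip_comm (F.fv e tau),
      ip_fv, Finset.sum_congr rfl fun k _ => by
        rw [ip_sub_left (lψ k) (ht k) ((lψ k).sub (ht k)), ip_sub_right (lψ k) (lψ k) (ht k),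
          ip_sub_right (ht k) (lψ k) (ht k), ip_comm (F.te e k)],
      x, F.I_sub e (by fun_prop) (by fun_prop), I_smul, N]
    simp only [Finset.sum_sub_distrib, sq]
    linarith
  · have e1 : F.fv e (fun l => haz l - tau l) = fun z => F.fv e haz z - F.fv e tau z := by
      funext z
      simp only [fv, fm_sub, sub_mulVec]
    rw [e1, ip_sub_left hl hu (lφ.sub hu), ip_sub_left lφ hu (lφ.sub hu), Finset.sum_congr rfl fun k _ =>
      ip_sub_left (lψ k) (ht k) ((lψ k).sub (ht k)), Finset.sum_sub_distrib]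
    linarith

/-! ### Second part -/

theorem Core2b_point (he : F.Eig e s) (z : ι → ℝ) : (F.fv e (fun l => haz l - tau l) z) =
    (∑ k, (z k • F.fv (F.D k *ᵥ e) tau1 z - Df tau1 tau2 (F.L z) (F.X k z) *ᵥ (F.D k *ᵥ e))) +
      ((s - 1) • F.fv e tau2 z + fm tau2 (F.L z) *ᵥ F.Ge e z + F.G2 e z +
        fm tau1 (F.L z) *ᵥ F.Ee e z) := by
  have h1 : fm (fun l => haz l - tau l) (F.L z) = fm tau1 (F.L z) * F.L z - fm tau2 (F.L z) := by
    have : (fun l => haz l - tau l) = fun l => tau1 l * l - tau2 l :=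
      funext fun l => by linarith [haz_sub_tau l]
    rw [this, fm_sub, fm_mul, fm_id (F.sL z).1]
  have h2 : ∑ k, z k • F.fv (F.D k *ᵥ e) tau1 z = fm tau1 (F.L z) *ᵥ (Bz F.D z *ᵥ e) := by
    simp only [fv, Bz, Matrix.sum_mulVec, Matrix.mulVec_sum, Matrix.smul_mulVec, Matrix.mulVec_smul]
  have h3 : ∑ k, F.X k z *ᵥ (F.D k *ᵥ e) = F.Ge e z + s • e := by
    rw [← he.2, ← F.sum_DDe, Ge, ← Finset.sum_add_distrib]
    simp only [Y, Matrix.sub_mulVec, sub_add_cancel]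
  have h4 : ∑ k, Df tau1 tau2 (F.L z) (F.X k z) *ᵥ (F.D k *ᵥ e) =
      F.G2 e z + fm tau2 (F.L z) *ᵥ (F.Ge e z + s • e) := by
    rw [← h3, G2, Matrix.mulVec_sum, ← Finset.sum_add_distrib]
    simp only [kA2, Matrix.sub_mulVec, ← Matrix.mulVec_mulVec, sub_add_cancel]
  rw [Finset.sum_sub_distrib, h2, h4]
  simp only [fv, h1, Ee, E, Matrix.sub_mulVec, Matrix.mulVec_sub, Matrix.mulVec_add, Matrix.mulVec_smul,
    ← Matrix.mulVec_mulVec, sub_smul, one_smul]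
  abel

/-- `∂_k τ e = τ' D_k e + τ' Y_k e + kA1 e`; `Herm4_dual` for `χ_i` and the bounded function
`(τ'(L) D_k e)_i` (weak gradient `Df tau1 tau2 · D_k e = τ'' X D_k e + kA2 D_k e`);
`∑ z_k D_k e = L e - E e`, `∑ X_k D_k e = s e + G`, `haz_sub_tau`. -/
theorem chi_identity (he : F.Eig e s) {χ : (ι → ℝ) → ι → ℝ} {ψ : ι → (ι → ℝ) → ι → ℝ}
    (hχ : ∀ i, WG (fun z => χ z i) (fun k z => ψ k z i)) :
    ip (F.fv e fun l => haz l - tau l) χ - ∑ k, ip (F.te e k) (ψ k) =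
      (s - 1) * ip (F.fv e tau2) χ + ip (fun z => fm tau2 (F.L z) *ᵥ F.Ge e z) χ + ip (F.G2 e) χ
        - (∑ k, ip (fun z => kA1 (F.L z) (F.X k z) *ᵥ e) (ψ k))
        + (ip (fun z => fm tau1 (F.L z) *ᵥ F.Ee e z) χ
          - ∑ k, ip (fun z => fm tau1 (F.L z) *ᵥ F.Ye e k z) (ψ k)) := by
  have lχ : LV χ := fun i => (hχ i).u2
  have lψ : ∀ k, LV (ψ k) := fun k i => (hχ i).g2 k
  have b1 := F.BM_fm continuous_tau1
  have b2 := F.BM_fm continuous_tau2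
  have lφ : ∀ k, LV (F.fv (F.D k *ᵥ e) tau1) := fun k => F.LV_fv _ continuous_tau1
  have lz : ∀ k, LV fun z => z k • F.fv (F.D k *ᵥ e) tau1 z := fun k => by
    have h1 : LV fun z : ι → ℝ => z k • (F.D k *ᵥ e) := fun i => (L2_coord k).mul_const _
    simpa only [Matrix.mulVec_smul, fv] using b1.mulVec h1
  have lD : ∀ k, LV fun z => Df tau1 tau2 (F.L z) (F.X k z) *ᵥ (F.D k *ᵥ e) := fun k =>
    (F.LM_Df C2_tau1 k).mulVec _
  have lW : ∀ k, LV fun z => z k • F.fv (F.D k *ᵥ e) tau1 z -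
      Df tau1 tau2 (F.L z) (F.X k z) *ᵥ (F.D k *ᵥ e) := fun k => (lz k).sub (lD k)
  have dual : ∀ k, ip (fun z => z k • F.fv (F.D k *ᵥ e) tau1 z -
      Df tau1 tau2 (F.L z) (F.X k z) *ᵥ (F.D k *ᵥ e)) χ = ip (F.fv (F.D k *ᵥ e) tau1) (ψ k) := fun k => by
    rw [ip_comm, ip_comm _ (ψ k), ip_eq_sum lχ (lW k), ip_eq_sum (lψ k) (lφ k)]
    exact Finset.sum_congr rfl fun i _ => Herm4_dual (hχ i) (F.WG_fv _ C2_tau1 i) k (lz k i)
  have lY : ∀ k, LV fun z => fm tau1 (F.L z) *ᵥ F.Ye e k z := fun k => b1.mulVec (F.LV_Ye e k)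
  have lA : ∀ k, LV fun z => kA1 (F.L z) (F.X k z) *ᵥ e := fun k => (F.LM_kA1 k).mulVec e
  have e1 : ∀ k, ip (F.te e k) (ψ k) = ip (F.fv (F.D k *ᵥ e) tau1) (ψ k) +
      ip (fun z => fm tau1 (F.L z) *ᵥ F.Ye e k z) (ψ k) +
      ip (fun z => kA1 (F.L z) (F.X k z) *ᵥ e) (ψ k) := fun k => by
    rw [← ip_add_left (lφ k) (lY k) (lψ k), ← ip_add_left ((lφ k).add (lY k)) (lA k) (lψ k)]
    congr 1
    funext z
    simp only [te, dt, fv, Ye, Y, kA1, Matrix.sub_mulVec, Matrix.mulVec_sub, Matrix.mulVec_mulVec]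
    abel
  have l1 : LV fun z => (s - 1) • F.fv e tau2 z := (F.LV_fv e continuous_tau2).smul _
  have l2 : LV fun z => fm tau2 (F.L z) *ᵥ F.Ge e z := b2.mulVec (F.LV_Ge e)
  have l3 := F.LV_G2 e
  have l4 : LV fun z => fm tau1 (F.L z) *ᵥ F.Ee e z := b1.mulVec (F.LV_Ee e)
  have l0 := LV.sum Finset.univ fun k _ => lW k
  have e2 : ip (F.fv e fun l => haz l - tau l) χ = (∑ k, ip (F.fv (F.D k *ᵥ e) tau1) (ψ k)) +
      ((s - 1) * ip (F.fv e tau2) χ + ip (fun z => fm tau2 (F.L z) *ᵥ F.Ge e z) χ + ip (F.G2 e) χ +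
        ip (fun z => fm tau1 (F.L z) *ᵥ F.Ee e z) χ) := by
    rw [← Finset.sum_congr rfl fun k _ => dual k, ← ip_sum_left _ (fun k _ => lW k) lχ,
      ← ip_smul_left, ← ip_add_left l1 l2 lχ, ← ip_add_left (l1.add l2) l3 lχ,
      ← ip_add_left ((l1.add l2).add l3) l4 lχ, ← ip_add_left l0 (((l1.add l2).add l3).add l4) lχ]
    congr 1
    funext z
    exact Core2b_point F he z
  rw [e2]
  simp only [e1, Finset.sum_add_distrib]
  ring

/-! ### Third part -/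

omit [DecidableEq ι] in
theorem core2c_amgm {u v : (ι → ℝ) → ι → ℝ} (hu : LV u) (hv : LV v) {r : ℝ} (hr : 0 < r) (c : ℝ) :
    2 * (c * ip u v) ≤ c ^ 2 * ip u u / r + r * ip v v := by
  classical
  have h := mul_le_mul_of_nonneg_left (ip_amgm hu hv (c / r)) hr.le
  have e1 : r * (2 * (c / r) * ip u v) = 2 * (c * ip u v) := by field_simp
  have e2 : r * ((c / r) ^ 2 * ip u u + ip v v) = c ^ 2 * ip u u / r + r * ip v v := by field_simp
  rwa [e1, e2] at h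

theorem core2c_split {u : ℝ → ℝ} (hu : Continuous u) {c : ℝ} (hc : ∀ l, |u l - c| ≤ c)
    {v w : (ι → ℝ) → ι → ℝ} (hv : LV v) (hw : LV w) {r : ℝ} (hr : 0 < r) (t : ℝ) :
    2 * (t * ip (fun z => fm u (F.L z) *ᵥ v z) w) ≤
      t ^ 2 * (c ^ 2 * ip v v) / r + r * ip w w + 2 * (t * c * ip v w) := by
  have hu' : Continuous fun l => u l - c := hu.sub continuous_const
  have h1 : LV fun z => fm (fun l => u l - c) (F.L z) *ᵥ v z := (F.BM_fm hu').mulVec hv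
  have e : (fun z => fm u (F.L z) *ᵥ v z) =
      fun z => fm (fun l => u l - c) (F.L z) *ᵥ v z + c • v z := by
    funext z
    rw [fm_sub u (fun _ => c), fm_const (F.sL z).1, Matrix.sub_mulVec, Matrix.smul_mulVec,
      Matrix.one_mulVec, sub_add_cancel]
  rw [e, ip_add_left h1 (hv.smul c) hw, ip_smul_left]
  have h2 := core2c_amgm h1 hw hr t
  have h3 : ip (fun z => fm (fun l => u l - c) (F.L z) *ᵥ v z)
      (fun z => fm (fun l => u l - c) (F.L z) *ᵥ v z) ≤ c ^ 2 * ip v v :=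
    ip_mono h1 hv fun z => fm_dot_le hc _ _
  have h4 : t ^ 2 * ip (fun z => fm (fun l => u l - c) (F.L z) *ᵥ v z)
      (fun z => fm (fun l => u l - c) (F.L z) *ᵥ v z) / r ≤ t ^ 2 * (c ^ 2 * ip v v) / r := by
    gcongr
  linarith

theorem core2c_mean0 {G χ : (ι → ℝ) → ι → ℝ} {ψ : ι → (ι → ℝ) → ι → ℝ} (hG : LV G)
    (h0 : ∀ i, ∫ z, G z i ∂γ ι = 0) (hχ : ∀ i, WG (fun z => χ z i) (fun k z => ψ k z i))
    {r : ℝ} (hr : 0 < r) (c : ℝ) :
    2 * (c * ip G χ) ≤ c ^ 2 * ip G G / r + r * ∑ k, ip (ψ k) (ψ k) := by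
  have lχ : LV χ := fun i => (hχ i).u2
  have lψ : ∀ k, LV (ψ k) := fun k i => (hχ i).g2 k
  have h1 : 2 * (c / r) * ip G χ ≤ (c / r) ^ 2 * ip G G + ∑ k, ip (ψ k) (ψ k) := by
    rw [ip_eq_sum hG lχ, ip_self_eq_sum hG, Finset.mul_sum, Finset.mul_sum]
    simp_rw [fun k => ip_self_eq_sum (lψ k)]
    rw [Finset.sum_comm, ← Finset.sum_add_distrib]
    exact Finset.sum_le_sum fun i _ => mean0_pair (hG i) (h0 i) (hχ i) (c / r)
  have h := mul_le_mul_of_nonneg_left h1 hr.le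
  have e1 : r * (2 * (c / r) * ip G χ) = 2 * (c * ip G χ) := by field_simp
  have e2 : r * ((c / r) ^ 2 * ip G G + ∑ k, ip (ψ k) (ψ k)) =
      c ^ 2 * ip G G / r + r * ∑ k, ip (ψ k) (ψ k) := by field_simp
  rwa [e1, e2] at h

theorem core2c_cs1 (h0 : F.Cen) (e : ι → ℝ) {χ : (ι → ℝ) → ι → ℝ} {ψ : ι → (ι → ℝ) → ι → ℝ}
    (hχ : ∀ i, WG (fun z => χ z i) (fun k z => ψ k z i)) {r : ℝ} (hr : 0 < r) (c : ℝ) :
    2 * (c * (ip (F.Ee e) χ - ∑ k, ip (F.Ye e k) (ψ k))) ≤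
      c ^ 2 * (F.b1 e - 5 / 3 * F.b0 e) / r + r * (ip χ χ + ∑ k, ip (ψ k) (ψ k)) := by
  have lχ : LV χ := fun i => (hχ i).u2
  have lψ : ∀ k, LV (ψ k) := fun k i => (hχ i).g2 k
  have h1 : 2 * (c / r) * (ip (F.Ee e) χ - ∑ k, ip (F.Ye e k) (ψ k)) ≤
      (c / r) ^ 2 * (F.b1 e - 5 / 3 * F.b0 e) + (ip χ χ + ∑ k, ip (ψ k) (ψ k)) := by
    unfold b1 b0
    rw [ip_eq_sum (F.LV_Ee e) lχ, ip_self_eq_sum (F.LV_Ee e), ip_self_eq_sum lχ]
    simp_rw [fun k => ip_self_eq_sum (lψ k), fun k => ip_self_eq_sum (F.LV_Ye e k),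
      fun k => ip_eq_sum (F.LV_Ye e k) (lψ k)]
    rw [Finset.sum_comm (f := fun k i => ∫ z, F.Ye e k z i * ψ k z i ∂γ ι),
      Finset.sum_comm (f := fun k i => ∫ z, F.Ye e k z i ^ 2 ∂γ ι),
      Finset.sum_comm (f := fun k i => ∫ z, ψ k z i ^ 2 ∂γ ι), Finset.mul_sum (a := 5 / 3),
      ← Finset.sum_sub_distrib, ← Finset.sum_sub_distrib, ← Finset.sum_add_distrib,
      Finset.mul_sum, Finset.mul_sum, ← Finset.sum_add_distrib]
    exact Finset.sum_le_sum fun i _ =>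
      cs1 (F.WG_Ee e i) (F.int_Ee e h0 i) (fun k => F.int_Ye e k i) (hχ i) (c / r)
  have h := mul_le_mul_of_nonneg_left h1 hr.le
  have e1 : r * (2 * (c / r) * (ip (F.Ee e) χ - ∑ k, ip (F.Ye e k) (ψ k))) =
      2 * (c * (ip (F.Ee e) χ - ∑ k, ip (F.Ye e k) (ψ k))) := by field_simp
  have e2 : r * ((c / r) ^ 2 * (F.b1 e - 5 / 3 * F.b0 e) + (ip χ χ + ∑ k, ip (ψ k) (ψ k))) =
      c ^ 2 * (F.b1 e - 5 / 3 * F.b0 e) / r + r * (ip χ χ + ∑ k, ip (ψ k) (ψ k)) := by field_simp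
  rwa [e1, e2] at h

/-- With `X² = |χ|²`, `Y² = ∑ |ψ_k|²`, bound every term of `chi_identity` by `t²/(2r) + r X²/2` (or `Y²`):
`τ'' = (τ'' - κ/2) + κ/2`, `κ = 0.088` (`fm_dot_le`, weight `r2`; `mean0_pair`, weight `r2'`),
`τ' = (τ' - 1/4) + 1/4` (weights `h2`, `h3`; `cs1`, weight `h1`).  The sum is at most
`(bound)/2 + (X² + Y²)/2`. -/
theorem hxi (h : NF) (h0 : F.Cen) (he : F.Eig e s) (w : Wt) :
    F.A e ≤ F.x e + (s - 1) ^ 2 * F.I e (fun l => tau2 l ^ 2) / w.r0 + s * F.Q2 e s / w.r3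
      + w.ep * (s * F.p2 e s) + F.sh e kA1 / w.r4 + w.e1 * F.b1 e + w.e0 * F.b0 e :=
by
  obtain ⟨χ, ψ, hχ, hA, hB⟩ := F.exists_chi e
  rw [F.chi_identity he hχ] at hB
  have lχ : LV χ := fun i => (hχ i).u2
  have lψ : ∀ k, LV (ψ k) := fun k i => (hχ i).g2 k
  have hX : 0 ≤ ip χ χ := ip_nonneg χ
  have hY : 0 ≤ ∑ k, ip (ψ k) (ψ k) := Finset.sum_nonneg fun k _ => ip_nonneg _
  have c2 : ∀ l, |tau2 l - 44 / 1000| ≤ 44 / 1000 := fun l =>
    abs_le.2 ⟨by linarith [h.t2_nonneg l], by linarith [h.t2_le l]⟩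
  have c1 : ∀ l, |tau1 l - 1 / 4| ≤ 1 / 4 := fun l =>
    abs_le.2 ⟨by linarith [h.t1_pos l], by linarith [h.t1_le l]⟩
  -- the individual bounds
  have T0 := core2c_amgm (F.LV_fv e continuous_tau2) lχ w.p0 (s - 1)
  rw [F.ip_fv e tau2 tau2] at T0
  have eI : (fun l => tau2 l * tau2 l) = fun l => tau2 l ^ 2 := by funext l; ring
  rw [eI] at T0
  have T2 := F.core2c_split continuous_tau2 c2 (F.LV_Ge e) lχ w.p2 1
  have T2' := core2c_mean0 (F.LV_Ge e) (F.int_Ge e) hχ w.p2' (44 / 1000)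
  have T3 := core2c_amgm (F.LV_G2 e) lχ w.p3 1
  have T4 : 2 * (-1 * ∑ k, ip (fun z => kA1 (F.L z) (F.X k z) *ᵥ e) (ψ k)) ≤
      F.sh e kA1 / w.r4 + w.r4 * ∑ k, ip (ψ k) (ψ k) := by
    unfold sh
    rw [Finset.mul_sum, Finset.mul_sum, Finset.sum_div, Finset.mul_sum, ← Finset.sum_add_distrib]
    refine Finset.sum_le_sum fun k _ => ?_
    have := core2c_amgm ((F.LM_kA1 k).mulVec e) (lψ k) w.p4 (-1)
    simpa using this
  have T5 := F.core2c_split continuous_tau1 c1 (F.LV_Ee e) lχ w.q2 1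
  have T6 : 2 * (-1 * ∑ k, ip (fun z => fm tau1 (F.L z) *ᵥ F.Ye e k z) (ψ k)) ≤
      (1 / 4) ^ 2 * F.b1 e / w.h3 + w.h3 * ∑ k, ip (ψ k) (ψ k)
        + 2 * (-1 * (1 / 4) * ∑ k, ip (F.Ye e k) (ψ k)) := by
    unfold b1
    rw [Finset.mul_sum, Finset.mul_sum, Finset.mul_sum, Finset.sum_div, Finset.mul_sum,
      Finset.mul_sum, Finset.mul_sum, ← Finset.sum_add_distrib, ← Finset.sum_add_distrib]
    refine Finset.sum_le_sum fun k _ => ?_
    have := F.core2c_split continuous_tau1 c1 (F.LV_Ye e k) (lψ k) w.q3 (-1)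
    rw [neg_one_sq, one_mul] at this
    exact this
  have T7 := F.core2c_cs1 h0 e hχ w.q1 (1 / 4)
  rw [F.mul_p2 he, F.mul_Q2 he]
  have s1 := mul_le_mul_of_nonneg_right w.sum1 hX
  have s2 := mul_le_mul_of_nonneg_right w.sum2 hY
  have hb0 : ip (F.Ee e) (F.Ee e) = F.b0 e := rfl
  rw [hb0] at T5
  have E1 : w.ep * ip (F.Ge e) (F.Ge e) = 1 ^ 2 * ((44 / 1000) ^ 2 * ip (F.Ge e) (F.Ge e)) / w.r2
      + (44 / 1000) ^ 2 * ip (F.Ge e) (F.Ge e) / w.r2' := by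
    unfold Wt.ep; ring
  have E2 : w.e1 * F.b1 e + w.e0 * F.b0 e = 1 ^ 2 * ((1 / 4) ^ 2 * F.b0 e) / w.h2
      + (1 / 4) ^ 2 * F.b1 e / w.h3 + (1 / 4) ^ 2 * (F.b1 e - 5 / 3 * F.b0 e) / w.h1 := by
    unfold Wt.e1 Wt.e0; ring
  rw [one_pow, one_mul, one_mul] at T3
  linarith

end Fld

end Crest.Agent.R253
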