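/-
Row 253 (S0390, S0391), file Scalar.  From the certificates to the bound for one direction.
Definitions: R253/Fun.lean, R253/Defs.lean.  Outline: R253/Blueprint.lean.  Keep the statements unchanged.
-/
import Crest.Agent.R253.Fun1

set_option autoImplicit false

namespace Crest.Agent.R253

open MeasureTheory ProbabilityTheory Matrix Filter Topology Crest.Agent.R203N

namespace Dir

variable (d : Dir)

theorem I_const (c : ℝ) : d.I (fun _ => c) = c := by
  have := d.I_smul c (fun _ => 1)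
  simpa [d.I_one] using this

theorem I_sub {u w : ℝ → ℝ} (hu : Continuous u) (hw : Continuous w) :
    d.I (fun l => u l - w l) = d.I u - d.I w := by
  have h1 := d.I_add u (fun l => (-1) * w l) hu (by fun_prop)
  rw [d.I_smul] at h1
  have e : (fun l => u l - w l) = fun l => u l + (-1) * w l := by funext l; ring
  rw [e, h1]; ring

theorem I_ge {u : ℝ → ℝ} (hu : Continuous u) {c : ℝ} (h : ∀ l, c ≤ u l) : c ≤ d.I u := by
  have h1 := d.I_nonneg (fun l => u l - c) fun l => sub_nonneg.2 (h l)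
  rw [d.I_sub hu continuous_const, d.I_const] at h1
  linarith

/-- `log A ≤ M A - 1 - log M`. -/
theorem log_le {M : ℝ} (hM : 0 < M) :
    (1 - M) * d.x - M * (d.A - d.x) + Real.log M ≤ d.x - 1 - Real.log d.A := by
  have h := Real.log_le_sub_one_of_pos (mul_pos hM d.A0)
  rw [Real.log_mul hM.ne' d.A0.ne'] at h
  linarith

theorem ScalarA_lin {f1 f2 f3 f4 : ℝ → ℝ} (h1 : Continuous f1) (h2 : Continuous f2) (h3 : Continuous f3)
    (h4 : Continuous f4) (k0 k1 k2 k3 k4 k5 k6 : ℝ) :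
    d.I (fun l => k0 + k1 * f1 l + k2 * f2 l + k3 * f3 l + k4 * f4 l + k5 * l + k6 * l ^ 2) =
      k0 + k1 * d.I f1 + k2 * d.I f2 + k3 * d.I f3 + k4 * d.I f4 + k6 * (d.s + d.b0) := by
  rw [d.I_add _ _ (by fun_prop) (by fun_prop), d.I_add _ _ (by fun_prop) (by fun_prop),
    d.I_add _ _ (by fun_prop) (by fun_prop), d.I_add _ _ (by fun_prop) (by fun_prop),
    d.I_add _ _ (by fun_prop) (by fun_prop), d.I_add _ _ (by fun_prop) (by fun_prop),
    d.I_const, d.I_smul, d.I_smul, d.I_smul, d.I_smul, d.I_smul k5 (fun l => l),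
    d.I_smul k6 (fun l => l ^ 2), d.I_id, d.I_sq]
  ring

/-- Apply `I` to the certificate (`I_ge`, linearity, `I_id`, `I_sq`); with `a = 1 - M` use `hP`,
`hEv` (`y = -2 Y0`, `t = a`), `hGn` (`y = -2 G`), `e3` (`t = -a/10`), `eY` (`t = a/(2 Y1)`),
`-a R2 ≥ -max a 0 * R2`, `hxi`, and `b1 ≥ 2 b0` for the remaining multiples of `b0`, `b1`. -/
theorem of_P (h : CertP d.s) : mg d.s ≤ d.tot := by
  obtain ⟨w, M, η, G, Y0, Y1, c0, c1, cG, β, g, hM, hη, hG, hY0, hY1, k1, k2, k3, k4, k5, hc⟩ := h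
  set a := 1 - M with ha
  set m := max a 0 with hm
  have m0 : 0 ≤ m := le_max_right _ _
  have ma : a ≤ m := le_max_left _ _
  have hI := d.I_ge (c := mg d.s) (u := fun l =>
      (a + Real.log M - g * d.s - a ^ 2 * d.s / (256 * Y1) - a ^ 2 * d.s / 20)
      + (a * (d.s - 1)) * nf l + (-(d.s / (4 * G))) * (a * nf l - cG) ^ 2
      + (-(1 / (4 * Y0))) * (a * vf l - c0 - c1 * l) ^ 2
      + (-(M * (d.s - 1) ^ 2 / w.r0)) * tau2 l ^ 2 + β * l + g * l ^ 2) (by fun_prop)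
    (fun l => (hc l).trans_eq (by ring))
  rw [ScalarA_lin d (f1 := nf) (f2 := fun l => (a * nf l - cG) ^ 2)
    (f3 := fun l => (a * vf l - c0 - c1 * l) ^ 2) (f4 := fun l => tau2 l ^ 2)
    (by fun_prop) (by fun_prop) (by fun_prop) (by fun_prop)] at hI
  obtain ⟨e3, eY, R2, hx, h3, hY, R0, hR⟩ := d.hP
  have hl := d.log_le hM
  have hE := d.hEv (-2 * Y0) a c0 c1
  have hN := d.hGn (-2 * G) a cG
  have hA := mul_le_mul_of_nonneg_left (d.hxi w) hM.le
  set IV := d.I fun l => (a * vf l - c0 - c1 * l) ^ 2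
  set IG := d.I fun l => (a * nf l - cG) ^ 2
  set I2 := d.I fun l => tau2 l ^ 2
  have u1 : c1 * d.b0 - Y0 * d.b0 - 1 / (4 * Y0) * IV ≤ a * d.Ev := by
    have : -(a * d.Ev - c1 * d.b0) - Y0 * d.b0 ≤ IV / (4 * Y0) := by
      rw [le_div_iff₀ (by positivity)]; linarith
    have e : IV / (4 * Y0) = 1 / (4 * Y0) * IV := by ring
    linarith
  have u2 : -(G * d.p2) - d.s / (4 * G) * IG ≤ a * d.Gn := by
    have : -(a * d.Gn) - G * d.p2 ≤ d.s * IG / (4 * G) := by
      rw [le_div_iff₀ (by positivity)]; linarith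
    have e : d.s * IG / (4 * G) = d.s / (4 * G) * IG := by ring
    linarith
  have u3 : -(a ^ 2 * d.s / 20) - 5 * d.Q3 ≤ a * e3 := by
    have := h3 (-a / 10)
    linarith
  have u4 : a * eY ≤ a ^ 2 * d.s / (256 * Y1) + Y1 * d.b1 := by
    have := mul_le_mul_of_nonneg_left (hY (a / (2 * Y1))) hY1.le
    have e1 : Y1 * (2 * (a / (2 * Y1)) * eY) = a * eY := by field_simp
    have e2 : Y1 * ((a / (2 * Y1)) ^ 2 * d.s / 64 + d.b1) = a ^ 2 * d.s / (256 * Y1) + Y1 * d.b1 := by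
      field_simp; ring
    rwa [e1, e2] at this
  have u5 : a * R2 ≤ m * ((1 + η) * d.b1 / 4 + (1 + 1 / η) * d.Q1) :=
    (mul_le_mul_of_nonneg_right ma R0).trans (mul_le_mul_of_nonneg_left (hR η hη) m0)
  have u6 : a * d.x = a + a * (d.s - 1) * d.I nf + a * d.Ev + a * d.Gn + a * e3 - a * eY - a * R2 := by
    linear_combination a * hx
  have v1 := mul_le_mul_of_nonneg_right k1 d.Q10
  have v2 := mul_le_mul_of_nonneg_right k2 d.Q20
  have v3 := mul_le_mul_of_nonneg_right k3 d.p20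
  have v4 := mul_le_mul_of_nonneg_left d.b01 (sub_nonneg.2 k4)
  have v5 := mul_le_mul_of_nonneg_right k5 d.b00
  have q4 := d.Q40
  have q6 := d.Q60
  unfold Dir.tot
  linear_combination hI + hl + u1 + u2 + u3 + u4 + u5 - u6 + hA + v1 + v2 + v3 + v4 + v5
    + 68 / 10 * q4 + 38 / 100 * q6

theorem scalarb_core {a G Y0 om cp z lam c0 cG β m C κ : ℝ} {u : ℝ → ℝ} (hu : Continuous u)
    (hG : 0 < G) (hY : 0 < Y0) (hom : 0 < om) (hA : Abs cp (a + cp ^ 2 / om) z)
    (h : ∀ l, m ≤ a * (2 * Tf l - tau l ^ 2) - 2 * cp * (l * tau l) + C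
      - d.s * (lam * tau1 l - cG) ^ 2 / (4 * G) - ((lam - 2 * cp) * tau l - c0) ^ 2 / (4 * Y0) + β * l
      - lam * (l * tau l - d.s * tau1 l) - lam ^ 2 * d.s / (4 * (68 / 10)) - κ * u l) :
    m ≤ a * d.x + C - κ * d.I u + (a + cp ^ 2 / om) * d.Q1 + z * d.Q6 + om * (d.b1 - 2 * d.b0)
      + Y0 * d.b0 + G * d.p2 + 68 / 10 * d.Q4 := by
  have hI := d.I_ge (c := m) (u := fun l => a * (2 * Tf l - tau l ^ 2)
    + -(2 * cp + lam) * (l * tau l) + -(d.s / (4 * G)) * (lam * tau1 l - cG) ^ 2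
    + -(1 / (4 * Y0)) * ((lam - 2 * cp) * tau l - c0) ^ 2 + β * l + lam * d.s * tau1 l + -κ * u l
    + (C - lam ^ 2 * d.s / (4 * (68 / 10)))) (by fun_prop) fun l => (h l).trans_eq (by ring)
  rw [d.I_add _ _ (by fun_prop) (by fun_prop), d.I_add _ _ (by fun_prop) (by fun_prop),
    d.I_add _ _ (by fun_prop) (by fun_prop), d.I_add _ _ (by fun_prop) (by fun_prop),
    d.I_add _ _ (by fun_prop) (by fun_prop), d.I_add _ _ (by fun_prop) (by fun_prop),
    d.I_add _ _ (by fun_prop) (by fun_prop), d.I_const, d.I_smul, d.I_smul, d.I_smul, d.I_smul,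
    d.I_smul β fun l => l, d.I_smul, d.I_smul, d.I_id] at hI
  obtain ⟨e4, hS, h4⟩ := d.hS
  have hx := d.hx
  have hK := d.hK _ _ _ hA
  have hU := mul_le_mul_of_nonneg_left (d.hU (cp / om)) hom.le
  have hE := mul_le_mul_of_nonneg_left (d.hEt (-2 * Y0) (lam - 2 * cp) c0)
    (show 0 ≤ 1 / (4 * Y0) by positivity)
  have hT := mul_le_mul_of_nonneg_left (d.hGt (-2 * G) lam cG) (show 0 ≤ 1 / (4 * G) by positivity)
  have h4' : -(lam * e4) ≤ lam ^ 2 * d.s / (4 * (68 / 10)) + 68 / 10 * d.Q4 := by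
    have h5 := h4 (-(5 / 68 * lam))
    rw [show lam ^ 2 * d.s / (4 * (68 / 10)) = 5 / 136 * (lam ^ 2 * d.s) by ring]
    linarith
  generalize lam ^ 2 * d.s / (4 * (68 / 10)) = W at *
  generalize d.I (fun l => 2 * Tf l - tau l ^ 2) = IU at *
  generalize d.I (fun l => l * tau l) = J at *
  generalize d.I (fun l => (lam * tau1 l - cG) ^ 2) = IG at *
  generalize d.I (fun l => ((lam - 2 * cp) * tau l - c0) ^ 2) = IE at *
  have e1 : om * (2 * (cp / om) * (d.Xc - J - d.Et)) = 2 * cp * (d.Xc - J - d.Et) := by field_simp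
  have e2 : om * (d.b1 - 2 * d.b0 + (cp / om) ^ 2 * d.N) =
      om * (d.b1 - 2 * d.b0) + cp ^ 2 / om * d.N := by field_simp
  have e3 : 1 / (4 * Y0) * (2 * (-2 * Y0) * ((lam - 2 * cp) * d.Et)) = -((lam - 2 * cp) * d.Et) := by
    field_simp
    ring
  have e4' : 1 / (4 * Y0) * ((-2 * Y0) ^ 2 * d.b0 + IE) = Y0 * d.b0 + 1 / (4 * Y0) * IE := by
    field_simp
    ring
  have e5 : 1 / (4 * G) * (2 * (-2 * G) * (lam * d.Gt)) = -(lam * d.Gt) := by
    field_simp
    ring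
  have e6 : 1 / (4 * G) * ((-2 * G) ^ 2 * d.p2 + d.s * IG) = G * d.p2 + d.s / (4 * G) * IG := by
    field_simp
    ring
  rw [e1, e2] at hU
  rw [e3, e4'] at hE
  rw [e5, e6] at hT
  have e7 : lam * (J - d.s * d.I tau1) = lam * (d.Et + d.Gt + e4) := by rw [hS]
  rw [hx]
  linarith

/-- `hx`, `hU` (`t = cp/om`, times `om`), `hK` (`a = 1 - M + cp²/om`), `hS` times `lam`
(`e4` with `t = -lam/(2 * 6.8)`), `hEt` (`t = lam - 2cp`, `y = -2 Y0`), `hGt` (`y = -2 G`), `hxi`. -/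
theorem of_R (h : CertR d.s) : mg d.s ≤ d.tot := by
  obtain ⟨w, M, G, Y0, om, cp, z, lam, c0, cG, β, hM, hG, hY, hom, hA, hz, h1, h2, h3, h4, h5, h⟩ := h
  have hc := d.scalarb_core (u := fun l => tau2 l ^ 2) (κ := M * (d.s - 1) ^ 2 / w.r0)
    (m := mg d.s) (C := Real.log M) (β := β) (c0 := c0) (cG := cG) (lam := lam) (by fun_prop) hG hY hom hA
    fun l => (h l).trans_eq (by ring)
  have hl := d.log_le hM
  have hxi := mul_le_mul_of_nonneg_left (d.hxi w) hM.le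
  have a1 := mul_le_mul_of_nonneg_right h1 d.Q10
  have a2 := mul_le_mul_of_nonneg_right h2 d.Q20
  have a3 := mul_le_mul_of_nonneg_right h3 d.p20
  have a4 := mul_nonneg (sub_nonneg.2 h4) (sub_nonneg.2 d.b01)
  have a5 := mul_le_mul_of_nonneg_right h5 d.b00
  have a6 := mul_le_mul_of_nonneg_right hz d.Q60
  have a7 := d.Q30
  have e : M * (d.x + (d.s - 1) ^ 2 * d.I (fun l => tau2 l ^ 2) / w.r0 + d.s * d.Q2 / w.r3
      + w.ep * (d.s * d.p2) + d.Q1 / w.r4 + w.e1 * d.b1 + w.e0 * d.b0) =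
      M * d.x + M * (d.s - 1) ^ 2 / w.r0 * d.I (fun l => tau2 l ^ 2) + M * d.s / w.r3 * d.Q2
      + M * d.s * w.ep * d.p2 + M / w.r4 * d.Q1 + M * w.e1 * d.b1 + M * w.e0 * d.b0 := by ring
  rw [e] at hxi
  unfold tot
  linarith

/-- As `of_R` with `x - 1 - log A ≥ x - M A + log M` and `htriv`. -/
theorem of_T (h : CertT d.s) : mg d.s ≤ d.tot := by
  obtain ⟨M, om, cp, z, lam, c0, cG, β, hM, hom, hA, hz, h1, h4, h⟩ := h
  have hc := d.scalarb_core (u := fun l => haz l ^ 2) (κ := M) (G := 1 / 10) (Y0 := 795 / 1000)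
    (m := mg d.s) (C := Real.log M) (β := β) (c0 := c0) (cG := cG) (lam := lam) (by fun_prop)
    (by norm_num) (by norm_num) hom hA fun l => (h l).trans_eq (by ring)
  have hl := d.log_le hM
  have hxi := mul_le_mul_of_nonneg_left d.htriv hM.le
  have a1 := mul_le_mul_of_nonneg_right h1 d.Q10
  have a2 := d.Q20
  have a4 := mul_nonneg (sub_nonneg.2 h4) (sub_nonneg.2 d.b01)
  have a6 := mul_le_mul_of_nonneg_right hz d.Q60
  have a7 := d.Q30
  unfold tot
  linarith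

theorem main (h : Num) : mg d.s ≤ d.tot := by
  rcases h.cert d.s d.s0 with h | h | h
  · exact d.of_P h
  · exact d.of_R h
  · exact d.of_T h

end Dir

end Crest.Agent.R253
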