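/-
Row 253 (S0390, S0391), file Core3.  Summation over the directions: the core inequality.
Definitions: R253/Fun.lean, R253/Defs.lean.  Outline: R253/Blueprint.lean.  Keep the statements unchanged.
-/
import Crest.Agent.R253.Core2
import Crest.Agent.R253.Scalar

set_option autoImplicit false

namespace Crest.Agent.R253

open MeasureTheory ProbabilityTheory Matrix Filter Topology Crest.Agent.R203N

variable {ι : Type} [Fintype ι] [DecidableEq ι]

namespace Fld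

variable (F : Fld ι)

theorem sh_nonneg (e : ι → ℝ) (K : Matrix ι ι ℝ → Matrix ι ι ℝ → Matrix ι ι ℝ) : 0 ≤ F.sh e K :=
  Finset.sum_nonneg fun _ _ => ip_nonneg _

/-- The data of one direction. -/
noncomputable def dir (h : NF) (h0 : F.Cen) {e : ι → ℝ} {s : ℝ} (he : F.Eig e s) : Dir where
  I := F.I e
  s := s
  b0 := F.b0 e
  b1 := F.b1 e
  p2 := F.p2 e s
  Q1 := F.sh e kA1
  Q2 := F.Q2 e s
  Q3 := F.sh e kA3
  Q4 := F.sh e kA4
  Q6 := F.sh e kA6
  N := F.N e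
  x := F.x e
  A := F.A e
  Xc := F.Xc e
  Ev := ip (F.Ee e) (F.fv e vf)
  Et := ip (F.Ee e) (F.fv e tau)
  Gn := ip (F.Ge e) (F.fv e nf)
  Gt := ip (F.Ge e) (F.fv e tau1)
  I_add := fun _ _ hu hw => F.I_add e hu hw
  I_smul := F.I_smul e
  I_nonneg := fun _ hu => F.I_nonneg e hu
  I_one := by rw [F.I_const, he.1, mul_one]
  I_id := F.I_id e h0
  I_sq := F.I_sq he
  s0 := he.nonneg
  b00 := ip_nonneg _
  b01 := F.b01 h0
  p20 := div_nonneg (ip_nonneg _) he.nonneg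
  Q10 := F.sh_nonneg _ _
  Q20 := div_nonneg (ip_nonneg _) he.nonneg
  Q30 := F.sh_nonneg _ _
  Q40 := F.sh_nonneg _ _
  Q60 := F.sh_nonneg _ _
  A0 := F.A_pos (by rintro rfl; simpa using he.1)
  hx := rfl
  hEv := F.pairE h0 continuous_vf
  hEt := fun y t c0 => by simpa using F.pairE (e := e) h0 continuous_tau y t c0 0
  hGn := F.pairG he continuous_nf
  hGt := F.pairG he continuous_tau1
  hP := F.hP h he
  hS := F.stein he
  hU := F.hU h0
  hK := fun _ _ _ hz => F.hK h hz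
  hxi := F.hxi h h0 he
  htriv := F.htriv e

variable {O : Matrix ι ι ℝ} {s : ι → ℝ}

theorem eig_col (hO : Orth O) (hS : F.S = Dg O s) (i : ι) : F.Eig (fun a => O a i) (s i) := by
  refine ⟨?_, ?_⟩
  · rw [hO.col_dot i i, Matrix.one_apply_eq]
  · rw [hS]; exact Dg_mulVec_col hO s i

theorem sum_I (hO : Orth O) {u : ℝ → ℝ} (hu : Continuous u) :
    ∑ i, F.I (fun a => O a i) u = ∫ z, (fm u (F.L z)).trace ∂γ ι := by
  unfold I
  rw [← integral_finsetSum _ fun i _ =>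
    (LV_const (fun a => O a i)).int_dot ((F.BM_fm hu).lm.mulVec fun a => O a i)]
  refine integral_congr_ae (Eventually.of_forall fun z => ?_)
  simp only
  rw [← trace_conj hO (fm u (F.L z)), Matrix.trace]
  exact Finset.sum_congr rfl fun i _ => (conj_apply O _ i i).symm

theorem sum_sh (hO : Orth O) {K : Matrix ι ι ℝ → Matrix ι ι ℝ → Matrix ι ι ℝ}
    (hK : ∀ k, LM fun z => K (F.L z) (F.X k z)) :
    ∑ i, F.sh (fun a => O a i) K = ∑ k, ∫ z, hs (K (F.L z) (F.X k z)) ∂γ ι := by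
  unfold sh
  rw [Finset.sum_comm]
  exact Finset.sum_congr rfl fun k _ => (int_hs_eq (hK k) hO).symm

theorem c3a_int_le {K : Matrix ι ι ℝ → Matrix ι ι ℝ → Matrix ι ι ℝ}
    (hK : ∀ k, LM fun z => K (F.L z) (F.X k z)) {c : ℝ}
    (hc : ∀ A X : Matrix ι ι ℝ, A.IsSymm → X.IsSymm → hs (K A X) ≤ c * sur A X) :
    ∑ k, ∫ z, hs (K (F.L z) (F.X k z)) ∂γ ι ≤ c * F.Sur := by
  rw [Sur, Finset.mul_sum]
  refine Finset.sum_le_sum fun k _ => ?_
  rw [← integral_const_mul]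
  exact integral_mono (hs_int (hK k)).1 ((F.int_sur k).const_mul c) fun z =>
    hc _ _ (F.sL z).1 (F.sX k z)

theorem sum_sh_le (hO : Orth O) {K : Matrix ι ι ℝ → Matrix ι ι ℝ → Matrix ι ι ℝ}
    (hK : ∀ k, LM fun z => K (F.L z) (F.X k z)) {c : ℝ}
    (hc : ∀ A X : Matrix ι ι ℝ, A.IsSymm → X.IsSymm → hs (K A X) ≤ c * sur A X) :
    ∑ i, F.sh (fun a => O a i) K ≤ c * F.Sur := by
  rw [F.sum_sh hO hK]
  exact F.c3a_int_le hK hc

theorem c3a_dir {e : ι → ℝ} {t : ℝ} (he : F.Eig e t) : F.b1 e - F.b0 e =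
    (∑ k, ip (fun z => F.X k z *ᵥ e) fun z => F.X k z *ᵥ e)
      - ip (fun z => F.L z *ᵥ e) fun z => F.L z *ᵥ e := by
  have h1 : ∀ k, (ip (fun z => F.X k z *ᵥ e) fun z => F.X k z *ᵥ e) =
      (F.D k *ᵥ e) ⬝ᵥ (F.D k *ᵥ e) + ip (F.Ye e k) (F.Ye e k) := fun k => by
    have a : (fun z => F.X k z *ᵥ e) = fun z => F.D k *ᵥ e + F.Ye e k z := by
      funext z; simp [Ye, Y, Matrix.sub_mulVec]
    have c := LV_const (ι := ι) (F.D k *ᵥ e)
    have y := F.LV_Ye e k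
    have z0 := ip_const_of_mean y (F.int_Ye e k) (F.D k *ᵥ e)
    rw [a, ip_add_left c y (c.add y), ip_add_right c c y, ip_add_right y c y, ip_const,
      ip_comm (fun _ => F.D k *ᵥ e) (F.Ye e k), z0]
    ring
  have h2 : (ip (fun z => F.L z *ᵥ e) fun z => F.L z *ᵥ e) = t + F.b0 e := by
    have a : (fun z => F.L z *ᵥ e) = F.fv e fun l => l := by
      funext z; rw [fv, fm_id (F.sL z).1]
    rw [a, F.ip_fv, ← F.I_sq he]
    simp only [sq]
  simp only [h1, Finset.sum_add_distrib]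
  rw [h2, F.sum_De_dot, he.2, dotProduct_smul, he.1, b1]
  simp

/-- `|X_k e|² = |D_k e|² + |Y_k e|²` in the mean, `|L e|² = s + b0`. -/
theorem sum_b (hO : Orth O) (hS : F.S = Dg O s) :
    ∑ i, (F.b1 (fun a => O a i) - F.b0 (fun a => O a i)) = F.be := by
  rw [Finset.sum_congr rfl fun i _ => F.c3a_dir (F.eig_col hO hS i), Finset.sum_sub_distrib,
    Finset.sum_comm, be, int_hs_eq F.BM_L.lm hO]
  congr 1
  exact Finset.sum_congr rfl fun k _ => (int_hs_eq (F.LM_X k) hO).symm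

theorem sum_b1 (hO : Orth O) : ∑ i, F.b1 (fun a => O a i) = ∑ k, ∫ z, hs (F.Y k z) ∂γ ι := by
  unfold b1
  rw [Finset.sum_comm]
  exact Finset.sum_congr rfl fun k _ => (int_hs_eq (F.LM_Y k) hO).symm

theorem sum_b0 (hO : Orth O) : ∑ i, F.b0 (fun a => O a i) = ∫ z, hs (F.E z) ∂γ ι :=
  (int_hs_eq F.LM_E hO).symm

theorem int_hs_Y_le (h0 : F.Cen) : ∑ k, ∫ z, hs (F.Y k z) ∂γ ι ≤ 2 * F.be := by
  obtain ⟨O, s, hO, hS⟩ := exists_Dg F.S_symm
  rw [← F.sum_b hO hS, ← F.sum_b1 hO, Finset.mul_sum]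
  exact Finset.sum_le_sum fun i _ => by linarith [F.b01 (e := fun a => O a i) h0]

theorem int_hs_E_le (h0 : F.Cen) : ∫ z, hs (F.E z) ∂γ ι ≤ F.be := by
  obtain ⟨O, s, hO, hS⟩ := exists_Dg F.S_symm
  rw [← F.sum_b hO hS, ← F.sum_b0 hO]
  exact Finset.sum_le_sum fun i _ => by linarith [F.b01 (e := fun a => O a i) h0]

theorem c3a_iso (hO : Orth O) (hS : F.S = Dg O s) {M : ι → (ι → ℝ) → Matrix ι ι ℝ}
    (hM : ∀ k, LM (M k)) :
    ∑ i, ip (fun z => ∑ k, M k z *ᵥ (F.D k *ᵥ fun a => O a i))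
      (fun z => ∑ k, M k z *ᵥ (F.D k *ᵥ fun a => O a i)) / s i ≤ ∑ k, ∫ z, hs (M k z) ∂γ ι := by
  have hv : ∀ i, LV fun z => ∑ k, M k z *ᵥ (F.D k *ᵥ fun a => O a i) := fun i =>
    LV.sum Finset.univ fun k _ => (hM k).mulVec _
  have hi := fun i => ((hv i).int_dot (hv i)).div_const (s i)
  unfold ip
  simp only [← integral_div]
  rw [← integral_finsetSum _ fun i _ => hi i, ← integral_finsetSum _ fun k _ => (hs_int (hM k)).1]
  exact integral_mono (integrable_finsetSum _ fun i _ => hi i)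
    (integrable_finsetSum _ fun k _ => (hs_int (hM k)).1) fun z =>
      isometry_bound F.D_symm hO hS fun k => M k z

/-- `isometry_bound`. -/
theorem sum_p2 (h0 : F.Cen) (hO : Orth O) (hS : F.S = Dg O s) :
    ∑ i, F.p2 (fun a => O a i) (s i) ≤ 2 * F.be :=
  (F.c3a_iso hO hS F.LM_Y).trans (F.int_hs_Y_le h0)

theorem sum_Q2 (h : NF) (hO : Orth O) (hS : F.S = Dg O s) :
    ∑ i, F.Q2 (fun a => O a i) (s i) ≤ 3 * (41 / 1000) ^ 2 * F.Sur :=
  (F.c3a_iso hO hS F.LM_kA2).trans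
    (F.c3a_int_le F.LM_kA2 fun _ _ hA hX => hs_kA2_le h hA hX)

theorem cmm_le : 0 ≤ F.cmm ∧ F.cmm ≤ 12 * F.Sur :=
  ⟨Finset.sum_nonneg fun _ _ => integral_nonneg fun _ => hs_nonneg _,
    F.c3a_int_le (K := cm gf) (F.LM_cm continuous_gf) fun _ X hA _ => hs_cm_gf_le hA X⟩

/-! ### Second part -/

theorem c3b_int_trace {u : ℝ → ℝ} (hu : Continuous u) :
    Integrable (fun z => (fm u (F.L z)).trace) (γ ι) :=
  integrable_finsetSum _ fun i _ => L2.int ((F.BM_fm hu).lm i i)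

/-- `con` for `w = τ²/2`, `kernel_ineq`, `ae_sym3`. -/
theorem key (h : NF) : (∑ k, ∫ z, hs (F.X k z) ∂γ ι) - (∑ k, ∫ z, hs (F.dt k z) ∂γ ι) + F.Sur ≤
    ∫ z, (fm (fun l => tau l ^ 2) (F.L z)).trace ∂γ ι := by
  have i1 : ∀ k, Integrable (fun z => hs (F.X k z)) (γ ι) := fun k => (hs_int (F.LM_X k)).1
  have i2 : ∀ k, Integrable (fun z => hs (F.dt k z)) (γ ι) := fun k =>
    (hs_int (F.LM_Df C2_tau k)).1
  have i3 := F.int_sur
  have i4 : ∀ k, Integrable (fun z => hs (F.X k z) - hs (F.dt k z) + sur (F.L z) (F.X k z)) (γ ι) :=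
    fun k => ((i1 k).sub (i2 k)).add (i3 k)
  have e1 : (∑ k, ∫ z, hs (F.X k z) ∂γ ι) - (∑ k, ∫ z, hs (F.dt k z) ∂γ ι) + F.Sur =
      ∫ z, ∑ k, (hs (F.X k z) - hs (F.dt k z) + sur (F.L z) (F.X k z)) ∂γ ι := by
    rw [integral_finsetSum _ fun k _ => i4 k, Sur, ← Finset.sum_sub_distrib,
      ← Finset.sum_add_distrib]
    refine Finset.sum_congr rfl fun k _ => ?_
    have i5 : Integrable (fun z => hs (F.X k z) - hs (F.dt k z)) (γ ι) := (i1 k).sub (i2 k)
    rw [integral_add i5 (i3 k), integral_sub (i1 k) (i2 k)]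
  have e2 : ∫ z, ∑ k, (hs (F.X k z) - hs (F.dt k z) + sur (F.L z) (F.X k z)) ∂γ ι ≤
      ∫ z, 2 * Kq (fun l => tau l ^ 2 / 2) (fun l => tau l * tau1 l) (F.L z) (fun k => F.X k z)
        ∂γ ι := by
    refine integral_mono_ae (integrable_finsetSum _ fun k _ => i4 k)
      ((F.int_Kq C2_sq).const_mul 2) ?_
    filter_upwards [F.ae_sym3] with z hz
    exact kernel_ineq h (F.sL z).1 (fun k => F.sX k z) hz
  have e3 := F.con _ _ C2_sq fun l => by have := tau_pos l; positivity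
  have e4 : ∫ z, (fm (fun l => tau l ^ 2) (F.L z)).trace ∂γ ι =
      2 * ∫ z, (fm (fun l => tau l ^ 2 / 2) (F.L z)).trace ∂γ ι := by
    rw [← integral_const_mul]
    refine integral_congr_ae (Eventually.of_forall fun z => ?_)
    have : (fun l => tau l ^ 2) = fun l => 2 * (tau l ^ 2 / 2) := funext fun l => by ring
    simp only
    rw [this, fm_smul, trace_smul, smul_eq_mul]
  rw [integral_const_mul] at e2
  linarith

/-- `lh_eq`: `2 E tr lh(L) + m (log 2π - 1) = 2 E tr T(L) - E hs L - m`, and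
`∑ x_i = 2 E tr T(L) - E tr τ²(L) - ∑ E hs (∂τ)`. -/
theorem gap_ge (h : NF) (hO : Orth O) : F.be + F.Sur
    + ∑ i, (F.x (fun a => O a i) - 1 - Real.log (F.A fun a => O a i)) ≤ F.gap := by
  have cT : Continuous fun l => 2 * Tf l := by fun_prop
  have ct : Continuous fun l => tau l ^ 2 := by fun_prop
  have h1 : ∑ i, F.x (fun a => O a i) = 2 * (∫ z, (fm Tf (F.L z)).trace ∂γ ι)
      - (∫ z, (fm (fun l => tau l ^ 2) (F.L z)).trace ∂γ ι) - ∑ k, ∫ z, hs (F.dt k z) ∂γ ι := by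
    have a1 : ∑ i, F.N (fun a => O a i) = ∑ k, ∫ z, hs (F.dt k z) ∂γ ι :=
      F.sum_sh hO (K := Df tau tau1) (F.LM_Df C2_tau)
    have a2 : ∀ i, F.x (fun a => O a i) = 2 * F.I (fun a => O a i) Tf
        - F.I (fun a => O a i) (fun l => tau l ^ 2) - F.N (fun a => O a i) := fun i => by
      rw [x, F.I_sub _ cT ct, F.I_smul]
    simp only [a2, Finset.sum_sub_distrib, ← Finset.mul_sum]
    rw [a1, F.sum_I hO continuous_Tf, F.sum_I hO ct]
  have h2 : ∫ z, (fm lh (F.L z)).trace ∂γ ι = (∫ z, (fm Tf (F.L z)).trace ∂γ ι)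
      - (∫ z, hs (F.L z) ∂γ ι) / 2 - dim ι * (Real.log (2 * Real.pi) / 2) := by
    have a1 : ∀ z, (fm lh (F.L z)).trace = (fm Tf (F.L z)).trace - hs (F.L z) / 2
        - dim ι * (Real.log (2 * Real.pi) / 2) := fun z => by
      obtain ⟨U, a, hU, e⟩ := exists_Dg (F.sL z).1
      rw [e, fm_Dg _ hU, fm_Dg _ hU, trace_Dg hU, trace_Dg hU, hs_Dg hU]
      simp only [lh_eq, Finset.sum_sub_distrib, Finset.sum_const, Finset.card_univ, nsmul_eq_mul,
        Finset.sum_div]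
    simp only [a1]
    have i1 := F.c3b_int_trace continuous_Tf
    have i2 : Integrable (fun z => hs (F.L z) / 2) (γ ι) := (hs_int F.BM_L.lm).1.div_const 2
    have i3 : Integrable (fun z => (fm Tf (F.L z)).trace - hs (F.L z) / 2) (γ ι) := i1.sub i2
    rw [integral_sub i3 (integrable_const _), integral_sub i1 i2, integral_div]
    simp
  have h3 : Real.log F.cov.det ≤ ∑ i, Real.log (F.A fun a => O a i) :=
    hadamard F.cov_symm (fun x hx => F.A_pos hx) hO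
  have h4 := F.key h
  simp only [Finset.sum_sub_distrib, Finset.sum_const, Finset.card_univ, nsmul_eq_mul, mul_one]
  rw [h1, gap, h2, be]
  simp only [dim]
  linarith

/-- Sum `Dir.main` over an eigenbasis of `S`.  Budget: `0.795 + 0.2 ≤ 0.999` and
`11 K₁ + 26 K₂ + 5 K₃ + 6.8 K₁ + 0.38 K₆ + 0.012 ≤ 1`. -/
theorem core (h : Num) (h0 : F.Cen) : F.defect ≤ F.gap := by
  obtain ⟨O, s, hO, hS⟩ := exists_Dg F.S_symm
  have hn := h.nf
  have m : ∀ i, mg (s i) ≤ 795 / 1000 * (F.b1 (fun a => O a i) - F.b0 (fun a => O a i))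
      + F.p2 (fun a => O a i) (s i) / 10 + 11 * F.sh (fun a => O a i) kA1
      + 26 * F.Q2 (fun a => O a i) (s i) + 5 * F.sh (fun a => O a i) kA3
      + 68 / 10 * F.sh (fun a => O a i) kA4 + 38 / 100 * F.sh (fun a => O a i) kA6
      + (F.x (fun a => O a i) - 1 - Real.log (F.A fun a => O a i)) := fun i => by
    have := (F.dir hn h0 (F.eig_col hO hS i)).main h
    simp only [Dir.tot, dir] at this
    linarith
  have m2 := Finset.sum_le_sum fun i (_ : i ∈ Finset.univ) => m i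
  simp only [Finset.sum_add_distrib, ← Finset.mul_sum, ← Finset.sum_div] at m2
  have t : (fm mg F.S).trace = ∑ i, mg (s i) := by rw [hS, fm_Dg _ hO, trace_Dg hO]
  have b := F.sum_b hO hS
  have p := F.sum_p2 h0 hO hS
  have q1 := F.sum_sh_le hO F.LM_kA1 fun A X hA hX => hs_kA1_le hn hA hX
  have q2 := F.sum_Q2 hn hO hS
  have q3 := F.sum_sh_le hO F.LM_kA3 fun A X hA hX => hs_kA3_le hn hA hX
  have q4 := F.sum_sh_le hO F.LM_kA4 fun A X hA hX => hs_kA4_le hn hA hX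
  have q6 := F.sum_sh_le hO (F.LM_kA6 hn) fun A X hA hX => hs_kA6_le hn hA hX
  have g := F.gap_ge hn hO
  have c := F.cmm_le
  have be0 : 0 ≤ F.be := (integral_nonneg fun z => hs_nonneg _).trans (F.int_hs_E_le h0)
  rw [defect, t]
  linarith [c.1, c.2]

theorem defect_parts (h0 : F.Cen) : 0 ≤ F.be ∧ 0 ≤ F.cmm ∧ 0 ≤ (fm mg F.S).trace := by
  refine ⟨(integral_nonneg fun z => hs_nonneg _).trans (F.int_hs_E_le h0), F.cmm_le.1, ?_⟩
  obtain ⟨O, s, hO, hS⟩ := exists_Dg F.S_symm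
  rw [hS, fm_Dg _ hO, trace_Dg hO]
  exact Finset.sum_nonneg fun i _ => div_nonneg (le_min (sq_nonneg _) zero_le_one) (by norm_num)

end Fld

end Crest.Agent.R253
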