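/-
Row 253 (S0390, S0391), file Eq1.  Fields with vanishing defect converge to the extremal map.
Definitions: R253/Fun.lean, R253/Defs.lean.  Outline: R253/Blueprint.lean.  Keep the statements unchanged.
-/
import Crest.Agent.R253.Core3
import Crest.Agent.R253.Expo
import Crest.Agent.R203N.EqAlg

set_option autoImplicit false

namespace Crest.Agent.R253

open MeasureTheory ProbabilityTheory Matrix Filter Topology Crest.Agent.R203N

variable {ι : Type} [Fintype ι] [DecidableEq ι]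

/-- `Stein_ibp` with `u = 1` (or `int_lineDeriv_zero`) for `g = u He_α ρ`; `He_add_single`, `fderiv_He`. -/
theorem WG_of_C1 {u : (ι → ℝ) → ℝ} (hu : ContDiff ℝ 1 u) {C : ℝ} {k : ℕ}
    (h0 : ∀ z, |u z| ≤ C * (1 + ‖z‖) ^ k)
    (h1 : ∀ z j, |fderiv ℝ u z (Pi.single j 1)| ≤ C * (1 + ‖z‖) ^ k) :
    WG u fun j z => fderiv ℝ u z (Pi.single j 1) := by
  have hu2 : L2 u := L2_of_growth hu.continuous.aestronglyMeasurable C k h0
  have hg2 : ∀ j, L2 fun z => fderiv ℝ u z (Pi.single j 1) := fun j =>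
    L2_of_growth (measurable_fderiv_apply_const ℝ u _).aestronglyMeasurable C k fun z => h1 z j
  refine ⟨hu2, hg2, fun α j => ?_⟩
  have hd : ∀ z, fderiv ℝ (fun z => He α z * Stein_rho z) z (Pi.single j 1) =
      -(He (α + Pi.single j 1) z * Stein_rho z) := fun z => by
    rw [fderiv_fun_mul ((contDiff_He α).differentiable one_ne_zero z)
      (Stein_rho_sm.differentiable one_ne_zero z)]
    simp only [_root_.add_apply, _root_.smul_apply, smul_eq_mul,
      Stein_fderiv_rho, fderiv_He, He_add_single]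
    ring
  have key := integral_mul_fderiv_eq_neg_fderiv_mul_of_integrable (μ := volume) (f := u)
    (g := fun z => He α z * Stein_rho z) (v := Pi.single j 1)
    ((Stein_integrable ((hg2 j).mul_int (L2_He α))).congr (Eventually.of_forall fun z => by
      simp only; ring))
    ((Stein_integrable (hu2.mul_int (L2_He (α + Pi.single j 1)))).neg.congr
      (Eventually.of_forall fun z => by simp only [hd, Pi.neg_apply]; ring))
    ((Stein_integrable (hu2.mul_int (L2_He α))).congr (Eventually.of_forall fun z => by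
      simp only; ring))
    (fun z _ => hu.differentiable one_ne_zero z)
    (fun z _ => ((contDiff_He α).mul Stein_rho_sm).differentiable one_ne_zero z)
  rw [co, co, Stein_int, Stein_int]
  simp only [hd, mul_neg, integral_neg, neg_inj] at key
  simpa only [mul_assoc] using key

theorem Eq1a_one (c : ι → ℝ) :
    WG (fun z => Tf (∑ j, c j * z j)) fun j z => haz (∑ j, c j * z j) * c j := by
  have hl : ∀ z : ι → ℝ, HasFDerivAt (fun z : ι → ℝ => ∑ j, c j * z j)
      (∑ j, c j • ContinuousLinearMap.proj (R := ℝ) (φ := fun _ : ι => ℝ) j) z := fun z =>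
    HasFDerivAt.fun_sum fun j _ => (hasFDerivAt_apply j z).const_mul (c j)
  have hd : ∀ (z : ι → ℝ) (j : ι), fderiv ℝ (fun z : ι → ℝ => Tf (∑ j, c j * z j)) z (Pi.single j 1) =
      haz (∑ j, c j * z j) * c j := fun z j => by
    have := ((hasDerivAt_Tf _).comp_hasFDerivAt z (hl z)).fderiv
    refine (congrArg (fun T : (ι → ℝ) →L[ℝ] ℝ => T (Pi.single j 1)) this).trans ?_
    simp [Pi.single_apply]
  have hT : ContDiff ℝ 1 Tf := contDiff_one_iff_deriv.2 ⟨fun l => (hasDerivAt_Tf l).differentiableAt,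
    by rw [funext fun l => (hasDerivAt_Tf l).deriv]; exact continuous_haz⟩
  set s : ℝ := ∑ j, |c j| with hs
  have hs0 : 0 ≤ s := Finset.sum_nonneg fun j _ => abs_nonneg _
  have hcs : ∀ j, |c j| ≤ s := fun j =>
    Finset.single_le_sum (f := fun j => |c j|) (fun j _ => abs_nonneg _) (Finset.mem_univ j)
  have hb : ∀ z : ι → ℝ, |∑ j, c j * z j| ≤ s * ‖z‖ := fun z => by
    refine (Finset.abs_sum_le_sum_abs _ _).trans ?_
    rw [hs, Finset.sum_mul]
    refine Finset.sum_le_sum fun j _ => ?_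
    rw [abs_mul]
    exact mul_le_mul_of_nonneg_left (norm_le_pi_norm z j) (abs_nonneg _)
  have hP : 0 ≤ |Real.log (2 * Real.pi)| := abs_nonneg _
  have key := WG_of_C1 (u := fun z : ι → ℝ => Tf (∑ j, c j * z j)) (hT.comp (by fun_prop))
    (C := 3 * (1 + s) ^ 2 + |Real.log (2 * Real.pi)|) (k := 2) (fun z => ?_) (fun z j => ?_)
  · simpa only [hd] using key
  · have h1 := abs_loghaz_le (∑ j, c j * z j)
    have h2 : (∑ j, c j * z j) ^ 2 ≤ (s * ‖z‖) ^ 2 := by
      rw [← sq_abs]; exact pow_le_pow_left₀ (abs_nonneg _) (hb z) 2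
    have hz := norm_nonneg z
    have h3 : 1 + (s * ‖z‖) ^ 2 ≤ (1 + s) ^ 2 * (1 + ‖z‖) ^ 2 := by
      have : (1 + s) ^ 2 * (1 + ‖z‖) ^ 2 = (1 + (s + ‖z‖ + s * ‖z‖)) ^ 2 := by ring
      rw [this]
      have h4 := mul_nonneg hs0 hz
      nlinarith
    have h5 : 1 ≤ (1 + ‖z‖) ^ 2 := by nlinarith
    have h6 := mul_le_mul_of_nonneg_left h5 hP
    have h7 := le_abs_self (Real.log (2 * Real.pi))
    have h8 := le_abs_self (Real.log (haz (∑ j, c j * z j)))
    rw [abs_of_pos (Tf_pos _), Tf]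
    nlinarith [sq_nonneg (∑ j, c j * z j)]
  · rw [hd, abs_mul, abs_of_pos (haz_pos _)]
    have h1 := haz_sub_le (∑ j, c j * z j)
    have h2 := le_abs_self (∑ j, c j * z j)
    have h3 := hb z
    have hz := norm_nonneg z
    have h4 : haz (∑ j, c j * z j) ≤ 1 + 2 * (s * ‖z‖) := by linarith
    have h5 := mul_nonneg hs0 hz
    calc haz (∑ j, c j * z j) * |c j| ≤ (1 + 2 * (s * ‖z‖)) * s :=
          mul_le_mul h4 (hcs j) (abs_nonneg _) (by positivity)
      _ ≤ 3 * (1 + s) ^ 2 * (1 + ‖z‖) ^ 2 := by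
          nlinarith [mul_nonneg h5 hs0, mul_nonneg h5 h5, mul_nonneg h5 hz, mul_nonneg hs0 hs0,
            mul_nonneg hz hz]
      _ ≤ _ := mul_le_mul_of_nonneg_right (by linarith) (by positivity)

/-- `Tf' = haz`, `0 < haz l ≤ 1 + 2|l|`. -/
theorem WG_Tt {O : Matrix ι ι ℝ} (hO : Orth O) (i : ι) :
    WG (fun z => Tt O z i) fun j z => fm haz (Dg O (Oᵀ *ᵥ z)) i j := by
  have h := WG.sum Finset.univ fun a _ => (Eq1a_one fun j => O j a).const_mul (O i a)
  refine h.congr (Eventually.of_forall fun z => ?_) fun j => Eventually.of_forall fun z => ?_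
  · simp only [Tt, Matrix.mulVec, dotProduct, Matrix.transpose_apply]
  · simp only [fm_Dg haz hO]
    simp only [Dg, Matrix.mul_apply, Matrix.diagonal_apply, Matrix.mulVec, dotProduct,
      Matrix.transpose_apply, mul_ite, mul_zero, Finset.sum_ite_eq', Finset.mem_univ, if_true,
      mul_assoc]

theorem Eq1b_hs {S : Matrix ι ι ℝ} (hS : S.IsSymm) (h : 1000 * (fm mg S).trace < 1) :
    hs (S - 1) = 1000 * (fm mg S).trace := by
  obtain ⟨O, s, hO, rfl⟩ := exists_Dg hS
  have e : (1 : Matrix ι ι ℝ) = Dg O fun _ => 1 := by rw [Dg_const hO, one_smul]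
  rw [fm_Dg _ hO, trace_Dg hO] at h ⊢
  rw [e, Dg_sub, hs_Dg hO, Finset.mul_sum]
  refine Finset.sum_congr rfl fun i _ => ?_
  have h1 : mg (s i) ≤ ∑ i, mg (s i) := Finset.single_le_sum (f := fun i => mg (s i))
    (fun i _ => div_nonneg (le_min (sq_nonneg _) zero_le_one) (by norm_num)) (Finset.mem_univ i)
  unfold mg at h1 h ⊢
  rcases min_choice ((s i - 1) ^ 2) 1 with h2 | h2
  · rw [h2]; ring
  · rw [h2] at h1; linarith

/-- `hs (S - 1) = ∑ (s_i - 1)²`, and `min ((s_i - 1)²) 1 ≤ 1000 tr mg(S)`. -/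
theorem tendsto_of_mg {S : ℕ → Matrix ι ι ℝ} (hS : ∀ n, (S n).IsSymm)
    (h : Tendsto (fun n => (fm mg (S n)).trace) atTop (𝓝 0)) : Tendsto S atTop (𝓝 1) := by
  have h1 : Tendsto (fun n => 1000 * (fm mg (S n)).trace) atTop (𝓝 0) := by simpa using h.const_mul 1000
  refine tendsto_pi_nhds.2 fun i => tendsto_pi_nhds.2 fun j => ?_
  rw [tendsto_iff_norm_sub_tendsto_zero]
  refine squeeze_zero' (Eventually.of_forall fun n => norm_nonneg _) ?_ (by simpa using h1.sqrt)
  filter_upwards [h1.eventually (gt_mem_nhds one_pos)] with n hn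
  rw [← Real.sqrt_mul (by norm_num), ← Eq1b_hs (hS n) hn]
  exact Real.abs_le_sqrt (sq_le_hs (S n - 1) i j)

omit [DecidableEq ι] in
theorem Eq1b_add (A B : Matrix ι ι ℝ) : hs (A + B) ≤ 2 * hs A + 2 * hs B := by
  simp only [hs, Finset.mul_sum, ← Finset.sum_add_distrib]
  refine Finset.sum_le_sum fun i _ => Finset.sum_le_sum fun j _ => ?_
  rw [Matrix.add_apply]
  nlinarith [sq_nonneg (A i j - B i j)]

theorem Eq1b_int {M N : (ι → ℝ) → Matrix ι ι ℝ} (hM : LM M) (hN : LM N) :
    ∫ z, hs (M z + N z) ∂γ ι ≤ 2 * ∫ z, hs (M z) ∂γ ι + 2 * ∫ z, hs (N z) ∂γ ι := by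
  rw [← integral_const_mul, ← integral_const_mul,
    ← integral_add ((hs_int hM).1.const_mul _) ((hs_int hN).1.const_mul _)]
  exact integral_mono (hs_int (hM.add hN)).1 (((hs_int hM).1.const_mul _).add ((hs_int hN).1.const_mul _))
    fun z => Eq1b_add _ _

/-- `∑ hs (D k) = tr S` is bounded; `L - Bz D' = E + Bz (D - D')`, `X k - D' k = Y k + (D k - D' k)`;
`defect_parts`, `int_hs_E_le`, `int_hs_Y_le`, `int_hs_Bz`. -/
theorem exists_limit_D {F : ℕ → Fld ι} (h0 : ∀ n, (F n).Cen)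
    (hd : Tendsto (fun n => (F n).defect) atTop (𝓝 0)) :
    ∃ (φ : ℕ → ℕ) (D : ι → Matrix ι ι ℝ), StrictMono φ ∧ (∀ k, (D k).IsSymm) ∧ Sq D = 1 ∧
      Tendsto (fun n => ∫ z, hs ((F (φ n)).L z - Bz D z) ∂γ ι) atTop (𝓝 0) ∧
      (∀ k, Tendsto (fun n => ∫ z, hs ((F (φ n)).X k z - D k) ∂γ ι) atTop (𝓝 0)) ∧
      Tendsto (fun n => (F (φ n)).cmm) atTop (𝓝 0) := by
  have hp := fun n => (F n).defect_parts (h0 n)
  have hd' : Tendsto (fun n => 1000 * (F n).defect) atTop (𝓝 0) := by simpa using hd.const_mul 1000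
  have tb : Tendsto (fun n => (F n).be) atTop (𝓝 0) := squeeze_zero (fun n => (hp n).1)
    (fun n => by have := hp n; unfold Fld.defect; linarith) hd'
  have tc : Tendsto (fun n => (F n).cmm) atTop (𝓝 0) := squeeze_zero (fun n => (hp n).2.1)
    (fun n => by have := hp n; unfold Fld.defect; linarith) hd'
  have tS : Tendsto (fun n => (F n).S) atTop (𝓝 1) := tendsto_of_mg (fun n => (F n).S_symm)
    (squeeze_zero (fun n => (hp n).2.2) (fun n => by have := hp n; unfold Fld.defect; linarith) hd)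
  have cT : Continuous fun A : Matrix ι ι ℝ => A.trace := continuous_id.matrix_trace
  have cS : Continuous (Sq : (ι → Matrix ι ι ℝ) → Matrix ι ι ℝ) :=
    continuous_finsetSum _ fun k _ => (continuous_apply k).matrix_mul (continuous_apply k)
  obtain ⟨C, hC⟩ := ((cT.tendsto _).comp tS).bddAbove_range
  have hb : ∀ n k i j, |(F n).D k i j| ≤ Real.sqrt C := by
    intro n k i j
    refine Real.abs_le_sqrt ((sq_le_hs _ i j).trans (le_trans ?_ (hC ⟨n, rfl⟩)))
    change _ ≤ (Sq (F n).D).trace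
    rw [Sq, trace_sum]
    simp only [← hs_of_symm ((F n).D_symm _)]
    exact Finset.single_le_sum (f := fun k => hs ((F n).D k)) (fun k _ => hs_nonneg _) (Finset.mem_univ k)
  obtain ⟨D, -, φ, hφ, tD⟩ := (isCompact_Icc (α := ι → ι → ι → ℝ) (a := fun _ _ _ => -Real.sqrt C)
    (b := fun _ _ _ => Real.sqrt C)).tendsto_subseq (x := fun n k i j => (F n).D k i j)
    fun n => ⟨fun k i j => (abs_le.1 (hb n k i j)).1, fun k i j => (abs_le.1 (hb n k i j)).2⟩
  let D' : ι → Matrix ι ι ℝ := fun k => Matrix.of (D k)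
  have tD' : Tendsto (fun n => (F (φ n)).D) atTop (𝓝 D') := tD
  have sD : ∀ k, (D' k).IsSymm := fun k => by
    have t1 : Tendsto (fun n => (F (φ n)).D k) atTop (𝓝 (D' k)) := tendsto_pi_nhds.1 tD' k
    have t2 := (continuous_id.matrix_transpose.tendsto _).comp t1
    exact tendsto_nhds_unique t2 (t1.congr fun n => ((F (φ n)).D_symm k).symm)
  have t0 : Tendsto (fun n => (F (φ n)).D - D') atTop (𝓝 0) := by simpa using tD'.sub_const D'
  have tb' := tb.comp hφ.tendsto_atTop
  refine ⟨φ, D', hφ, sD, tendsto_nhds_unique ((cS.tendsto _).comp tD') (tS.comp hφ.tendsto_atTop), ?_,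
    fun k => ?_, tc.comp hφ.tendsto_atTop⟩
  · have t1 := (tb'.const_mul 2).add ((((cT.comp cS).tendsto _).comp t0).const_mul 2)
    refine squeeze_zero (fun n => integral_nonneg fun z => hs_nonneg _) (fun n => ?_) (by simpa [Sq] using t1)
    have e : ∀ z, (F (φ n)).L z - Bz D' z = (F (φ n)).E z + Bz ((F (φ n)).D - D') z := fun z => by
      simp only [Fld.E, Bz, Pi.sub_apply, smul_sub, Finset.sum_sub_distrib]
      abel
    simp only [e]
    refine (Eq1b_int (F (φ n)).LM_E (L2_Bz _)).trans ?_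
    rw [int_hs_Bz ((F (φ n)).D - D') fun k => ((F (φ n)).D_symm k).sub (sD k)]
    have := (F (φ n)).int_hs_E_le (h0 _)
    simp only [Sq, trace_sum, Pi.sub_apply]
    linarith
  · have t1 := (tb'.const_mul 4).add
      (((Mat2_continuous_hs.tendsto _).comp (tendsto_pi_nhds.1 t0 k)).const_mul 2)
    refine squeeze_zero (fun n => integral_nonneg fun z => hs_nonneg _) (fun n => ?_) (by simpa [hs] using t1)
    have e : ∀ z, (F (φ n)).X k z - D' k = (F (φ n)).Y k z + ((F (φ n)).D k - D' k) := fun z => by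
      simp only [Fld.Y]
      abel
    simp only [e]
    refine (Eq1b_int ((F (φ n)).LM_Y k) (LM_const _)).trans ?_
    have h1 := (F (φ n)).int_hs_Y_le (h0 _)
    have h2 : ∫ z, hs ((F (φ n)).Y k z) ∂γ ι ≤ ∑ k, ∫ z, hs ((F (φ n)).Y k z) ∂γ ι :=
      Finset.single_le_sum (f := fun k => ∫ z, hs ((F (φ n)).Y k z) ∂γ ι)
        (fun k _ => integral_nonneg fun z => hs_nonneg _) (Finset.mem_univ k)
    rw [integral_const, probReal_univ, one_smul]
    simp only [hs, Matrix.sub_apply] at h1 h2 ⊢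
    linarith

omit [DecidableEq ι] in
theorem Eq1c_add (A B : Matrix ι ι ℝ) : hs (A + B) ≤ 2 * hs A + 2 * hs B := by
  simp only [hs, Finset.mul_sum, ← Finset.sum_add_distrib, Matrix.add_apply]
  exact Finset.sum_le_sum fun i _ => Finset.sum_le_sum fun j _ => by
    nlinarith [sq_nonneg (A i j - B i j)]

omit [DecidableEq ι] in
theorem Eq1c_sub (A B : Matrix ι ι ℝ) : hs (A - B) ≤ 2 * hs A + 2 * hs B := by
  simp only [hs, Finset.mul_sum, ← Finset.sum_add_distrib, Matrix.sub_apply]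
  exact Finset.sum_le_sum fun i _ => Finset.sum_le_sum fun j _ => by
    nlinarith [sq_nonneg (A i j + B i j)]

omit [DecidableEq ι] in
theorem Eq1c_swap (A B : Matrix ι ι ℝ) : hs (A - B) = hs (B - A) := by
  simp only [hs, Matrix.sub_apply]
  exact Finset.sum_congr rfl fun i _ => Finset.sum_congr rfl fun j _ => by ring

omit [DecidableEq ι] in
theorem Eq1c_mul (A B : Matrix ι ι ℝ) : hs (A * B) ≤ hs A * hs B := by
  have : hs A * hs B = ∑ i, ∑ j, (∑ k, A i k ^ 2) * ∑ k, B k j ^ 2 := by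
    rw [← Finset.sum_mul_sum, hs, hs, Finset.sum_comm (f := fun i j => B i j ^ 2)]
  rw [this, hs]
  exact Finset.sum_le_sum fun i _ => Finset.sum_le_sum fun j _ => by
    rw [mul_apply]; exact Finset.sum_mul_sq_le_sq_mul_sq _ _ _

omit [DecidableEq ι] in
theorem Eq1c_comm (A B : Matrix ι ι ℝ) : hs (A * B - B * A) ≤ 4 * (hs A * hs B) := by
  have h1 := Eq1c_sub (A * B) (B * A)
  have h2 := Eq1c_mul A B
  have h3 := Eq1c_mul B A
  rw [mul_comm (hs B)] at h3
  linarith

theorem Eq1c_pt {B L X D : Matrix ι ι ℝ} (hB : B.IsSymm) (hL : L.IsSymm) :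
    hs (cm gf B D) ≤ 2 * hs (cm gf L X) + 16 * dim ι * hs (X - D) + 16 * hs D * hs (L - B) := by
  have e : cm gf B D = cm gf L X + ((fm gf L * (D - X) - (D - X) * fm gf L)
      + ((fm gf B - fm gf L) * D - D * (fm gf B - fm gf L))) := by
    simp only [cm, Matrix.mul_sub, Matrix.sub_mul]; abel
  have h1 := Eq1c_add (cm gf L X) ((fm gf L * (D - X) - (D - X) * fm gf L)
      + ((fm gf B - fm gf L) * D - D * (fm gf B - fm gf L)))
  have h2 := Eq1c_add (fm gf L * (D - X) - (D - X) * fm gf L)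
      ((fm gf B - fm gf L) * D - D * (fm gf B - fm gf L))
  have h3 := Eq1c_comm (fm gf L) (D - X)
  have h4 := Eq1c_comm (fm gf B - fm gf L) D
  have h5 := hs_fm_le' abs_gf_le L
  have h6 := hs_fm_sub_le gf_lip hB hL
  rw [Eq1c_swap B L] at h6
  rw [Eq1c_swap D X] at h3
  have h7 := mul_le_mul_of_nonneg_right h5 (hs_nonneg (X - D))
  have h8 := mul_le_mul_of_nonneg_right h6 (hs_nonneg D)
  rw [e]
  nlinarith

theorem Eq1c_cont {f : ℝ → ℝ} (hf : Continuous f) {D : ι → Matrix ι ι ℝ} (hD : ∀ k, (D k).IsSymm) :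
    Continuous fun z : ι → ℝ => fm f (Bz D z) := by
  have c : Continuous fun z : ι → ℝ => Bz D z := by unfold Bz; fun_prop
  exact (continuousOn_fm hf).comp_continuous c fun z => Bz_symm hD z

/-- `cm gf B D = cm gf L X + cm gf L (D - X) + [gf(B) - gf(L), D]` (`hs_fm_le'`, `hs_fm_sub_le`), so
`∫ hs (cm gf (Bz D z) (D k)) = 0`; the integrand is continuous (`continuousOn_fm`, `isOpenPosMeasure_γ`); take
`z = e_a`; `conj_cm`, `gf_injective`. -/
theorem limit_commute {F : ℕ → Fld ι} {D : ι → Matrix ι ι ℝ} (hD : ∀ k, (D k).IsSymm)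
    (hL : Tendsto (fun n => ∫ z, hs ((F n).L z - Bz D z) ∂γ ι) atTop (𝓝 0))
    (hX : ∀ k, Tendsto (fun n => ∫ z, hs ((F n).X k z - D k) ∂γ ι) atTop (𝓝 0))
    (hc : Tendsto (fun n => (F n).cmm) atTop (𝓝 0)) (k a : ι) : D k * D a = D a * D k := by
  have cg : Continuous gf := Mat3_cont gf_lip
  have c1 := Eq1c_cont cg hD
  have cc : Continuous fun z : ι → ℝ => hs (cm gf (Bz D z) (D k)) := by
    refine Mat2_continuous_hs.comp ?_
    unfold cm
    exact (c1.mul continuous_const).sub (continuous_const.mul c1)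
  have ic : Integrable (fun z : ι → ℝ => hs (cm gf (Bz D z) (D k))) (γ ι) := by
    refine Integrable.of_bound cc.aestronglyMeasurable (4 * (1 ^ 2 * dim ι * hs (D k)))
      (Eventually.of_forall fun z => ?_)
    rw [Real.norm_of_nonneg (hs_nonneg _)]
    have h1 := Eq1c_comm (fm gf (Bz D z)) (D k)
    have h2 := mul_le_mul_of_nonneg_right (hs_fm_le' abs_gf_le (Bz D z)) (hs_nonneg (D k))
    unfold cm
    linarith
  have hle : ∀ n, ∫ z, hs (cm gf (Bz D z) (D k)) ∂γ ι ≤ 2 * (F n).cmm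
      + 16 * dim ι * (∫ z, hs ((F n).X k z - D k) ∂γ ι)
      + 16 * hs (D k) * ∫ z, hs ((F n).L z - Bz D z) ∂γ ι := by
    intro n
    have i1 := (hs_int ((F n).LM_cm cg k)).1
    have i2 := (hs_int (((F n).LM_X k).sub (LM_const (D k)))).1
    have i3 := (hs_int ((F n).BM_L.lm.sub (L2_Bz D))).1
    have h1 : ∫ z, hs (cm gf ((F n).L z) ((F n).X k z)) ∂γ ι ≤ (F n).cmm :=
      Finset.single_le_sum (f := fun k => ∫ z, hs (cm gf ((F n).L z) ((F n).X k z)) ∂γ ι)
        (fun k _ => integral_nonneg fun z => hs_nonneg _) (Finset.mem_univ k)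
    have h2 := integral_mono ic (((i1.const_mul 2).add (i2.const_mul (16 * dim ι))).add
      (i3.const_mul (16 * hs (D k)))) fun z => Eq1c_pt (Bz_symm hD z) ((F n).sL z).1
    simp only [Pi.add_apply] at h2
    rw [integral_add ((i1.const_mul 2).fun_add (i2.const_mul _)) (i3.const_mul _),
      integral_add (i1.const_mul 2) (i2.const_mul _), integral_const_mul, integral_const_mul,
      integral_const_mul] at h2
    linarith
  have lim := ((hc.const_mul 2).add ((hX k).const_mul (16 * dim ι))).add (hL.const_mul (16 * hs (D k)))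
  simp only [mul_zero, add_zero] at lim
  have h0 : ∫ z, hs (cm gf (Bz D z) (D k)) ∂γ ι = 0 :=
    le_antisymm (ge_of_tendsto' lim hle) (integral_nonneg fun z => hs_nonneg _)
  have := isOpenPosMeasure_γ (ι := ι)
  have h1 := (cc.ae_eq_iff_eq (γ ι) continuous_zero).1
    ((integral_eq_zero_iff_of_nonneg (fun z => hs_nonneg _) ic).1 h0)
  have h2 := congrFun h1 (Pi.single a 1)
  have e : Bz D (Pi.single a 1) = D a := by
    simp [Bz, Pi.single_apply]
  simp only [e, Pi.zero_apply] at h2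
  obtain ⟨O, d, hO, hd⟩ := exists_Dg (hD a)
  have h3 : cm gf (D a) (D k) = 0 := by
    ext i j
    have := sq_le_hs (cm gf (D a) (D k)) i j
    rw [h2] at this
    exact pow_eq_zero_iff (two_ne_zero) |>.1 (le_antisymm this (sq_nonneg _))
  have h4 : cm (fun x => x) (D a) (D k) = 0 := by
    refine conj_inj hO ?_
    ext i j
    have h5 := conj_cm gf hO d (D k) i j
    rw [← hd, h3] at h5
    rw [hd, conj_cm (fun x => x) hO d (D k) i j]
    simp only [Matrix.mul_zero, Matrix.zero_mul, Matrix.zero_apply] at h5 ⊢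
    rcases mul_eq_zero.1 h5.symm with h | h
    · rw [gf_injective (sub_eq_zero.1 h), sub_self, zero_mul]
    · rw [h, mul_zero]
  rw [cm, fm_id (hD a)] at h4
  exact (sub_eq_zero.1 h4).symm

theorem Eq1d_stein (c : ι → ℝ) : ∃ κ : ℝ, 0 < κ ∧ ∀ k,
    Integrable (fun z : ι → ℝ => haz (∑ k, z k * c k) * z k) (γ ι) ∧
    ∫ z, haz (∑ k, z k * c k) * z k ∂γ ι = κ * c k := by
  set l : (ι → ℝ) →L[ℝ] ℝ := ∑ k, c k • ContinuousLinearMap.proj k with hl
  have el : ∀ z : ι → ℝ, ∑ k, z k * c k = l z := fun z => by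
    simp [hl, mul_comm]
  have lh : LipschitzWith 1 haz := LipschitzWith.of_dist_le_mul fun a b => by
    simpa [Real.dist_eq] using haz_lip a b
  have W := WG_of_lipschitz (lh.comp l.lipschitz)
  have c1 : Continuous fun z => haz1 (l z) := continuous_haz1.comp l.continuous
  have i1 : Integrable (fun z => haz1 (l z)) (γ ι) :=
    Integrable.of_bound c1.aestronglyMeasurable 1 (Eventually.of_forall fun z => by
      rw [Real.norm_of_nonneg (haz1_pos _).le]; exact haz1_le_one _)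
  refine ⟨∫ z, haz1 (l z) ∂γ ι, ?_, fun k => ?_⟩
  · rw [integral_pos_iff_support_of_nonneg (fun z => (haz1_pos _).le) i1]
    have : Function.support (fun z => haz1 (l z)) = Set.univ :=
      Set.eq_univ_of_forall fun z => (haz1_pos _).ne'
    simp [this]
  · simp only [el]
    refine ⟨W.u2.mul_int (L2_coord k), ?_⟩
    have h1 := W.int_mul_coord k
    have h2 : ∀ z, fderiv ℝ (haz ∘ l) z (Pi.single k 1) = haz1 (l z) * c k := fun z => by
      rw [((hasDerivAt_haz (l z)).comp_hasFDerivAt z l.hasFDerivAt).fderiv]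
      simp [← el, Pi.single_apply]
    simp only [h2, Function.comp] at h1
    rw [h1, integral_mul_const]

/-- `WG.sym2` for `wT` passes to the limit (`haz_lip`, `hs_fm_sub_le`):
`N i j k = ∫ haz(B z)_ij z_k` is symmetric in `j, k`.  With `D k = Dg O (d k)` (`exists_joint_Dg`,
`EqAlg_Bz_Dg`) and Stein's identity for `z ↦ haz (∑ z_k d k q)` (`WG_of_lipschitz`):
`N i j k = (K D_k)_ij`, `K = Dg O κ`, `κ_q = ∫ haz1 (∑ z_k d k q) > 0`; `K` is invertible. -/
theorem limit_swap {F : ℕ → Fld ι} {D : ι → Matrix ι ι ℝ} (hD : ∀ k, (D k).IsSymm)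
    (hc : ∀ k a, D k * D a = D a * D k)
    (hL : Tendsto (fun n => ∫ z, hs ((F n).L z - Bz D z) ∂γ ι) atTop (𝓝 0)) (i j k : ι) :
    D k i j = D j i k := by
  have L0 : ∀ i j, L2 fun z => fm haz (Bz D z) i j := fun i j => (WG_fm haz_lip hD i j).u2
  have lim : ∀ i j k, Tendsto (fun n => ∫ z, fm haz ((F n).L z) i j * z k ∂γ ι) atTop
      (𝓝 (∫ z, fm haz (Bz D z) i j * z k ∂γ ι)) := by
    intro i j k
    rw [tendsto_iff_norm_sub_tendsto_zero]
    have t := hL.sqrt
    rw [Real.sqrt_zero] at t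
    refine squeeze_zero (fun n => norm_nonneg _) (fun n => ?_) t
    have L1 : L2 fun z => fm haz ((F n).L z) i j := ((F n).wT i).g2 j
    rw [← integral_sub (L1.mul_int (L2_coord k)) ((L0 i j).mul_int (L2_coord k))]
    simp only [← sub_mul]
    have h1 := abs_int_mul_le (Herm4_L2_sub L1 (L0 i j)) (L2_coord k)
    have h2 : ∫ z : ι → ℝ, z k ^ 2 ∂γ ι = 1 := by
      simpa [sq] using int_coord_mul (ι := ι) k k
    rw [h2, Real.sqrt_one, mul_one] at h1
    refine h1.trans (Real.sqrt_le_sqrt (integral_mono (Herm4_L2_sub L1 (L0 i j)).sq_int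
      (hs_int ((F n).BM_L.lm.sub (L2_Bz D))).1 fun z => ?_))
    have h3 := hs_fm_sub_le haz_lip ((F n).sL z).1 (Bz_symm hD z)
    have h4 := sq_le_hs (fm haz ((F n).L z) - fm haz (Bz D z)) i j
    simp only [Matrix.sub_apply] at h4
    simp only
    linarith
  have sym : ∀ i j k, ∫ z, fm haz (Bz D z) i j * z k ∂γ ι = ∫ z, fm haz (Bz D z) i k * z j ∂γ ι :=
    fun i j k => tendsto_nhds_unique (lim i j k)
      ((lim i k j).congr fun n => (((F n).wT i).sym2 j k).symm)
  obtain ⟨O, d, hO, hd⟩ := exists_joint_Dg hD hc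
  choose κ hκ hκ' using fun q => Eq1d_stein (fun k => d k q)
  have val : ∀ i j k, ∫ z, fm haz (Bz D z) i j * z k ∂γ ι = (Dg O κ * D k) i j := by
    intro i j k
    have ent : ∀ a : ι → ℝ, Dg O a i j = ∑ q, O i q * O j q * a q := fun a => by
      simp only [Dg, mul_apply, diagonal_apply, transpose_apply, mul_ite, mul_zero,
        Finset.sum_ite_eq', Finset.mem_univ, if_true]
      exact Finset.sum_congr rfl fun q _ => by ring
    simp only [EqAlg_Bz_Dg hd, fm_Dg haz hO, ent, Finset.sum_mul, mul_assoc]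
    rw [integral_finsetSum _ fun q _ => (((hκ' q k).1.const_mul _).const_mul _), hd k, Dg_mul hO, ent]
    exact Finset.sum_congr rfl fun q _ => by
      rw [integral_const_mul, integral_const_mul, (hκ' q k).2, mul_assoc]
  have inv : Dg O (fun q => (κ q)⁻¹) * Dg O κ = 1 := by
    rw [Dg_mul hO]
    simp only [fun q => inv_mul_cancel₀ (hκ q).ne']
    rw [Dg_const hO, one_smul]
  have back : ∀ k j, D k i j = ∑ a, Dg O (fun q => (κ q)⁻¹) i a * (Dg O κ * D k) a j := fun k j => by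
    rw [← mul_apply, ← Matrix.mul_assoc, inv, Matrix.one_mul]
  rw [back k j, back j k]
  exact Finset.sum_congr rfl fun a _ => by rw [← val, ← val, sym]

theorem Eq1a_le (F : Fld ι) {O : Matrix ι ι ℝ} (hO : Orth O) :
    ∫ z, (cen F.T z - cen (Tt O) z) ⬝ᵥ (cen F.T z - cen (Tt O) z) ∂γ ι ≤
      ∫ z, hs (F.L z - Dg O (Oᵀ *ᵥ z)) ∂γ ι := by
  have hW := fun i => (F.wT i).sub (WG_Tt hO i)
  have e : ∀ z i, (cen F.T z - cen (Tt O) z) i =
      (F.T z i - Tt O z i) - ∫ y, (F.T y i - Tt O y i) ∂γ ι := fun z i => by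
    rw [integral_sub (F.wT i).u2.int (WG_Tt hO i).u2.int]
    simp only [cen, Pi.sub_apply]
    ring
  have hL : ∀ i, L2 fun z => (cen F.T z - cen (Tt O) z) i := fun i => by
    simp only [e]
    exact (hW i).u2.sub (memLp_const _)
  have hM : LM fun z => fm haz (F.L z) - fm haz (Dg O (Oᵀ *ᵥ z)) := fun i j => (hW i).g2 j
  have hB : LM fun z => F.L z - Dg O (Oᵀ *ᵥ z) := by
    refine F.BM_L.lm.sub fun i j => ?_
    simp only [Dg, Matrix.mul_apply, Matrix.diagonal_apply, mul_ite, mul_zero, Finset.sum_ite_eq',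
      Finset.mem_univ, if_true]
    exact Core0a_sum _ fun a _ => ((L2_mulVec Oᵀ a).const_mul _).mul_const _
  rw [(dot_int hL hL).2]
  calc ∑ i, ∫ z, (cen F.T z - cen (Tt O) z) i * (cen F.T z - cen (Tt O) z) i ∂γ ι
      ≤ ∑ i, ∑ j, ∫ z, (fm haz (F.L z) - fm haz (Dg O (Oᵀ *ᵥ z))) i j ^ 2 ∂γ ι := by
        refine Finset.sum_le_sum fun i _ => le_trans (le_of_eq ?_) (poincare (hW i))
        simp only [e]
        set m := ∫ y, (F.T y i - Tt O y i) ∂γ ι with hm
        have e2 : ∀ z, (F.T z i - Tt O z i - m) * (F.T z i - Tt O z i - m) =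
            (F.T z i - Tt O z i) ^ 2 - 2 * m * (F.T z i - Tt O z i) + m ^ 2 := fun z => by ring
        simp only [e2]
        have i1 : Integrable (fun z => (F.T z i - Tt O z i) ^ 2 - 2 * m * (F.T z i - Tt O z i)) (γ ι) :=
          (hW i).u2.sq_int.sub ((hW i).u2.int.const_mul _)
        rw [integral_add i1 (integrable_const _),
          integral_sub (hW i).u2.sq_int ((hW i).u2.int.const_mul _), integral_const_mul, ← hm]
        simp
        ring
    _ = ∫ z, hs (fm haz (F.L z) - fm haz (Dg O (Oᵀ *ᵥ z))) ∂γ ι := (hs_int hM).2.symm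
    _ ≤ _ := by
        refine integral_mono (hs_int hM).1 (hs_int hB).1 fun z => ?_
        simpa using hs_fm_sub_le haz_lip (F.sL z).1 (Dg_symm O _)

/-- `exists_orthant_frame`; `poincare` for `(F n).T · i - Tt O · i`. -/
theorem limit_frame {F : ℕ → Fld ι} (h0 : ∀ n, (F n).Cen)
    (hd : Tendsto (fun n => (F n).defect) atTop (𝓝 0)) :
    ∃ (φ : ℕ → ℕ) (O : Matrix ι ι ℝ), StrictMono φ ∧ Orth O ∧ Tendsto (fun n =>
      ∫ z, (cen (F (φ n)).T z - cen (Tt O) z) ⬝ᵥ (cen (F (φ n)).T z - cen (Tt O) z) ∂γ ι)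
        atTop (𝓝 0) := by
  obtain ⟨φ, D, hφ, hD, hS, hL, hX, hc⟩ := exists_limit_D h0 hd
  have hcm := limit_commute (F := fun n => F (φ n)) hD hL hX hc
  have hsw := limit_swap (F := fun n => F (φ n)) hD hcm hL
  obtain ⟨O, hO, hB⟩ := exists_orthant_frame hD hsw hcm hS
  refine ⟨φ, O, hφ, hO, squeeze_zero (fun n => integral_nonneg fun z => ?_) (fun n => ?_) hL⟩
  · exact Finset.sum_nonneg fun i _ => mul_self_nonneg _
  · simpa only [hB] using Eq1a_le (F (φ n)) hO

end Crest.Agent.R253
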