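/-
Row 253, numerics: kernel check, cells 0 to 19.
-/
import Crest.Agent.R253.NumData

set_option autoImplicit false

namespace Crest.Agent.R253.Nm

open Crest.Agent.R203N Crest.Agent.R203N.Num

set_option maxRecDepth 100000 in
theorem chk0 : (tcs.take 20).all (cellOK 4) = true := by
  decide +kernel


end Crest.Agent.R253.Nm
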