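/-
Row 253, numerics for `Num` (owner helper35).  FROZEN definitions.  Plan: header of `R253/NumMain.lean`.
-/
import Crest.Agent.R253.Fun

set_option autoImplicit false

namespace Crest.Agent.R253.Nm

open Crest.Agent.R203N

/-- The facts of `NF` at one point. -/
structure NFAt (l : ℝ) : Prop where
  t1_pos : 0 < tau1 l
  t1_le : tau1 l ≤ 1 / 2
  t2_nonneg : 0 ≤ tau2 l
  t2_le : tau2 l ≤ 88 / 1000
  c1 : tau2 l ≤ 94 / 1000 * mu l
  c2 : |tau3 l| ≤ 41 / 1000 * mu l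
  c3 : |nf1 l| ≤ 93 / 1000 * mu l
  c6 : tau2 l ^ 2 ≤ (165 / 1000) ^ 2 * (mu l ^ 2 * tau1 l)
  c7 : tau2 l ^ 2 ≤ (67 / 100) ^ 2 * (mu l ^ 2 * tau1 l ^ 3)

/-- Coefficients (in units `10⁻⁶`) of an end check of type `P`. -/
structure PE where
  al : ℤ
  cG : ℤ
  c0 : ℤ
  c1 : ℤ
  be : ℤ
  g : ℤ
  K : ℤ
  A : ℤ
  B : ℤ
  C : ℤ

noncomputable def PE.f (e : PE) (l : ℝ) : ℝ :=
  (e.al : ℝ) / 10 ^ 6 * nf l + (e.K : ℝ) / 10 ^ 6
    - (e.A : ℝ) / 10 ^ 6 * ((e.al : ℝ) / 10 ^ 6 * nf l - (e.cG : ℝ) / 10 ^ 6) ^ 2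
    - (e.B : ℝ) / 10 ^ 6 * tau2 l ^ 2
    - (e.C : ℝ) / 10 ^ 6 * ((e.al : ℝ) / 10 ^ 6 * vf l - (e.c0 : ℝ) / 10 ^ 6
        - (e.c1 : ℝ) / 10 ^ 6 * l) ^ 2
    + (e.be : ℝ) / 10 ^ 6 * l + (e.g : ℝ) / 10 ^ 6 * l ^ 2

/-- Coefficients (in units `10⁻⁶`) of an end check of type `R` or `T`. -/
structure RE where
  K : ℤ
  A : ℤ
  lam : ℤ
  cG : ℤ
  E : ℤ
  B : ℤ
  m : ℤ
  e : ℤ
  C : ℤ
  k : ℤ
  c0 : ℤ
  be : ℤ
  H : ℤ

noncomputable def RE.f (e : RE) (l : ℝ) : ℝ :=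
  (e.K : ℝ) / 10 ^ 6
    - (e.A : ℝ) / 10 ^ 6 * ((e.lam : ℝ) / 10 ^ 6 * tau1 l - (e.cG : ℝ) / 10 ^ 6) ^ 2
    + (e.E : ℝ) / 10 ^ 6 * tau1 l
    - (e.B : ℝ) / 10 ^ 6 * tau2 l ^ 2
    + (e.m : ℝ) / 10 ^ 6 * (2 * Tf l - tau l ^ 2) - (e.e : ℝ) / 10 ^ 6 * (l * tau l)
    - (e.C : ℝ) / 10 ^ 6 * ((e.k : ℝ) / 10 ^ 6 * tau l - (e.c0 : ℝ) / 10 ^ 6) ^ 2
    + (e.be : ℝ) / 10 ^ 6 * l - (e.H : ℝ) / 10 ^ 6 * haz l ^ 2

/-- end `s = 0 of [0,1]` -/
def pe0 : PE := ⟨156420, 57450, 178110, 58660, -19600, 7460, -12108, 0, 2968986, 2092926⟩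
/-- end `s = 1 of [0,1]` -/
def pe1 : PE := ⟨156420, 57450, 178110, 58660, -19600, 7460, -25350, 29446408, 2567395, 2092926⟩
/-- end `s = 1 of [1,2]` -/
def pe2 : PE := ⟨156610, 55870, 183490, 58730, -17290, 5330, -21848, 9854159, 2492834, 1486326⟩
/-- end `s = 2 of [1,2]` -/
def pe3 : PE := ⟨156610, 55870, 183490, 58730, -17290, 5330, -31891, 19708317, 2102431, 1486326⟩
/-- end `s = 2 of [2,3]` -/
def pe4 : PE := ⟨131180, 45090, 159270, 49190, -13910, 3880, -22557, 15938796, 2213555, 1524391⟩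
/-- end `s = 3 of [2,3]` -/
def pe5 : PE := ⟨131180, 45090, 159270, 49190, -13910, 3880, -29661, 23908193, 1879338, 1524391⟩
/-- end `s = 3 of [3,4]` -/
def re0 : RE := ⟨-372300, 16827463, 257260, 69510, 771780, 5361307, 304290, 435260, 2230749, 79260, 75320, -12240, 0⟩
/-- end `s = 4 of [3,4]` -/
def re1 : RE := ⟨-374733, 22436617, 257260, 69510, 1029040, 12062941, 304290, 435260, 2230749, 79260, 75320, -12240, 0⟩
/-- end `s = 4 of [4,6]` -/
def re2 : RE := ⟨-590095, 21929825, 340940, 88260, 1363760, 10053510, 434680, 610800, 2742131, 71080, 68700, -47520, 0⟩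
/-- end `s = 6 of [4,6]` -/
def re3 : RE := ⟨-598642, 32894737, 340940, 88260, 2045640, 27926415, 434680, 610800, 2742131, 71080, 68700, -47520, 0⟩
/-- end `s = 6 of [6,9]` -/
def re4 : RE := ⟨-939428, 29632557, 428100, 107440, 2568600, 20081726, 592100, 817640, 4232984, 38560, 38220, -123790, 0⟩
/-- end `s = 9 of [6,9]` -/
def re5 : RE := ⟨-959641, 44448835, 428100, 107440, 3852900, 51409217, 592100, 817640, 4232984, 38560, 38220, -123790, 0⟩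
/-- end `s = 9 of [9,13]` -/
def re6 : RE := ⟨-1364138, 39556963, 492130, 119480, 4429170, 34614573, 722310, 984470, 6250000, -210, 0, -233050, 0⟩
/-- end `s = 13 of [9,13]` -/
def re7 : RE := ⟨-1399754, 57137835, 492130, 119480, 6397690, 77882789, 722310, 984470, 6250000, -210, 0, -233050, 0⟩
/-- end `s = 13 of [13,18]` -/
def re8 : RE := ⟨-1802097, 52478605, 521730, 123300, 6782490, 52192660, 811570, 1084850, 2295474, -41390, -44010, -375730, 0⟩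
/-- end `s = 18 of [13,18]` -/
def re9 : RE := ⟨-1852134, 72662684, 521730, 123300, 9391140, 104747769, 811570, 1084850, 2295474, -41390, -44010, -375730, 0⟩
/-- end `κ = 0 of the tail` -/
def re10 : RE := ⟨-1902564, 45000000, 355350, 86590, 6396300, 0, 1000000, 712000, 314466, -712000, -486130, -434010, 162630⟩
/-- end `κ = 1 of the tail` -/
def re11 : RE := ⟨-1902564, 45000000, 355350, 86590, 6396300, 0, 1000000, 1067350, 314466, -356650, -486130, -434010, 162630⟩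

def pes : List PE := [pe0, pe1, pe2, pe3, pe4, pe5]
def res : List RE := [re0, re1, re2, re3, re4, re5, re6, re7, re8, re9, re10, re11]

/-- Everything that is checked at the point `l`. -/
structure Good (l : ℝ) : Prop where
  hn : NFAt l
  p : ∀ e ∈ pes, 0 ≤ e.f l
  r : ∀ e ∈ res, 0 ≤ e.f l

theorem mu_pos (l : ℝ) : 0 < mu l := haz_sub_pos l

theorem hasDerivAt_Tf (l : ℝ) : HasDerivAt Tf (haz l) l := by
  have h := ((hasDerivAt_loghaz l).add (((hasDerivAt_id' l).fun_pow 2).div_const 2)).add_const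
    (Real.log (2 * Real.pi) / 2)
  exact h.congr_deriv (by norm_num)

theorem hasDerivAt_tau (l : ℝ) : HasDerivAt tau (tau1 l) l := by
  have h0 := (haz_pos l).ne'
  refine ((hasDerivAt_Tf l).fun_div (hasDerivAt_haz l) h0).congr_deriv ?_
  simp only [tau1, tau, mu, haz1]
  field_simp

theorem Tf_eq (l : ℝ) : Tf l = tau l * haz l := by
  rw [tau, div_mul_cancel₀ _ (haz_pos l).ne']

end Crest.Agent.R253.Nm
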