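/-
Row 253, numerics, file NumGen: the generic checkers.  Definitions and statements FROZEN.

Recipe.  `pT` encloses `10^18 ρ² e.f l`; `rT` encloses a lower bound of `10^18 ρ² e.f l` (the term `be ρ² l` is
replaced by `be y`, `be ≤ 0`, `ρ² l ≤ y`).  Build the `In` statement with `In.add/sub/sm/mul/int/cq`, use `In.geq`,
and divide by `10^18 ρ² > 0`.  `nfOK`: `mu, a2, a3, an` enclose `μ/σ, τ''/σ, τ'''/σ, n'/σ`.
-/
import Crest.Agent.R253.NumDefs
import Crest.Agent.R203N.NumRic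

set_option autoImplicit false

namespace Crest.Agent.R253.Nm

open Crest.Agent.R203N Crest.Agent.R203N.Num TM

structure BP where
  rho : TM
  rl : TM
  rv : TM
  n : TM
  t22 : TM
  r2 : TM
  rrl : TM
  rl2 : TM

noncomputable def mkBP (d : ℕ) (rho rl rv n t2 : TM) : BP :=
  ⟨rho, rl, rv, n, mul d t2 t2, mul d rho rho, mul d rho rl, mul d rl rl⟩

noncomputable def pT (d : ℕ) (B : BP) (e : PE) : TM :=
  let u1 := sub (sm e.al B.n) (int e.cG)
  let u2 := sub (sub (sm e.al B.rv) (sm e.c0 B.rho)) (sm e.c1 B.rl)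
  let inner := sub (sm 1000000000000 (sub (add (sm e.al B.n) (int e.K)) (sm e.B B.t22)))
    (sm e.A (mul d u1 u1))
  add (sub (mul d B.r2 inner) (sm e.C (mul d u2 u2)))
    (sm 1000000000000 (add (sm e.be B.rrl) (sm e.g B.rl2)))

noncomputable def pOK (d : ℕ) (B : BP) : Bool := pes.all fun e => (pT d B e).geq 0 1

theorem pOK_sound {t ρ l : ℝ} (ht : |t| ≤ 1) (hρ : 0 < ρ) {d : ℕ} {rho rl rv n t2 : TM}
    (h1 : In t ρ rho) (h2 : In t (ρ * l) rl) (h3 : In t (ρ * vf l) rv) (h4 : In t (nf l) n)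
    (h5 : In t (tau2 l) t2) (h : pOK d (mkBP d rho rl rv n t2) = true) : ∀ e ∈ pes, 0 ≤ e.f l := by
  intro e he
  have hg : (pT d (mkBP d rho rl rv n t2) e).geq 0 1 = true := List.all_eq_true.1 h e he
  have u1 := (h4.sm e.al).sub (In.int e.cG)
  have u2 := ((h3.sm e.al).sub (h1.sm e.c0)).sub (h2.sm e.c1)
  have inner := ((((h4.sm e.al).add (In.int e.K)).sub ((h5.mul ht d h5).sm e.B)).sm 1000000000000).sub
    ((u1.mul ht d u1).sm e.A)
  have tot := (((h1.mul ht d h1).mul ht d inner).sub ((u2.mul ht d u2).sm e.C)).add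
    ((((h1.mul ht d h2).sm e.be).add ((h2.mul ht d h2).sm e.g)).sm 1000000000000)
  have key := In.geq ht tot hg
  have hpos : (0 : ℝ) < 10 ^ 18 * ρ ^ 2 := by positivity
  refine nonneg_of_mul_nonneg_right (a := 10 ^ 18 * ρ ^ 2) ?_ hpos
  refine (le_of_eq_of_le (by simp) key).trans_eq ?_
  simp only [PE.f]
  push_cast
  ring

structure BR where
  rho : TM
  rt : TM
  q : TM
  lt : TM
  lb : TM
  h2 : TM
  t1 : TM
  t22 : TM
  r2 : TM

noncomputable def mkBR (d : ℕ) (rho rt rT lt lb rh t1 t2 : TM) : BR :=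
  ⟨rho, rt, sub (sm 2 rT) (mul d rt rt), lt, lb, mul d rh rh, t1, mul d t2 t2, mul d rho rho⟩

noncomputable def rT (d : ℕ) (B : BR) (e : RE) : TM :=
  let u1 := sub (sm e.lam B.t1) (int e.cG)
  let u2 := sub (sm e.k B.rt) (sm e.c0 B.rho)
  let inner := sub (sm 1000000000000 (sub (add (int e.K) (sm e.E B.t1)) (sm e.B B.t22)))
    (sm e.A (mul d u1 u1))
  add (sub (mul d B.r2 inner) (sm e.C (mul d u2 u2)))
    (sm 1000000000000 (sub (add (sub (sm e.m B.q) (sm e.e B.lt)) (sm e.be B.lb)) (sm e.H B.h2)))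

noncomputable def rOK (d : ℕ) (B : BR) : Bool :=
  res.all fun e => decide (e.be ≤ 0) && (rT d B e).geq 0 1

theorem rOK_sound {t ρ l y : ℝ} (ht : |t| ≤ 1) (hρ : 0 < ρ) {d : ℕ} {rho rt rT lt lb rh t1 t2 : TM}
    (h1 : In t ρ rho) (h2 : In t (ρ * tau l) rt) (h3 : In t (ρ ^ 2 * Tf l) rT)
    (h4 : In t (ρ ^ 2 * (l * tau l)) lt) (h5 : In t y lb) (hy : ρ ^ 2 * l ≤ y)
    (h6 : In t (ρ * haz l) rh) (h7 : In t (tau1 l) t1) (h8 : In t (tau2 l) t2)
    (h : rOK d (mkBR d rho rt rT lt lb rh t1 t2) = true) : ∀ e ∈ res, 0 ≤ e.f l := by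
  intro e he
  obtain ⟨hb, hg⟩ : decide (e.be ≤ 0) = true ∧ (Nm.rT d (mkBR d rho rt rT lt lb rh t1 t2) e).geq 0 1 = true :=
    Bool.and_eq_true_iff.1 (List.all_eq_true.1 h e he)
  have hb' : (e.be : ℝ) ≤ 0 := by exact_mod_cast of_decide_eq_true hb
  have u1 := (h7.sm e.lam).sub (In.int e.cG)
  have u2 := (h2.sm e.k).sub (h1.sm e.c0)
  have inner := ((((In.int e.K).add (h7.sm e.E)).sub ((h8.mul ht d h8).sm e.B)).sm 1000000000000).sub
    ((u1.mul ht d u1).sm e.A)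
  have q := (h3.sm 2).sub (h2.mul ht d h2)
  have tot := (((h1.mul ht d h1).mul ht d inner).sub ((u2.mul ht d u2).sm e.C)).add
    (((((q.sm e.m).sub (h4.sm e.e)).add (h5.sm e.be)).sub ((h6.mul ht d h6).sm e.H)).sm 1000000000000)
  have key := In.geq ht tot hg
  have hpos : (0 : ℝ) < 10 ^ 18 * ρ ^ 2 := by positivity
  refine nonneg_of_mul_nonneg_right (a := 10 ^ 18 * ρ ^ 2) ?_ hpos
  have hm : (10 : ℝ) ^ 12 * (e.be * y) ≤ 10 ^ 12 * (e.be * (ρ ^ 2 * l)) :=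
    mul_le_mul_of_nonneg_left (mul_le_mul_of_nonpos_left hy hb') (by positivity)
  have key' := (le_of_eq_of_le (a := (0 : ℝ)) (by simp) key)
  refine (add_nonneg key' (sub_nonneg.2 hm)).trans_eq ?_
  simp only [RE.f]
  push_cast
  ring

noncomputable def nfOK (d : ℕ) (m t2 a2 a3 an t1 : TM) : Bool :=
  let a22 := mul d a2 a2
  let m2t := mul d (mul d m m) t1
  t1.geq 1 1000 && t2.leq 88 1000 && (sub (sm 94 m) (sm 1000 a2)).geq 0 1 &&
    (sub (sm 41 m) (sm 1000 a3)).geq 0 1 && (add (sm 41 m) (sm 1000 a3)).geq 0 1 &&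
    (sub (sm 93 m) (sm 1000 an)).geq 0 1 && (add (sm 93 m) (sm 1000 an)).geq 0 1 &&
    (sub (sm 27225 m2t) (sm 1000000 a22)).geq 0 1 &&
    (sub (sm 4489 (mul d m2t (mul d t1 t1))) (sm 10000 a22)).geq 0 1

theorem nfOK_sound {t σ l : ℝ} (ht : |t| ≤ 1) (hσ : 0 < σ) {d : ℕ} {m t2 a2 a3 an t1 : TM}
    (h1 : In t (mu l / σ) m) (h2 : In t (tau2 l) t2) (h3 : In t (tau2 l / σ) a2)
    (h4 : In t (tau3 l / σ) a3) (h5 : In t (nf1 l / σ) an) (h6 : In t (tau1 l) t1)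
    (k1 : tau1 l ≤ 1 / 2) (k2 : 0 ≤ tau2 l) (h : nfOK d m t2 a2 a3 an t1 = true) : NFAt l := by
  simp only [nfOK, Bool.and_eq_true] at h
  obtain ⟨⟨⟨⟨⟨⟨⟨⟨c1, c2⟩, c3⟩, c4⟩, c5⟩, c6⟩, c7⟩, c8⟩, c9⟩ := h
  have a22 := In.mul ht d h3 h3
  have m2t := In.mul ht d (In.mul ht d h1 h1) h6
  have e1 := In.geq ht h6 c1
  have e2 := In.leq ht h2 c2
  have e3 := In.geq ht ((h1.sm 94).sub (h3.sm 1000)) c3
  have e4 := In.geq ht ((h1.sm 41).sub (h4.sm 1000)) c4
  have e5 := In.geq ht ((h1.sm 41).add (h4.sm 1000)) c5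
  have e6 := In.geq ht ((h1.sm 93).sub (h5.sm 1000)) c6
  have e7 := In.geq ht ((h1.sm 93).add (h5.sm 1000)) c7
  have e8 := In.geq ht ((m2t.sm 27225).sub (a22.sm 1000000)) c8
  have e9 := In.geq ht (((In.mul ht d m2t (In.mul ht d h6 h6)).sm 4489).sub (a22.sm 10000)) c9
  push_cast at e1 e2 e3 e4 e5 e6 e7 e8 e9
  have hm : mu l = mu l / σ * σ := (div_mul_cancel₀ _ hσ.ne').symm
  have ha : tau2 l = tau2 l / σ * σ := (div_mul_cancel₀ _ hσ.ne').symm
  have hb : tau3 l = tau3 l / σ * σ := (div_mul_cancel₀ _ hσ.ne').symm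
  have hn : nf1 l = nf1 l / σ * σ := (div_mul_cancel₀ _ hσ.ne').symm
  generalize mu l / σ = M at *
  generalize tau2 l / σ = A at *
  generalize tau3 l / σ = B at *
  generalize nf1 l / σ = N at *
  have hσ2 : 0 < σ * σ := mul_pos hσ hσ
  have f3 := mul_le_mul_of_nonneg_right e3 hσ.le
  have f4 := mul_le_mul_of_nonneg_right e4 hσ.le
  have f5 := mul_le_mul_of_nonneg_right e5 hσ.le
  have f6 := mul_le_mul_of_nonneg_right e6 hσ.le
  have f7 := mul_le_mul_of_nonneg_right e7 hσ.le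
  have f8 := mul_le_mul_of_nonneg_right e8 hσ2.le
  have f9 := mul_le_mul_of_nonneg_right e9 hσ2.le
  refine ⟨by linarith, k1, k2, e2, ?_, ?_, ?_, ?_, ?_⟩
  · rw [hm, ha]
    linarith
  · rw [hm, hb]
    exact abs_le.2 ⟨by linarith, by linarith⟩
  · rw [hm, hn]
    exact abs_le.2 ⟨by linarith, by linarith⟩
  · rw [hm, ha]
    linarith
  · rw [hm, ha]
    linarith

/-- The check at a point where `l, λ, τ` are enclosed directly. -/
noncomputable def ctrOK (d : ℕ) (L H Ta : TM) : Bool :=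
  let m := sub H L
  let t1 := sub one (mul d Ta m)
  let t2 := add (sub Ta H) (mul d L t1)
  let t3 := sub (add (sm 2 t1) (mul d L t2)) (mul d H m)
  let u := add one t1
  let n := add t1 (mul d Ta t2)
  let n1 := add (mul d t2 u) (mul d Ta t3)
  t1.leq 1 2 && t2.geq 0 1 && nfOK d m t2 t2 t3 n1 t1 &&
    pOK d (mkBP d one L (mul d Ta u) n t2) &&
    rOK d (mkBR d one Ta (mul d Ta H) (mul d L Ta) L H t1 t2)

theorem ctrOK_sound {t l : ℝ} (ht : |t| ≤ 1) {d : ℕ} {L H Ta : TM} (h1 : In t l L)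
    (h2 : In t (haz l) H) (h3 : In t (tau l) Ta) (h : ctrOK d L H Ta = true) : Good l := by
  simp only [ctrOK, Bool.and_eq_true] at h
  obtain ⟨⟨⟨⟨c1, c2⟩, c3⟩, c4⟩, c5⟩ := h
  have m : In t (mu l) _ := h2.sub h1
  have t1 : In t (tau1 l) _ := In.one.sub (In.mul ht d h3 m)
  have t2 : In t (tau2 l) _ := (h3.sub h2).add (In.mul ht d h1 t1)
  have t3 : In t (tau3 l) _ := (((t1.sm 2).add (In.mul ht d h1 t2)).sub (In.mul ht d h2 m)).congr (by
    simp only [tau3, haz1, mu, Int.cast_ofNat])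
  have u := In.one.add t1
  have n : In t (nf l) _ := t1.add (In.mul ht d h3 t2)
  have n1 : In t (nf1 l) _ := ((In.mul ht d t2 u).add (In.mul ht d h3 t3)).congr (by rw [nf1]; ring)
  have e1 := In.leq ht t1 c1
  have e2 := In.geq ht t2 c2
  push_cast at e1 e2
  exact ⟨nfOK_sound ht one_pos (m.congr (div_one _).symm) t2 (t2.congr (div_one _).symm) (t3.congr (div_one _).symm)
      (n1.congr (div_one _).symm) t1 e1 (by linarith) c3,
    pOK_sound ht one_pos In.one (h1.congr (one_mul _).symm) ((In.mul ht d h3 u).congr (one_mul _).symm) n t2 c4,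
    rOK_sound ht one_pos In.one (h3.congr (one_mul _).symm) ((In.mul ht d h3 h2).congr (by rw [Tf_eq]; ring))
      ((In.mul ht d h1 h3).congr (by ring)) h1 (by linarith) (h2.congr (one_mul _).symm) t1 t2 c5⟩

/-- The cell `ρ ∈ [a/1024, b/1024]`; the parameter of `ρ` is `tc a b (128 ρ)`. -/
noncomputable def linR (a b : ℕ) : TM := sd 128 (linL a b)

theorem linR_at {a b : ℕ} (hab : a < b) {ρ : ℝ} (h1 : (a : ℝ) / 1024 ≤ ρ) (h2 : ρ ≤ (b : ℝ) / 1024) :
    |tc a b (128 * ρ)| ≤ 1 ∧ In (tc a b (128 * ρ)) ρ (linR a b) := by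
  have ht : |tc a b (128 * ρ)| ≤ 1 := abs_tc_le hab (by linarith) (by linarith)
  exact ⟨ht, (In.sd ht 128 (In.linL hab _)).congr (by push_cast; ring)⟩

end Crest.Agent.R253.Nm
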