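/-
Row 253, numerics, file NumNeg: the tail `l ≤ -7`.  Definitions and statements FROZEN.

Recipe for `neg_tail`.  `x ≥ 7`, `h = haz (-x)`, `u = mills x * h`.  By `mills_add`,
`Tf (-x) = log (mills x + mills (-x)) - log (mills (-x)) = log (1 + u)`, so `tau (-x) = log (1 + u)/h = mills x (1 - δ)`
with `0 ≤ δ ≤ u/2 ≤ h/(2x)` (`u - u²/2 ≤ log (1+u) ≤ u`, `mills x ≤ 1/x`).  `gauss_tail`: `x² h ≤ 1e-8`, and
`x³ h ≤ x² haz1 (-x) ≤ 1e-7` as `haz1 (-x) = h (h + x)`.  With `s1 = sk 0 x`, `s2 = sk 1 x`, `v = 1/x²`,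
`m0 = (1 + v s1)⁻¹ = x mills x` (`haz x = x + rk 0 x`), `1 - m0 = v s1 m0`, `1 - s1 = v s2 s1` (`cfa_sk 0`).
`tau1 (-x) = 1 - τ (h + x)`, `tau2 (-x) = τ - h - x tau1 (-x)`.

Recipe for `negOK_sound`.  `ρ = 1/x`, `linR_at`, `In.cfT`, `In.cfS` (with `V0 = ρ²`), `In.wid` with `neg_tail`:
`a0 ∋ x τ`, `Bq ∋ x² τ'`, `A ∋ x³ τ''`, `tiny ∋ haz (-x), Tf (-x), haz1 (-x)`; `τ''' = v (2 Bq - A) - haz1 (-x)`.
`NFAt`: `mu (-x) ≥ x ≥ 7`; `c1` from `τ'' ≤ 88/1000`; `c6` from `v³ A² ≤ .165² Bq`, `c7` from `v A² ≤ .67² Bq³`.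
`pOK_sound` with `ρ = 1/x` (`ρ l = -1`), `rOK_sound` with `ρ = 1`, `y = -1024/b ≥ -x`, `l τ = - x τ`.
-/
import Crest.Agent.R253.NumGen

set_option autoImplicit false

namespace Crest.Agent.R253.Nm

open Crest.Agent.R203N Crest.Agent.R203N.Num TM

theorem negA_log {u : ℝ} (hu : 0 ≤ u) : u - u ^ 2 / 2 ≤ Real.log (1 + u) ∧ Real.log (1 + u) ≤ u := by
  refine ⟨?_, (Real.log_le_sub_one_of_pos (by linarith)).trans_eq (by ring)⟩
  have h1 := Real.le_log_one_add_of_nonneg hu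
  refine le_trans ?_ h1
  rw [le_div_iff₀ (by linarith)]
  nlinarith [mul_nonneg hu (mul_nonneg hu hu)]

theorem negA_T (x : ℝ) : Tf (-x) = Real.log (1 + mills x * haz (-x)) := by
  have h1 := mills_pos (-x)
  have h2 : 1 + mills x * haz (-x) = Real.sqrt (2 * Real.pi) * Real.exp (x ^ 2 / 2) * haz (-x) := by
    rw [← mills_add, haz]
    field_simp
    ring
  have h3 : 0 < Real.sqrt (2 * Real.pi) := Real.sqrt_pos.2 (by positivity)
  rw [h2, Real.log_mul (by positivity) (haz_pos _).ne', Real.log_mul h3.ne' (Real.exp_pos _).ne', Real.log_exp,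
    Real.log_sqrt (by positivity), Tf, neg_sq]
  ring

theorem negA_alg {x h M τ : ℝ} (hx : 7 ≤ x) (hh : 0 < h) (hM : 0 < M) (hxM : x * M < 1)
    (g1 : x ^ 2 * h ≤ 1 / 10 ^ 8) (g2 : x ^ 2 * (h * (h + x)) ≤ 1 / 10 ^ 7) (l0 : 0 ≤ τ * h)
    (l1 : M * h - (M * h) ^ 2 / 2 ≤ τ * h) (l2 : τ * h ≤ M * h) :
    |τ - M| ≤ 1 / 10 ^ 10 ∧ |x * τ - x * M| ≤ 1 / 10 ^ 9 ∧
    |x ^ 2 * (1 - τ * (h + x)) - x ^ 2 * (1 - x * M)| ≤ 1 / 10 ^ 8 ∧
    |x ^ 3 * (τ - h - x * (1 - τ * (h + x))) - (x ^ 2 * (x * M) - x ^ 2 * (x ^ 2 * (1 - x * M)))| ≤ 1 / 10 ^ 6 ∧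
    |h| ≤ 1 / 10 ^ 8 ∧ |τ * h| ≤ 1 / 10 ^ 8 ∧ |h * (h + x)| ≤ 1 / 10 ^ 8 := by
  have h0 : 0 < x := by linarith
  have t0 : 0 ≤ τ := nonneg_of_mul_nonneg_left l0 hh
  have t1 : τ ≤ M := le_of_mul_le_mul_right l2 hh
  have t2 : M - τ ≤ M ^ 2 * h / 2 := by
    refine le_of_mul_le_mul_right ?_ hh
    calc (M - τ) * h = M * h - τ * h := by ring
      _ ≤ (M * h) ^ 2 / 2 := by linarith
      _ = _ := by ring
  obtain ⟨D, hD⟩ : ∃ D, D = M - τ := ⟨_, rfl⟩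
  have hD0 : 0 ≤ D := by linarith
  have q1 : (49 : ℝ) ≤ x ^ 2 := by
    have := pow_le_pow_left₀ (by norm_num) hx 2
    norm_num at this
    exact this
  have d2 : x ^ 2 * D ≤ h / 2 := by
    have a1 : (x * M) ^ 2 ≤ 1 := pow_le_one₀ (by positivity) hxM.le
    calc x ^ 2 * D ≤ x ^ 2 * (M ^ 2 * h / 2) := mul_le_mul_of_nonneg_left (hD ▸ t2) (by positivity)
      _ = (x * M) ^ 2 * (h / 2) := by ring
      _ ≤ 1 * (h / 2) := mul_le_mul_of_nonneg_right a1 (by positivity)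
      _ = _ := one_mul _
  have b0 : 49 * h ≤ x ^ 2 * h := mul_le_mul_of_nonneg_right q1 hh.le
  have b1 : 7 * (x * h) ≤ x ^ 2 * h :=
    (mul_le_mul_of_nonneg_right hx (by positivity)).trans_eq (by ring)
  have b3 : x ^ 3 * h ≤ 1 / 10 ^ 7 := by
    refine le_trans ?_ g2
    calc x ^ 3 * h = x ^ 2 * (h * (0 + x)) := by ring
      _ ≤ _ := by gcongr
  have d0 : 49 * D ≤ x ^ 2 * D := mul_le_mul_of_nonneg_right q1 hD0
  have d1' : 0 ≤ x * D := mul_nonneg h0.le hD0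
  have d1 : 7 * (x * D) ≤ x ^ 2 * D := (mul_le_mul_of_nonneg_right hx d1').trans_eq (by ring)
  have d3 : x ^ 3 * D ≤ x * h / 2 :=
    (Eq.trans_le (by ring) (mul_le_mul_of_nonneg_left d2 h0.le)).trans_eq (by ring)
  have d3' : 0 ≤ x ^ 3 * D := by positivity
  have d5 : x ^ 5 * D ≤ x ^ 3 * h / 2 :=
    (Eq.trans_le (by ring) (mul_le_mul_of_nonneg_left d2 (pow_pos h0 3).le)).trans_eq (by ring)
  have d5' : 0 ≤ x ^ 5 * D := by positivity
  have c0 : x * τ ≤ 1 := (mul_le_mul_of_nonneg_left t1 h0.le).trans hxM.le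
  have c2 : x ^ 2 * τ * h ≤ x * h :=
    (Eq.trans_le (by ring) (mul_le_mul_of_nonneg_right c0 (mul_pos h0 hh).le)).trans_eq (one_mul _)
  have c2' : 0 ≤ x ^ 2 * τ * h := by positivity
  have c4 : x ^ 4 * τ * h ≤ x ^ 3 * h :=
    (Eq.trans_le (by ring) (mul_le_mul_of_nonneg_right c0 (mul_pos (pow_pos h0 3) hh).le)).trans_eq (one_mul _)
  have c4' : 0 ≤ x ^ 4 * τ * h := by positivity
  have b3' : 0 ≤ x ^ 3 * h := by positivity
  have c1 : 7 * (τ * h) ≤ h :=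
    (mul_le_mul_of_nonneg_right hx l0).trans
      ((Eq.trans_le (by ring) (mul_le_mul_of_nonneg_right c0 hh.le)).trans_eq (one_mul _))
  have b4' : 0 ≤ h * (h + x) := by positivity
  have b4 : 49 * (h * (h + x)) ≤ x ^ 2 * (h * (h + x)) := mul_le_mul_of_nonneg_right q1 b4'
  have f1 : τ - M = -D := by rw [hD]; ring
  have f2 : x * τ - x * M = -(x * D) := by rw [hD]; ring
  have f3 : x ^ 2 * (1 - τ * (h + x)) - x ^ 2 * (1 - x * M) = x ^ 3 * D - x ^ 2 * τ * h := by rw [hD]; ring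
  have f4 : x ^ 3 * (τ - h - x * (1 - τ * (h + x))) - (x ^ 2 * (x * M) - x ^ 2 * (x ^ 2 * (1 - x * M)))
      = -(x ^ 3 * D) - x ^ 3 * h - x ^ 5 * D + x ^ 4 * τ * h := by rw [hD]; ring
  rw [f1, f2, f3, f4]
  clear f1 f2 f3 f4 hD t2 l1 l2 t1
  refine ⟨?_, ?_, ?_, ?_, ?_, ?_, ?_⟩ <;> rw [abs_le] <;> constructor <;> linarith

theorem neg_tail {x : ℝ} (hx : 7 ≤ x) :
    |tau (-x) - mills x| ≤ 1 / 10 ^ 10 ∧
    |x * tau (-x) - (1 + 1 / x ^ 2 * sk 0 x)⁻¹| ≤ 1 / 10 ^ 9 ∧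
    |x ^ 2 * tau1 (-x) - sk 0 x * (1 + 1 / x ^ 2 * sk 0 x)⁻¹| ≤ 1 / 10 ^ 8 ∧
    |x ^ 3 * tau2 (-x) - sk 0 x * (1 + 1 / x ^ 2 * sk 0 x)⁻¹ * sk 1 x| ≤ 1 / 10 ^ 6 ∧
    |haz (-x)| ≤ 1 / 10 ^ 8 ∧ |Tf (-x)| ≤ 1 / 10 ^ 8 ∧ |haz1 (-x)| ≤ 1 / 10 ^ 8 := by
  have h0 : 0 < x := by linarith
  obtain ⟨g1, g2, -⟩ := gauss_tail hx
  have hh := haz_pos (-x)
  have hM := mills_pos x
  have hxM := Mills_mul_lt x
  have e1 : haz1 (-x) = haz (-x) * (haz (-x) + x) := by rw [haz1, sub_neg_eq_add]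
  have eT := negA_T x
  have hu : 0 ≤ mills x * haz (-x) := by positivity
  obtain ⟨l1, l2⟩ := negA_log hu
  have l0 : 0 ≤ Real.log (1 + mills x * haz (-x)) := Real.log_nonneg (by linarith)
  rw [← eT] at l0 l1 l2
  have em : (1 + 1 / x ^ 2 * sk 0 x)⁻¹ = x * mills x := by
    have : 1 + 1 / x ^ 2 * sk 0 x = (x * mills x)⁻¹ := by
      rw [sk, rk, haz]
      field_simp
      ring
    rw [this, inv_inv]
  have es : sk 0 x * (x * mills x) = x ^ 2 * (1 - x * mills x) := by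
    rw [sk, rk, haz]
    field_simp
  have es2 : sk 0 x * sk 1 x = x ^ 2 * (1 - sk 0 x) := by
    have h1 := cfa_sk 0 h0
    have h2 : 0 < 1 + 1 / x ^ 2 * sk 1 x := by
      have : 0 ≤ 1 / x ^ 2 * sk 1 x := mul_nonneg (by positivity) (mul_nonneg h0.le (rk_pos _ h0.le).le)
      linarith
    have h3 : sk 0 x * (1 + 1 / x ^ 2 * sk 1 x) = 1 := by
      rw [h1, Nat.cast_zero, zero_add, one_mul, zero_add, inv_mul_cancel₀ h2.ne']
    have h4 : x ^ 2 * (sk 0 x * (1 + 1 / x ^ 2 * sk 1 x)) = x ^ 2 * sk 0 x + sk 0 x * sk 1 x := by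
      field_simp
    rw [h3] at h4
    linarith
  have et1 : tau1 (-x) = 1 - tau (-x) * (haz (-x) + x) := by rw [tau1, mu, sub_neg_eq_add]
  have et2 : tau2 (-x) = tau (-x) - haz (-x) - x * tau1 (-x) := by rw [tau2]; ring
  have eτ := Tf_eq (-x)
  rw [em, es, et2, et1, e1]
  rw [e1] at g2
  have e4 : x ^ 2 * (1 - x * mills x) * sk 1 x = x ^ 2 * (x * mills x) - x ^ 2 * (x ^ 2 * (1 - x * mills x)) := by
    rw [← es]
    linear_combination (x * mills x) * es2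
  rw [e4]
  rw [eτ] at l0 l1 l2 ⊢
  exact negA_alg hx hh hM hxM g1 g2 l0 l1 l2

noncomputable def t7 : TM := wid 1 10000000000 (inv 1 h7)

theorem in_t7 : In 0 (tau (-7)) t7 := by
  refine In.wid (In.inv (by norm_num) 1 In.h7) ?_
  have := (neg_tail (x := 7) le_rfl).1
  rw [haz, inv_inv]
  exact this.trans (by norm_num)

noncomputable def negOK (d nc a b : ℕ) : Bool :=
  let rho := linR a b
  let v := mul d rho rho
  let s2 := cfT d v nc 1
  let s1 := cfS d v 0 s2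
  let m0 := inv d (add one (mul d v s1))
  let a0 := wid 1 1000000000 m0
  let sm0 := mul d s1 m0
  let Bq := wid 1 100000000 sm0
  let A := wid 1 1000000 (mul d sm0 s2)
  let tiny := wid 1 100000000 (cst 0)
  let ta := mul d rho a0
  let t1 := mul d v Bq
  let t2 := mul d rho (mul d v A)
  let t3 := sub (mul d v (sub (sm 2 Bq) A)) tiny
  let u := add one t1
  let n := add t1 (mul d ta t2)
  let n1 := add (mul d t2 u) (mul d ta t3)
  let A2 := mul d v (mul d A A)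
  decide (a < b) && Bq.geq 1 2 && A.geq 0 1 && t1.leq 1 2 && t2.leq 88 1000 && t3.abq 287 1000 &&
    n1.abq 651 1000 && (sub (sm 27225 Bq) (sm 1000000 (mul d v (mul d v A2)))).geq 0 1 &&
    (sub (sm 4489 (mul d Bq (mul d Bq Bq))) (sm 10000 A2)).geq 0 1 &&
    pOK d (mkBP d rho (int (-1)) (mul d (mul d rho ta) u) n t2) &&
    rOK d (mkBR d one ta tiny (sm (-1) a0) (cq (-1024) b) tiny t1 t2)

theorem negOK_sound {d nc a b : ℕ} (h : negOK d nc a b = true) {x : ℝ} (hx : 7 ≤ x)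
    (h1 : (a : ℝ) / 1024 ≤ 1 / x) (h2 : 1 / x ≤ (b : ℝ) / 1024) : Good (-x) := by
  simp only [negOK, Bool.and_eq_true, decide_eq_true_eq] at h
  obtain ⟨⟨⟨⟨⟨⟨⟨⟨⟨⟨hab, c1⟩, c2⟩, c3⟩, c4⟩, c5⟩, c6⟩, c7⟩, c8⟩, c9⟩, c10⟩ := h
  obtain ⟨ht, hρ⟩ := linR_at hab h1 h2
  generalize tc a b (128 * (1 / x)) = t at ht hρ
  have hx0 : 0 < x := by linarith
  have hx1 := hx0.ne'
  obtain ⟨-, n2, n3, n4, n5, n6, n7⟩ := neg_tail hx
  have hv := (In.mul ht d hρ hρ).congr (w := 1 / x ^ 2) (by field_simp)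
  have hs2 := In.cfT ht hx0 d hv nc 1
  have hs1 := In.cfS ht hx0 d hv (k := 0) hs2
  have hm0 := In.inv ht d (In.one.add (In.mul ht d hv hs1))
  have ha0 := In.wid (a := 1) (b := 1000000000) hm0 (n2.trans (by norm_num))
  have hsm := In.mul ht d hs1 hm0
  have hB := In.wid (a := 1) (b := 100000000) hsm (n3.trans (by norm_num))
  have hA := In.wid (a := 1) (b := 1000000) (In.mul ht d hsm hs2) (n4.trans (by norm_num))
  have hty : ∀ w : ℝ, |w| ≤ 1 / 10 ^ 8 → In t w (wid 1 100000000 (cst 0)) := fun w hw =>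
    In.wid (In.cst 0) (by simpa using hw.trans (by norm_num))
  have hta := (In.mul ht d hρ ha0).congr (w := tau (-x)) (by field_simp)
  have ht1 := (In.mul ht d hv hB).congr (w := tau1 (-x)) (by field_simp)
  have ht2 := (In.mul ht d hρ (In.mul ht d hv hA)).congr (w := tau2 (-x)) (by field_simp)
  have ht3 := ((In.mul ht d hv ((In.sm 2 hB).sub hA)).sub (hty _ n7)).congr (w := tau3 (-x)) (by
    rw [tau3]
    push_cast
    field_simp
    ring)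
  have hu := In.one.add ht1
  have hn := (ht1.add (In.mul ht d hta ht2)).congr (w := nf (-x)) rfl
  have hn1 := ((In.mul ht d ht2 hu).add (In.mul ht d hta ht3)).congr (w := nf1 (-x)) (by
    rw [nf1]
    ring)
  have hA2 := (In.mul ht d hv (In.mul ht d hA hA)).congr (w := x ^ 4 * tau2 (-x) ^ 2) (by field_simp)
  have k1 := In.geq ht hB c1
  have k2 := In.geq ht hA c2
  have k3 := In.leq ht ht1 c3
  have k4 := In.leq ht ht2 c4
  have k5 := In.abq ht ht3 c5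
  have k6 := In.abq ht hn1 c6
  have k7 := In.geq ht ((In.sm 27225 hB).sub (In.sm 1000000
    ((In.mul ht d hv (In.mul ht d hv hA2)).congr (w := tau2 (-x) ^ 2) (by field_simp)))) c7
  have k8 := In.geq ht ((In.sm 4489 (In.mul ht d hB (In.mul ht d hB hB))).sub (In.sm 10000 hA2)) c8
  push_cast at k1 k2 k3 k4 k5 k6 k7 k8
  have hmu : x ≤ mu (-x) := by
    have := haz_pos (-x)
    rw [mu]
    linarith
  have p1 : 0 < tau1 (-x) := (mul_pos_iff_of_pos_left (by positivity : 0 < x ^ 2)).1 (by linarith)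
  have p2 : 0 ≤ tau2 (-x) := nonneg_of_mul_nonneg_right (a := x ^ 3) (by linarith) (by positivity)
  have q : x ^ 2 ≤ mu (-x) ^ 2 := pow_le_pow_left₀ hx0.le hmu 2
  refine ⟨⟨p1, k3, p2, k4, by linarith, by linarith, by linarith, ?_, ?_⟩,
    pOK_sound ht (by positivity) hρ ((In.int (-1)).congr (by push_cast; field_simp))
      ((In.mul ht d (In.mul ht d hρ hta) hu).congr (by rw [vf]; ring)) hn ht2 c9,
    rOK_sound (y := ((-1024 : ℤ) : ℝ) / b) ht one_pos In.one (hta.congr (by ring)) ((hty _ n6).congr (by ring))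
      ((In.sm (-1) ha0).congr (by push_cast; ring)) (In.cq _ _) ?_ ((hty _ n5).congr (by ring)) ht1 ht2 c10⟩
  · have := mul_le_mul_of_nonneg_right q p1.le
    linarith
  · have h3 := mul_le_mul_of_nonneg_right q (pow_pos p1 3).le
    have h4 : x ^ 4 * (10000 * tau2 (-x) ^ 2) ≤ x ^ 4 * (4489 * (x ^ 2 * tau1 (-x) ^ 3)) := by linarith
    have h5 := le_of_mul_le_mul_left h4 (by positivity)
    linarith
  · have hb : (0 : ℝ) < b := by exact_mod_cast (Nat.zero_le a).trans_lt hab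
    rw [div_le_div_iff₀ hx0 (by norm_num)] at h2
    rw [le_div_iff₀ hb]
    push_cast
    linarith

/-- A check on consecutive cells `[a₁, b], [a₂, a₁], …, [0, aₙ]`. -/
noncomputable def allOK (f : ℕ → ℕ → Bool) (as : List ℕ) : ℕ → Bool :=
  List.rec (fun b => f 0 b) (fun a _ ih b => f a b && ih a) as

theorem allOK_cover {f : ℕ → ℕ → Bool} {as : List ℕ} {b : ℕ} (h : allOK f as b = true) {ρ : ℝ}
    (h0 : 0 ≤ ρ) (h2 : ρ ≤ (b : ℝ) / 1024) :
    ∃ a b' : ℕ, f a b' = true ∧ (a : ℝ) / 1024 ≤ ρ ∧ ρ ≤ (b' : ℝ) / 1024 := by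
  induction as generalizing b with
  | nil => exact ⟨0, b, h, by simpa using h0, h2⟩
  | cons a as ih =>
    have h' : (f a b && allOK f as a) = true := h
    rw [Bool.and_eq_true] at h'
    rcases le_total ρ ((a : ℝ) / 1024) with h3 | h3
    · exact ih h'.2 h3
    · exact ⟨a, b, h'.1, h3, h2⟩

end Crest.Agent.R253.Nm
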