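/-
Row 253, numerics, file NumPos: the tail `l ≥ 7`.  Definitions and statements FROZEN.

Notation: `ρ = 1/l`, `v = ρ²`, `s1 = sk 0 l`, `s2 = sk 1 l`, `s3 = sk 2 l` (`sk k l = l * rk k l`, `rk 0 = mu`,
`cfa_sk : sk k = (k+1) (1 + v sk (k+1))⁻¹`, so `0 < sk k ≤ k+1`, `1 - s1 = v s1 s2`, `2 - s2 = v s2 s3`),
`ρ haz l = 1 + v s1`, `m0 = (1 + v s1)⁻¹`, `W = v Tf l = 1/2 + v Lg`, `Lg = log (haz l) + log (2π)/2`, `r = ρ τ = W m0`.

`pos_form`: `τ' = 1 - r s1`, `τ''/μ = r s2 - 1`, `τ'''/μ = ρ (2 s2 - s1 - r s2 s3)` (use `rk 1 = 1/μ - l`,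
`rk 2 = 2/rk 1 - l`, `haz1 = haz μ`; `field_simp; ring`).
`pos_sign`: `1/2 - τ' = v m0 s1 (Lg - (1 + s2)/2)`, `τ''/μ = v m0 (s2 (Lg - s3/2) - s1)`, with `Lg ≥ log 7 + 9/10 ≥ 28/10`,
`s2 ≥ 2/(1 + 3/49)`.
`om_far`: `haz l ≤ l + 1`, `log y ≤ 7 log 2 + y/128 - 1`.
`in_c0T`: `log (2π)/2 = 0.918938…`.
`in_WT`: `log (haz l) = log M - log (M ρ) + log (1 + v s1)` with `M = ⌊2048·2^96/(a+b)⌋/2^96 > 0` (from `a ≠ 0`,
`b ≤ 1024`), `nlog u = -log (1 - u)`.
`posOK_sound`: `nfOK_sound` with `σ = mu l`, `μ = ρ s1`, `n'/μ = q2 (1 + τ') + r z`, `n = τ' + r s1 q2`,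
`pOK_sound`, `rOK_sound` with `ρ = 1/l`, `y = ρ`.
-/
import Crest.Agent.R253.NumNeg

set_option autoImplicit false

namespace Crest.Agent.R253.Nm

open Crest.Agent.R203N Crest.Agent.R203N.Num TM

theorem posa_rel {l : ℝ} (hl : 0 < l) : rk 0 l = mu l ∧ mu l * rk 1 l = 1 - l * mu l ∧
    rk 1 l * rk 2 l = 2 - l * rk 1 l ∧ rk 2 l * rk 3 l = 3 - l * rk 2 l := by
  have h : ∀ k : ℕ, rk k l * rk (k + 1) l = (k + 1) - l * rk k l := fun k => by
    have := (rk_pos k hl.le).ne'
    rw [rk]; field_simp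
  refine ⟨rfl, ?_, ?_, ?_⟩
  · have := h 0
    rw [show rk 0 l = mu l from rfl] at this
    simpa using this
  · have := h 1
    norm_num at this
    exact this
  · have := h 2
    norm_num at this
    exact this

theorem pos_form {l : ℝ} (hl : 0 < l) :
    1 / l * haz l = 1 + 1 / l ^ 2 * sk 0 l ∧ mu l = 1 / l * sk 0 l ∧
    1 / l * tau l = 1 / l ^ 2 * Tf l * (1 + 1 / l ^ 2 * sk 0 l)⁻¹ ∧
    tau1 l = 1 - 1 / l * tau l * sk 0 l ∧ tau2 l / mu l = 1 / l * tau l * sk 1 l - 1 ∧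
    tau3 l / mu l = 1 / l * (2 * sk 1 l - sk 0 l - 1 / l * tau l * sk 1 l * sk 2 l) := by
  obtain ⟨e0, e1, e2, -⟩ := posa_rel hl
  have hm := (mu_pos l).ne'
  have hh := (haz_pos l).ne'
  have hl' := hl.ne'
  have a1 : 1 / l * haz l = 1 + 1 / l ^ 2 * sk 0 l := by
    rw [sk, e0, mu]; field_simp; ring
  have b1 : 1 / l * tau l * sk 1 l = tau l * rk 1 l := by rw [sk]; field_simp
  have b2 : 1 / l * (2 * sk 1 l - sk 0 l - tau l * rk 1 l * sk 2 l) =
      2 * rk 1 l - mu l - tau l * (rk 1 l * rk 2 l) := by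
    rw [sk, sk, sk, e0]; field_simp
  have hz : haz l = l + mu l := by rw [mu]; ring
  refine ⟨a1, ?_, ?_, ?_, ?_, ?_⟩
  · rw [sk, e0]; field_simp
  · rw [← a1, tau]; field_simp
  · rw [tau1, sk, e0]; field_simp
  · rw [b1, div_eq_iff hm, tau2, tau1, hz]
    linear_combination (-tau l) * e1
  · rw [b1, b2, div_eq_iff hm, tau3, tau2, tau1, haz1, ← mu, hz]
    linear_combination (-2 - tau l * l) * e1 + tau l * mu l * e2

theorem pos_sign {l : ℝ} (hl : 7 ≤ l) : tau1 l ≤ 1 / 2 ∧ 0 ≤ tau2 l := by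
  have hl0 : 0 < l := by linarith
  obtain ⟨-, e1, e2, e3⟩ := posa_rel hl0
  have hm := mu_pos l
  have hh := haz_pos l
  have p1 := rk_pos 1 hl0.le
  have p2 := rk_pos 2 hl0.le
  have p3 := rk_pos 3 hl0.le
  have hz : haz l = l + mu l := by rw [mu]; ring
  have s1 : l * mu l ≤ 1 := by nlinarith [mul_pos hm p1]
  have s2 : l * rk 1 l ≤ 2 := by nlinarith [mul_pos p1 p2]
  have s3 : l * rk 2 l ≤ 3 := by nlinarith [mul_pos p2 p3]
  have s2' : 188 / 100 ≤ l * rk 1 l := by
    have h1 : rk 2 l ≤ 3 / 49 * l := by nlinarith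
    have h2 : rk 1 l * rk 2 l ≤ rk 1 l * (3 / 49 * l) := mul_le_mul_of_nonneg_left h1 p1.le
    nlinarith
  obtain ⟨L, hL, hT⟩ : ∃ L : ℝ, 207 / 100 ≤ L ∧ Tf l = L + l ^ 2 / 2 := by
    refine ⟨Real.log (haz l) + Real.log (2 * Real.pi) / 2, ?_, by rw [Tf]; ring⟩
    have h4 : Real.log 4 = 2 * Real.log 2 := by
      rw [show (4 : ℝ) = 2 ^ 2 by norm_num, Real.log_pow]; norm_num
    have h1 : Real.log 4 ≤ Real.log (haz l) := Real.log_le_log (by norm_num) (by linarith)
    have h2 : Real.log 4 ≤ Real.log (2 * Real.pi) :=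
      Real.log_le_log (by norm_num) (by linarith [Real.pi_gt_three])
    linarith [Real.log_two_gt_d9]
  constructor
  · have h1 : haz l / 2 ≤ Tf l * mu l := by
      have h2 : Tf l * mu l - haz l / 2 = mu l * (L - (1 + l * rk 1 l) / 2) := by
        rw [hT, hz]; linear_combination (l / 2) * e1
      have h3 : 0 ≤ mu l * (L - (1 + l * rk 1 l) / 2) := mul_nonneg hm.le (by linarith)
      linarith
    have h2 : 1 / 2 ≤ tau l * mu l := by
      rw [tau, div_mul_eq_mul_div, le_div_iff₀ hh]; linarith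
    rw [tau1]; linarith
  · have h1 : haz l ≤ Tf l * rk 1 l := by
      have h2 : l * (Tf l * rk 1 l - haz l) = l * rk 1 l * (L - l * rk 2 l / 2) - l * mu l := by
        rw [hT, hz]; linear_combination (l ^ 2 / 2) * e2
      have h3 : 188 / 100 * (57 / 100) ≤ l * rk 1 l * (L - l * rk 2 l / 2) :=
        mul_le_mul s2' (by linarith) (by norm_num) (by linarith)
      have h4 : 0 ≤ l * (Tf l * rk 1 l - haz l) := by linarith
      have := nonneg_of_mul_nonneg_right h4 hl0
      linarith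
    have h2 : 1 ≤ tau l * rk 1 l := by
      rw [tau, div_mul_eq_mul_div, le_div_iff₀ hh]; linarith
    have h3 : tau2 l = mu l * (tau l * rk 1 l - 1) := by
      rw [tau2, tau1, hz]; linear_combination (-tau l) * e1
    rw [h3]
    exact mul_nonneg hm.le (by linarith)

theorem NumPosb_log : |Real.log (2 * Real.pi) / 2 - 9189 / 10000| ≤ 1 / 10000 := by
  have e : Real.log (2 * Real.pi) = 3 * Real.log 2 + Real.log (Real.pi / 4) := by
    rw [show 2 * Real.pi = 2 ^ 3 * (Real.pi / 4) by ring, Real.log_mul (by norm_num) (by positivity),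
      Real.log_pow]
    norm_num
  have h1 : Real.log (1 - 214602 / 1000000) ≤ Real.log (Real.pi / 4) :=
    Real.log_le_log (by norm_num) (by linarith [Real.pi_gt_d6])
  have h2 : Real.log (Real.pi / 4) ≤ Real.log (1 - 2146 / 10000) :=
    Real.log_le_log (by positivity) (by linarith [Real.pi_lt_d6])
  have h3 := Real.abs_log_sub_add_sum_range_le (x := 214602 / 1000000)
    (by rw [abs_of_pos] <;> norm_num) 6
  have h4 := Real.abs_log_sub_add_sum_range_le (x := 2146 / 10000)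
    (by rw [abs_of_pos] <;> norm_num) 6
  rw [abs_of_pos (by norm_num : (0 : ℝ) < 214602 / 1000000)] at h3
  rw [abs_of_pos (by norm_num : (0 : ℝ) < 2146 / 10000)] at h4
  simp only [Finset.sum_range_succ, Finset.sum_range_zero] at h3 h4
  have h5 := (abs_le.1 h3).1
  have h6 := (abs_le.1 h4).2
  have h7 := Real.log_two_gt_d9
  have h8 := Real.log_two_lt_d9
  norm_num at h5 h6 h1 h2 h7 h8 ⊢
  rw [abs_le]
  constructor <;> linarith

theorem om_far {l : ℝ} (hl : 85 ≤ l) :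
    0 ≤ 1 / l ^ 2 * Tf l - 1 / 2 ∧ 1 / l ^ 2 * Tf l - 1 / 2 ≤ 9 / 10000 := by
  have hl0 : 0 < l := by linarith
  have e : 1 / l ^ 2 * Tf l - 1 / 2 = (Real.log (haz l) + Real.log (2 * Real.pi) / 2) / l ^ 2 := by
    unfold Tf
    field_simp
    ring
  have h1 := abs_le.1 NumPosb_log
  have h2 : 0 ≤ Real.log (haz l) := Real.log_nonneg (by linarith [haz_sub_pos l])
  have h3 : haz l ≤ l + 1 := by
    have h4 := Mills_lower l
    have h5 := mills_pos l
    rw [haz, inv_le_comm₀ h5 (by linarith), inv_le_iff_one_le_mul₀ (by linarith)]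
    have h6 : l * 1 ≤ l * (mills l * (l + 1)) := by nlinarith
    exact le_of_mul_le_mul_left h6 hl0
  have h4 : Real.log (haz l) ≤ 7 * Real.log 2 + (haz l / 128 - 1) := by
    have h5 := Real.log_le_sub_one_of_pos (x := haz l / 128) (by have := haz_pos l; positivity)
    rw [Real.log_div (haz_pos l).ne' (by norm_num), show (128 : ℝ) = 2 ^ 7 by norm_num,
      Real.log_pow] at h5
    norm_num at h5 ⊢
    linarith
  have h5 := Real.log_two_lt_d9
  rw [e]
  refine ⟨div_nonneg (by linarith) (by positivity), ?_⟩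
  rw [div_le_iff₀ (by positivity)]
  norm_num at h5
  nlinarith

noncomputable def c0T : TM := wid 1 10000 (cq 9189 10000)

theorem in_c0T (t : ℝ) : In t (Real.log (2 * Real.pi) / 2) c0T := by
  refine In.wid (In.cq 9189 10000) ?_
  have := NumPosb_log
  norm_num at this ⊢
  exact this

/-- Enclosure of `W = ρ² T`; `w` encloses `v s1`. -/
noncomputable def WT (d a b : ℕ) (rho v w : TM) : TM :=
  Nat.rec (wid 9 20000 (add (cq 10009 20000) (upto (Nat.ble b 12) 0)))
    (fun _ _ =>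
      let M := Nat.div (Nat.mul 2048 ONE) (Nat.add a b)
      add (cq 1 2) (mul d v (add (sub (add (logc M) (nlog d 8 (sub one (mul d (cst (Int.ofNat M)) rho))))
        (nlog d 6 (sm (-1) w))) c0T))) a

theorem in_WT {t l : ℝ} (ht : |t| ≤ 1) (hl : 0 < l) {d a b : ℕ} (hab : a < b) (hb : b ≤ 1024)
    (h2 : 1 / l ≤ (b : ℝ) / 1024) {rho v w : TM} (k1 : In t (1 / l) rho) (k2 : In t (1 / l ^ 2) v)
    (k3 : In t (1 / l ^ 2 * sk 0 l) w) : In t (1 / l ^ 2 * Tf l) (WT d a b rho v w) := by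
  cases a with
  | zero =>
    change In t _ (wid 9 20000 (add (cq 10009 20000) (upto (Nat.ble b 12) 0)))
    by_cases hb12 : b ≤ 12
    · have h3 : (b : ℝ) ≤ 12 := by exact_mod_cast hb12
      have h4 : 85 ≤ l := by
        have h5 : 1 / l ≤ 12 / 1024 := h2.trans (by linarith)
        rw [div_le_div_iff₀ hl (by norm_num)] at h5
        linarith
      refine In.wid ((In.cq 10009 20000).add (In.upto (v := 0) fun _ => ⟨le_rfl, by simp⟩)) ?_
      obtain ⟨h5, h6⟩ := om_far h4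
      rw [abs_le]
      push_cast
      constructor <;> linarith
    · intro h
      have h4 : and (Nat.blt 0 20000) (Nat.ble b 12) = true := (tma_and h).1
      have h3 : Nat.ble b 12 = true := (tma_and h4).2
      exact absurd (Nat.ble_eq ▸ h3) hb12
  | succ k =>
    have hM : 0 < Nat.div (Nat.mul 2048 ONE) (Nat.add (k + 1) b) := by
      refine Nat.div_pos ?_ (Nat.add_pos_left (Nat.succ_pos k) b)
      show k + 1 + b ≤ 2048 * ONE
      have : 1 ≤ ONE := by decide
      omega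
    change In t _ ((fun M : ℕ => add (cq 1 2) (mul d v (add (sub (add (logc M)
      (nlog d 8 (sub one (mul d (cst (Int.ofNat M)) rho)))) (nlog d 6 (sm (-1) w))) c0T)))
      (Nat.div (Nat.mul 2048 ONE) (Nat.add (k + 1) b)))
    generalize Nat.div (Nat.mul 2048 ONE) (Nat.add (k + 1) b) = M at hM
    have hM' : (0 : ℝ) < M / 2 ^ 96 := by positivity
    refine ((In.cq 1 2).add (k2.mul ht d ((((In.logc ht M).add ((In.one.sub
      ((In.cst (Int.ofNat M)).mul ht d k1)).nlog ht d 8)).sub ((k3.sm (-1)).nlog ht d 6)).add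
      (in_c0T t)))).congr ?_
    have e1 : 1 - (1 - ((Int.ofNat M : ℤ) : ℝ) / 2 ^ 96 * (1 / l)) = M / 2 ^ 96 / l := by
      have : ((Int.ofNat M : ℤ) : ℝ) = M := by simp
      rw [this]
      ring
    have e2 : 1 - ((-1 : ℤ) : ℝ) * (1 / l ^ 2 * sk 0 l) = haz l / l := by
      simp only [sk, rk]
      push_cast
      field_simp
      ring
    rw [e1, e2, Real.log_div hM'.ne' hl.ne', Real.log_div (haz_pos l).ne' hl.ne']
    unfold Tf
    push_cast
    field_simp
    ring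

noncomputable def posOK (d nc a b : ℕ) : Bool :=
  let rho := linR a b
  let v := mul d rho rho
  let s3 := cfT d v nc 2
  let s2 := cfS d v 1 s3
  let s1 := cfS d v 0 s2
  let w := mul d v s1
  let rh := add one w
  let W := WT d a b rho v w
  let rt := mul d W (inv d rh)
  let t1 := sub one (mul d rt s1)
  let rs := mul d rt s2
  let q2 := sub rs one
  let z := sub (sub (sm 2 s2) s1) (mul d rs s3)
  let u := add one t1
  let sq := mul d s1 q2
  let t2 := mul d rho sq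
  decide (a < b) && decide (b ≤ 1024) &&
    nfOK d one t2 q2 (mul d rho z) (add (mul d q2 u) (mul d rt z)) t1 &&
    pOK d (mkBP d rho one (mul d rt u) (add t1 (mul d rt sq)) t2) &&
    rOK d (mkBR d rho rt W rt rho rh t1 t2)

theorem posOK_sound {d nc a b : ℕ} (h : posOK d nc a b = true) {l : ℝ} (hl : 7 ≤ l)
    (h1 : (a : ℝ) / 1024 ≤ 1 / l) (h2 : 1 / l ≤ (b : ℝ) / 1024) : Good l := by
  have h0 : 0 < l := by linarith
  have hρ : 0 < 1 / l := by positivity
  have hm := mu_pos l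
  simp only [posOK, Bool.and_eq_true, decide_eq_true_eq] at h
  obtain ⟨⟨⟨⟨hab, hb⟩, c1⟩, c2⟩, c3⟩ := h
  obtain ⟨f1, f2, f3, f4, f5, f6⟩ := pos_form h0
  obtain ⟨g1, g2⟩ := pos_sign hl
  obtain ⟨ht, rho⟩ := linR_at hab h1 h2
  generalize tc a b (128 * (1 / l)) = t at ht rho
  have v : In t (1 / l ^ 2) _ := (In.mul ht d rho rho).congr (by field_simp)
  have s3 := In.cfT ht h0 d v nc 2
  have s2 := In.cfS ht h0 d v (k := 1) s3
  have s1 := In.cfS ht h0 d v (k := 0) s2
  have w := In.mul ht d v s1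
  have rh := In.one.add w
  have W := in_WT (d := d) ht h0 hab hb h2 rho v w
  have rt : In t (1 / l * tau l) _ := (In.mul ht d W (In.inv ht d rh)).congr f3.symm
  have t1 : In t (tau1 l) _ := (In.one.sub (In.mul ht d rt s1)).congr f4.symm
  have rs := In.mul ht d rt s2
  have q2 : In t (tau2 l / mu l) _ := (rs.sub In.one).congr f5.symm
  have z : In t (2 * sk 1 l - sk 0 l - 1 / l * tau l * sk 1 l * sk 2 l) _ :=
    (((In.sm 2 s2).sub s1).sub (In.mul ht d rs s3)).congr (by push_cast; ring)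
  have u := In.one.add t1
  have sq := In.mul ht d s1 q2
  have e : 1 / l * (sk 0 l * (tau2 l / mu l)) = tau2 l := by
    rw [← mul_assoc, ← f2, mul_div_cancel₀ _ hm.ne']
  have t2 : In t (tau2 l) _ := (In.mul ht d rho sq).congr e
  refine ⟨nfOK_sound ht hm (In.one.congr (div_self hm.ne').symm) t2 q2
    ((In.mul ht d rho z).congr f6.symm) (((In.mul ht d q2 u).add (In.mul ht d rt z)).congr ?_) t1 g1 g2 c1,
    pOK_sound ht hρ rho (In.one.congr (one_div_mul_cancel h0.ne').symm)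
      ((In.mul ht d rt u).congr (by rw [vf, mul_assoc])) ((t1.add (In.mul ht d rt sq)).congr ?_) t2 c2,
    rOK_sound ht hρ rho rt (W.congr (by rw [one_div_pow])) (rt.congr (by field_simp)) rho
      (le_of_eq (by field_simp)) (rh.congr f1.symm) t1 t2 c3⟩
  · rw [nf1, add_div, add_div, mul_div_assoc, mul_div_assoc (tau l), f6]
    ring
  · rw [nf, mul_comm (1 / l), mul_assoc, e]

end Crest.Agent.R253.Nm
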