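/-
Row 253, numerics: kernel check, the tails.
-/
import Crest.Agent.R253.NumPos

set_option autoImplicit false

namespace Crest.Agent.R253.Nm

open Crest.Agent.R203N Crest.Agent.R203N.Num

set_option maxRecDepth 100000 in
theorem pos_ok : allOK (posOK 5 6) [120, 98, 80, 65, 53, 43, 35, 28, 23, 19, 15, 12] 147 = true := by
  decide +kernel

set_option maxRecDepth 100000 in
theorem neg_ok : allOK (negOK 5 6) [120, 90, 60, 30] 147 = true := by
  decide +kernel


end Crest.Agent.R253.Nm
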