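/-
Row 253, numerics, file NumInstP: the certificates of type `P` on `[0,1]`, `[1,2]`, `[2,3]`.  Statements FROZEN.

Recipe.  `d = s - 1`, `x = al d`, `M = 1 - x`; in `CertP` take `w, M, η, G, Y0, Y1` and
`c0 d, c1 d, cG d, be d², g d²` for `c0, c1, cG, β, g` (values in the docstrings).  The side conditions hold at both
ends of the interval (slack down to `1e-5`, exact rational arithmetic) and are linear, monotone or concave in `s`
(`max (1 - M) 0` is `0` on `[0,1]` and `x` for `s ≥ 1`).  The right side of the last condition equals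
`x + log (1 - x) + d² (al n - s (al n - cG)²/(4G) - (al v - c0 - c1 l)²/(4 Y0) + be l + g (l² - s)
 - al² s (1/(256 Y1) + 1/20) - (1 - x) τ''²/r0)`; `log_lower` bounds the first two terms below by
`-d² al² (1/2 + x/3 + x²/(4(1-x0)))` with `x0 = max 0 (al (s2 - 1))`, and `mg s ≤ d²/1000`.  The function
`F(s) = al n - al² (1/2 + x/3 + x²/(4(1-x0))) - s (…)²/(4G) - … - 1/1000` is concave in `s` (a quadratic with
negative leading coefficient), and at the two ends it is `≥ pe_i.f l ≥ 0` (`K` is rounded down, `A, B, C` are rounded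
up, the other coefficients are exact).  Best: prove one generic lemma, then instantiate three times.
-/
import Crest.Agent.R253.NumDefs

set_option autoImplicit false

namespace Crest.Agent.R253.Nm

open Crest.Agent.R203N

theorem log_lower {x x0 : ℝ} (h1 : -1 ≤ x) (h2 : x ≤ x0) (h3 : 0 ≤ x0) (h4 : x0 < 1) :
    -(x ^ 2 * (1 / 2 + x / 3 + x ^ 2 / (4 * (1 - x0)))) ≤ x + Real.log (1 - x) := by
  have _ := h1
  have h5 : 0 < 1 - x0 := by linarith
  have hd : ∀ y, y ≤ x0 → HasDerivAt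
      (fun y => y + Real.log (1 - y) + y ^ 2 * (1 / 2 + y / 3 + y ^ 2 / (4 * (1 - x0))))
      (y ^ 3 * ((x0 - y) / ((1 - x0) * (1 - y)))) y := fun y hy => by
    have h6 : 1 - y ≠ 0 := by linarith
    have a1 := ((hasDerivAt_id' y).const_sub 1).log h6
    have a2 := ((hasDerivAt_id' y).fun_pow 2).fun_mul
      ((((hasDerivAt_id' y).div_const 3).const_add (1 / 2)).fun_add
        (((hasDerivAt_id' y).fun_pow 2).div_const (4 * (1 - x0))))
    refine (((hasDerivAt_id' y).fun_add a1).fun_add a2).congr_deriv ?_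
    have := h5.ne'
    simp only [Nat.cast_ofNat, Nat.add_one_sub_one, pow_one]
    field_simp
    ring
  have hq : ∀ y, y ≤ x0 → 0 ≤ (x0 - y) / ((1 - x0) * (1 - y)) := fun y hy =>
    div_nonneg (by linarith) (mul_pos h5 (by linarith)).le
  rcases lt_trichotomy x 0 with hx | hx | hx
  · obtain ⟨c, hc, e⟩ := exists_hasDerivAt_eq_slope _ _ hx
      (fun y hy => (hd y (hy.2.trans h3)).continuousAt.continuousWithinAt)
      (fun y hy => hd y (hy.2.le.trans h3))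
    have b1 : c ^ 3 * ((x0 - c) / ((1 - x0) * (1 - c))) ≤ 0 :=
      mul_nonpos_of_nonpos_of_nonneg (Odd.pow_nonpos (by decide) hc.2.le) (hq c (hc.2.le.trans h3))
    rw [e, div_nonpos_iff] at b1
    simp only [sub_zero, Real.log_one] at b1
    rcases b1 with b1 | b1 <;> nlinarith [b1.1, b1.2]
  · subst hx
    simp
  · obtain ⟨c, hc, e⟩ := exists_hasDerivAt_eq_slope _ _ hx
      (fun y hy => (hd y (hy.2.trans h2)).continuousAt.continuousWithinAt)
      (fun y hy => hd y (hy.2.le.trans h2))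
    have b1 : 0 ≤ c ^ 3 * ((x0 - c) / ((1 - x0) * (1 - c))) :=
      mul_nonneg (pow_nonneg hc.1.le 3) (hq c (hc.2.le.trans h2))
    rw [e, div_nonneg_iff] at b1
    simp only [sub_zero, Real.log_one] at b1
    rcases b1 with b1 | b1 <;> nlinarith [b1.1, b1.2]

theorem ipa_quad {a b c s1 s2 s : ℝ} (hc : 0 ≤ c) (h1 : s1 ≤ s) (h2 : s ≤ s2)
    (e1 : 0 ≤ a + b * s1 - c * s1 ^ 2) (e2 : 0 ≤ a + b * s2 - c * s2 ^ 2) :
    0 ≤ a + b * s - c * s ^ 2 := by
  rcases eq_or_lt_of_le (h1.trans h2) with h | h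
  · obtain rfl : s1 = s := le_antisymm h1 (h ▸ h2)
    exact e1
  · refine le_of_mul_le_mul_left (a := s2 - s1) ?_ (by linarith)
    have k1 := mul_nonneg (sub_nonneg.2 h2) e1
    have k2 := mul_nonneg (sub_nonneg.2 h1) e2
    have k3 := mul_nonneg (mul_nonneg hc (sub_nonneg.2 h.le))
      (mul_nonneg (sub_nonneg.2 h1) (sub_nonneg.2 h2))
    nlinarith

noncomputable def ipaF (al G Y0 Y1 c0 c1 cG be g r0 x0 l s : ℝ) : ℝ :=
  al * nf l - al ^ 2 * (1 / 2 + al * (s - 1) / 3 + (al * (s - 1)) ^ 2 / (4 * (1 - x0)))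
    - s * (al * nf l - cG) ^ 2 / (4 * G) - (al * vf l - c0 - c1 * l) ^ 2 / (4 * Y0) + be * l
    + g * (l ^ 2 - s) - al ^ 2 * s / (256 * Y1) - al ^ 2 * s / 20
    - (1 - al * (s - 1)) * tau2 l ^ 2 / r0 - 1 / 1000

theorem ipa_conc {al G Y0 Y1 c0 c1 cG be g r0 x0 l s1 s2 s : ℝ} (hx : x0 < 1) (h1 : s1 ≤ s) (h2 : s ≤ s2)
    (e1 : 0 ≤ ipaF al G Y0 Y1 c0 c1 cG be g r0 x0 l s1) (e2 : 0 ≤ ipaF al G Y0 Y1 c0 c1 cG be g r0 x0 l s2) :
    0 ≤ ipaF al G Y0 Y1 c0 c1 cG be g r0 x0 l s := by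
  have key : ∀ s, ipaF al G Y0 Y1 c0 c1 cG be g r0 x0 l s =
      ipaF al G Y0 Y1 c0 c1 cG be g r0 x0 l 0 +
        (-(al ^ 3 / 3) + 2 * (al ^ 4 / (4 * (1 - x0))) - (al * nf l - cG) ^ 2 / (4 * G) - g
          - al ^ 2 / (256 * Y1) - al ^ 2 / 20 + al * tau2 l ^ 2 / r0) * s
        - al ^ 4 / (4 * (1 - x0)) * s ^ 2 := fun s => by
    unfold ipaF
    ring
  rw [key] at e1 e2 ⊢
  have : 0 < 1 - x0 := by linarith
  exact ipa_quad (by positivity) h1 h2 e1 e2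

theorem ipa_end {al G Y0 Y1 c0 c1 cG be g r0 x0 l s : ℝ} {e : PE} (h : 0 ≤ e.f l)
    (k1 : (e.al : ℝ) / 10 ^ 6 = al) (k2 : (e.cG : ℝ) / 10 ^ 6 = cG) (k3 : (e.c0 : ℝ) / 10 ^ 6 = c0)
    (k4 : (e.c1 : ℝ) / 10 ^ 6 = c1) (k5 : (e.be : ℝ) / 10 ^ 6 = be) (k6 : (e.g : ℝ) / 10 ^ 6 = g)
    (k7 : (e.K : ℝ) / 10 ^ 6 ≤ -(al ^ 2 * (1 / 2 + al * (s - 1) / 3 + (al * (s - 1)) ^ 2 / (4 * (1 - x0))))
      - g * s - al ^ 2 * s / (256 * Y1) - al ^ 2 * s / 20 - 1 / 1000)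
    (k8 : s / (4 * G) ≤ (e.A : ℝ) / 10 ^ 6) (k9 : (1 - al * (s - 1)) / r0 ≤ (e.B : ℝ) / 10 ^ 6)
    (k10 : 1 / (4 * Y0) ≤ (e.C : ℝ) / 10 ^ 6) : 0 ≤ ipaF al G Y0 Y1 c0 c1 cG be g r0 x0 l s := by
  unfold PE.f at h
  rw [k1, k2, k3, k4, k5, k6] at h
  have a1 := mul_le_mul_of_nonneg_right k8 (sq_nonneg (al * nf l - cG))
  have a2 := mul_le_mul_of_nonneg_right k9 (sq_nonneg (tau2 l))
  have a3 := mul_le_mul_of_nonneg_right k10 (sq_nonneg (al * vf l - c0 - c1 * l))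
  have e1 : s * (al * nf l - cG) ^ 2 / (4 * G) = s / (4 * G) * (al * nf l - cG) ^ 2 := by ring
  have e2 : (1 - al * (s - 1)) * tau2 l ^ 2 / r0 = (1 - al * (s - 1)) / r0 * tau2 l ^ 2 := by ring
  have e3 : (al * vf l - c0 - c1 * l) ^ 2 / (4 * Y0) = 1 / (4 * Y0) * (al * vf l - c0 - c1 * l) ^ 2 := by
    ring
  unfold ipaF
  rw [e1, e2, e3]
  linarith

theorem ipa_cert (w : Wt) {al η G Y0 Y1 c0 c1 cG be g x0 s m : ℝ} (hη : 0 < η) (hG : 0 < G) (hY0 : 0 < Y0)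
    (hY1 : 0 < Y1) (x1 : -1 ≤ al * (s - 1)) (x2 : al * (s - 1) ≤ x0) (x3 : 0 ≤ x0) (x4 : x0 < 1)
    (hm : max (al * (s - 1)) 0 = m)
    (k1 : (1 - al * (s - 1)) / w.r4 + m * (1 + 1 / η) ≤ 11) (k2 : (1 - al * (s - 1)) * s / w.r3 ≤ 26)
    (k3 : (1 - al * (s - 1)) * s * w.ep + G ≤ 1 / 10)
    (k4 : Y1 ≤ 795 / 1000 - (1 - al * (s - 1)) * w.e1 - m * (1 + η) / 4)
    (k5 : Y0 ≤ c1 * (s - 1) - g * (s - 1) ^ 2 - 795 / 1000 - (1 - al * (s - 1)) * w.e0
      + 2 * (795 / 1000 - (1 - al * (s - 1)) * w.e1 - m * (1 + η) / 4 - Y1))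
    (hF : ∀ l, 0 ≤ ipaF al G Y0 Y1 c0 c1 cG be g w.r0 x0 l s) : CertP s := by
  have e0 : 1 - (1 - al * (s - 1)) = al * (s - 1) := by ring
  refine ⟨w, 1 - al * (s - 1), η, G, Y0, Y1, c0 * (s - 1), c1 * (s - 1), cG * (s - 1), be * (s - 1) ^ 2,
    g * (s - 1) ^ 2, by linarith, hη, hG, hY0, hY1, ?_, k2, k3, ?_, ?_, fun l => ?_⟩
  · rw [e0, hm]; exact k1
  · rw [e0, hm]; exact k4
  · rw [e0, hm]; exact k5
  · have a1 := log_lower x1 x2 x3 x4
    have a2 := mul_nonneg (sq_nonneg (s - 1)) (hF l)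
    have a3 : mg s ≤ (s - 1) ^ 2 / 1000 := by
      unfold mg
      have := min_le_left ((s - 1) ^ 2) 1
      linarith
    rw [e0]
    have e1 : al * (s - 1) * (1 + (s - 1) * nf l) + Real.log (1 - al * (s - 1))
        - s * (al * (s - 1) * nf l - cG * (s - 1)) ^ 2 / (4 * G)
        - (al * (s - 1) * vf l - c0 * (s - 1) - c1 * (s - 1) * l) ^ 2 / (4 * Y0) + be * (s - 1) ^ 2 * l
        + g * (s - 1) ^ 2 * (l ^ 2 - s) - (al * (s - 1)) ^ 2 * s / (256 * Y1) - (al * (s - 1)) ^ 2 * s / 20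
        - (1 - al * (s - 1)) * (s - 1) ^ 2 * tau2 l ^ 2 / w.r0
        = (s - 1) ^ 2 * ipaF al G Y0 Y1 c0 c1 cG be g w.r0 x0 l s + (s - 1) ^ 2 / 1000
          + (al * (s - 1) + Real.log (1 - al * (s - 1)) + (al * (s - 1)) ^ 2 *
            (1 / 2 + al * (s - 1) / 3 + (al * (s - 1)) ^ 2 / (4 * (1 - x0)))) := by
      unfold ipaF
      ring
    rw [e1]
    linarith

noncomputable def wP0 : Wt where
  r0 := 38950 / 100000
  r2 := 3734 / 100000
  r2' := 4883 / 100000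
  r3 := 3847 / 100000
  r4 := 10514 / 100000
  h1 := 16811 / 100000
  h2 := 36654 / 100000
  h3 := 67790 / 100000
  p0 := by norm_num
  p2 := by norm_num
  p2' := by norm_num
  p3 := by norm_num
  p4 := by norm_num
  q1 := by norm_num
  q2 := by norm_num
  q3 := by norm_num
  sum1 := by norm_num
  sum2 := by norm_num

/-- `w = wP0`, `al = 15642 / 100000`, `eta = 28000 / 100000`, `G = 849 / 100000`, `Y0 = 11945 / 100000`, `Y1 = 2784 / 100000`, `c0 = 17811 / 100000`, `c1 = 5866 / 100000`, `cG = 5745 / 100000`, `be = -1960 / 100000`, `g = 746 / 100000`; ends `pe0, pe1`. -/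
theorem certP0 (h : ∀ l, Good l) {s : ℝ} (h1 : 0 ≤ s) (h2 : s ≤ 1) : CertP s := by
  refine ipa_cert wP0 (al := 15642 / 100000) (η := 28000 / 100000) (G := 849 / 100000) (Y0 := 11945 / 100000)
    (Y1 := 2784 / 100000) (c0 := 17811 / 100000) (c1 := 5866 / 100000) (cG := 5745 / 100000)
    (be := -1960 / 100000) (g := 746 / 100000) (x0 := 0) (m := 0)
    (by norm_num) (by norm_num) (by norm_num) (by norm_num) (by linarith) (by linarith) (by norm_num)
    (by norm_num) (max_eq_right (by linarith)) ?_ ?_ ?_ ?_ ?_ fun l =>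
      ipa_conc (by norm_num) h1 h2
        (ipa_end ((h l).p pe0 (by simp [pes])) ?_ ?_ ?_ ?_ ?_ ?_ ?_ ?_ ?_ ?_)
        (ipa_end ((h l).p pe1 (by simp [pes])) ?_ ?_ ?_ ?_ ?_ ?_ ?_ ?_ ?_ ?_)
  iterate 5
    simp only [wP0, Wt.ep, Wt.e0, Wt.e1]
    norm_num
    nlinarith [mul_nonneg (sub_nonneg.2 h1) (sub_nonneg.2 h2)]
  all_goals norm_num [wP0, pe0, pe1]

noncomputable def wP1 : Wt where
  r0 := 40115 / 100000
  r2 := 7336 / 100000
  r2' := 10848 / 100000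
  r3 := 6488 / 100000
  r4 := 9091 / 100000
  h1 := 14901 / 100000
  h2 := 31157 / 100000
  h3 := 65158 / 100000
  p0 := by norm_num
  p2 := by norm_num
  p2' := by norm_num
  p3 := by norm_num
  p4 := by norm_num
  q1 := by norm_num
  q2 := by norm_num
  q3 := by norm_num
  sum1 := by norm_num
  sum2 := by norm_num

/-- `w = wP1`, `al = 15661 / 100000`, `eta = 47660 / 100000`, `G = 2537 / 100000`, `Y0 = 16820 / 100000`, `Y1 = 4724 / 100000`, `c0 = 18349 / 100000`, `c1 = 5873 / 100000`, `cG = 5587 / 100000`, `be = -1729 / 100000`, `g = 533 / 100000`; ends `pe2, pe3`. -/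
theorem certP1 (h : ∀ l, Good l) {s : ℝ} (h1 : 1 ≤ s) (h2 : s ≤ 2) : CertP s := by
  refine ipa_cert wP1 (al := 15661 / 100000) (η := 47660 / 100000) (G := 2537 / 100000) (Y0 := 16820 / 100000)
    (Y1 := 4724 / 100000) (c0 := 18349 / 100000) (c1 := 5873 / 100000) (cG := 5587 / 100000)
    (be := -1729 / 100000) (g := 533 / 100000) (x0 := 15661 / 100000) (m := 15661 / 100000 * (s - 1))
    (by norm_num) (by norm_num) (by norm_num) (by norm_num) (by linarith) (by linarith) (by norm_num)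
    (by norm_num) (max_eq_left (by linarith)) ?_ ?_ ?_ ?_ ?_ fun l =>
      ipa_conc (by norm_num) h1 h2
        (ipa_end ((h l).p pe2 (by simp [pes])) ?_ ?_ ?_ ?_ ?_ ?_ ?_ ?_ ?_ ?_)
        (ipa_end ((h l).p pe3 (by simp [pes])) ?_ ?_ ?_ ?_ ?_ ?_ ?_ ?_ ?_ ?_)
  iterate 5
    simp only [wP1, Wt.ep, Wt.e0, Wt.e1]
    norm_num
    nlinarith [mul_nonneg (sub_nonneg.2 h1) (sub_nonneg.2 h2)]
  all_goals norm_num [wP1, pe2, pe3]

noncomputable def wP2 : Wt where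
  r0 := 39250 / 100000
  r2 := 10307 / 100000
  r2' := 15837 / 100000
  r3 := 8512 / 100000
  r4 := 9091 / 100000
  h1 := 13673 / 100000
  h2 := 28256 / 100000
  h3 := 61397 / 100000
  p0 := by norm_num
  p2 := by norm_num
  p2' := by norm_num
  p3 := by norm_num
  p4 := by norm_num
  q1 := by norm_num
  q2 := by norm_num
  q3 := by norm_num
  sum1 := by norm_num
  sum2 := by norm_num

/-- `w = wP2`, `al = 13118 / 100000`, `eta = 10000 / 100000`, `G = 3137 / 100000`, `Y0 = 16400 / 100000`, `Y1 = 5133 / 100000`, `c0 = 15927 / 100000`, `c1 = 4919 / 100000`, `cG = 4509 / 100000`, `be = -1391 / 100000`, `g = 388 / 100000`; ends `pe4, pe5`. -/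
theorem certP2 (h : ∀ l, Good l) {s : ℝ} (h1 : 2 ≤ s) (h2 : s ≤ 3) : CertP s := by
  refine ipa_cert wP2 (al := 13118 / 100000) (η := 10000 / 100000) (G := 3137 / 100000) (Y0 := 16400 / 100000)
    (Y1 := 5133 / 100000) (c0 := 15927 / 100000) (c1 := 4919 / 100000) (cG := 4509 / 100000)
    (be := -1391 / 100000) (g := 388 / 100000) (x0 := 26236 / 100000) (m := 13118 / 100000 * (s - 1))
    (by norm_num) (by norm_num) (by norm_num) (by norm_num) (by linarith) (by linarith) (by norm_num)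
    (by norm_num) (max_eq_left (by linarith)) ?_ ?_ ?_ ?_ ?_ fun l =>
      ipa_conc (by norm_num) h1 h2
        (ipa_end ((h l).p pe4 (by simp [pes])) ?_ ?_ ?_ ?_ ?_ ?_ ?_ ?_ ?_ ?_)
        (ipa_end ((h l).p pe5 (by simp [pes])) ?_ ?_ ?_ ?_ ?_ ?_ ?_ ?_ ?_ ?_)
  iterate 5
    simp only [wP2, Wt.ep, Wt.e0, Wt.e1]
    norm_num
    nlinarith [mul_nonneg (sub_nonneg.2 h1) (sub_nonneg.2 h2)]
  all_goals norm_num [wP2, pe4, pe5]

end Crest.Agent.R253.Nm
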