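/-
Row 253, numerics, file NumInstR: the certificates of type `R` on `[3,4], [4,6], [6,9], [9,13], [13,18]` and of type
`T` on `[18,∞)`.  Statements FROZEN.

Recipe for `R`.  All parameters are constants (docstrings), `z = 38/100`.  The side conditions are monotone in `s`
and hold at the right end (slack down to `1e-6`, exact rational arithmetic).  `Abs cp a z`: both conditions are
convex/linear in `t`, so it is enough to have them at `t = 0` and `t = 1/2` (`abs_of`).  `log M ≥ lM` (slack `1e-3`: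
`Real.le_log_iff_exp_le`, `exp (-y) ≤ M` from `1 ≤ M exp y`, `Real.sum_le_exp_of_nonneg` with 10 terms).
`mg s ≤ 1/1000`.  With `log M` replaced by `lM`, right side minus `1/1000` is concave in `s` (the only non-linear term
is `-M (s-1)² τ''²/r0`), and at the two ends it is `≥ re_i.f l ≥ 0`
(`K ≤ lM - lam² s/27.2 - 1/1000`, `A ≥ s/(4G)`, `B ≥ M (s-1)²/r0`, `C ≥ 1/(4 Y0)`; exact: `E = lam s`, `m = 1 - M`,
`e = 2 cp + lam`, `k = lam - 2 cp`, `H = 0`).  Best: prove one generic lemma, then instantiate five times.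

Recipe for `T`.  `κ = √(18/s) ∈ (0,1]`, `lam = κ L`, `cG = κ c`, so `s κ² = 18`:
`s (lam τ' - cG)²/(4/10) = 45 (L τ' - c)²`, `lam² s = 18 L²`, `lam s τ' = 18 L τ'/κ ≥ 18 L τ'` (`τ' > 0`); what is left
is concave in `κ ∈ [0,1]`, with ends `≥ re10.f l` (`κ = 0`) and `≥ re11.f l` (`κ = 1`).
-/
import Crest.Agent.R253.NumDefs

set_option autoImplicit false

namespace Crest.Agent.R253.Nm

open Crest.Agent.R203N

theorem abs_of {cp a z : ℝ} (ha : 0 ≤ a) (hz : 0 ≤ z) (h0 : 0 ≤ cp) (h1 : 0 ≤ 2 * cp - a / 2)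
    (h2 : cp ^ 2 ≤ z * (2 * cp)) (h3 : (cp - a / 2) ^ 2 ≤ z * (2 * cp - a / 2)) : Abs cp a z := by
  refine ⟨ha, hz, fun t t0 t1 => ⟨by nlinarith, ?_⟩⟩
  have b0 := mul_nonneg (by linarith : 0 ≤ 1 - 2 * t) (sub_nonneg.2 h2)
  have b1 := mul_nonneg t0 (sub_nonneg.2 h3)
  have b2 := mul_nonneg (mul_nonneg t0 (by linarith : 0 ≤ 1 - 2 * t)) (sq_nonneg a)
  nlinarith

theorem instR_conc {a b s α β γ : ℝ} (hab : a < b) (h1 : a ≤ s) (h2 : s ≤ b) (hγ : 0 ≤ γ)
    (ha : 0 ≤ α + β * a - γ * (a - 1) ^ 2) (hb : 0 ≤ α + β * b - γ * (b - 1) ^ 2) :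
    0 ≤ α + β * s - γ * (s - 1) ^ 2 := by
  have e : (b - a) * (α + β * s - γ * (s - 1) ^ 2) = (b - s) * (α + β * a - γ * (a - 1) ^ 2) +
      (s - a) * (α + β * b - γ * (b - 1) ^ 2) + γ * (b - a) * (s - a) * (b - s) := by ring
  have h3 := sub_pos.2 hab
  have h4 := sub_nonneg.2 h1
  have h5 := sub_nonneg.2 h2
  exact nonneg_of_mul_nonneg_right (e ▸ by positivity) h3

theorem instR_log {M y : ℝ} (hM : 0 < M) (hy : 0 ≤ y)
    (h : 1 ≤ M * ∑ i ∈ Finset.range 10, y ^ i / (i.factorial : ℝ)) : -y ≤ Real.log M := by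
  rw [Real.le_log_iff_exp_le hM, Real.exp_neg, inv_le_iff_one_le_mul₀ (Real.exp_pos _)]
  exact h.trans (mul_le_mul_of_nonneg_left (Real.sum_le_exp_of_nonneg hy 10) hM.le)

/-- the end check `e` is below the right side at `s` -/
def instR_End (r0 M G Y0 cp lam c0 cG be lM s : ℝ) (e : RE) : Prop :=
  (e.K : ℝ) / 10 ^ 6 ≤ lM - lam ^ 2 * s / (4 * (68 / 10)) - 1 / 1000 ∧ s / (4 * G) ≤ (e.A : ℝ) / 10 ^ 6 ∧
    M * (s - 1) ^ 2 / r0 ≤ (e.B : ℝ) / 10 ^ 6 ∧ 1 / (4 * Y0) ≤ (e.C : ℝ) / 10 ^ 6 ∧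
    (e.lam : ℝ) / 10 ^ 6 = lam ∧ (e.cG : ℝ) / 10 ^ 6 = cG ∧ (e.E : ℝ) / 10 ^ 6 = lam * s ∧
    (e.m : ℝ) / 10 ^ 6 = 1 - M ∧ (e.e : ℝ) / 10 ^ 6 = 2 * cp + lam ∧
    (e.k : ℝ) / 10 ^ 6 = lam - 2 * cp ∧ (e.c0 : ℝ) / 10 ^ 6 = c0 ∧ (e.be : ℝ) / 10 ^ 6 = be ∧ e.H = 0

theorem instR_end {r0 M G Y0 cp lam c0 cG be lM s l : ℝ} {e : RE}
    (he : instR_End r0 M G Y0 cp lam c0 cG be lM s e) (h : 0 ≤ e.f l) :
    0 ≤ ((1 - M) * (2 * Tf l - tau l ^ 2) - (2 * cp + lam) * (l * tau l) + lM
      - ((lam - 2 * cp) * tau l - c0) ^ 2 / (4 * Y0) + be * l - 1 / 1000)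
      + (lam * tau1 l - (lam * tau1 l - cG) ^ 2 / (4 * G) - lam ^ 2 / (4 * (68 / 10))) * s
      - M * tau2 l ^ 2 / r0 * (s - 1) ^ 2 := by
  obtain ⟨k1, k2, k3, k4, k5, k6, k7, k8, k9, k10, k11, k12, k13⟩ := he
  rw [RE.f, k5, k6, k7, k8, k9, k10, k11, k12, k13] at h
  have a2 := mul_le_mul_of_nonneg_right k2 (sq_nonneg (lam * tau1 l - cG))
  have a3 := mul_le_mul_of_nonneg_right k3 (sq_nonneg (tau2 l))
  have a4 := mul_le_mul_of_nonneg_right k4 (sq_nonneg ((lam - 2 * cp) * tau l - c0))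
  refine h.trans ?_
  push_cast
  refine le_of_sub_nonneg (le_of_le_of_eq (add_nonneg (add_nonneg (add_nonneg (sub_nonneg.2 k1)
    (sub_nonneg.2 a2)) (sub_nonneg.2 a3)) (sub_nonneg.2 a4)) ?_)
  ring

theorem instR_gen (h : ∀ l, Good l) (w : Wt) (M G Y0 om cp lam c0 cG be lM : ℝ) {a b s : ℝ}
    {ea eb : RE} (hea : ea ∈ res) (heb : eb ∈ res) (hab : a < b) (h1 : a ≤ s) (h2 : s ≤ b)
    (hM : 0 < M) (hG : 0 < G) (hY : 0 < Y0) (hom : 0 < om)
    (habs : Abs cp (1 - M + cp ^ 2 / om) (38 / 100)) (s1 : 1 - M + cp ^ 2 / om + M / w.r4 ≤ 11)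
    (s2 : M * b / w.r3 ≤ 26) (s3 : M * b * w.ep + G ≤ 1 / 10) (s4 : om + M * w.e1 ≤ 795 / 1000)
    (s5 : Y0 ≤ 795 / 1000 - 2 * M * w.e1 - M * w.e0) (hl : lM ≤ Real.log M)
    (ka : instR_End w.r0 M G Y0 cp lam c0 cG be lM a ea)
    (kb : instR_End w.r0 M G Y0 cp lam c0 cG be lM b eb) : CertR s := by
  have p0 := w.p0
  have p2 := w.p2
  have p2' := w.p2'
  have p3 := w.p3
  have hep : 0 ≤ w.ep := by unfold Wt.ep; positivity
  refine ⟨w, M, G, Y0, om, cp, 38 / 100, lam, c0, cG, be, hM, hG, hY, hom, habs, le_rfl, s1,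
    le_trans (by gcongr) s2, le_trans (by gcongr) s3, s4, s5, fun l => ?_⟩
  have hm : mg s ≤ 1 / 1000 := by
    unfold mg
    have := min_le_right ((s - 1) ^ 2) 1
    linarith
  have k := instR_conc hab h1 h2 (by positivity) (instR_end ka ((h l).r ea hea))
    (instR_end kb ((h l).r eb heb))
  refine le_of_sub_nonneg (le_of_le_of_eq (add_nonneg (add_nonneg k (sub_nonneg.2 hm))
    (sub_nonneg.2 hl)) ?_)
  ring

noncomputable def wR0 : Wt where
  r0 := 51906 / 100000
  r2 := 13735 / 100000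
  r2' := 33248 / 100000
  r3 := 10704 / 100000
  r4 := 6519 / 100000
  h1 := 12326 / 100000
  h2 := 11329 / 100000
  h3 := 47907 / 100000
  p0 := by norm_num
  p2 := by norm_num
  p2' := by norm_num
  p3 := by norm_num
  p4 := by norm_num
  q1 := by norm_num
  q2 := by norm_num
  q3 := by norm_num
  sum1 := by norm_num
  sum2 := by norm_num

/-- `w = wR0`, `M = 69571 / 100000`, `G = 4457 / 100000`, `Y0 = 11207 / 100000`, `om = 35147 / 100000`, `cp = 8900 / 100000`, `lam = 25726 / 100000`, `c0 = 7532 / 100000`, `cG = 6951 / 100000`, `be = -1224 / 100000`, `lM = -36400 / 100000`; ends `re0, re1`. -/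
theorem certR0 (h : ∀ l, Good l) {s : ℝ} (h1 : 3 ≤ s) (h2 : s ≤ 4) : CertR s := by
  refine instR_gen h wR0 (69571 / 100000) (4457 / 100000) (11207 / 100000) (35147 / 100000) (8900 / 100000) (25726 / 100000) (7532 / 100000)
    (6951 / 100000) (-1224 / 100000) (-(36400 / 100000)) (ea := re0) (eb := re1) (by simp [res]) (by simp [res])
    (by norm_num) h1 h2 (by norm_num) (by norm_num) (by norm_num) (by norm_num)
    (abs_of (by norm_num) (by norm_num) (by norm_num) (by norm_num) (by norm_num) (by norm_num))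
    (by norm_num [wR0]) (by norm_num [wR0]) (by norm_num [wR0, Wt.ep]) (by norm_num [wR0, Wt.e1])
    (by norm_num [wR0, Wt.e1, Wt.e0]) (instR_log (by norm_num) (by norm_num) ?_)
    (by norm_num [instR_End, wR0, re0]) (by norm_num [instR_End, wR0, re1])
  simp only [Finset.sum_range_succ, Finset.sum_range_zero, Nat.factorial]
  norm_num

noncomputable def wR1 : Wt where
  r0 := 50608 / 100000
  r2 := 16844 / 100000
  r2' := 42629 / 100000
  r3 := 13046 / 100000
  r4 := 5375 / 100000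
  h1 := 11197 / 100000
  h2 := 8305 / 100000
  h3 := 40799 / 100000
  p0 := by norm_num
  p2 := by norm_num
  p2' := by norm_num
  p3 := by norm_num
  p4 := by norm_num
  q1 := by norm_num
  q2 := by norm_num
  q3 := by norm_num
  sum1 := by norm_num
  sum2 := by norm_num

/-- `w = wR1`, `M = 56532 / 100000`, `G = 4560 / 100000`, `Y0 = 9117 / 100000`, `om = 39284 / 100000`, `cp = 13493 / 100000`, `lam = 34094 / 100000`, `c0 = 6870 / 100000`, `cG = 8826 / 100000`, `be = -4752 / 100000`, `lM = -57200 / 100000`; ends `re2, re3`. -/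
theorem certR1 (h : ∀ l, Good l) {s : ℝ} (h1 : 4 ≤ s) (h2 : s ≤ 6) : CertR s := by
  refine instR_gen h wR1 (56532 / 100000) (4560 / 100000) (9117 / 100000) (39284 / 100000) (13493 / 100000) (34094 / 100000) (6870 / 100000)
    (8826 / 100000) (-4752 / 100000) (-(57200 / 100000)) (ea := re2) (eb := re3) (by simp [res]) (by simp [res])
    (by norm_num) h1 h2 (by norm_num) (by norm_num) (by norm_num) (by norm_num)
    (abs_of (by norm_num) (by norm_num) (by norm_num) (by norm_num) (by norm_num) (by norm_num))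
    (by norm_num [wR1]) (by norm_num [wR1]) (by norm_num [wR1, Wt.ep]) (by norm_num [wR1, Wt.e1])
    (by norm_num [wR1, Wt.e1, Wt.e0]) (instR_log (by norm_num) (by norm_num) ?_)
    (by norm_num [instR_End, wR1, re2]) (by norm_num [instR_End, wR1, re3])
  simp only [Finset.sum_range_succ, Finset.sum_range_zero, Nat.factorial]
  norm_num

noncomputable def wR2 : Wt where
  r0 := 50780 / 100000
  r2 := 19851 / 100000
  r2' := 52386 / 100000
  r3 := 14120 / 100000
  r4 := 3950 / 100000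
  h1 := 10151 / 100000
  h2 := 5098 / 100000
  h3 := 33513 / 100000
  p0 := by norm_num
  p2 := by norm_num
  p2' := by norm_num
  p3 := by norm_num
  p4 := by norm_num
  q1 := by norm_num
  q2 := by norm_num
  q3 := by norm_num
  sum1 := by norm_num
  sum2 := by norm_num

/-- `w = wR2`, `M = 40790 / 100000`, `G = 5062 / 100000`, `Y0 = 5906 / 100000`, `om = 46778 / 100000`, `cp = 19477 / 100000`, `lam = 42810 / 100000`, `c0 = 3822 / 100000`, `cG = 10744 / 100000`, `be = -12379 / 100000`, `lM = -89800 / 100000`; ends `re4, re5`. -/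
theorem certR2 (h : ∀ l, Good l) {s : ℝ} (h1 : 6 ≤ s) (h2 : s ≤ 9) : CertR s := by
  refine instR_gen h wR2 (40790 / 100000) (5062 / 100000) (5906 / 100000) (46778 / 100000) (19477 / 100000) (42810 / 100000) (3822 / 100000)
    (10744 / 100000) (-12379 / 100000) (-(89800 / 100000)) (ea := re4) (eb := re5) (by simp [res]) (by simp [res])
    (by norm_num) h1 h2 (by norm_num) (by norm_num) (by norm_num) (by norm_num)
    (abs_of (by norm_num) (by norm_num) (by norm_num) (by norm_num) (by norm_num) (by norm_num))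
    (by norm_num [wR2]) (by norm_num [wR2]) (by norm_num [wR2, Wt.ep]) (by norm_num [wR2, Wt.e1])
    (by norm_num [wR2, Wt.e1, Wt.e0]) (instR_log (by norm_num) (by norm_num) ?_)
    (by norm_num [instR_End, wR2, re4]) (by norm_num [instR_End, wR2, re5])
  simp only [Finset.sum_range_succ, Finset.sum_range_zero, Nat.factorial]
  norm_num

noncomputable def wR3 : Wt where
  r0 := 51343 / 100000
  r2 := 22323 / 100000
  r2' := 59181 / 100000
  r3 := 13885 / 100000
  r4 := 2732 / 100000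
  h1 := 9417 / 100000
  h2 := 3032 / 100000
  h3 := 28670 / 100000
  p0 := by norm_num
  p2 := by norm_num
  p2' := by norm_num
  p3 := by norm_num
  p4 := by norm_num
  q1 := by norm_num
  q2 := by norm_num
  q3 := by norm_num
  sum1 := by norm_num
  sum2 := by norm_num

/-- `w = wR3`, `M = 27769 / 100000`, `G = 5688 / 100000`, `Y0 = 4000 / 100000`, `om = 55016 / 100000`, `cp = 24617 / 100000`, `lam = 49213 / 100000`, `c0 = 0 / 100000`, `cG = 11948 / 100000`, `be = -23305 / 100000`, `lM = -128300 / 100000`; ends `re6, re7`. -/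
theorem certR3 (h : ∀ l, Good l) {s : ℝ} (h1 : 9 ≤ s) (h2 : s ≤ 13) : CertR s := by
  refine instR_gen h wR3 (27769 / 100000) (5688 / 100000) (4000 / 100000) (55016 / 100000) (24617 / 100000) (49213 / 100000) (0 / 100000)
    (11948 / 100000) (-23305 / 100000) (-(128300 / 100000)) (ea := re6) (eb := re7) (by simp [res]) (by simp [res])
    (by norm_num) h1 h2 (by norm_num) (by norm_num) (by norm_num) (by norm_num)
    (abs_of (by norm_num) (by norm_num) (by norm_num) (by norm_num) (by norm_num) (by norm_num))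
    (by norm_num [wR3]) (by norm_num [wR3]) (by norm_num [wR3, Wt.ep]) (by norm_num [wR3, Wt.e1])
    (by norm_num [wR3, Wt.e1, Wt.e0]) (instR_log (by norm_num) (by norm_num) ?_)
    (by norm_num [instR_End, wR3, re6]) (by norm_num [instR_End, wR3, re7])
  simp only [Finset.sum_range_succ, Finset.sum_range_zero, Nat.factorial]
  norm_num

noncomputable def wR4 : Wt where
  r0 := 51988 / 100000
  r2 := 24213 / 100000
  r2' := 59999 / 100000
  r3 := 13046 / 100000
  r4 := 1873 / 100000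
  h1 := 8653 / 100000
  h2 := 2100 / 100000
  h3 := 29475 / 100000
  p0 := by norm_num
  p2 := by norm_num
  p2' := by norm_num
  p3 := by norm_num
  p4 := by norm_num
  q1 := by norm_num
  q2 := by norm_num
  q3 := by norm_num
  sum1 := by norm_num
  sum2 := by norm_num

/-- `w = wR4`, `M = 18843 / 100000`, `G = 6193 / 100000`, `Y0 = 10891 / 100000`, `om = 61894 / 100000`, `cp = 28156 / 100000`, `lam = 52173 / 100000`, `c0 = -4401 / 100000`, `cG = 12330 / 100000`, `be = -37573 / 100000`, `lM = -167100 / 100000`; ends `re8, re9`. -/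
theorem certR4 (h : ∀ l, Good l) {s : ℝ} (h1 : 13 ≤ s) (h2 : s ≤ 18) : CertR s := by
  refine instR_gen h wR4 (18843 / 100000) (6193 / 100000) (10891 / 100000) (61894 / 100000) (28156 / 100000) (52173 / 100000) (-4401 / 100000)
    (12330 / 100000) (-37573 / 100000) (-(167100 / 100000)) (ea := re8) (eb := re9) (by simp [res]) (by simp [res])
    (by norm_num) h1 h2 (by norm_num) (by norm_num) (by norm_num) (by norm_num)
    (abs_of (by norm_num) (by norm_num) (by norm_num) (by norm_num) (by norm_num) (by norm_num))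
    (by norm_num [wR4]) (by norm_num [wR4]) (by norm_num [wR4, Wt.ep]) (by norm_num [wR4, Wt.e1])
    (by norm_num [wR4, Wt.e1, Wt.e0]) (instR_log (by norm_num) (by norm_num) ?_)
    (by norm_num [instR_End, wR4, re8]) (by norm_num [instR_End, wR4, re9])
  simp only [Finset.sum_range_succ, Finset.sum_range_zero, Nat.factorial]
  norm_num

/-- `M = 16263 / 100000`, `om = 79500 / 100000`, `cp = 35600 / 100000`, `L = 35535 / 100000`, `c = 8659 / 100000`, `c0 = -48613 / 100000`, `be = -43401 / 100000`, `lM = -181800 / 100000`; ends `re10, re11`. -/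
theorem certT (h : ∀ l, Good l) {s : ℝ} (h1 : 18 ≤ s) : CertT s := by
  have hs : 0 < s := by linarith
  obtain ⟨κ, k0, k1, k2⟩ : ∃ κ : ℝ, 0 < κ ∧ κ ≤ 1 ∧ s * κ ^ 2 = 18 := by
    refine ⟨Real.sqrt (18 / s), Real.sqrt_pos.2 (by positivity),
      Real.sqrt_le_one.2 ((div_le_one hs).2 h1), ?_⟩
    rw [Real.sq_sqrt (by positivity)]
    field_simp
  have k3 : 18 ≤ s * κ := by nlinarith [mul_pos hs k0]
  have hM : (-181800 / 100000 : ℝ) ≤ Real.log (16263 / 100000) := by
    rw [Real.le_log_iff_exp_le (by norm_num)]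
    have e1 := Real.sum_le_exp_of_nonneg (x := (181800 / 100000 : ℝ)) (by norm_num) 10
    have e2 : (100000 / 16263 : ℝ) ≤ Real.exp (181800 / 100000) := by
      refine le_trans ?_ e1
      simp only [Finset.sum_range_succ, Finset.sum_range_zero, Nat.factorial]
      norm_num
    rw [show (-181800 / 100000 : ℝ) = -(181800 / 100000) by ring, Real.exp_neg,
      inv_le_comm₀ (Real.exp_pos _) (by norm_num)]
    simpa using e2
  refine ⟨16263 / 100000, 79500 / 100000, 35600 / 100000, 38 / 100, κ * (35535 / 100000),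
    -48613 / 100000, κ * (8659 / 100000), -43401 / 100000, by norm_num, by norm_num,
    abs_of (by norm_num) (by norm_num) (by norm_num) (by norm_num) (by norm_num) (by norm_num),
    le_rfl, by norm_num, by norm_num, fun l => ?_⟩
  have g0 := (h l).r re10 (by simp [res])
  have g1 := (h l).r re11 (by simp [res])
  have t1 := (h l).hn.t1_pos
  have hm : mg s ≤ 1 / 1000 := by
    unfold mg
    have := min_le_right ((s - 1) ^ 2) 1
    linarith
  simp only [RE.f, re10, re11] at g0 g1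
  push_cast at g0 g1
  have a1 : s * (κ * (35535 / 100000) * tau1 l - κ * (8659 / 100000)) ^ 2 / (4 * (1 / 10)) =
      45 * (35535 / 100000 * tau1 l - 8659 / 100000) ^ 2 := by
    have : s * (κ * (35535 / 100000) * tau1 l - κ * (8659 / 100000)) ^ 2 =
        s * κ ^ 2 * (35535 / 100000 * tau1 l - 8659 / 100000) ^ 2 := by ring
    rw [this, k2]; ring
  have a2 : (κ * (35535 / 100000)) ^ 2 * s / (4 * (68 / 10)) =
      18 * (35535 / 100000) ^ 2 / (4 * (68 / 10)) := by
    have : (κ * (35535 / 100000)) ^ 2 * s = s * κ ^ 2 * (35535 / 100000) ^ 2 := by ring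
    rw [this, k2]
  have a3 : 18 * (35535 / 100000 * tau1 l) ≤ s * κ * (35535 / 100000 * tau1 l) :=
    mul_le_mul_of_nonneg_right k3 (by positivity)
  have a4 : ((κ * (35535 / 100000) - 2 * (35600 / 100000)) * tau l - -48613 / 100000) ^ 2 ≤
      (1 - κ) * (-(712 / 1000) * tau l + 48613 / 100000) ^ 2
        + κ * (-(35665 / 100000) * tau l + 48613 / 100000) ^ 2 := by
    have := mul_nonneg (mul_nonneg k0.le (sub_nonneg.2 k1)) (sq_nonneg (35535 / 100000 * tau l))
    nlinarith
  have b0 := mul_nonneg (sub_nonneg.2 k1) g0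
  have b1 := mul_nonneg k0.le g1
  have c0 := mul_nonneg (sub_nonneg.2 k1) (sq_nonneg (-(712 / 1000) * tau l + 48613 / 100000))
  have c1 := mul_nonneg k0.le (sq_nonneg (-(35665 / 100000) * tau l + 48613 / 100000))
  rw [a1, a2]
  generalize Real.log (16263 / 100000) = lM at hM ⊢
  ring_nf at hM a3 a4 b0 b1 c0 c1 ⊢
  linarith

end Crest.Agent.R253.Nm
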