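/-
Row 253: the numerical input `Num` (owner helper35).

Plan.  `Good l` (file `NumDefs`) collects the nine facts of `NF` at `l` and 18 one-variable inequalities, the end
checks.  `NumInstP`, `NumInstR` derive the certificates from them (concavity in `s`).  `Good l` is verified by Taylor
models (`R203N/NumTM`): on `[-7,7]` from enclosures of `λ` (`R203N/NumRic`) and `τ` (`NumCtr`), on the tails in the
variable `ρ = 1/|l|` with the continued fraction of the Mills ratio (`NumPos`, `NumNeg`).  `NumChk0`–`NumChk3` are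
the kernel computations.
-/
import Crest.Agent.R253.NumInstP
import Crest.Agent.R253.NumInstR
import Crest.Agent.R253.NumChk0
import Crest.Agent.R253.NumChk1
import Crest.Agent.R253.NumChk2
import Crest.Agent.R253.NumChk3
import Crest.Agent.R203N.NumChkR2

set_option autoImplicit false

namespace Crest.Agent.R253.Nm

open Crest.Agent.R203N Crest.Agent.R203N.Num

theorem rcs_good : ∀ c ∈ rcs, c.GP ∧ c.GM := by
  obtain ⟨c, cs, hc, h0⟩ : ∃ c cs, rcs = c :: cs ∧ c.lo = 0 := ⟨_, _, rfl, rfl⟩
  have hu := up_ok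
  have hd := dn_ok
  rw [hc] at hu hd ⊢
  rw [List.headD_cons] at hd
  have hP := upOK_sound hu
  obtain ⟨h3, h4⟩ := hP c List.mem_cons_self
  have h5 := h4 _ le_rfl (ricb_le h3)
  rw [ricb_tc_lo h3, ricb_palt, h0] at h5
  have hM := dnOK_sound hd (by simpa using h5)
  exact fun e he => ⟨(hP e he).2, hM e he⟩

theorem good_ctr {l : ℝ} (h1 : 0 ≤ l) (h2 : l ≤ 7) : Good l ∧ Good (-l) := by
  obtain ⟨c, cs, hc, h0, h3⟩ : ∃ c cs, tcs = c :: cs ∧ c.1.lo = 0 ∧ c.2 = tds.headD ⟨[], 0, [], 0⟩ :=
    ⟨_, _, rfl, rfl, rfl⟩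
  have hg : ∀ e ∈ tcs, e.1.GP ∧ e.1.GM := fun e he => rcs_good _ (List.of_mem_zip he).1
  have hk : ∀ e ∈ tcs, cellOK 4 e = true := fun e he => by
    rw [← List.take_append_drop 20 tcs, List.mem_append] at he
    exact he.elim (List.all_eq_true.1 chk0 e) (List.all_eq_true.1 chk1 e)
  have hn := tn_ok
  have hp := tp_ok
  rw [← h3] at hp
  rw [hc] at hg hk hn hp
  exact ctr_sound h0 (fun e he => (hg e he).1) (fun e he => (hg e he).2) hn hp hk h1 h2

theorem good_far {l : ℝ} (h : 7 ≤ l) : Good l ∧ Good (-l) := by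
  have h0 : 0 ≤ 1 / l := by positivity
  have h1 : 1 / l ≤ ((147 : ℕ) : ℝ) / 1024 :=
    (one_div_le_one_div_of_le (by norm_num) h).trans (by norm_num)
  obtain ⟨a, b, k1, k2, k3⟩ := allOK_cover pos_ok h0 h1
  obtain ⟨a', b', j1, j2, j3⟩ := allOK_cover neg_ok h0 h1
  exact ⟨posOK_sound k1 h k2 k3, negOK_sound j1 h j2 j3⟩

theorem good (l : ℝ) : Good l := by
  have key : ∀ x : ℝ, 0 ≤ x → Good x ∧ Good (-x) := fun x hx =>
    (le_total x 7).elim (good_ctr hx) good_far
  rcases le_total 0 l with h | h
  · exact (key l h).1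
  · simpa using (key (-l) (by linarith)).2

end Crest.Agent.R253.Nm

namespace Crest.Agent.R253

open Nm

theorem num : Num where
  nf := ⟨fun l => (good l).hn.t1_pos, fun l => (good l).hn.t1_le, fun l => (good l).hn.t2_nonneg,
    fun l => (good l).hn.t2_le, fun l => (good l).hn.c1, fun l => (good l).hn.c2, fun l => (good l).hn.c3,
    fun l => (good l).hn.c6, fun l => (good l).hn.c7⟩
  cert s hs := by
    rcases le_total s 1 with h1 | h1
    · exact Or.inl (certP0 good hs h1)
    rcases le_total s 2 with h2 | h2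
    · exact Or.inl (certP1 good h1 h2)
    rcases le_total s 3 with h3 | h3
    · exact Or.inl (certP2 good h2 h3)
    rcases le_total s 4 with h4 | h4
    · exact Or.inr (Or.inl (certR0 good h3 h4))
    rcases le_total s 6 with h6 | h6
    · exact Or.inr (Or.inl (certR1 good h4 h6))
    rcases le_total s 9 with h9 | h9
    · exact Or.inr (Or.inl (certR2 good h6 h9))
    rcases le_total s 13 with h13 | h13
    · exact Or.inr (Or.inl (certR3 good h9 h13))
    rcases le_total s 18 with h18 | h18
    · exact Or.inr (Or.inl (certR4 good h13 h18))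
    exact Or.inr (Or.inr (certT good h18))

end Crest.Agent.R253
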