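/-
Row 253 (S0390, S0391), file Pos2.  The position `E ℓ(DT) = 0`.
Definitions: R253/Fun.lean, R253/Defs.lean.  Outline: R253/Blueprint.lean.  Keep the statements unchanged.
-/
import Crest.Agent.R253.Pos1
import Crest.Agent.R203N.Pos

set_option autoImplicit false

namespace Crest.Agent.R253

open MeasureTheory ProbabilityTheory Matrix Filter Topology Crest.Agent.R203N

variable {ι : Type} [Fintype ι] [DecidableEq ι]
variable {α β a b : ℝ} {V : (ι → ℝ) → ℝ} {G T : (ι → ℝ) → ι → ℝ}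

/-- The pattern of `R203N.exists_position`: otherwise `Y ↦ -R Λ(sym Y)/|Λ(sym Y)|` has a fixed point. -/
theorem brouwer_sym {Λ : Matrix ι ι ℝ → Matrix ι ι ℝ} {R : ℝ} (hR : 0 < R)
    (hc : ContinuousOn Λ {Y | Y.IsSymm ∧ hs Y ≤ R ^ 2})
    (hs' : ∀ Y, Y.IsSymm → hs Y ≤ R ^ 2 → (Λ Y).IsSymm)
    (hb : ∀ Y, Y.IsSymm → hs Y = R ^ 2 → ∀ s : ℝ, 0 ≤ s → Λ Y ≠ -s • Y) :
    ∃ Y, Y.IsSymm ∧ hs Y ≤ R ^ 2 ∧ Λ Y = 0 := by
  by_contra hne
  push Not at hne
  let sy : EuclideanSpace ℝ (ι × ι) → Matrix ι ι ℝ := fun x =>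
    Matrix.of fun i j => R * ((x (i, j) + x (j, i)) / 2)
  have hsy : ∀ x, (sy x).IsSymm := fun x => by
    ext i j
    simp only [sy, transpose_apply, of_apply, add_comm]
  have csy : Continuous sy := continuous_matrix fun i j => by
    simp only [sy, of_apply]
    fun_prop
  have hle : ∀ x ∈ Metric.closedBall (0 : EuclideanSpace ℝ (ι × ι)) 1, hs (sy x) ≤ R ^ 2 := by
    intro x hx
    have h1 : ∑ i, ∑ j, x (i, j) ^ 2 ≤ 1 := by
      rw [← Fintype.sum_prod_type' fun i j => x (i, j) ^ 2, ← EuclideanSpace.real_norm_sq_eq x]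
      exact pow_le_one₀ (norm_nonneg _) (mem_closedBall_zero_iff.1 hx)
    have h2 : ∑ i, ∑ j, x (j, i) ^ 2 ≤ 1 := by rwa [Finset.sum_comm]
    calc hs (sy x) ≤ ∑ i, ∑ j, R ^ 2 / 2 * (x (i, j) ^ 2 + x (j, i) ^ 2) := by
          refine Finset.sum_le_sum fun i _ => Finset.sum_le_sum fun j _ => ?_
          simp only [sy, of_apply]
          nlinarith [mul_nonneg (sq_nonneg R) (sq_nonneg (x (i, j) - x (j, i)))]
      _ = R ^ 2 / 2 * (∑ i, ∑ j, x (i, j) ^ 2 + ∑ i, ∑ j, x (j, i) ^ 2) := by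
          simp only [← Finset.sum_add_distrib, Finset.mul_sum]
      _ ≤ R ^ 2 := by nlinarith [sq_nonneg R]
  have cΛ : ContinuousOn (fun x => Λ (sy x)) (Metric.closedBall 0 1) :=
    hc.comp csy.continuousOn fun x hx => ⟨hsy x, hle x hx⟩
  let L : EuclideanSpace ℝ (ι × ι) → EuclideanSpace ℝ (ι × ι) := fun x =>
    WithLp.toLp 2 fun ij => Λ (sy x) ij.1 ij.2
  have cL : ContinuousOn L (Metric.closedBall 0 1) :=
    (PiLp.continuous_toLp 2 _).comp_continuousOn (continuousOn_pi.2 fun ij =>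
      continuousOn_pi.1 (continuousOn_pi.1 cΛ ij.1) ij.2)
  have hL : ∀ x ∈ Metric.closedBall (0 : EuclideanSpace ℝ (ι × ι)) 1, ‖L x‖ ≠ 0 := fun x hx h0 => by
    refine hne _ (hsy x) (hle x hx) ?_
    ext i j
    exact congrArg (fun w : EuclideanSpace ℝ (ι × ι) => w (i, j)) (norm_eq_zero.1 h0)
  have hn : ∀ x ∈ Metric.closedBall (0 : EuclideanSpace ℝ (ι × ι)) 1, ‖-‖L x‖⁻¹ • L x‖ = 1 := fun x hx => by
    rw [norm_smul, norm_neg, norm_inv, norm_norm, inv_mul_cancel₀ (hL x hx)]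
  obtain ⟨x, hxb, hx⟩ := Lib.Brouwer.exists_fixedPoint_closedBall (fun x => -‖L x‖⁻¹ • L x)
    ((cL.norm.inv₀ hL).neg.smul cL) fun x hx => by
      rw [mem_closedBall_zero_iff]
      exact (hn x hx).le
  have hx1 : ∀ i j, x (i, j) = -‖L x‖⁻¹ * Λ (sy x) i j := fun i j =>
    (congrArg (fun w : EuclideanSpace ℝ (ι × ι) => w (i, j)) hx).symm
  have hΛ : (Λ (sy x)).IsSymm := hs' _ (hsy x) (hle x hxb)
  have hx2 : ∀ i j, sy x i j = R * x (i, j) := fun i j => by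
    change R * ((x (i, j) + x (j, i)) / 2) = _
    rw [hx1 i j, hx1 j i, hΛ.apply i j]
    ring
  refine hb (sy x) (hsy x) ?_ (‖L x‖ / R) (by positivity) ?_
  · have h1 := hn x hxb
    rw [hx] at h1
    have h2 := EuclideanSpace.real_norm_sq_eq x
    rw [h1, one_pow, Fintype.sum_prod_type] at h2
    simp only [hs, hx2, mul_pow, ← Finset.mul_sum]
    rw [← h2, mul_one]
  · ext i j
    rw [Matrix.smul_apply, hx2, hx1, smul_eq_mul]
    have := hL x hxb
    field_simp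

theorem EL_symm (a : ℝ) (T : (ι → ℝ) → ι → ℝ) : (EL a T).IsSymm := by
  ext i j
  simp only [EL, transpose_apply, of_apply, (fm_symm ell _).apply i j]

theorem pos2a_int {M : (ι → ℝ) → Matrix ι ι ℝ} (h : BM M) (v : ι → ℝ) :
    Integrable (fun z => v ⬝ᵥ M z *ᵥ v) (γ ι) ∧
      ∫ z, v ⬝ᵥ M z *ᵥ v ∂γ ι = v ⬝ᵥ (Matrix.of fun i j => ∫ z, M z i j ∂γ ι) *ᵥ v := by
  obtain ⟨hm, C, hC⟩ := h
  have hi : ∀ i j, Integrable (fun z => M z i j) (γ ι) := fun i j =>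
    Integrable.of_bound (hm i j).aestronglyMeasurable C (Eventually.of_forall fun z => hC z i j)
  have h1 : ∀ i, Integrable (fun z => ∑ j, M z i j * v j) (γ ι) := fun i =>
    integrable_finsetSum _ fun j _ => (hi i j).mul_const _
  simp only [dotProduct, mulVec, of_apply]
  refine ⟨integrable_finsetSum _ fun i _ => (h1 i).const_mul _, ?_⟩
  rw [integral_finsetSum _ fun i _ => (h1 i).const_mul _]
  refine Finset.sum_congr rfl fun i _ => ?_
  rw [integral_const_mul, integral_finsetSum _ fun j _ => (hi i j).mul_const _]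
  simp only [integral_mul_const]

theorem pos2a_BM (h : Br a b V T) : BM fun z => fm ell (jac a T z) := by
  obtain ⟨g, g1, K, hg, -, he⟩ := exists_ell_ext h.pos h.le
  have e : ∀ z, fm ell (jac a T z) = fm g (jac a T z) := fun z =>
    (h.Sp z).fm_congr fun x h1 h2 => (he x h1 h2).symm
  obtain ⟨C, hC⟩ := exists_fm_bound (ι := ι) hg.cont.1 b
  simp only [e]
  exact ⟨measurable_fm hg.cont.1 (measurable_jac a T) fun z => (h.Sp z).1, C,
    fun z => hC _ ((h.Sp z).mono (by linarith [h.pos, h.le]) le_rfl)⟩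

/-- `ell_bounds`, `Sp.quad_fm_le`, `Sp.inv_eq`. -/
theorem EL_quad : ∃ C : ℝ, 0 < C ∧ ∀ (a b : ℝ) (V : (ι → ℝ) → ℝ) (T : (ι → ℝ) → ι → ℝ), Br a b V T →
    ∀ v : ι → ℝ, v ⬝ᵥ v - C * ∫ z, v ⬝ᵥ (jac a T z)⁻¹ *ᵥ v ∂γ ι ≤ v ⬝ᵥ EL a T *ᵥ v ∧
      v ⬝ᵥ EL a T *ᵥ v ≤ -(v ⬝ᵥ v) + C * ∫ z, v ⬝ᵥ jac a T z *ᵥ v ∂γ ι := by
  obtain ⟨C, hC, hb⟩ := ell_bounds
  refine ⟨C, hC, fun a b V T h v => ?_⟩
  obtain ⟨i0, e0⟩ := pos2a_int (pos2a_BM h) v
  have i1 := (pos2a_int (BM_jac h) v).1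
  have i2 := (pos2a_int (BM_inv_jac h) v).1
  rw [EL, ← e0]
  constructor
  · have h1 : ∫ z, (v ⬝ᵥ v - C * (v ⬝ᵥ (jac a T z)⁻¹ *ᵥ v)) ∂γ ι ≤ ∫ z, v ⬝ᵥ fm ell (jac a T z) *ᵥ v ∂γ ι := by
      refine integral_mono ((integrable_const _).sub (i2.const_mul _)) i0 fun z => ?_
      have := (h.Sp z).quad_fm_le (f := fun s => 1 - C * s⁻¹) (g := ell)
        (fun x hx _ => (hb x (h.pos.trans_le hx)).1) v
      rw [fm_sub (fun _ => 1) (fun s => C * s⁻¹), fm_const (h.Sp z).1, fm_smul C (fun s => s⁻¹),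
        ← (h.Sp z).inv_eq h.pos, one_smul, sub_mulVec, one_mulVec, smul_mulVec, dotProduct_sub,
        dotProduct_smul, smul_eq_mul] at this
      exact this
    rwa [integral_sub (integrable_const _) (i2.const_mul _), integral_const, probReal_univ, one_smul,
      integral_const_mul] at h1
  · have h1 : ∫ z, v ⬝ᵥ fm ell (jac a T z) *ᵥ v ∂γ ι ≤ ∫ z, (-(v ⬝ᵥ v) + C * (v ⬝ᵥ jac a T z *ᵥ v)) ∂γ ι := by
      refine integral_mono i0 ((integrable_const _).add (i1.const_mul _)) fun z => ?_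
      have := (h.Sp z).quad_fm_le (f := ell) (g := fun s => -1 + C * s)
        (fun x hx _ => (hb x (h.pos.trans_le hx)).2) v
      rw [fm_add (fun _ => -1) (fun s => C * s), fm_const (h.Sp z).1, fm_smul C (fun s => s),
        fm_id (h.Sp z).1, add_mulVec, smul_mulVec, smul_mulVec, one_mulVec, dotProduct_add,
        dotProduct_smul, dotProduct_smul, smul_eq_mul, smul_eq_mul, neg_one_mul] at this
      exact this
    rwa [integral_add (integrable_const _) (i1.const_mul _), integral_const, probReal_univ, one_smul,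
      integral_const_mul] at h1

theorem pos2b_cs {v : ι → ℝ} (hv : v ⬝ᵥ v = 1) (z : ι → ℝ) : (z ⬝ᵥ v) ^ 2 ≤ z ⬝ᵥ z := by
  have h := Proj1_dot_self_nonneg (z - (z ⬝ᵥ v) • v)
  simp only [sub_dotProduct, dotProduct_sub, dotProduct_smul, smul_dotProduct, smul_eq_mul, hv,
    dotProduct_comm v z] at h
  linarith

theorem pos2b_gen {M : (ι → ℝ) → Matrix ι ι ℝ} {w u : (ι → ℝ) → ι → ℝ} {v : ι → ℝ} {κ : ℝ}
    (hM : ∀ i j, Integrable (fun z => M z i j) (γ ι)) (hw : ∀ i, L2 fun z => w z i)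
    (h : ∀ i j, ∫ z, M z i j ∂γ ι = ∫ z, w z j * z i ∂γ ι) (hκ : 0 ≤ κ)
    (hu : Integrable (fun z => u z ⬝ᵥ u z) (γ ι)) (e : ∀ z, w z ⬝ᵥ v = κ * (u z ⬝ᵥ v)) (hv : v ⬝ᵥ v = 1) :
    ∫ z, v ⬝ᵥ M z *ᵥ v ∂γ ι ≤ κ * (dim ι + ∫ z, u z ⬝ᵥ u z ∂γ ι) := by
  have i0 := (dot_int (ι := ι) L2_coord L2_coord).1
  have i1 : ∀ i j, Integrable (fun z => v i * v j * (w z j * z i)) (γ ι) := fun i j =>
    ((hw j).mul_int (L2_coord i)).const_mul _
  have e1 : ∀ z, v ⬝ᵥ M z *ᵥ v = ∑ i, ∑ j, v i * v j * M z i j := fun z => by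
    simp only [dotProduct, mulVec, Finset.mul_sum]
    exact Finset.sum_congr rfl fun i _ => Finset.sum_congr rfl fun j _ => by ring
  have e2 : ∀ z, ∑ i, ∑ j, v i * v j * (w z j * z i) = (z ⬝ᵥ v) * (w z ⬝ᵥ v) := fun z => by
    simp only [dotProduct, Finset.sum_mul_sum]
    exact Finset.sum_congr rfl fun i _ => Finset.sum_congr rfl fun j _ => by ring
  have e3 : ∫ z, v ⬝ᵥ M z *ᵥ v ∂γ ι = ∫ z, ∑ i, ∑ j, v i * v j * (w z j * z i) ∂γ ι := by
    simp only [e1]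
    rw [integral_finsetSum _ fun i _ => integrable_finsetSum _ fun j _ => (hM i j).const_mul _,
      integral_finsetSum _ fun i _ => integrable_finsetSum _ fun j _ => i1 i j]
    refine Finset.sum_congr rfl fun i _ => ?_
    rw [integral_finsetSum _ fun j _ => (hM i j).const_mul _, integral_finsetSum _ fun j _ => i1 i j]
    simp only [integral_const_mul, h]
  rw [e3, ← int_dot_self, ← integral_add i0 hu, ← integral_const_mul]
  refine integral_mono (integrable_finsetSum _ fun i _ => integrable_finsetSum _ fun j _ => i1 i j)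
    ((i0.add hu).const_mul _) fun z => ?_
  simp only [e2, e]
  rw [mul_left_comm]
  refine mul_le_mul_of_nonneg_left ?_ hκ
  nlinarith [pos2b_cs hv z, pos2b_cs hv (u z), sq_nonneg (z ⬝ᵥ v - u z ⬝ᵥ v), sq_nonneg (z ⬝ᵥ v),
    sq_nonneg (u z ⬝ᵥ v)]

/-- `weak_coord` gives `E ⟨v, H⁻¹ v⟩ = E ⟨GA (T z), v⟩ ⟨z, v⟩` with `⟨GA x, v⟩ = s⁻¹ ⟨G (A⁻¹ x), v⟩`;
`WG.int_mul_coord` gives `E ⟨v, H v⟩ = E ⟨T z, v⟩ ⟨z, v⟩` with `⟨T z, v⟩ = s ⟨A⁻¹ T z, v⟩`; `A⁻¹ T` has the law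
`muV V`; Cauchy-Schwarz, or `2 x y ≤ x² + y²`. -/
theorem eig_moment (hV : Reg α β V G) : ∃ C : ℝ, 0 < C ∧ ∀ (a b c d : ℝ) (A : Matrix ι ι ℝ)
    (T : (ι → ℝ) → ι → ℝ) (v : ι → ℝ) (s : ℝ), 0 < c → c ≤ d → Sp c d A → Br a b (VA A V) T →
      v ⬝ᵥ v = 1 → 0 < s → A *ᵥ v = s • v →
        ∫ z, v ⬝ᵥ (jac a T z)⁻¹ *ᵥ v ∂γ ι ≤ C / s ∧ ∫ z, v ⬝ᵥ jac a T z *ᵥ v ∂γ ι ≤ C * s := by
  have hb : 0 < β := hV.pos.trans_le hV.le
  have hG := hV.sc.continuous_grad hV.pos.le hb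
  obtain ⟨K, K0, hK⟩ := SC_growth (ι := ι) β (max |V 0| ‖G 0‖) hb
  have i1 : Integrable (fun x => G x ⬝ᵥ G x) (muV V) := by
    refine hV.integrable (Continuous.aestronglyMeasurable (by fun_prop)) (C := dim ι * K ^ 2) (k := 2) fun x => ?_
    have h1 : ‖G x‖ ≤ K * (1 + ‖x‖) := (pi_norm_le_iff_of_nonneg (by positivity)).2
      (hK α V G hV.sc hV.pos.le (le_max_left _ _)
        (fun i => (norm_le_pi_norm (G 0) i).trans (le_max_right _ _)) x).2
    rw [abs_of_nonneg (Proj1_dot_self_nonneg _), mul_assoc, ← mul_pow]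
    exact (Proj2_dot_le _).trans (by gcongr)
  have i2 : Integrable (fun x : ι → ℝ => x ⬝ᵥ x) (muV V) := by
    refine hV.integrable (Continuous.aestronglyMeasurable (by fun_prop)) (C := dim ι) (k := 2) fun x => ?_
    rw [abs_of_nonneg (Proj1_dot_self_nonneg _)]
    exact (Proj2_dot_le _).trans (by gcongr; linarith)
  have p1 : 0 ≤ ∫ x, G x ⬝ᵥ G x ∂muV V := integral_nonneg fun x => Proj1_dot_self_nonneg _
  have p2 : 0 ≤ ∫ x, x ⬝ᵥ x ∂muV V := integral_nonneg fun x => Proj1_dot_self_nonneg _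
  refine ⟨dim ι + (∫ x, G x ⬝ᵥ G x ∂muV V) + (∫ x, x ⬝ᵥ x ∂muV V) + 1, by positivity,
    fun a b c d A T v s hc hcd hA hT hv hs hAv => ?_⟩
  have hU : IsUnit A.det := (hA.det_pos hc).ne'.isUnit
  have mA : ∀ B : Matrix ι ι ℝ, Measurable fun x : ι → ℝ => B *ᵥ x := fun B =>
    (continuous_const.matrix_mulVec continuous_id).measurable
  have mp : MeasurePreserving (fun z => A⁻¹ *ᵥ T z) (γ ι) (muV V) := by
    refine ⟨(mA _).comp hT.measurable, ?_⟩
    rw [show (fun z => A⁻¹ *ᵥ T z) = (fun x => A⁻¹ *ᵥ x) ∘ T from rfl, ← Measure.map_map (mA _) hT.measurable,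
      hT.push, muV_VA hU hV.sc.continuous, Measure.map_map (mA _) (mA _)]
    simp only [Function.comp_def, mulVec_mulVec, nonsing_inv_mul A hU, one_mulVec, Measure.map_id']
  have tr : ∀ f : (ι → ℝ) → ℝ, Integrable f (muV V) → ∫ z, f (A⁻¹ *ᵥ T z) ∂γ ι = ∫ x, f x ∂muV V := fun f hf => by
    rw [← mp.map_eq] at hf ⊢
    exact (integral_map mp.measurable.aemeasurable hf.1).symm
  have hi : A⁻¹ *ᵥ v = s⁻¹ • v := by
    rw [eq_inv_smul_iff₀ hs.ne', ← mulVec_smul, ← hAv, mulVec_mulVec, nonsing_inv_mul A hU, one_mulVec]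
  constructor
  · have := pos2b_gen (M := fun z => (jac a T z)⁻¹) (u := fun z => G (A⁻¹ *ᵥ T z)) (κ := s⁻¹)
      (fun i j => Integrable.of_bound (measurable_inv_jac hT i j).aestronglyMeasurable a⁻¹
        (Eventually.of_forall fun z => (hT.abs_le z i j).2))
      (L2_GT hT (hV.va hc hcd hA)) (weak_coord hT (hV.va hc hcd hA)) (inv_pos.2 hs).le
      (mp.integrable_comp_of_integrable i1)
      (fun z => by rw [GA, mulVec_transpose, ← dotProduct_mulVec, hi, dotProduct_smul, smul_eq_mul]) hv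
    rw [tr _ i1] at this
    rw [div_eq_inv_mul]
    exact this.trans (mul_le_mul_of_nonneg_left (by linarith) (inv_pos.2 hs).le)
  · have := pos2b_gen (M := jac a T) (u := fun z => A⁻¹ *ᵥ T z) (κ := s)
      (fun i j => ((hT.wg i).g2 j).int) (fun i => (hT.wg i).u2)
      (fun i j => by rw [(hT.wg j).int_mul_coord]; simp only [(hT.Sp _).1.apply i j]) hs.le
      (mp.integrable_comp_of_integrable i2)
      (fun z => by
        rw [← smul_eq_mul, ← dotProduct_smul, ← hAv, dot_symm hA.1, mulVec_mulVec, mul_nonsing_inv A hU,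
          one_mulVec]) hv
    rw [tr _ i2] at this
    rw [mul_comm]
    exact this.trans (mul_le_mul_of_nonneg_left (by linarith) hs.le)

/-- `A(Y) = fm exp Y ∈ Sp e^(-R) e^R` on the ball (`Sp_of_hs`, `Sp.fm`); `Reg.va` and `exists_Br` give `T_Y` (choice) with
constants `a, b` that only depend on `R`; `Λ Y = EL a T_Y` is continuous (`EL_stable`, `continuousOn_fm`).  If
`hs Y = R²` some eigenvalue `y` has `m y² ≥ R²`; for its eigenvector `⟨v, Λ v⟩` has the sign of `y`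
(`EL_quad`, `eig_moment`) if `R` is large. -/
theorem exists_pos (hV : Reg α β V G) : ∃ (A : Matrix ι ι ℝ) (a b α' β' : ℝ) (T : (ι → ℝ) → ι → ℝ),
    IsUnit A.det ∧ Reg α' β' (VA A V) (GA A G) ∧ Br a b (VA A V) T ∧ EL a T = 0 := by
  obtain ⟨C₁, hC₁, h₁⟩ := EL_quad (ι := ι)
  obtain ⟨C₂, hC₂, h₂⟩ := eig_moment hV
  have hM : 0 < C₁ * C₂ := mul_pos hC₁ hC₂
  set ρ : ℝ := |Real.log (C₁ * C₂)| + 1 with hρ
  have hρ0 : 0 < ρ := by positivity
  set R : ℝ := (dim ι + 1) * ρ with hRd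
  have hR : 0 < R := by positivity
  have hc : 0 < Real.exp (-R) := Real.exp_pos _
  have hcd : Real.exp (-R) ≤ Real.exp R := Real.exp_le_exp.2 (by linarith)
  have hS : ∀ Y : Matrix ι ι ℝ, Y.IsSymm → hs Y ≤ R ^ 2 → Sp (Real.exp (-R)) (Real.exp R) (fm Real.exp Y) :=
    fun Y h1 h2 => (Sp_of_hs h1 hR.le h2).fm fun x hx hx' => ⟨Real.exp_le_exp.2 hx, Real.exp_le_exp.2 hx'⟩
  have hex : ∀ Y : Matrix ι ι ℝ, ∃ T, Y.IsSymm → hs Y ≤ R ^ 2 →
      Br (aa (β / Real.exp (-R) ^ 2)) (bb (α / Real.exp R ^ 2)) (VA (fm Real.exp Y) V) T := fun Y => by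
    by_cases h : Y.IsSymm ∧ hs Y ≤ R ^ 2
    · obtain ⟨T, hT⟩ := exists_Br (hV.va hc hcd (hS Y h.1 h.2))
      exact ⟨T, fun _ _ => hT⟩
    · exact ⟨0, fun h1 h2 => absurd ⟨h1, h2⟩ h⟩
  choose TY hTY using hex
  obtain ⟨Y, hY1, hY2, hY3⟩ := brouwer_sym (Λ := fun Y => EL (aa (β / Real.exp (-R) ^ 2)) (TY Y)) hR
    (by
      refine continuousOn_pi.2 fun i => continuousOn_pi.2 fun j => fun Y hY => ?_
      refine Metric.tendsto_nhds.2 fun ε hε => ?_
      obtain ⟨δ, hδ, hst⟩ := EL_stable hV hc hcd (hTY Y hY.1 hY.2).pos (bb (α / Real.exp R ^ 2)) (half_pos hε)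
      have h1 : ContinuousWithinAt (fun Y' => hs (fm Real.exp Y' - fm Real.exp Y))
          {Y | Y.IsSymm ∧ hs Y ≤ R ^ 2} Y :=
        Mat2_continuous_hs.continuousAt.comp_continuousWithinAt
          ((((continuousOn_fm Real.continuous_exp).mono fun _ h => h.1) Y hY).sub continuousWithinAt_const)
      have h2 : hs (fm Real.exp Y - fm Real.exp Y) < δ := by simpa [hs] using hδ
      filter_upwards [h1.eventually (gt_mem_nhds h2), self_mem_nhdsWithin] with Y' h3 hY'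
      exact (hst _ _ _ _ (hS Y' hY'.1 hY'.2) (hS Y hY.1 hY.2) (hTY Y' hY'.1 hY'.2) (hTY Y hY.1 hY.2)
        h3.le i j).trans_lt (half_lt_self hε))
    (fun Y _ _ => EL_symm _ _)
    (by
      intro Y hY1 hY2 s hs0 he
      obtain ⟨O, y, hO, rfl⟩ := exists_Dg hY1
      have hi : ∃ i, ρ ^ 2 < y i ^ 2 := by
        by_contra hcon
        push Not at hcon
        have h1 : ∑ i, y i ^ 2 ≤ ∑ _i : ι, ρ ^ 2 := Finset.sum_le_sum fun i _ => hcon i
        rw [← hs_Dg hO, hY2, Finset.sum_const, nsmul_eq_mul, Finset.card_univ, hRd] at h1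
        have h2 : (0 : ℝ) ≤ Fintype.card ι := Nat.cast_nonneg _
        have h3 : 0 < ρ ^ 2 := by positivity
        nlinarith [mul_nonneg (mul_nonneg h2 h2) h3.le, mul_nonneg h2 h3.le]
      obtain ⟨i, hi⟩ := hi
      have hv : (fun a => O a i) ⬝ᵥ (fun a => O a i) = 1 := by rw [hO.col_dot, one_apply_eq]
      have hB := hTY _ hY1 hY2.le
      obtain ⟨k1, k2⟩ := h₁ _ _ _ _ hB fun a => O a i
      obtain ⟨k3, k4⟩ := h₂ _ _ _ _ _ _ (fun a => O a i) (Real.exp (y i)) hc hcd (hS _ hY1 hY2.le) hB hv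
        (Real.exp_pos _) (by rw [fm_Dg _ hO, Dg_mulVec_col hO])
      rw [he, hv, smul_mulVec, Dg_mulVec_col hO, dotProduct_smul, dotProduct_smul, hv] at k1 k2
      simp only [smul_eq_mul, mul_one] at k1 k2
      have k5 := mul_le_mul_of_nonneg_left k3 hC₁.le
      have k6 := mul_le_mul_of_nonneg_left k4 hC₁.le
      have hl := abs_le.1 (le_refl |Real.log (C₁ * C₂)|)
      rcases lt_abs.1 ((abs_of_pos hρ0).symm.trans_lt (sq_lt_sq.1 hi)) with h | h
      · have k7 : C₁ * C₂ < Real.exp (y i) := by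
          rw [← Real.log_lt_iff_lt_exp hM]
          linarith [hl.2]
        have k8 : C₁ * (C₂ / Real.exp (y i)) < 1 := by
          rw [← mul_div_assoc, div_lt_one (Real.exp_pos _)]
          exact k7
        nlinarith [mul_nonneg hs0 (hρ0.trans h).le]
      · have k7 : C₁ * C₂ < Real.exp (-y i) := by
          rw [← Real.log_lt_iff_lt_exp hM]
          linarith [hl.2]
        have k8 : C₁ * (C₂ * Real.exp (y i)) < 1 := by
          rw [Real.exp_neg, ← one_div, lt_div_iff₀ (Real.exp_pos _)] at k7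
          linarith
        nlinarith [mul_nonneg hs0 (hρ0.trans h).le])
  exact ⟨_, _, _, _, _, _, ((hS Y hY1 hY2).det_pos hc).ne'.isUnit, hV.va hc hcd (hS Y hY1 hY2),
    hTY Y hY1 hY2, hY3⟩

end Crest.Agent.R253
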