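/-
Row 253 (S0390, S0391), file Main.  The entropy inequality.
Definitions: R253/Fun.lean, R253/Defs.lean.  Outline: R253/Blueprint.lean.  Keep the statements unchanged.
-/
import Crest.Agent.R253.Eq1
import Crest.Agent.R253.Con2
import Crest.Agent.R253.Pos2
import Crest.Agent.R253.NumMain

set_option autoImplicit false

namespace Crest.Agent.R253

open MeasureTheory ProbabilityTheory Matrix Filter Topology Crest.Agent.R203N

open Crest.GeometryTopology.Isotropic

variable {m : ℕ} {f : (Fin m → ℝ) → ℝ}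

theorem Reg.mom {α β : ℝ} {V : (Fin m → ℝ) → ℝ} {G : (Fin m → ℝ) → Fin m → ℝ} (hV : Reg α β V G) :
    Mom fun x => Real.exp (-V x) := by
  refine ⟨(hV.sc.continuous.neg.rexp).measurable, fun x => (Real.exp_pos _).le, hV.one, ?_⟩
  have := hV.sc.integrable hV.pos 0 (f := fun x => (1 + ‖x‖) ^ 2) (C := 1) (k := 2)
    (by fun_prop) (fun x => by rw [abs_of_nonneg (by positivity), one_mul])
  simpa using this

/-- `exists_pos`, `exists_Fld`, `muV_VA` (`muV V = dm _` by `rfl`), `cov_of_law`, `Br.entropy`, `Sp.log_det`;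
`fm lh (fm ell H) = fm log H`. -/
theorem reg_main {α β : ℝ} {V : (Fin m → ℝ) → ℝ} {G : (Fin m → ℝ) → Fin m → ℝ} (hV : Reg α β V G) :
    ∃ (A : Matrix (Fin m) (Fin m) ℝ) (F : Fld (Fin m)), F.Cen ∧
      Measure.map F.T (γ (Fin m)) = Measure.map (fun x => A *ᵥ x) (dm fun x => Real.exp (-V x)) ∧
      F.gap = 2 * (diffEntropy (fun x => Real.exp (-V x)) - m)
        - Real.log (densCov fun x => Real.exp (-V x)).det := by
  obtain ⟨A, a, b, α', β', T, hA, hR, hB, hE⟩ := exists_pos hV
  obtain ⟨F, hT, hL⟩ := exists_Fld hB hR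
  have hl : Measure.map F.T (γ (Fin m)) =
      Measure.map (fun x => A *ᵥ x) (dm fun x => Real.exp (-V x)) := by
    rw [hT, hB.push, muV_VA hA hV.sc.continuous]; rfl
  refine ⟨A, F, fun i j => ?_, hl, ?_⟩
  · have := congrFun (congrFun hE i) j
    simpa [EL, hL] using this
  have hcov : F.cov = A * densCov (fun x => Real.exp (-V x)) * Aᵀ :=
    (cov_of_law hV.mom (measurable_pi_lambda _ F.mT) hl).2.2
  have hlog : ∀ z, (fm lh (F.L z)).trace = Real.log (jac a T z).det := fun z => by
    have hs := hB.Sp z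
    rw [hL, fm_fm _ _ hs.1, hs.log_det hB.pos]
    congr 1
    exact hs.fm_congr fun x hx _ => by rw [lh, haz_ell (hB.pos.trans_le hx)]
  have hA0 : A.det ≠ 0 := hA.ne_zero
  have hent : ∫ x, VA A V x * Real.exp (-VA A V x) =
      diffEntropy (fun x => Real.exp (-V x)) + Real.log |A.det| := by
    have cV := hV.sc.continuous
    have cA : Continuous fun x : Fin m → ℝ => A *ᵥ x := by fun_prop
    have := hV.prob
    obtain ⟨C, -, hC⟩ := SC_growth (ι := Fin m) β (max |V 0| ‖G 0‖) (hV.pos.trans_le hV.le)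
    have hg := hC α V G hV.sc hV.pos.le (le_max_left _ _)
      (fun i => (norm_le_pi_norm (G 0) i).trans (le_max_right _ _))
    have iV : Integrable V (muV V) := hV.integrable cV.aestronglyMeasurable fun x => (hg x).1
    rw [← int_muV hR.sc.continuous, muV_VA hA cV,
      integral_map cA.measurable.aemeasurable hR.sc.continuous.aestronglyMeasurable]
    have e : ∀ x, VA A V (A *ᵥ x) = V x + Real.log |A.det| := fun x => by
      rw [VA, mulVec_mulVec, nonsing_inv_mul _ hA, one_mulVec]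
    simp only [e]
    rw [integral_add iV (integrable_const _), integral_const, int_muV cV]
    simp [diffEntropy, Real.log_exp, integral_neg, mul_comm]
  have hent' := hB.entropy hR
  have hpos := hV.mom.det_pos
  have hdet : Real.log F.cov.det =
      2 * Real.log |A.det| + Real.log (densCov fun x => Real.exp (-V x)).det := by
    rw [hcov, det_mul, det_mul, det_transpose, Real.log_mul (mul_ne_zero hA0 hpos.ne') hA0,
      Real.log_mul hA0 hpos.ne', Real.log_abs]
    ring
  have hdim : dim (Fin m) = m := by simp [dim]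
  rw [Fld.gap, hdet]
  simp only [hlog]
  rw [hent, hdim] at hent'
  rw [hdim]
  linarith

/-- `cov_of_law`, `covT_tendsto`, `covT_Tt`, `Apx.cov`, `exists_lim_matrix` give `A_n → A` along a subsequence.
For `φ` bounded Lipschitz, `∫ φ (cen T_n) dγ = ∫ φ (A_n (x - mean g_n)) g_n` converges to
`∫ φ (cen (Tt O)) dγ` and to `∫ φ (A (x - mean f)) f` (`Apx.tendsto`); `ext_of_lip`. -/
theorem limit_law {g : ℕ → (Fin m → ℝ) → ℝ} (hf : Mom f) (hg : ∀ n, Mom (g n)) (ha : Apx g f)
    {A : ℕ → Matrix (Fin m) (Fin m) ℝ} {T : ℕ → (Fin m → ℝ) → Fin m → ℝ} (mT : ∀ n, Measurable (T n))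
    (hl : ∀ n, Measure.map (T n) (γ (Fin m)) = Measure.map (fun x => A n *ᵥ x) (dm (g n)))
    {O : Matrix (Fin m) (Fin m) ℝ} (hO : Orth O) (hT : Tendsto (fun n =>
      ∫ z, (cen (T n) z - cen (Tt O) z) ⬝ᵥ (cen (T n) z - cen (Tt O) z) ∂γ (Fin m)) atTop (𝓝 0)) :
    ∃ A' : Matrix (Fin m) (Fin m) ℝ, IsUnit A'.det ∧
      Measure.map (fun x => A' *ᵥ (x - densMean f)) (dm f) =
        Measure.map (cen (Tt O)) (γ (Fin m)) := by
  have hc := fun n => cov_of_law (hg n) (mT n) (hl n)
  obtain ⟨hS, hS1⟩ := covT_Tt hO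
  have h1 := covT_tendsto (fun n => (hc n).1) hS hT
  rw [hS1] at h1
  simp only [fun n => (hc n).2.2] at h1
  obtain ⟨φ, A', hφ, hA', hlim⟩ :=
    exists_lim_matrix (densCov_symm f) (fun v hv => hf.cov_pos hv) ha.cov h1
  refine ⟨A', hA', ?_⟩
  have := hf.prob
  have mS : Measurable (cen (Tt O)) := measurable_pi_lambda _ fun i =>
    ((measurable_pi_apply i).comp (measurable_Tt O)).sub_const _
  have cA : ∀ (B : Matrix (Fin m) (Fin m) ℝ) (c : Fin m → ℝ),
      Continuous fun x : Fin m → ℝ => B *ᵥ (x - c) := fun B c => by fun_prop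
  refine ext_of_lip fun ψ K hψ hb => ?_
  have cψ := hψ.continuous
  rw [integral_map (cA _ _).measurable.aemeasurable cψ.aestronglyMeasurable,
    integral_map mS.aemeasurable cψ.aestronglyMeasurable, int_dm hf.meas hf.nonneg]
  have t1 : Tendsto (fun n => ∫ x, ψ (A (φ n) *ᵥ (x - densMean (g (φ n)))) * g (φ n) x) atTop
      (𝓝 (∫ x, ψ (A' *ᵥ (x - densMean f)) * f x)) := by
    refine (ha.subseq hφ).tendsto (C := 1) (k := 0)
      (fun n => (cψ.comp (cA _ _)).measurable) (fun n x => by simpa using hb _) fun x => ?_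
    refine (cψ.tendsto _).comp ?_
    have hm := (ha.subseq hφ).mean
    have c2 : Continuous fun p : Matrix (Fin m) (Fin m) ℝ × (Fin m → ℝ) => p.1 *ᵥ (x - p.2) := by
      fun_prop
    exact (c2.tendsto (A', densMean f)).comp (hlim.prodMk_nhds hm)
  have mC : ∀ n, Measurable (cen (T n)) := fun n => measurable_pi_lambda _ fun i =>
    ((measurable_pi_apply i).comp (mT n)).sub_const _
  have e1 : ∀ n, ∫ x, ψ (A n *ᵥ (x - densMean (g n))) * g n x = ∫ z, ψ (cen (T n) z) ∂γ (Fin m) := by
    intro n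
    have c3 : Continuous fun y : Fin m → ℝ => ψ (y - A n *ᵥ densMean (g n)) := by fun_prop
    have cB : Continuous fun x : Fin m → ℝ => A n *ᵥ x := by fun_prop
    have e := integral_map (μ := γ (Fin m)) (mT n).aemeasurable c3.aestronglyMeasurable
    rw [hl n, integral_map cB.measurable.aemeasurable c3.aestronglyMeasurable,
      int_dm (hg n).meas (hg n).nonneg] at e
    simp only [mulVec_sub]
    rw [e]
    refine integral_congr_ae (Eventually.of_forall fun z => ?_)
    have : cen (T n) z = T n z - A n *ᵥ densMean (g n) := funext fun i => by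
      simp [cen, (hc n).2.1 i]
    simp only [this]
  have t2 : Tendsto (fun n => ∫ z, ψ (cen (T n) z) ∂γ (Fin m)) atTop
      (𝓝 (∫ z, ψ (cen (Tt O) z) ∂γ (Fin m))) := by
    have iψ : ∀ {S : (Fin m → ℝ) → Fin m → ℝ}, Measurable S →
        Integrable (fun z => ψ (S z)) (γ (Fin m)) := fun hm =>
      Integrable.of_bound (cψ.measurable.comp hm).aestronglyMeasurable 1
        (Eventually.of_forall fun z => hb _)
    have LC : ∀ {S : (Fin m → ℝ) → Fin m → ℝ}, LV S → LV (cen S) := fun h i =>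
      (h i).sub (memLp_const _)
    rw [Metric.tendsto_nhds]
    intro ε hε
    have hK : 0 < (K : ℝ) + 1 := by positivity
    have hr : 0 < ε / (2 * (K + 1)) := by positivity
    have ev := (Metric.tendsto_nhds.1 hT) ((ε / (2 * (K + 1))) ^ 2) (by positivity)
    filter_upwards [ev] with n hn
    set r := ε / (2 * (K + 1)) with hr'
    have iD := ((LC (hc n).1).sub (LC hS)).int_dot ((LC (hc n).1).sub (LC hS))
    rw [Real.dist_eq, sub_zero] at hn
    have hn' := (le_abs_self _).trans_lt hn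
    rw [Real.dist_eq, ← integral_sub (iψ (mC n)) (iψ mS)]
    have pt : ∀ z, ‖ψ (cen (T n) z) - ψ (cen (Tt O) z)‖ ≤ (K + 1) * (r / 2 + (2 * r)⁻¹ *
        ((cen (T n) z - cen (Tt O) z) ⬝ᵥ (cen (T n) z - cen (Tt O) z))) := fun z => by
      have h1 := hψ.dist_le_mul (cen (T n) z) (cen (Tt O) z)
      rw [dist_eq_norm, dist_eq_norm] at h1
      set w := cen (T n) z - cen (Tt O) z
      have h2 : ‖w‖ ≤ r / 2 + (2 * r)⁻¹ * (w ⬝ᵥ w) := by
        have h0 : 0 ≤ w ⬝ᵥ w := Finset.sum_nonneg fun i _ => mul_self_nonneg _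
        refine (pi_norm_le_iff_of_nonneg (by positivity)).2 fun i => ?_
        have h3 : w i * w i ≤ w ⬝ᵥ w :=
          Finset.single_le_sum (f := fun i => w i * w i) (fun i _ => mul_self_nonneg _)
            (Finset.mem_univ i)
        rw [Real.norm_eq_abs]
        have h4 : |w i| = (2 * r)⁻¹ * (2 * r * |w i|) := by field_simp
        have h5 : r / 2 = (2 * r)⁻¹ * (r * r) := by field_simp
        rw [h4, h5, ← mul_add]
        refine mul_le_mul_of_nonneg_left ?_ (by positivity)
        nlinarith [sq_nonneg (|w i| - r), abs_mul_abs_self (w i)]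
      have h6 : (K : ℝ) * ‖w‖ ≤ (K + 1) * ‖w‖ := by nlinarith [norm_nonneg w]
      exact h1.trans (h6.trans (mul_le_mul_of_nonneg_left h2 hK.le))
    have iB := ((integrable_const (r / 2)).add (iD.const_mul (2 * r)⁻¹)).const_mul ((K : ℝ) + 1)
    have h7 := norm_integral_le_of_norm_le iB (Eventually.of_forall pt)
    simp only [Pi.add_apply] at h7
    rw [integral_const_mul, integral_add (integrable_const _) (iD.const_mul _), integral_const,
      integral_const_mul, Real.norm_eq_abs] at h7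
    simp only [probReal_univ, smul_eq_mul, one_mul] at h7
    have h8 : (2 * r)⁻¹ * ∫ z, (cen (T n) z - cen (Tt O) z) ⬝ᵥ (cen (T n) z - cen (Tt O) z) ∂γ (Fin m)
        ≤ r / 2 := by
      have : r / 2 = (2 * r)⁻¹ * r ^ 2 := by field_simp
      rw [this]
      exact mul_le_mul_of_nonneg_left hn'.le (by positivity)
    have h9 : ((K : ℝ) + 1) * r = ε / 2 := by rw [hr']; field_simp
    nlinarith
  simp only [e1] at t1
  exact tendsto_nhds_unique t1 (t2.comp hφ.tendsto_atTop)

/-- Apply `y ↦ A⁻¹ y + mean f`; `map_Tt`, `dm_ex`; `M = A⁻¹ O`; `withDensity_eq_iff_of_sigmaFinite`. -/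
theorem ex_of_law (hf : Mom f) {A O : Matrix (Fin m) (Fin m) ℝ} (hA : IsUnit A.det) (hO : Orth O)
    (h : Measure.map (fun x => A *ᵥ (x - densMean f)) (dm f) = Measure.map (cen (Tt O)) (γ (Fin m))) :
    ∃ (M : Matrix (Fin m) (Fin m) ℝ) (b : Fin m → ℝ), M.det ≠ 0 ∧ f =ᵐ[volume] ex M b := by
  set μ : Fin m → ℝ := fun i => ∫ y, Tt O y i ∂γ (Fin m) with hμ
  have hO0 : O.det ≠ 0 := hO.isUnit_det.ne_zero
  have hM : (A⁻¹ * O).det ≠ 0 := by
    rw [det_mul]
    exact mul_ne_zero (isUnit_nonsing_inv_det A hA).ne_zero hO0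
  refine ⟨A⁻¹ * O, densMean f - A⁻¹ *ᵥ μ, hM, ?_⟩
  have c1 : Continuous fun y : Fin m → ℝ => A⁻¹ *ᵥ y + densMean f := by fun_prop
  have c2 : Continuous fun x : Fin m → ℝ => A *ᵥ (x - densMean f) := by fun_prop
  have c3 : Continuous fun y : Fin m → ℝ => y - μ := by fun_prop
  have c4 : Continuous fun u : Fin m → ℝ => O *ᵥ u + 0 := by fun_prop
  have e0 : cen (Tt O) = (fun y => y - μ) ∘ Tt O := rfl
  have h2 := congrArg (Measure.map fun y : Fin m → ℝ => A⁻¹ *ᵥ y + densMean f) h
  rw [e0, ← Measure.map_map c3.measurable (measurable_Tt O), map_Tt hO, dm_ex hO0,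
    Measure.map_map c1.measurable c2.measurable, Measure.map_map c3.measurable c4.measurable,
    Measure.map_map c1.measurable (c3.measurable.comp c4.measurable)] at h2
  have e1 : ((fun y : Fin m → ℝ => A⁻¹ *ᵥ y + densMean f) ∘ fun x => A *ᵥ (x - densMean f)) = id := by
    funext x
    simp [mulVec_mulVec, nonsing_inv_mul _ hA]
  have e2 : ((fun y : Fin m → ℝ => A⁻¹ *ᵥ y + densMean f) ∘ (fun y => y - μ) ∘ fun u => O *ᵥ u + 0) =
      fun u => (A⁻¹ * O) *ᵥ u + (densMean f - A⁻¹ *ᵥ μ) := by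
    funext u
    simp only [Function.comp, add_zero, mulVec_sub, mulVec_mulVec]
    abel
  rw [e1, e2, Measure.map_id, ← dm_ex hM] at h2
  have h3 := (withDensity_eq_iff_of_sigmaFinite hf.meas.ennreal_ofReal.aemeasurable
    (measurable_ex _ _).ennreal_ofReal.aemeasurable).1 h2
  filter_upwards [h3] with x hx
  exact (ENNReal.ofReal_eq_ofReal_iff (hf.nonneg x) (ex_nonneg _ _ x)).1 hx

/-- `LC.approx`, `reg_main`, `Fld.core num`, `defect_parts`, `Apx.entropy`, `Apx.cov`, `limit_frame`,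
`limit_law`, `ex_of_law`, `eq_of_ex`. -/
theorem LC.main (h : LC f) : (m : ℝ) + Real.log (densCov f).det / 2 ≤ diffEntropy f ∧
    (diffEntropy f = (m : ℝ) + Real.log (densCov f).det / 2 ↔
      ∃ (M : Matrix (Fin m) (Fin m) ℝ) (b : Fin m → ℝ), M.det ≠ 0 ∧ f =ᵐ[volume] ex M b) := by
  obtain ⟨V, G, α, β, hR, hA⟩ := h.approx
  choose A F h0 hl hg using fun n => reg_main (hR n)
  have hdet : Tendsto (fun n => (densCov fun x => Real.exp (-V n x)).det) atTop
      (𝓝 (densCov f).det) :=
    ((continuous_id.matrix_det).tendsto (densCov f)).comp hA.cov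
  have hgap : Tendsto (fun n => (F n).gap) atTop
      (𝓝 (2 * (diffEntropy f - m) - Real.log (densCov f).det)) := by
    simp only [hg]
    exact ((hA.entropy.sub_const _).const_mul 2).sub (hdet.log h.mom.det_pos.ne')
  have hd0 : ∀ n, 0 ≤ (F n).defect := fun n => by
    obtain ⟨h1, h2, h3⟩ := (F n).defect_parts (h0 n)
    unfold Fld.defect
    positivity
  have hdg : ∀ n, (F n).defect ≤ (F n).gap := fun n => (F n).core num (h0 n)
  have hge : 0 ≤ 2 * (diffEntropy f - m) - Real.log (densCov f).det :=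
    ge_of_tendsto' hgap fun n => (hd0 n).trans (hdg n)
  refine ⟨by linarith, fun he => ?_, fun ⟨M, b, hM, hb⟩ => eq_of_ex hM hb⟩
  have hz : 2 * (diffEntropy f - m) - Real.log (densCov f).det = 0 := by linarith
  rw [hz] at hgap
  have hd : Tendsto (fun n => (F n).defect) atTop (𝓝 0) := squeeze_zero hd0 hdg hgap
  obtain ⟨φ, O, hφ, hO, hT⟩ := limit_frame h0 hd
  obtain ⟨A', hA', hlaw⟩ := limit_law h.mom (fun n => (hR (φ n)).mom) (hA.subseq hφ)
    (T := fun n => (F (φ n)).T) (fun n => measurable_pi_lambda _ (F (φ n)).mT)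
    (fun n => hl (φ n)) hO hT
  exact ex_of_law h.mom hA' hO hlaw

end Crest.Agent.R253
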