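/-
Row 253 (S0390, S0391).  Outline of the proof (owner helper40).

1. (Reg) A log-concave density `f` is approximated by densities `exp (-V)` with `α ≤ V'' ≤ β` (`Reg`).
2. (SC, LL, Sink, Bren) Entropic optimal transport gives a Brenier map `T = ∇Ψ` from the Gaussian measure to
   `exp (-V)` with `a ≤ DT ≤ b` (`Br`): Prékopa-Leindler and Cauchy-Schwarz keep the class `SC` invariant under the
   Sinkhorn map, a minimiser of the dual functional is a fixed point, and `ε → 0`.
3. (MA, Weak, DQ, Con) Monge-Ampère equation a.e.; second differences of it and convexity of `V` give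
   `H = DT ∈ W^{1,2}` and the constraint `E Kq ≤ E tr W` for `W = w(L)`, `H = λ(L)` (`Fld`).
4. (Pos) A linear image of the density has `E L = 0` (Brouwer).
5. (Ker1, Ker2, Core0-3, Scalar, Num) The core inequality `defect ≤ gap`, where
   `gap = 2 (h - m) - log det Cov`: a kernel inequality gives
   `gap ≥ β² + Sur + ∑_e (x_e - 1 - log A_e)` over an eigenbasis of `S = ∑ D_k²`, and every direction is handled by a
   one-variable certificate.
6. (Eq1, Eq2, Expo, Main) Limits; if the defect tends to `0` then `T` converges to a rotated product of exponential
   quantile maps.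
7. (Body) S0390 from S0391 applied to `exp (-t)` on the cone over `K`.
-/
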