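/-
Row 253, numerics, file NumCtr: enclosures of `τ(± l)` on `[0,7]` from the equation `τ' = 1 - μ τ`.
Definitions and statements FROZEN.

Recipe (templates: `stepP_sound`, `stepM_sound`, `upOK_sound`, `dnOK_sound`, `upOK_cover` in `R203N/NumRic.lean`).
`P l = pv tp (tc lo hi l)/2^96` has derivative `16/(hi-lo) · pv (pd tp) (tc lo hi l)/2^96` (`rica_deriv`).
`d = τ - P` satisfies `d' = -μ d + (1 - μ P - P')` with `μ > 0` (`hasDerivAt_tau`, `mu_pos`): `contract` forwards on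
`[lo/8, hi/8]`; `res` encloses `-(hi-lo)(1 - μ P - P')`.  On the negative side use `s ↦ τ s - P (-s)` on
`[-hi/8, -lo/8]`, where `μ(s) = haz s - s`, and `res` encloses `(hi-lo)(1 - μ P(-s) + P'(-s))`.  `rica_fin`.
-/
import Crest.Agent.R253.NumNeg

set_option autoImplicit false

namespace Crest.Agent.R253.Nm

open Crest.Agent.R203N Crest.Agent.R203N.Num TM

structure TD where
  tp : List ℤ
  e1 : ℕ
  tm : List ℤ
  e2 : ℕ

def TP (c : RC × TD) : Prop := ∀ l : ℝ, (c.1.lo : ℝ) / 8 ≤ l → l ≤ (c.1.hi : ℝ) / 8 →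
  |tau l * 2 ^ 96 - pv c.2.tp (tc c.1.lo c.1.hi l)| ≤ (c.2.e1 : ℝ)

def TN (c : RC × TD) : Prop := ∀ l : ℝ, (c.1.lo : ℝ) / 8 ≤ l → l ≤ (c.1.hi : ℝ) / 8 →
  |tau (-l) * 2 ^ 96 - pv c.2.tm (tc c.1.lo c.1.hi l)| ≤ (c.2.e2 : ℝ)

noncomputable def stepTP (c : RC × TD) (E : ℕ) : Bool :=
  let res := sub (sm 16 (poly (pd c.2.tp) 0)) (sm (Int.ofNat (Nat.sub c.1.hi c.1.lo))
    (sub one (mul 9 (poly c.2.tp 0) (sub (poly c.1.pp c.1.ep) (linL c.1.lo c.1.hi)))))
  decide (c.1.lo < c.1.hi) && res.ok && decide (E + res.nrm / 8 + 1 ≤ c.2.e1)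

noncomputable def stepTN (c : RC × TD) (E : ℕ) : Bool :=
  let res := add (sm 16 (poly (pd c.2.tm) 0)) (sm (Int.ofNat (Nat.sub c.1.hi c.1.lo))
    (sub one (mul 9 (poly c.2.tm 0) (add (poly c.1.pm c.1.em) (linL c.1.lo c.1.hi)))))
  decide (c.1.lo < c.1.hi) && res.ok && decide (E + res.nrm / 8 + 1 ≤ c.2.e2)

theorem stepTP_sound {c : RC × TD} {E : ℕ} (h : stepTP c E = true) (hc : c.1.GP)
    (hE : |tau ((c.1.lo : ℝ) / 8) * 2 ^ 96 - (palt c.2.tp : ℤ)| ≤ (E : ℝ)) : TP c := by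
  simp only [stepTP, Bool.and_eq_true, decide_eq_true_eq] at h
  obtain ⟨⟨hlt, hok⟩, he⟩ := h
  have hw : (0 : ℝ) < (c.1.hi : ℝ) - c.1.lo := sub_pos.2 (by exact_mod_cast hlt)
  have ew : ((Int.ofNat (Nat.sub c.1.hi c.1.lo) : ℤ) : ℝ) = (c.1.hi : ℝ) - c.1.lo := by
    rw [numVar_ofNat]
    exact Nat.cast_sub hlt.le
  obtain ⟨P, hPd⟩ : ∃ P : ℝ → ℝ, P = fun l => pv c.2.tp (tc c.1.lo c.1.hi l) / 2 ^ 96 := ⟨_, rfl⟩
  obtain ⟨P', hP'd⟩ : ∃ P' : ℝ → ℝ, P' = fun l =>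
    pv (pd c.2.tp) (tc c.1.lo c.1.hi l) * (16 / ((c.1.hi : ℝ) - c.1.lo)) / 2 ^ 96 := ⟨_, rfl⟩
  have hder : ∀ l, HasDerivAt P (P' l) l := fun l => by
    rw [hPd, hP'd]
    exact rica_deriv _ _ _ l
  have hin : ∀ l, In (tc c.1.lo c.1.hi l) (P l) (poly c.2.tp 0) := fun l => by
    rw [hPd]
    exact rica_in _ _
  intro l h1 h2
  have key := contract (d := fun s => tau s - P s) (κ := fun s => mu s)
    (r := fun s => -(P' s - (1 - P s * (haz s - s)))) (α := (c.1.lo : ℝ) / 8)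
    (β := (c.1.hi : ℝ) / 8) (ρ := _ / (((c.1.hi : ℝ) - c.1.lo) * 2 ^ 96)) (s := l)
    (fun s _ _ => by
      refine ((hasDerivAt_tau s).fun_sub (hder s)).congr_deriv ?_
      rw [tau1, mu]
      ring)
    (fun s _ _ => (mu_pos s).le)
    (fun s a b => by
      have ht := abs_tc_le hlt a b
      have := In.le_nrm ht (((rica_in (pd c.2.tp) _).sm 16).sub
        ((In.one.sub (In.mul ht 9 (hin s) ((In.poly (hc s a b)).sub (In.linL hlt s)))).sm _)) hok
      rw [ew] at this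
      rw [le_div_iff₀ (by positivity), abs_neg]
      refine le_of_eq_of_le ?_ this
      rw [← mul_assoc, ← abs_of_pos hw, ← abs_mul, abs_of_pos hw, hP'd]
      congr 2
      push_cast
      field_simp)
    h1 h2
  have := rica_fin hw (by linarith) (E := E) (by
    rw [hPd, sub_mul, div_mul_cancel₀ _ (by positivity), ricb_tc_lo hlt, rica_palt]
    exact hE) key he
  rwa [hPd, sub_mul, div_mul_cancel₀ _ (by positivity)] at this

theorem stepTN_sound {c : RC × TD} {E : ℕ} (h : stepTN c E = true) (hc : c.1.GM)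
    (hE : |tau (-((c.1.hi : ℝ) / 8)) * 2 ^ 96 - (psum c.2.tm : ℤ)| ≤ (E : ℝ)) : TN c := by
  simp only [stepTN, Bool.and_eq_true, decide_eq_true_eq] at h
  obtain ⟨⟨hlt, hok⟩, he⟩ := h
  have hw : (0 : ℝ) < (c.1.hi : ℝ) - c.1.lo := sub_pos.2 (by exact_mod_cast hlt)
  have ew : ((Int.ofNat (Nat.sub c.1.hi c.1.lo) : ℤ) : ℝ) = (c.1.hi : ℝ) - c.1.lo := by
    rw [numVar_ofNat]
    exact Nat.cast_sub hlt.le
  obtain ⟨P, hPd⟩ : ∃ P : ℝ → ℝ, P = fun l => pv c.2.tm (tc c.1.lo c.1.hi l) / 2 ^ 96 := ⟨_, rfl⟩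
  obtain ⟨P', hP'd⟩ : ∃ P' : ℝ → ℝ, P' = fun l =>
    pv (pd c.2.tm) (tc c.1.lo c.1.hi l) * (16 / ((c.1.hi : ℝ) - c.1.lo)) / 2 ^ 96 := ⟨_, rfl⟩
  have hder : ∀ l, HasDerivAt P (P' l) l := fun l => by
    rw [hPd, hP'd]
    exact rica_deriv _ _ _ l
  have hin : ∀ l, In (tc c.1.lo c.1.hi l) (P l) (poly c.2.tm 0) := fun l => by
    rw [hPd]
    exact rica_in _ _
  intro l h1 h2
  have key := contract (d := fun s => tau s - P (-s)) (κ := fun s => mu s)
    (r := fun s => P' (-s) + (1 - P (-s) * (haz (- -s) + -s))) (α := -((c.1.hi : ℝ) / 8))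
    (β := -((c.1.lo : ℝ) / 8)) (ρ := _ / (((c.1.hi : ℝ) - c.1.lo) * 2 ^ 96)) (s := -l)
    (fun s _ _ => by
      refine ((hasDerivAt_tau s).fun_sub ((hder (-s)).comp s (hasDerivAt_neg s))).congr_deriv ?_
      rw [tau1, mu, neg_neg]
      ring)
    (fun s _ _ => (mu_pos s).le)
    (fun s a b => by
      have a' : (c.1.lo : ℝ) / 8 ≤ -s := by linarith
      have b' : -s ≤ (c.1.hi : ℝ) / 8 := by linarith
      have ht := abs_tc_le hlt a' b'
      have := In.le_nrm ht (((rica_in (pd c.2.tm) _).sm 16).add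
        ((In.one.sub (In.mul ht 9 (hin (-s)) ((In.poly (hc (-s) a' b')).add (In.linL hlt (-s))))).sm _)) hok
      rw [ew] at this
      rw [le_div_iff₀ (by positivity)]
      refine le_of_eq_of_le ?_ this
      rw [← mul_assoc, ← abs_of_pos hw, ← abs_mul, abs_of_pos hw, hP'd]
      congr 2
      push_cast
      field_simp)
    (by linarith) (by linarith)
  simp only [neg_neg] at key
  have := rica_fin hw (by linarith) (E := E) (by
    rw [hPd, sub_mul, div_mul_cancel₀ _ (by positivity), ricb_tc_hi hlt, rica_psum]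
    exact hE) key he
  rwa [hPd, sub_mul, div_mul_cancel₀ _ (by positivity)] at this

theorem ctrb_ltP {c : RC × TD} {E : ℕ} (h : stepTP c E = true) : c.1.lo < c.1.hi := by
  simp only [stepTP, Bool.and_eq_true, decide_eq_true_eq] at h
  exact h.1.1

theorem ctrb_ltN {c : RC × TD} {E : ℕ} (h : stepTN c E = true) : c.1.lo < c.1.hi := by
  simp only [stepTN, Bool.and_eq_true, decide_eq_true_eq] at h
  exact h.1.1

noncomputable def tnOK : List (RC × TD) → Bool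
  | [] => false
  | [c] => (c.1.hi == 56) && t7.ok && stepTN c (sub t7 (cst (psum c.2.tm))).nrm
  | c :: d :: cs =>
      (c.1.hi == d.1.lo) && stepTN c (d.2.e2 + (psum c.2.tm - palt d.2.tm).natAbs) && tnOK (d :: cs)

/-- `val ± E` encloses `τ(lo/8) 2^96`. -/
noncomputable def tpOK : List (RC × TD) → ℕ → ℤ → ℕ → Bool
  | [], _, _, _ => true
  | c :: cs, lo, val, E =>
      (c.1.lo == lo) && stepTP c (E + (val - palt c.2.tp).natAbs) && tpOK cs c.1.hi (psum c.2.tp) c.2.e1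

theorem tnOK_sound {cs : List (RC × TD)} (h : tnOK cs = true) (hc : ∀ c ∈ cs, c.1.GM) :
    ∀ c ∈ cs, c.1.lo < c.1.hi ∧ TN c := by
  induction cs with
  | nil => simp [tnOK] at h
  | cons c cs ih =>
    cases cs with
    | nil =>
      simp only [tnOK, Bool.and_eq_true, beq_iff_eq] at h
      obtain ⟨⟨h1, h2⟩, h3⟩ := h
      intro d hd
      have hd' := hc d hd
      rw [List.mem_singleton] at hd
      subst hd
      refine ⟨ctrb_ltN h3, stepTN_sound h3 hd' ?_⟩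
      have h4 := In.le_nrm (t := 0) (by simp) (In.sub in_t7 (In.cst (psum d.2.tm)))
        (by show and t7.ok true = true; rw [h2]; rfl)
      refine le_trans (le_of_eq ?_) h4
      rw [h1, ← abs_of_pos (by positivity : (0 : ℝ) < 2 ^ 96), ← abs_mul,
        abs_of_pos (by positivity : (0 : ℝ) < 2 ^ 96)]
      congr 1
      norm_num
      ring
    | cons d cs =>
      simp only [tnOK, Bool.and_eq_true, beq_iff_eq] at h
      obtain ⟨⟨h1, h2⟩, h3⟩ := h
      have h4 := ih h3 fun e he => hc e (List.mem_cons_of_mem _ he)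
      intro e he
      rcases List.mem_cons.1 he with rfl | he
      · refine ⟨ctrb_ltN h2, stepTN_sound h2 (hc _ List.mem_cons_self) ?_⟩
        obtain ⟨h5, h6⟩ := h4 d List.mem_cons_self
        have h7 := h6 _ le_rfl (ricb_le h5)
        rw [ricb_tc_lo h5, ricb_palt] at h7
        rw [h1, ← Int.natAbs_neg, neg_sub]
        exact ricb_tri h7
      · exact h4 e he

theorem tpOK_sound {cs : List (RC × TD)} {lo : ℕ} {val : ℤ} {E : ℕ} (h : tpOK cs lo val E = true)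
    (hc : ∀ c ∈ cs, c.1.GP) (hE : |tau ((lo : ℝ) / 8) * 2 ^ 96 - (val : ℝ)| ≤ (E : ℝ)) :
    ∀ c ∈ cs, TP c := by
  induction cs generalizing lo val E with
  | nil => simp
  | cons c cs ih =>
    simp only [tpOK, Bool.and_eq_true, beq_iff_eq] at h
    obtain ⟨⟨h1, h2⟩, h3⟩ := h
    have h4 : TP c := stepTP_sound h2 (hc _ List.mem_cons_self) (by rw [h1]; exact ricb_tri hE)
    have h5 := ctrb_ltP h2
    have h6 := h4 _ (ricb_le h5) le_rfl
    rw [ricb_tc_hi h5, ricb_psum] at h6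
    intro e he
    rcases List.mem_cons.1 he with rfl | he
    · exact h4
    · exact ih h3 (fun e he => hc e (List.mem_cons_of_mem _ he)) h6 e he

theorem tnOK_cover {c : RC × TD} {cs : List (RC × TD)} (h : tnOK (c :: cs) = true) {l : ℝ}
    (h1 : (c.1.lo : ℝ) / 8 ≤ l) (h2 : l ≤ 7) :
    ∃ d ∈ c :: cs, (d.1.lo : ℝ) / 8 ≤ l ∧ l ≤ (d.1.hi : ℝ) / 8 := by
  induction cs generalizing c with
  | nil =>
    simp only [tnOK, Bool.and_eq_true, beq_iff_eq] at h
    refine ⟨c, List.mem_cons_self, h1, ?_⟩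
    rw [h.1.1]
    norm_num
    exact h2
  | cons d cs ih =>
    simp only [tnOK, Bool.and_eq_true, beq_iff_eq] at h
    rcases le_total l ((c.1.hi : ℝ) / 8) with h3 | h3
    · exact ⟨c, List.mem_cons_self, h1, h3⟩
    · rw [h.1.1] at h3
      obtain ⟨e, he, h4⟩ := ih h.2 h3
      exact ⟨e, List.mem_cons_of_mem _ he, h4⟩

noncomputable def cellOK (d : ℕ) (c : RC × TD) : Bool :=
  ctrOK d (linL c.1.lo c.1.hi) (poly c.1.pp c.1.ep) (poly c.2.tp c.2.e1) &&
    ctrOK d (sm (-1) (linL c.1.lo c.1.hi)) (poly c.1.pm c.1.em) (poly c.2.tm c.2.e2)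

/-- The whole check on `[-7, 7]`. -/
theorem ctr_sound {c : RC × TD} {cs : List (RC × TD)} (h0 : c.1.lo = 0)
    (hP : ∀ e ∈ c :: cs, e.1.GP) (hM : ∀ e ∈ c :: cs, e.1.GM) (hn : tnOK (c :: cs) = true)
    (hp : tpOK (c :: cs) 0 (palt c.2.tm) c.2.e2 = true) {d : ℕ}
    (hc : ∀ e ∈ c :: cs, cellOK d e = true) {l : ℝ} (h1 : 0 ≤ l) (h2 : l ≤ 7) :
    Good l ∧ Good (-l) := by
  have hN := tnOK_sound hn hM
  obtain ⟨h3, h4⟩ := hN c List.mem_cons_self
  have h5 := h4 _ le_rfl (ricb_le h3)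
  rw [ricb_tc_lo h3, ricb_palt, h0] at h5
  have hT := tpOK_sound hp hP (by simpa using h5)
  obtain ⟨e, he, a, b⟩ := tnOK_cover hn (l := l) (by rw [h0]; simpa using h1) h2
  have hlt := (hN e he).1
  have ht := abs_tc_le hlt a b
  have hk := hc e he
  rw [cellOK, Bool.and_eq_true] at hk
  exact ⟨ctrOK_sound ht (In.linL hlt l) (In.poly (hP e he l a b)) (In.poly (hT e he l a b)) hk.1,
    ctrOK_sound ht (((In.linL hlt l).sm (-1)).congr (by push_cast; ring)) (In.poly (hM e he l a b))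
      (In.poly ((hN e he).2 l a b)) hk.2⟩

end Crest.Agent.R253.Nm
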